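import Mathlib

/-!
# P244-ST : the conformal gauge system (interface definitions)

Base sphere `S^{p+1}` (height function `x ∈ [-1,1]`), fibre sphere `S^p`; the metric is
`e^{2ω} g_{S^{p+1}} + e^{2F} g_{S^p}`, with `ω, F` functions of `(t,x)`, even in `x`.
-/

open Set
open scoped ContDiff

namespace Vale.Agent.P244.ST

/-- `x`-derivative of a function on `[-1,1]`. -/
noncomputable def dx (h : ℝ → ℝ) (x : ℝ) : ℝ := derivWithin h (Icc (-1) 1) x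

/-- Laplacian of `S^{p+1}` on functions of the height `x`. -/
noncomputable def lap (p : ℕ) (h : ℝ → ℝ) (x : ℝ) : ℝ :=
  (1 - x ^ 2) * dx (dx h) x - ((p : ℝ) + 1) * x * dx h x

/-- The integrand of the nonlocal gauge term. -/
noncomputable def Jd (p : ℕ) (w f : ℝ → ℝ) (y : ℝ) : ℝ :=
  Real.exp (-2 * w y) * (((p : ℝ) - 1) * (dx w y) ^ 2 + (p : ℝ) * (dx f y) ^ 2)

/-- The nonlocal gauge term `J`. -/
noncomputable def Jf (p : ℕ) (w f : ℝ → ℝ) (x : ℝ) : ℝ := ∫ y in (0 : ℝ)..x, Jd p w f y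

/-- Right-hand side of the equation for `ω`. -/
noncomputable def rhsW (p : ℕ) (w f : ℝ → ℝ) (x : ℝ) : ℝ :=
  Real.exp (-2 * w x) * (lap p w x - p) + (x - (1 - x ^ 2) * dx w x) * Jf p w f x

/-- Right-hand side of the equation for `F`. -/
noncomputable def rhsF (p : ℕ) (w f : ℝ → ℝ) (x : ℝ) : ℝ :=
  Real.exp (-2 * w x) * lap p f x - ((p : ℝ) - 1) * Real.exp (-2 * f x)
    - (1 - x ^ 2) * dx f x * Jf p w f x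

/-- Smooth even initial data on `[-1,1]`. -/
structure ConfData (w f : ℝ → ℝ) : Prop where
  smooth_w : ContDiffOn ℝ ∞ w (Icc (-1) 1)
  smooth_f : ContDiffOn ℝ ∞ f (Icc (-1) 1)
  even_w : ∀ x ∈ Icc (-1 : ℝ) 1, w (-x) = w x
  even_f : ∀ x ∈ Icc (-1 : ℝ) 1, f (-x) = f x

/-- Smooth solution of the conformal gauge system on `[0,T) × [-1,1]` (time first). -/
structure ConfSol (p : ℕ) (w f : ℝ → ℝ → ℝ) (T : ℝ) : Prop where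
  smooth_w : ContDiffOn ℝ ∞ (fun z : ℝ × ℝ => w z.1 z.2) (Ico 0 T ×ˢ Icc (-1) 1)
  smooth_f : ContDiffOn ℝ ∞ (fun z : ℝ × ℝ => f z.1 z.2) (Ico 0 T ×ˢ Icc (-1) 1)
  even_w : ∀ t ∈ Ico 0 T, ∀ x ∈ Icc (-1 : ℝ) 1, w t (-x) = w t x
  even_f : ∀ t ∈ Ico 0 T, ∀ x ∈ Icc (-1 : ℝ) 1, f t (-x) = f t x
  eq_w : ∀ t ∈ Ico 0 T, ∀ x ∈ Icc (-1 : ℝ) 1,
    HasDerivWithinAt (fun s => w s x) (rhsW p (w t) (f t) x) (Ico 0 T) t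
  eq_f : ∀ t ∈ Ico 0 T, ∀ x ∈ Icc (-1 : ℝ) 1,
    HasDerivWithinAt (fun s => f s x) (rhsF p (w t) (f t) x) (Ico 0 T) t

/-- The `C^1` size of `(w,f)` at the point `x`. -/
noncomputable def size1 (w f : ℝ → ℝ) (x : ℝ) : ℝ :=
  |w x| + |f x| + |dx w x| + |dx f x|

/-- INTERFACE L1 (existence and continuation). -/
def L1Statement : Prop :=
  ∀ p : ℕ, 2 ≤ p → ∀ w₀ f₀ : ℝ → ℝ, ConfData w₀ f₀ →
    ∃ T ∈ Ioc (0 : ℝ) 1, ∃ w f : ℝ → ℝ → ℝ, ConfSol p w f T ∧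
      (∀ x ∈ Icc (-1 : ℝ) 1, w 0 x = w₀ x ∧ f 0 x = f₀ x) ∧
      (T = 1 ∨ ∀ A : ℝ, ∃ t ∈ Ico 0 T, ∃ x ∈ Icc (-1 : ℝ) 1, A < size1 (w t) (f t) x)

/-- INTERFACE L2 (uniqueness). -/
def L2Statement : Prop :=
  ∀ p : ℕ, 2 ≤ p → ∀ T > 0, ∀ w f w' f' : ℝ → ℝ → ℝ, ConfSol p w f T → ConfSol p w' f' T →
    (∀ x ∈ Icc (-1 : ℝ) 1, w 0 x = w' 0 x ∧ f 0 x = f' 0 x) →
    ∀ t ∈ Ico 0 T, ∀ x ∈ Icc (-1 : ℝ) 1, w t x = w' t x ∧ f t x = f' t x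

/-- INTERFACE L3 (continuous dependence on parameters, in `C^1`): `Tm b` is the life time of
the solution with data `b`, as produced by L1. -/
def L3Statement : Prop :=
  ∀ p : ℕ, 2 ≤ p → ∀ (B : Set (Fin 3 → ℝ)), IsCompact B →
    ∀ w₀ f₀ : (Fin 3 → ℝ) → ℝ → ℝ,
    ContDiffOn ℝ ∞ (fun z : (Fin 3 → ℝ) × ℝ => w₀ z.1 z.2) (univ ×ˢ Icc (-1) 1) →
    ContDiffOn ℝ ∞ (fun z : (Fin 3 → ℝ) × ℝ => f₀ z.1 z.2) (univ ×ˢ Icc (-1) 1) →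
    ∀ (Tm : (Fin 3 → ℝ) → ℝ) (w f : (Fin 3 → ℝ) → ℝ → ℝ → ℝ),
    (∀ b ∈ B, ConfData (w₀ b) (f₀ b) ∧ Tm b ∈ Ioc (0 : ℝ) 1 ∧ ConfSol p (w b) (f b) (Tm b) ∧
      (∀ x ∈ Icc (-1 : ℝ) 1, w b 0 x = w₀ b x ∧ f b 0 x = f₀ b x) ∧
      (Tm b = 1 ∨ ∀ A : ℝ, ∃ t ∈ Ico 0 (Tm b), ∃ x ∈ Icc (-1 : ℝ) 1,
        A < size1 (w b t) (f b t) x)) →
    ∀ b ∈ B, ∀ T₁ ∈ Ico 0 (Tm b), ∀ ε > 0, ∀ᶠ b' in nhdsWithin b B, T₁ < Tm b' ∧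
      ∀ t ∈ Icc 0 T₁, ∀ x ∈ Icc (-1 : ℝ) 1,
        |w b' t x - w b t x| ≤ ε ∧ |f b' t x - f b t x| ≤ ε ∧
        |dx (w b' t) x - dx (w b t) x| ≤ ε ∧ |dx (f b' t) x - dx (f b t) x| ≤ ε

/-! ### Curvature of the conformal gauge metric -/

/-- `a = (p-1) ω_x + p F_x`. -/
noncomputable def gx (p : ℕ) (w f : ℝ → ℝ) (x : ℝ) : ℝ :=
  ((p : ℝ) - 1) * dx w x + (p : ℝ) * dx f x

/-- Ricci curvature (eigenvalue) in the direction of the fibre `S^p`. -/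
noncomputable def ric1 (p : ℕ) (w f : ℝ → ℝ) (x : ℝ) : ℝ :=
  -(Real.exp (-2 * w x) * (lap p f x + (1 - x ^ 2) * dx f x * gx p w f x))
    + ((p : ℝ) - 1) * Real.exp (-2 * f x)

/-- Ricci curvature (eigenvalue) tangent to the latitude spheres `S^p` of the base. -/
noncomputable def ric2 (p : ℕ) (w f : ℝ → ℝ) (x : ℝ) : ℝ :=
  -(Real.exp (-2 * w x) * (lap p w x - p - x * gx p w f x
      + (1 - x ^ 2) * dx w x * gx p w f x))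

/-- Ricci curvature (eigenvalue) in the meridian direction. -/
noncomputable def ric0 (p : ℕ) (w f : ℝ → ℝ) (x : ℝ) : ℝ :=
  ric2 p w f x - Real.exp (-2 * w x) * (1 - x ^ 2) *
    (((p : ℝ) - 1) * (dx (dx w) x - (dx w x) ^ 2)
      + (p : ℝ) * (dx (dx f) x + (dx f x) ^ 2 - 2 * dx w x * dx f x))

/-- Scalar curvature. -/
noncomputable def scal (p : ℕ) (w f : ℝ → ℝ) (x : ℝ) : ℝ :=
  ric0 p w f x + (p : ℝ) * ric1 p w f x + (p : ℝ) * ric2 p w f x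

/-- The analytic core (what the a priori analysis has to produce). -/
def CoreStatement : Prop :=
  ∃ p : ℕ, 2 ≤ p ∧ ∃ w f : ℝ → ℝ → ℝ, ConfSol p w f 1 ∧
    (∃ C : ℝ, ∀ t ∈ Ico (0 : ℝ) 1, ∀ x ∈ Icc (-1 : ℝ) 1, |scal p (w t) (f t) x| ≤ C) ∧
    (∀ A : ℝ, ∃ t ∈ Ico (0 : ℝ) 1, f t 1 < A)

end Vale.Agent.P244.ST
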