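import Vale.Agent.P244.ST.Alg

/-!
# P244-ST : the system in the differential algebra, geometric operators

For a solution `(w,f)` of the conformal gauge system on `[0,T)`: elements `W, F` of `smoothAlg T`,
`E = exp(-2W)`, the gauge function `J`, the material derivative `Dt`, the Laplacian `Lap`.
-/

open Set Topology Filter
open scoped ContDiff

namespace Vale.Agent.P244.ST

open Vale.Agent.P244.BB

variable {T : ℝ}

/-! ### rules for `dz`, `dt` -/

lemma dz_add (f g : smoothAlg T) : dz (f + g) = dz f + dz g := (pdD (T := T) (1, 0)).map_add f g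
lemma dt_add (f g : smoothAlg T) : dt (f + g) = dt f + dt g := (pdD (T := T) (0, 1)).map_add f g
lemma dz_sub (f g : smoothAlg T) : dz (f - g) = dz f - dz g := (pdD (T := T) (1, 0)).map_sub f g
lemma dt_sub (f g : smoothAlg T) : dt (f - g) = dt f - dt g := (pdD (T := T) (0, 1)).map_sub f g
lemma dz_neg (f : smoothAlg T) : dz (-f) = -dz f := (pdD (T := T) (1, 0)).map_neg f
lemma dt_neg (f : smoothAlg T) : dt (-f) = -dt f := (pdD (T := T) (0, 1)).map_neg f
lemma dz_one : dz (1 : smoothAlg T) = 0 := (pdD (T := T) (1, 0)).map_one_eq_zero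
lemma dz_zero : dz (0 : smoothAlg T) = 0 := (pdD (T := T) (1, 0)).map_zero
lemma dt_zero : dt (0 : smoothAlg T) = 0 := (pdD (T := T) (0, 1)).map_zero
lemma dz_cst (c : ℝ) : dz (cst c : smoothAlg T) = 0 := (pdD (T := T) (1, 0)).map_algebraMap c
lemma dt_cst (c : ℝ) : dt (cst c : smoothAlg T) = 0 := (pdD (T := T) (0, 1)).map_algebraMap c
lemma dz_natCast (n : ℕ) : dz (n : smoothAlg T) = 0 := (pdD (T := T) (1, 0)).map_natCast n
lemma dt_natCast (n : ℕ) : dt (n : smoothAlg T) = 0 := (pdD (T := T) (0, 1)).map_natCast n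
lemma dz_ofNat (n : ℕ) [n.AtLeastTwo] : dz (OfNat.ofNat n : smoothAlg T) = 0 := dz_natCast n
lemma dt_ofNat (n : ℕ) [n.AtLeastTwo] : dt (OfNat.ofNat n : smoothAlg T) = 0 := dt_natCast n

lemma dz_pow (f : smoothAlg T) (n : ℕ) : dz (f ^ n) = (n : smoothAlg T) * f ^ (n - 1) * dz f := by
  have := (pdD (T := T) (1, 0)).leibniz_pow f n
  rw [nsmul_eq_mul, smul_eq_mul] at this
  rw [mul_assoc]
  exact this

lemma dt_pow (f : smoothAlg T) (n : ℕ) : dt (f ^ n) = (n : smoothAlg T) * f ^ (n - 1) * dt f := by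
  have := (pdD (T := T) (0, 1)).leibniz_pow f n
  rw [nsmul_eq_mul, smul_eq_mul] at this
  rw [mul_assoc]
  exact this

lemma dz_dt_comm (f : smoothAlg T) : dz (dt f) = dt (dz f) := pd_comm _ _ f

lemma cst_eq (c : ℝ) (f : smoothAlg T) : cst c * f = c • f := by
  rw [Algebra.smul_def]; rfl

lemma ext_natCast (n : ℕ) {p : ℝ × ℝ} (hp : p ∈ dom T) : ext (n : smoothAlg T) p = n := by
  rw [← ev_eq hp, map_natCast]

lemma ext_ofNat (n : ℕ) [n.AtLeastTwo] {p : ℝ × ℝ} (hp : p ∈ dom T) :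
    ext (OfNat.ofNat n : smoothAlg T) p = OfNat.ofNat n := by
  rw [← ev_eq hp, map_ofNat]

lemma ext_pow (f : smoothAlg T) (n : ℕ) {p : ℝ × ℝ} (hp : p ∈ dom T) :
    ext (f ^ n) p = ext f p ^ n := by
  rw [← ev_eq hp, map_pow, ev_eq hp]

/-! ### the system -/

/-- `1 - x²` -/
noncomputable def Ss : smoothAlg T := 1 - Xs * Xs

lemma ext_Ss {p : ℝ × ℝ} (hp : p ∈ dom T) : ext (Ss : smoothAlg T) p = 1 - p.1 ^ 2 := by
  rw [Ss, ext_sub, ext_one hp, ext_mul, ext_Xs hp]; ring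

lemma dz_Ss : dz (Ss : smoothAlg T) = -2 * Xs := by
  rw [Ss, dz_sub, dz_mul, dz_one, dz_Xs]; ring

lemma dt_Ss : dt (Ss : smoothAlg T) = 0 := by
  rw [Ss, dt_sub, dt_mul, dt_one, dt_Xs]; ring

/-- Laplacian of `S^{p+1}` -/
noncomputable def lapS (p : ℕ) (h : smoothAlg T) : smoothAlg T :=
  Ss * dz (dz h) - ((p : smoothAlg T) + 1) * Xs * dz h

/-- A solution of the conformal gauge system in the algebra. -/
structure Sys (p : ℕ) (T : ℝ) where
  W : smoothAlg T
  F : smoothAlg T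
  eqW : dt W = expS (-W - W) * (lapS p W - (p : smoothAlg T)) + (Xs - Ss * dz W) *
    primS (expS (-W - W) * (((p : smoothAlg T) - 1) * (dz W * dz W) + (p : smoothAlg T) * (dz F * dz F)))
  eqF : dt F = expS (-W - W) * lapS p F - ((p : smoothAlg T) - 1) * expS (-F - F) - Ss * dz F *
    primS (expS (-W - W) * (((p : smoothAlg T) - 1) * (dz W * dz W) + (p : smoothAlg T) * (dz F * dz F)))

namespace Sys

variable {p : ℕ} (M : Sys p T)

/-- `e^{-2W}` -/
noncomputable def E : smoothAlg T := expS (-M.W - M.W)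

/-- `e^{-2F}` -/
noncomputable def H : smoothAlg T := expS (-M.F - M.F)

/-- nonlocal gauge term -/
noncomputable def J : smoothAlg T :=
  primS (M.E * (((p : smoothAlg T) - 1) * (dz M.W * dz M.W) + (p : smoothAlg T) * (dz M.F * dz M.F)))

/-- `(p-1) W_x + p F_x` -/
noncomputable def a : smoothAlg T := ((p : smoothAlg T) - 1) * dz M.W + (p : smoothAlg T) * dz M.F

/-- the speed `-X = E a + J` -/
noncomputable def Y : smoothAlg T := M.E * M.a + M.J

lemma dz_E : dz M.E = -2 * M.E * dz M.W := by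
  rw [E, dz_expS, dz_sub, dz_neg]; ring

lemma dt_E : dt M.E = -2 * M.E * dt M.W := by
  rw [E, dt_expS, dt_sub, dt_neg]; ring

lemma dz_H : dz M.H = -2 * M.H * dz M.F := by
  rw [H, dz_expS, dz_sub, dz_neg]; ring

lemma dt_H : dt M.H = -2 * M.H * dt M.F := by
  rw [H, dt_expS, dt_sub, dt_neg]; ring

lemma dz_J : dz M.J = M.E * (((p : smoothAlg T) - 1) * (dz M.W * dz M.W) +
    (p : smoothAlg T) * (dz M.F * dz M.F)) := dz_primS _

lemma eq_W : dt M.W = M.E * (lapS p M.W - (p : smoothAlg T)) + (Xs - Ss * dz M.W) * M.J := M.eqW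

lemma eq_F : dt M.F = M.E * lapS p M.F - ((p : smoothAlg T) - 1) * M.H - Ss * dz M.F * M.J := M.eqF

/-- material derivative -/
noncomputable def Dt (h : smoothAlg T) : smoothAlg T := dt h + Ss * M.Y * dz h

/-- Laplacian of the metric on functions of `(x,t)` -/
noncomputable def Lap (h : smoothAlg T) : smoothAlg T := M.E * (lapS p h + Ss * M.a * dz h)

/-- inner product of the gradients `h_s k_s` -/
noncomputable def gr (h k : smoothAlg T) : smoothAlg T := Ss * M.E * (dz h * dz k)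

lemma Dt_add (h k : smoothAlg T) : M.Dt (h + k) = M.Dt h + M.Dt k := by
  simp only [Dt, dt_add, dz_add]; ring

lemma Dt_mul (h k : smoothAlg T) : M.Dt (h * k) = h * M.Dt k + k * M.Dt h := by
  simp only [Dt, dt_mul, dz_mul]; ring

lemma Lap_add (h k : smoothAlg T) : M.Lap (h + k) = M.Lap h + M.Lap k := by
  simp only [Lap, lapS, dz_add]; ring

lemma Lap_mul (h k : smoothAlg T) :
    M.Lap (h * k) = h * M.Lap k + k * M.Lap h + 2 * M.gr h k := by
  simp only [Lap, lapS, gr, dz_mul, dz_add]; ring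

/-- equation for `F` -/
lemma Dt_F : M.Dt M.F = M.Lap M.F - ((p : smoothAlg T) - 1) * M.H := by
  rw [Dt, eq_F, Lap, Y]; ring

/-- equation for `W` -/
lemma Dt_W : M.Dt M.W = M.Lap M.W - (p : smoothAlg T) * M.E + Xs * M.J := by
  rw [Dt, eq_W, Lap, Y]; ring

end Sys

/-- a `ConfSol` as a system -/
noncomputable def ConfSol.sys {p : ℕ} {w f : ℝ → ℝ → ℝ} (h : ConfSol p w f T) : Sys p T := by
  have key : ∀ {x t : ℝ} (hx : x ∈ Icc (-1 : ℝ) 1) (ht : t ∈ Ico 0 T) (hp : ((x, t) : ℝ × ℝ) ∈ dom T),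
      (∀ y ∈ Icc (-1 : ℝ) 1, w t y = ext (el w h.smooth_w) (y, t)) ∧
      (∀ y ∈ Icc (-1 : ℝ) 1, f t y = ext (el f h.smooth_f) (y, t)) := by
    intro x t hx ht hp
    exact ⟨fun y hy => (ext_el h.smooth_w (mem_dom hy ht)).symm,
      fun y hy => (ext_el h.smooth_f (mem_dom hy ht)).symm⟩
  have kW : ∀ {y t : ℝ} (hy : y ∈ Icc (-1 : ℝ) 1) (ht : t ∈ Ico 0 T),
      dx (w t) y = ext (dz (el w h.smooth_w)) (y, t) := fun hy ht =>
    dx_eq_ext _ hy ht (key hy ht (mem_dom hy ht)).1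
  have kF : ∀ {y t : ℝ} (hy : y ∈ Icc (-1 : ℝ) 1) (ht : t ∈ Ico 0 T),
      dx (f t) y = ext (dz (el f h.smooth_f)) (y, t) := fun hy ht =>
    dx_eq_ext _ hy ht (key hy ht (mem_dom hy ht)).2
  have kWW : ∀ {y t : ℝ} (hy : y ∈ Icc (-1 : ℝ) 1) (ht : t ∈ Ico 0 T),
      dx (dx (w t)) y = ext (dz (dz (el w h.smooth_w))) (y, t) := fun hy ht =>
    dx_eq_ext _ hy ht fun z hz => kW hz ht
  have kFF : ∀ {y t : ℝ} (hy : y ∈ Icc (-1 : ℝ) 1) (ht : t ∈ Ico 0 T),
      dx (dx (f t)) y = ext (dz (dz (el f h.smooth_f))) (y, t) := fun hy ht =>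
    dx_eq_ext _ hy ht fun z hz => kF hz ht
  have kJ : ∀ {x t : ℝ} (hx : x ∈ Icc (-1 : ℝ) 1) (ht : t ∈ Ico 0 T), Jf p (w t) (f t) x =
      ext (primS (expS (-(el w h.smooth_w) - el w h.smooth_w) * (((p : smoothAlg T) - 1) *
        (dz (el w h.smooth_w) * dz (el w h.smooth_w)) + (p : smoothAlg T) *
        (dz (el f h.smooth_f) * dz (el f h.smooth_f))))) (x, t) := by
    intro x t hx ht
    rw [ext_primS _ (mem_dom hx ht), Jf]
    refine intervalIntegral.integral_congr fun y hy => ?_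
    have hy' : y ∈ Icc (-1 : ℝ) 1 := by
      rcases le_total 0 x with h1 | h1
      · rw [uIcc_of_le h1] at hy; exact ⟨by linarith only [hy, hy.1], hy.2.trans hx.2⟩
      · rw [uIcc_of_ge h1] at hy; exact ⟨hx.1.trans hy.1, by linarith [hy.2]⟩
    have hp := mem_dom hy' ht
    simp only [Jd]
    rw [kW hy' ht, kF hy' ht]
    simp only [ext_add, ext_sub, ext_mul, ext_neg, ext_natCast p hp, ext_one hp, ext_expS _ hp,
      ext_el _ hp]
    rw [show -w t y - w t y = -2 * w t y by ring]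
    ring
  exact
    { W := el w h.smooth_w
      F := el f h.smooth_f
      eqW := by
        apply smooth_ext
        rintro ⟨x, t⟩ hp
        rw [dt_eq_ext (el w h.smooth_w) hp.1 hp.2 (fun s hs => (ext_el h.smooth_w
          (mem_dom hp.1 hs)).symm) (h.eq_w t hp.2 x hp.1), rhsW, lap, kJ hp.1 hp.2, kW hp.1 hp.2,
          kWW hp.1 hp.2]
        simp only [lapS, ext_add, ext_sub, ext_mul, ext_neg, ext_natCast p hp, ext_one hp,
          ext_expS _ hp, ext_el _ hp, ext_Xs hp, ext_Ss hp]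
        rw [show -w t x - w t x = -2 * w t x by ring]
      eqF := by
        apply smooth_ext
        rintro ⟨x, t⟩ hp
        rw [dt_eq_ext (el f h.smooth_f) hp.1 hp.2 (fun s hs => (ext_el h.smooth_f
          (mem_dom hp.1 hs)).symm) (h.eq_f t hp.2 x hp.1), rhsF, lap, kJ hp.1 hp.2, kF hp.1 hp.2,
          kFF hp.1 hp.2]
        simp only [lapS, ext_add, ext_sub, ext_mul, ext_neg, ext_natCast p hp, ext_one hp,
          ext_expS _ hp, ext_el _ hp, ext_Xs hp, ext_Ss hp]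
        rw [show -w t x - w t x = -2 * w t x by ring, show -f t x - f t x = -2 * f t x by ring] }

end Vale.Agent.P244.ST
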