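import Vale.Agent.P244.ST.Geo

/-!
# P244-ST, closure f : the pure inequality

`h = T^a cosh^{-(1-a)}`, `a = 1/20`: `g · d/du {(2 Zs + As) h - Zs g h'} ≥ 0.099 · 39 · cosh u · h`.
-/

open Set Filter Topology

namespace Vale.Agent.P244.ST.PureF

theorem hasDerivAt_tanh (u : ℝ) : HasDerivAt Real.tanh (1 - Real.tanh u ^ 2) u := by
  have hc : Real.cosh u ≠ 0 := (Real.cosh_pos u).ne'
  have h := (Real.hasDerivAt_sinh u).div (Real.hasDerivAt_cosh u) hc
  have h1 : (fun x => Real.sinh x / Real.cosh x) = Real.tanh := by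
    funext x; rw [Real.tanh_eq_sinh_div_cosh]
  have h2 : (Real.cosh u * Real.cosh u - Real.sinh u * Real.sinh u) / Real.cosh u ^ 2 =
      1 - Real.tanh u ^ 2 := by
    rw [Real.tanh_eq_sinh_div_cosh]
    field_simp
  rw [← h2, ← h1]
  exact h

theorem tanh_pos {u : ℝ} (hu : 0 < u) : 0 < Real.tanh u := by
  rw [Real.tanh_eq_sinh_div_cosh]
  exact div_pos (Real.sinh_pos_iff.mpr hu) (Real.cosh_pos u)

theorem tanh_mul_cosh (u : ℝ) : Real.tanh u * Real.cosh u = Real.sinh u := by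
  rw [Real.tanh_eq_sinh_div_cosh, div_mul_cancel₀ _ (Real.cosh_pos u).ne']

theorem kap_lt : kap < 2.1147 := by
  have h1 : 34.7706 < Real.sqrt 1209 := by
    rw [Real.lt_sqrt (by norm_num)]; norm_num
  unfold kap; linarith only [h1]

theorem kap_gt : 2.1146 < kap := by
  have h1 : Real.sqrt 1209 < 34.7708 := by
    rw [Real.sqrt_lt' (by norm_num)]; norm_num
  unfold kap; linarith only [h1]

theorem kap_eq : kap ^ 2 - 39 * kap + 78 = 0 := by
  have h : Real.sqrt 1209 ^ 2 = 1209 := Real.sq_sqrt (by norm_num)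
  unfold kap
  linear_combination (1 / 4) * h

variable {g : ℝ → ℝ}

/-! ### elementary facts on `g` -/

theorem g_pos (hg : IsBub g) {u : ℝ} (hu : 0 < u) : 0 < g u := by
  have h1 := hg.lower u hu
  have h2 := tanh_pos hu
  linarith only [h1, h2]

theorem g_deriv (hg : IsBub g) {u : ℝ} (hu : 0 < u) : HasDerivAt g (deriv g u) u :=
  (hg.ode u hu).differentiableAt.hasDerivAt

/-- `g g' = q (g - 2 tanh u)` -/
theorem g_ode (hg : IsBub g) {u : ℝ} (hu : 0 < u) :
    g u * deriv g u = qb g u * (g u - 2 * Real.tanh u) := by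
  rw [(hg.ode u hu).deriv, qb]
  have := (g_pos hg hu).ne'
  field_simp

theorem qb_gt (hg : IsBub g) {u : ℝ} (hu : 0 < u) : 38 < qb g u := by
  have h1 := g_pos hg hu
  have h2 := hg.lt_two u hu
  unfold qb
  nlinarith only [h1, h2]

theorem qb_lt (hg : IsBub g) {u : ℝ} (hu : 0 < u) : qb g u < 39 := by
  have h1 := g_pos hg hu
  unfold qb
  nlinarith only [h1]

theorem hasDerivAt_qb (hg : IsBub g) {u : ℝ} (hu : 0 < u) :
    HasDerivAt (qb g) (-(g u * deriv g u) / 2) u := by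
  have h1 := ((g_deriv hg hu).pow 2).div_const 4 |>.const_sub 39
  refine h1.congr_deriv ?_
  push_cast
  ring

/-- `G1 = g / tanh u` lies in `(2, κ)`. -/
theorem quot_gt (hg : IsBub g) {u : ℝ} (hu : 0 < u) : 2 < g u / Real.tanh u := by
  rw [lt_div_iff₀ (tanh_pos hu)]
  exact hg.lower u hu

theorem quot_lt (hg : IsBub g) {u : ℝ} (hu : 0 < u) : g u / Real.tanh u < kap := by
  rw [div_lt_iff₀ (tanh_pos hu)]
  exact hg.upper u hu

/-- `Zs' = g Zs / 2` -/
theorem hasDerivAt_Zs (hg : IsBub g) {u : ℝ} (hu : 0 < u) :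
    HasDerivAt (Zs g) (g u * Zs g u / 2) u := by
  have hq := qb_gt hg hu
  have hc := Real.cosh_pos u
  have h1 := ((Real.hasDerivAt_cosh u).const_mul 39).div (hasDerivAt_qb hg hu) (by linarith only [hq])
  refine h1.congr_deriv ?_
  have h2 := g_ode hg hu
  have hT := tanh_mul_cosh u
  unfold Zs
  rw [show -(g u * deriv g u) / 2 = -(qb g u * (g u - 2 * Real.tanh u)) / 2 by rw [h2]]
  field_simp
  rw [← hT]
  ring

/-! ### the weight `h` -/

/-- `h = T^a cosh^{-(1-a)}` -/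
noncomputable def hF (u : ℝ) : ℝ := (Real.tanh u) ^ aa * (Real.cosh u) ^ (-(1 - aa))

/-- `h'` -/
noncomputable def hF1 (u : ℝ) : ℝ :=
  hF u * (aa * (1 - Real.tanh u ^ 2) / Real.tanh u - (1 - aa) * Real.tanh u)

theorem hF_pos {u : ℝ} (hu : 0 < u) : 0 < hF u :=
  mul_pos (Real.rpow_pos_of_pos (tanh_pos hu) _) (Real.rpow_pos_of_pos (Real.cosh_pos u) _)

theorem hasDerivAt_hF {u : ℝ} (hu : 0 < u) : HasDerivAt hF (hF1 u) u := by
  have hT := tanh_pos hu
  have hc := Real.cosh_pos u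
  have h1 := (hasDerivAt_tanh u).rpow_const (p := aa) (Or.inl hT.ne')
  have h2 := (Real.hasDerivAt_cosh u).rpow_const (p := -(1 - aa)) (Or.inl hc.ne')
  refine (h1.mul h2).congr_deriv ?_
  have h3 : Real.tanh u ^ (aa - 1) = Real.tanh u ^ aa / Real.tanh u :=
    Real.rpow_sub_one hT.ne' _
  have h4 : Real.cosh u ^ (-(1 - aa) - 1) = Real.cosh u ^ (-(1 - aa)) / Real.cosh u :=
    Real.rpow_sub_one hc.ne' _
  have h5 : Real.sinh u = Real.tanh u * Real.cosh u := (tanh_mul_cosh u).symm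
  unfold hF1 hF
  rw [h3, h4, h5]
  field_simp
  ring

/-! ### the inequality -/

/-- `(2 Zs + As) h - Zs g h'` -/
noncomputable def KF (g : ℝ → ℝ) (u : ℝ) : ℝ :=
  (2 * Zs g u + As g u) * hF u - Zs g u * g u * hF1 u

/-- the bracket: `KF = 39 cosh u · h · Kb` -/
noncomputable def Kb (g : ℝ → ℝ) (u : ℝ) : ℝ :=
  2 / qb g u + 4 * Real.tanh u / g u - 1 + g u * (Real.tanh u ^ 2 - aa) / (Real.tanh u * qb g u)

theorem KF_eq (hg : IsBub g) {u : ℝ} (hu : 0 < u) :
    KF g u = 39 * (Real.cosh u * hF u) * Kb g u := by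
  have hT := tanh_pos hu
  have hg0 := g_pos hg hu
  have hq := qb_gt hg hu
  have hq0 : qb g u ≠ 0 := by linarith only [hq]
  have h5 : Real.sinh u = Real.tanh u * Real.cosh u := (tanh_mul_cosh u).symm
  unfold KF Kb As Zs hF1
  rw [h5]
  field_simp
  ring

/-- derivative of `Kb` -/
noncomputable def Kb1 (g : ℝ → ℝ) (u : ℝ) : ℝ :=
  g u * deriv g u / qb g u ^ 2 * (1 - aa / 2 * (g u / Real.tanh u)) +
  (4 / g u ^ 2 + aa / (Real.tanh u ^ 2 * qb g u)) *
    (g u * (1 - Real.tanh u ^ 2) - deriv g u * Real.tanh u) +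
  (deriv g u * Real.tanh u + g u * (1 - Real.tanh u ^ 2)) / qb g u +
  g u * Real.tanh u * (g u * deriv g u) / (2 * qb g u ^ 2)

theorem hasDerivAt_Kb (hg : IsBub g) {u : ℝ} (hu : 0 < u) : HasDerivAt (Kb g) (Kb1 g u) u := by
  have hT := tanh_pos hu
  have hg0 := g_pos hg hu
  have hq := qb_gt hg hu
  have hq0 : qb g u ≠ 0 := by linarith only [hq]
  have dT := hasDerivAt_tanh u
  have dg := g_deriv hg hu
  have dq := hasDerivAt_qb hg hu
  have h1 := ((hasDerivAt_const u (2 : ℝ)).div dq hq0).add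
    (((dT.const_mul 4).div dg hg0.ne').sub_const 1)
  have h2 := (dg.mul ((dT.pow 2).sub_const aa)).div (dT.mul dq) (mul_ne_zero hT.ne' hq0)
  have h3 := h1.add h2
  have h4 : Kb g = (fun u => 2 / qb g u + (4 * Real.tanh u / g u - 1) +
      g u * (Real.tanh u ^ 2 - aa) / (Real.tanh u * qb g u)) := by
    funext x
    unfold Kb
    ring
  rw [h4]
  refine (h3.congr_deriv ?_)
  simp only [Pi.mul_apply, Pi.pow_apply]
  unfold Kb1
  field_simp
  ring

theorem Kb1_nonneg (hg : IsBub g) {u : ℝ} (hu : 0 < u) : 0 ≤ Kb1 g u := by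
  have hT := tanh_pos hu
  have hg0 := g_pos hg hu
  have hq := qb_gt hg hu
  have hd := hg.deriv_pos u hu
  have hr := hg.ratio u hu
  have hT2 := Real.tanh_sq_lt_one u
  have h1 := quot_lt hg hu
  have h2 := kap_lt
  have h3 : 0 ≤ 1 - aa / 2 * (g u / Real.tanh u) := by
    unfold aa; linarith only [h1, h2]
  have h4 : 0 ≤ g u * (1 - Real.tanh u ^ 2) - deriv g u * Real.tanh u := by linarith only [hr]
  have h5 : 0 ≤ g u * (1 - Real.tanh u ^ 2) := mul_nonneg hg0.le (by linarith only [hT2])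
  have h6 : (0 : ℝ) < qb g u := by linarith only [hq]
  have ha : (0 : ℝ) ≤ aa := by unfold aa; norm_num
  unfold Kb1
  have e1 : 0 ≤ g u * deriv g u / qb g u ^ 2 * (1 - aa / 2 * (g u / Real.tanh u)) :=
    mul_nonneg (by positivity) h3
  have e2 : 0 ≤ (4 / g u ^ 2 + aa / (Real.tanh u ^ 2 * qb g u)) *
    (g u * (1 - Real.tanh u ^ 2) - deriv g u * Real.tanh u) := mul_nonneg (by positivity) h4
  have e3 : 0 ≤ (deriv g u * Real.tanh u + g u * (1 - Real.tanh u ^ 2)) / qb g u :=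
    div_nonneg (add_nonneg (by positivity) h5) h6.le
  have e4 : 0 ≤ g u * Real.tanh u * (g u * deriv g u) / (2 * qb g u ^ 2) := by positivity
  linarith only [e1, e2, e3, e4]

theorem quot_mul_Kb (hg : IsBub g) {u : ℝ} (hu : 0 < u) : 1.98 ≤ g u / Real.tanh u * Kb g u := by
  have hT := tanh_pos hu
  have hg0 := g_pos hg hu
  have hq := qb_gt hg hu
  have hq' := qb_lt hg hu
  have hq0 : (0 : ℝ) < qb g u := by linarith only [hq, hq']
  have h1 := quot_lt hg hu
  have h1' := quot_gt hg hu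
  have h2 := kap_lt
  set G := g u / Real.tanh u with hG
  have hgT : g u = G * Real.tanh u := by rw [hG, div_mul_cancel₀ _ hT.ne']
  have e : G * Kb g u = 2 * G / qb g u + 4 - G + G ^ 2 * (Real.tanh u ^ 2 - aa) / qb g u := by
    unfold Kb
    rw [hgT]
    have hG0 : G ≠ 0 := by linarith only [h2, h1, h1']
    field_simp
  rw [e]
  have e1 : 4 / 39 ≤ 2 * G / qb g u := by
    rw [div_le_div_iff₀ (by norm_num) hq0]
    nlinarith only [hq', h1']
  have e2 : -(0.0059 : ℝ) ≤ G ^ 2 * (Real.tanh u ^ 2 - aa) / qb g u := by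
    rw [le_div_iff₀ hq0]
    have h3 : G ^ 2 ≤ 4.472 := by nlinarith only [hq, hq', h2, h1, h1']
    have h4 : -(4.472 * (1 / 20) : ℝ) ≤ G ^ 2 * (Real.tanh u ^ 2 - aa) := by
      unfold aa
      nlinarith only [h3, sq_nonneg (G * Real.tanh u), sq_nonneg G]
    linarith only [hq, h2, h1, h1', h4]
  norm_num at e1 e2 ⊢
  linarith only [h2, h1, h1', e1, e2]

/-- derivative of `KF` -/
noncomputable def KF1 (g : ℝ → ℝ) (u : ℝ) : ℝ :=
  39 * (Real.cosh u * hF u) * (aa / Real.tanh u * Kb g u + Kb1 g u)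

theorem hasDerivAt_KF (hg : IsBub g) {u : ℝ} (hu : 0 < u) : HasDerivAt (KF g) (KF1 g u) u := by
  have hT := tanh_pos hu
  have h1 := (((Real.hasDerivAt_cosh u).mul (hasDerivAt_hF hu)).const_mul 39).mul
    (hasDerivAt_Kb hg hu)
  have h2 : KF g =ᶠ[𝓝 u] (fun u => 39 * (Real.cosh u * hF u) * Kb g u) := by
    filter_upwards [Ioi_mem_nhds hu] with v hv
    exact KF_eq hg hv
  refine (HasDerivAt.congr_of_eventuallyEq h1 h2).congr_deriv ?_
  simp only [Pi.mul_apply]
  have h5 : Real.sinh u = Real.tanh u * Real.cosh u := (tanh_mul_cosh u).symm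
  unfold KF1 hF1
  rw [h5]
  field_simp
  ring

/-- The pure inequality of the closure of `f`. -/
theorem pureF (hg : IsBub g) {u : ℝ} (hu : 0 < u) :
    0.099 * (39 * Real.cosh u * hF u) ≤ g u * KF1 g u := by
  have hT := tanh_pos hu
  have hg0 := g_pos hg hu
  have hc := Real.cosh_pos u
  have hh := hF_pos hu
  have h1 := quot_mul_Kb hg hu
  have h2 := Kb1_nonneg hg hu
  have e : g u * KF1 g u = 39 * Real.cosh u * hF u * (aa * (g u / Real.tanh u * Kb g u) +
      g u * Kb1 g u) := by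
    unfold KF1
    field_simp
  rw [e]
  have h3 : (0.099 : ℝ) ≤ aa * (g u / Real.tanh u * Kb g u) + g u * Kb1 g u := by
    have : 0 ≤ g u * Kb1 g u := mul_nonneg hg0.le h2
    have ha : aa = 1 / 20 := rfl
    rw [ha]
    norm_num at h1 ⊢
    linarith only [this, h1]
  calc 0.099 * (39 * Real.cosh u * hF u) = 39 * Real.cosh u * hF u * 0.099 := by ring
    _ ≤ _ := mul_le_mul_of_nonneg_left h3 (by positivity)

end Vale.Agent.P244.ST.PureF
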