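import Mathlib
import Vale.Agent.P244.ST.Conf

/-!
# P244-ST : geometric quantities of a solution of the conformal gauge system (definitions)

All functions are functions of `(t,x)`, time first.  They are used for `|x| < 1`.
`x = 1` is the tip, `x = 0` the equator.  `p = 20`, `m = 40`.
-/

open Set
open scoped ContDiff

namespace Vale.Agent.P244.ST

noncomputable section

/-- functions of `(t,x)` -/
abbrev Fn := ℝ → ℝ → ℝ

/-- `κ = (39 - √1209)/2`. -/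
def kap : ℝ := (39 - Real.sqrt 1209) / 2

/-- `D = m + 1 - 2κ`. -/
def DD : ℝ := 41 - 2 * kap

/-- `λ_i = i - κ/2`. -/
def lam (i : ℕ) : ℝ := i - kap / 2

/-- `ζ₀ = (p-1)/(m-1)`. -/
def zeta0 : ℝ := 19 / 39

/-- the exponent `a = 1/20` -/
def aa : ℝ := 1 / 20

/-- the exponent `b = 6 - κ` -/
def bb : ℝ := 6 - kap

/-- the exponent `γ = 2 + 2 a λ₃` -/
def gam : ℝ := 2 + 2 * aa * lam 3

/-- `∂_x` -/
def Dx (H : Fn) : Fn := fun t x => deriv (H t) x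

/-- `∂_t` -/
def Dt (H : Fn) : Fn := fun t x => deriv (fun s => H s x) t

/-- `sqrt (1-x^2)` -/
def sx (x : ℝ) : ℝ := Real.sqrt (1 - x ^ 2)

section

variable (w f : Fn)

/-- `u = log (φ/ψ)` -/
def uu : Fn := fun t x => f t x - w t x - Real.log (1 - x ^ 2) / 2

/-- `ρ = log r` -/
def rho : Fn := fun t x =>
  (f t x + w t x + Real.log (1 - x ^ 2) / 2 - Real.log zeta0) / 2

/-- `r` -/
def rr : Fn := fun t x => Real.exp (rho w f t x)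

/-- `φ = e^F` -/
def phi : Fn := fun t x => Real.exp (f t x)

/-- `ψ = e^w sqrt(1-x^2)` -/
def psi : Fn := fun t x => Real.exp (w t x) * sx x

/-- arclength derivative (from the tip towards the equator) -/
def Ds (H : Fn) : Fn := fun t x => -(sx x * Real.exp (-w t x)) * Dx H t x

/-- the gauge field `X` -/
def Xg : Fn := fun t x =>
  -(Real.exp (-2 * w t x) * (19 * Dx w t x + 20 * Dx f t x)) - Jf 20 (w t) (f t) x

/-- material time derivative -/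
def DT (H : Fn) : Fn := fun t x => Dt H t x - (1 - x ^ 2) * Xg w f t x * Dx H t x

/-- Laplacian of the metric on invariant functions -/
def Lp (H : Fn) : Fn := fun t x =>
  Ds w (Ds w H) t x + 40 * Ds w (rho w f) t x * Ds w H t x

/-- `P = u_s` -/
def PP : Fn := Ds w (uu w f)

/-- `ρ_s` -/
def rs : Fn := Ds w (rho w f)

/-- `V = D_t u` (spatial expression) -/
def VV : Fn := fun t x =>
  Lp w f (uu w f) t x + 78 * Real.sinh (uu w f t x) / (rr w f t x) ^ 2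

/-- `D_t ρ` (spatial expression) -/
def yy : Fn := fun t x =>
  Lp w f (rho w f) t x - 39 * Real.cosh (uu w f t x) / (rr w f t x) ^ 2

/-- Ricci curvature in the direction of `∂_s` -/
def E0 : Fn := fun t x =>
  -(40 * Ds w (rs w f) t x) - 40 * (rs w f t x) ^ 2 - 10 * (PP w f t x) ^ 2

/-- scalar curvature -/
def RR : Fn := fun t x => E0 w f t x - 40 * yy w f t x

/-- `Z = r_s^2` -/
def ZZ : Fn := fun t x => (rr w f t x) ^ 2 * (rs w f t x) ^ 2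

/-- `G = - P/ρ_s` -/
def GG : Fn := fun t x => -(PP w f t x / rs w f t x)

/-- the derivation `r ∂_r` at fixed time -/
def Dr (H : Fn) : Fn := fun t x => Ds w H t x / rs w f t x

/-- the time derivative at fixed `r` -/
def Tr (H : Fn) : Fn := fun t x => DT w f H t x - yy w f t x * Dr w f H t x

end

/-- Properties of the bubble function `g` (P244-B1), extended by `g 0 = 0`, used for `u > 0`. -/
structure IsBub (g : ℝ → ℝ) : Prop where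
  smooth : ContDiffOn ℝ ∞ g (Ioi 0)
  ode : ∀ u > 0, HasDerivAt g ((39 - g u ^ 2 / 4) * (g u - 2 * Real.tanh u) / g u) u
  lower : ∀ u > 0, 2 * Real.tanh u < g u
  upper : ∀ u > 0, g u < kap * Real.tanh u
  lt_two : ∀ u > 0, g u < 2
  deriv_pos : ∀ u > 0, 0 < deriv g u
  ratio : ∀ u > 0, deriv g u * Real.tanh u ≤ g u * (1 - Real.tanh u ^ 2)
  at_zero : ∃ C : ℝ, ∀ u > 0, kap * Real.tanh u - g u ≤ C * Real.tanh u ^ 3
  at_tip : ∃ C : ℝ, ∀ u > 0, g u - 2 * Real.tanh u ≤ C * (1 - Real.tanh u ^ 2)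
  tip_smooth : ∃ h : ℝ → ℝ, ContDiffOn ℝ ∞ h (Ioo (-1) 1) ∧ ∀ u > 0, g u = h (Real.exp (-2 * u))

section

variable (g : ℝ → ℝ) (w f : Fn)

/-- `q(u) = 39 - g^2/4` -/
def qb (u : ℝ) : ℝ := 39 - g u ^ 2 / 4

/-- `Z_s(u)` -/
def Zs (u : ℝ) : ℝ := 39 * Real.cosh u / qb g u

/-- `c₀(u) = cosh u - 2 sinh u / g` -/
def c0 (u : ℝ) : ℝ := Real.cosh u - 2 * Real.sinh u / g u

/-- `A_s(u)` -/
def As (u : ℝ) : ℝ := 39 * (4 * Real.sinh u / g u - Real.cosh u)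

/-- `e = 1 - G/g(u)` -/
def ee : Fn := fun t x => 1 - GG w f t x / g (uu w f t x)

/-- `f = e/r^2` (called `ff`) -/
def ff : Fn := fun t x => ee g w f t x / (rr w f t x) ^ 2

/-- `θ = Z/Z_s(u) - 1` -/
def th : Fn := fun t x => ZZ w f t x / Zs g (uu w f t x) - 1

end

/-- `τ = 1 - t` -/
def tau (t : ℝ) : ℝ := 1 - t

/-- `y = r / sqrt τ` -/
def yv (w f : Fn) : Fn := fun t x => rr w f t x / Real.sqrt (tau t)

/-- The parameters of the construction (see P244-M); chosen in this order. -/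
structure Par where
  B : ℝ
  rho0 : ℝ
  BV : ℝ
  MU : ℝ
  MP : ℝ
  MV : ℝ
  CU : ℝ
  CP : ℝ
  CV : ℝ
  GR : ℝ
  sg : ℝ
  d0 : ℝ
  rb : ℝ
  N : ℝ
  eps : ℝ

namespace Par

variable (q : Par)

/-- amplitude `A(t) = ε τ^{λ₃}` -/
def A (t : ℝ) : ℝ := q.eps * (tau t) ^ (lam 3)

/-- `T₀(t) = A(t) ρ₀^{-κ}` -/
def T0 (t : ℝ) : ℝ := q.A t * q.rho0 ^ (-kap)

/-- `η = 10^4/N^2` -/
def eta : ℝ := 10 ^ 4 / q.N ^ 2

/-- barrier for `f` in region I -/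
def fb (t u : ℝ) : ℝ :=
  q.B / tau t * (Real.tanh u / q.T0 t) ^ aa * (Real.cosh u) ^ (-(1 - aa))

/-- barrier for `V` in region I -/
def Vb (t u : ℝ) : ℝ :=
  q.BV / tau t * (Real.tanh u / q.T0 t) ^ aa * Real.tanh u * (Real.cosh u) ^ aa

/-- barrier for `R` -/
def RB (t r u : ℝ) : ℝ :=
  q.eta * (1 + t) + q.GR * r ^ 2 * (Real.cosh u - 1) * q.eps ^ (-(2 * aa))
    * (tau t + r ^ 2 / 100) ^ (-gam)

/-- barriers in region III -/
def UB (t r : ℝ) : ℝ := q.CU * q.eps * (r ^ bb - 300 * tau t * r ^ (bb - 2))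
def PB (t r : ℝ) : ℝ := q.CP * q.eps * (r ^ (bb - 1) - 300 * tau t * r ^ (bb - 3))
def VB (t r : ℝ) : ℝ :=
  q.CV * q.eps * Real.exp t * (r ^ (bb - 2) - 300 * tau t * r ^ (bb - 4))

end Par

/-- The pointwise bootstrap (b1)-(b5) at the point `(t,x)`, `0 ≤ x < 1`. -/
structure BootAt (q : Par) (g : ℝ → ℝ) (w f : Fn) (t x : ℝ) : Prop where
  b1 : 0 < x → yv w f t x ≤ q.rho0 →
    0 < uu w f t x ∧ |ff g w f t x| ≤ q.fb t (uu w f t x)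
  b2 : 0 < x → yv w f t x ≤ q.rho0 → |VV w f t x| ≤ q.Vb t (uu w f t x)
  b3 : RR w f t x ≤ q.RB t (rr w f t x) (uu w f t x)
  b4 : q.rho0 ≤ yv w f t x → yv w f t x ≤ 25 →
    |uu w f t x| ≤ q.MU * q.A t ∧ |PP w f t x| ≤ q.MP * q.A t / Real.sqrt (tau t) ∧
      |VV w f t x| ≤ q.MV * q.A t / tau t
  b5 : 25 ≤ yv w f t x →
    |uu w f t x| ≤ q.UB t (rr w f t x) ∧ |PP w f t x| ≤ q.PB t (rr w f t x) ∧
      |VV w f t x| ≤ q.VB t (rr w f t x)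

/-- (b1)-(b5) on `[0,t₁]`. -/
def Boot5 (q : Par) (g : ℝ → ℝ) (w f : Fn) (t₁ : ℝ) : Prop :=
  ∀ t ∈ Icc 0 t₁, ∀ x ∈ Ico (0 : ℝ) 1, BootAt q g w f t x

/-- Qualitative facts (Q1), (Q2) on `[0,T)`. -/
structure Qual (w f : Fn) (T : ℝ) : Prop where
  R_nonneg : ∀ t ∈ Ico 0 T, ∀ x ∈ Ico (0 : ℝ) 1, 0 ≤ RR w f t x
  rs_pos : ∀ t ∈ Ico 0 T, ∀ x ∈ Ioo (0 : ℝ) 1, 0 < rs w f t x
  G_le : ∀ t ∈ Ico 0 T, ∀ x ∈ Ioo (0 : ℝ) 1, |GG w f t x| ≤ 2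
  r_le : ∀ t ∈ Ico 0 T, ∀ x ∈ Ico (0 : ℝ) 1, rr w f t x ≤ rr w f 0 0

/-! ### The modes -/

/-- `l_i(z) = M(-i, D/2, z)` for `i ≤ 3` (defined for all `i`). -/
def ll (i : ℕ) (z : ℝ) : ℝ :=
  ∑ j ∈ Finset.range (i + 1),
    (-1) ^ j * (i.choose j : ℝ) / (∏ l ∈ Finset.range j, (DD / 2 + l)) * z ^ j

/-- `φ_i(y) = y^{-κ} l_i(y²/4)` -/
def ph (i : ℕ) (y : ℝ) : ℝ := y ^ (-kap) * ll i (y ^ 2 / 4)

/-- `Φ_i(r,t) = τ^{λ_i} φ_i(r/√τ)` -/
def Ph (i : ℕ) (t r : ℝ) : ℝ := (tau t) ^ (lam i) * ph i (r / Real.sqrt (tau t))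

/-- the weight `W(y) = y^{40} e^{-y²/4}` -/
def Wt (y : ℝ) : ℝ := y ^ 40 * Real.exp (-y ^ 2 / 4)

/-- smooth step: `0` for `z ≤ 1`, `1` for `z ≥ 2`. -/
def stp (z : ℝ) : ℝ := Real.smoothTransition (z - 1)

/-- the cut-off `χ(t,y)` -/
def chi (q : Par) (t y : ℝ) : ℝ :=
  stp (y / (q.d0 * (tau t) ^ ((1 : ℝ) / 10))) *
    (1 - stp (Real.sqrt (tau t) * y / Real.sqrt q.N))

/-- squared norm of `φ_i` -/
def nph (i : ℕ) : ℝ := ∫ y in Ioi (0 : ℝ), ph i y ^ 2 * Wt y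

/-- `c_i(t) = ⟨χ u, φ_i⟩ / ‖φ_i‖²` divided by `A`: this is `γ_i(t)`. -/
def gami (q : Par) (w f : Fn) (i : ℕ) (t : ℝ) : ℝ :=
  (∫ x in (0 : ℝ)..1, chi q t (yv w f t x) * uu w f t x * ph i (yv w f t x) *
    Wt (yv w f t x) * (-(deriv (yv w f t) x))) / (q.A t * nph i)

/-- `‖χ u‖²/A²` -/
def nrmU (q : Par) (w f : Fn) (t : ℝ) : ℝ :=
  (∫ x in (0 : ℝ)..1, (chi q t (yv w f t x) * uu w f t x) ^ 2 *
    Wt (yv w f t x) * (-(deriv (yv w f t) x))) / (q.A t) ^ 2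

/-- `E_x/A² = ‖χ u‖²/A² - Σ_{i≤3} γ_i² ‖φ_i‖²` -/
def enU (q : Par) (w f : Fn) (t : ℝ) : ℝ :=
  nrmU q w f t - ∑ i ∈ Finset.range 4, gami q w f i t ^ 2 * nph i

/-- (b6) at time `t` -/
structure Boot6At (q : Par) (w f : Fn) (t : ℝ) : Prop where
  main : |gami q w f 3 t - 1| ≤ q.sg
  low : ∀ i < 3, |gami q w f i t| ≤ q.sg
  en : enU q w f t ≤ q.sg ^ 2

/-- the full bootstrap on `[0,t₁]`; the last condition is (b0): the equator stays far away -/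
structure Boot (q : Par) (g : ℝ → ℝ) (w f : Fn) (t₁ : ℝ) : Prop where
  b5 : Boot5 q g w f t₁
  b6 : ∀ t ∈ Icc 0 t₁, Boot6At q w f t
  b0 : ∀ t ∈ Icc 0 t₁, q.N / 4 ≤ rr w f t 0

end

end Vale.Agent.P244.ST
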