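import Mathlib
import Vale.Agent.P244.ST.Geo

/-!
# P244-ST : interfaces between the blocks

`Ev C` : for all parameters chosen in the order of `Par`, each sufficiently large or small
depending on the previous ones, `C` holds.
-/

open Set Filter
open scoped ContDiff Topology

namespace Vale.Agent.P244.ST

noncomputable section

/-- Nested quantifier: for all sufficiently large or small parameters. -/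
def Ev (C : Par → Prop) : Prop :=
  ∃ B₀ : ℝ, ∀ B ≥ B₀,
  ∃ r₁ > (0 : ℝ), ∀ rho0 ∈ Ioc 0 r₁,
  ∃ BV₀ : ℝ, ∀ BV ≥ BV₀,
  ∃ MU₀ : ℝ, ∀ MU ≥ MU₀,
  ∃ MP₀ : ℝ, ∀ MP ≥ MP₀,
  ∃ MV₀ : ℝ, ∀ MV ≥ MV₀,
  ∃ CU₀ : ℝ, ∀ CU ≥ CU₀,
  ∃ CP₀ : ℝ, ∀ CP ≥ CP₀,
  ∃ CV₀ : ℝ, ∀ CV ≥ CV₀,
  ∃ GR₀ : ℝ, ∀ GR ≥ GR₀,
  ∃ s₁ > (0 : ℝ), ∀ sg ∈ Ioc 0 s₁,
  ∃ d₁ > (0 : ℝ), ∀ d0 ∈ Ioc 0 d₁,
  ∃ b₁ > (0 : ℝ), ∀ rb ∈ Ioc 0 b₁,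
  ∃ N₀ : ℝ, ∀ N ≥ N₀,
  ∃ e₁ > (0 : ℝ), ∀ eps ∈ Ioc 0 e₁,
  C ⟨B, rho0, BV, MU, MP, MV, CU, CP, CV, GR, sg, d0, rb, N, eps⟩

/-- Strict version of `BootAt` (what the closures give). -/
structure BootAtS (q : Par) (g : ℝ → ℝ) (w f : Fn) (t x : ℝ) : Prop where
  b1 : 0 < x → yv w f t x ≤ q.rho0 →
    0 < uu w f t x ∧ |ff g w f t x| < q.fb t (uu w f t x)
  b2 : 0 < x → yv w f t x ≤ q.rho0 → |VV w f t x| < q.Vb t (uu w f t x)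
  b3 : RR w f t x < q.RB t (rr w f t x) (uu w f t x)
  b4 : q.rho0 ≤ yv w f t x → yv w f t x ≤ 25 →
    |uu w f t x| < q.MU * q.A t ∧ |PP w f t x| < q.MP * q.A t / Real.sqrt (tau t) ∧
      |VV w f t x| < q.MV * q.A t / tau t
  b5 : 25 ≤ yv w f t x →
    |uu w f t x| < q.UB t (rr w f t x) ∧ |PP w f t x| < q.PB t (rr w f t x) ∧
      |VV w f t x| < q.VB t (rr w f t x)

/-- The cube `[-2,2]^3` of parameters `b`. -/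
def Bx : Set (Fin 3 → ℝ) := Icc (fun _ => -2) (fun _ => 2)

/-- Conditions at `t = 0` (the data are the functions at time `0`). -/
structure InitOK (q : Par) (g : ℝ → ℝ) (b : Fin 3 → ℝ) (w f : Fn) : Prop where
  R_nonneg : ∀ x ∈ Ico (0 : ℝ) 1, 0 ≤ RR w f 0 x
  rs_lower : ∃ δ > 0, ∀ x ∈ Ioo (0 : ℝ) 1, δ * x ≤ rs w f 0 x
  G_lt : ∀ x ∈ Ioo (0 : ℝ) 1, |GG w f 0 x| < 2
  boot : ∀ x ∈ Ico (0 : ℝ) 1, BootAtS q g w f 0 x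
  equator : q.N / 2 ≤ rr w f 0 0
  equator_le : rr w f 0 0 ≤ q.N
  close_u : ∀ x ∈ Ioo (0 : ℝ) 1, q.rho0 / 16 ≤ rr w f 0 x → rr w f 0 x ≤ 400 →
    |uu w f 0 x - q.eps * Ph 3 0 (rr w f 0 x)| ≤ Real.sqrt q.sg * q.eps
  close_P : ∀ x ∈ Ioo (0 : ℝ) 1, q.rho0 / 16 ≤ rr w f 0 x → rr w f 0 x ≤ 400 →
    |PP w f 0 x - q.eps * Ds w (fun t x => Ph 3 t (rr w f t x)) 0 x| ≤ Real.sqrt q.sg * q.eps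
  bound_V : ∀ x ∈ Ioo (0 : ℝ) 1, q.rho0 / 16 ≤ rr w f 0 x → rr w f 0 x ≤ 400 →
    |VV w f 0 x| ≤ q.BV / 2 * q.eps
  mode_main : |gami q w f 3 0 - 1| ≤ q.sg / 10
  mode_low : ∀ i : Fin 3, |gami q w f i 0 - q.sg * b i| ≤ q.sg / 10
  en : enU q w f 0 ≤ (q.sg / 10) ^ 2

/-- BLOCK B1. -/
def B1Statement : Prop := ∃ g : ℝ → ℝ, IsBub g

/-- BLOCK B2 (initial data). -/
def B2Statement : Prop := ∀ g : ℝ → ℝ, IsBub g → Ev fun q =>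
  ∃ w₀ f₀ : (Fin 3 → ℝ) → ℝ → ℝ,
    ContDiffOn ℝ ∞ (fun z : (Fin 3 → ℝ) × ℝ => w₀ z.1 z.2) (univ ×ˢ Icc (-1) 1) ∧
    ContDiffOn ℝ ∞ (fun z : (Fin 3 → ℝ) × ℝ => f₀ z.1 z.2) (univ ×ˢ Icc (-1) 1) ∧
    ∀ b ∈ Bx, ConfData (w₀ b) (f₀ b) ∧ InitOK q g b (fun _ => w₀ b) (fun _ => f₀ b)

/-- BLOCK M, part Q: qualitative facts. -/
def QStatement : Prop := ∀ g : ℝ → ℝ, IsBub g → ∀ q b, ∀ w f : Fn, ∀ T > 0, ConfSol 20 w f T →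
  InitOK q g b w f → Qual w f T

/-- BLOCK S, pointwise closeness in the parabolic region. -/
def S7Statement : Prop := ∀ g : ℝ → ℝ, IsBub g → Ev fun q => ∀ w f : Fn, ∀ T > 0, T ≤ 1 →
  ConfSol 20 w f T → Qual w f T → ∀ t₁ ∈ Ico 0 T, Boot q g w f t₁ →
  ∀ t ∈ Icc 0 t₁, ∀ x ∈ Ico (0 : ℝ) 1, q.rho0 / 16 ≤ yv w f t x → yv w f t x ≤ 400 →
    |uu w f t x - q.A t * ph 3 (yv w f t x)| ≤ Real.sqrt q.sg * q.A t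

/-- BLOCK M, closure of (b1)-(b5). -/
def MStatement : Prop := ∀ g : ℝ → ℝ, IsBub g → Ev fun q => ∀ b, ∀ w f : Fn, ∀ T > 0, T ≤ 1 →
  ConfSol 20 w f T → Qual w f T → InitOK q g b w f → ∀ t₁ ∈ Ico 0 T, Boot q g w f t₁ →
  (∀ t ∈ Icc 0 t₁, ∀ x ∈ Ico (0 : ℝ) 1, q.rho0 / 16 ≤ yv w f t x → yv w f t x ≤ 400 →
    |uu w f t x - q.A t * ph 3 (yv w f t x)| ≤ Real.sqrt q.sg * q.A t) →
  (∀ t ∈ Icc 0 t₁, ∀ x ∈ Ico (0 : ℝ) 1, BootAtS q g w f t x) ∧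
    ∀ t ∈ Icc 0 t₁, q.N / 4 < rr w f t 0

/-- BLOCK S, closure of (b6) and strict exit. -/
def S6Statement : Prop := ∀ g : ℝ → ℝ, IsBub g → Ev fun q => ∀ b, ∀ w f : Fn, ∀ T > 0, T ≤ 1 →
  ConfSol 20 w f T → Qual w f T → InitOK q g b w f → ∀ t₁ ∈ Ico 0 T, Boot q g w f t₁ →
  |gami q w f 3 t₁ - 1| < q.sg ∧ enU q w f t₁ < q.sg ^ 2 ∧
  (∀ i < 3, |gami q w f i t₁| = q.sg →
    ∀ᶠ t in 𝓝[>] t₁, q.sg < |gami q w f i t|)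

/-- BLOCK C1: under the bootstrap the solution does not blow up before `t = 1`. -/
def C1Statement : Prop := ∀ g : ℝ → ℝ, IsBub g → Ev fun q => ∀ w f : Fn, ∀ T > 0, T < 1 →
  ConfSol 20 w f T → Qual w f T → rr w f 0 0 ≤ q.N → (∀ t₁ ∈ Ico 0 T, Boot q g w f t₁) →
  (∀ t ∈ Ico 0 T, ∀ x ∈ Ico (0 : ℝ) 1, q.rho0 / 16 ≤ yv w f t x → yv w f t x ≤ 400 →
    |uu w f t x - q.A t * ph 3 (yv w f t x)| ≤ Real.sqrt q.sg * q.A t) →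
  ∃ A : ℝ, ∀ t ∈ Ico 0 T, ∀ x ∈ Icc (-1 : ℝ) 1, size1 (w t) (f t) x ≤ A

/-- BLOCK C2: conclusion for solutions trapped up to `t = 1`. -/
def C2Statement : Prop := ∀ g : ℝ → ℝ, IsBub g → Ev fun q => ∀ w f : Fn,
  ConfSol 20 w f 1 → Qual w f 1 → rr w f 0 0 ≤ q.N →
  (∀ t₁ ∈ Ico (0 : ℝ) 1, Boot q g w f t₁) →
  (∀ t ∈ Ico (0 : ℝ) 1, ∀ x ∈ Ico (0 : ℝ) 1, q.rho0 / 16 ≤ yv w f t x → yv w f t x ≤ 400 →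
    |uu w f t x - q.A t * ph 3 (yv w f t x)| ≤ Real.sqrt q.sg * q.A t) →
  (∃ C : ℝ, ∀ t ∈ Ico (0 : ℝ) 1, ∀ x ∈ Icc (-1 : ℝ) 1, |scal 20 (w t) (f t) x| ≤ C) ∧
  (∀ A : ℝ, ∃ t ∈ Ico (0 : ℝ) 1, f t 1 < A)

end

end Vale.Agent.P244.ST
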