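import Vale.Agent.P244.BBCalc
import Vale.Agent.P244.ST.Conf
import Vale.Agent.P264.Cal.Hadamard

/-!
# P244-ST : the conformal gauge system as identities in the differential algebra `smoothAlg T`

`smoothAlg T` = smooth functions of `(x,t)` on `[-1,1] × [0,T)` (space variable first).
-/

open Set Topology Filter
open scoped ContDiff

namespace Vale.Agent.P244.ST

open Vale.Agent.P244.BB

variable {T : ℝ}

/-! ### elements of the algebra -/

/-- element of the algebra given by a smooth function `u t x` (time first). -/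
noncomputable def el (u : ℝ → ℝ → ℝ)
    (hu : ContDiffOn ℝ ∞ (fun z : ℝ × ℝ => u z.1 z.2) (Ico 0 T ×ˢ Icc (-1) 1)) : smoothAlg T :=
  mkS (fun p => u p.2 p.1)
    (hu.comp (f := fun p : ℝ × ℝ => (p.2, p.1)) (contDiff_snd.prodMk contDiff_fst).contDiffOn
      (fun _ hp => ⟨hp.2, hp.1⟩))

lemma ext_el {u : ℝ → ℝ → ℝ}
    (hu : ContDiffOn ℝ ∞ (fun z : ℝ × ℝ => u z.1 z.2) (Ico 0 T ×ˢ Icc (-1) 1)) {p : ℝ × ℝ}
    (hp : p ∈ dom T) : ext (el u hu) p = u p.2 p.1 := ext_mkS _ hp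

lemma Icc_unique : UniqueDiffOn ℝ (Icc (-1 : ℝ) 1) := uniqueDiffOn_Icc (by norm_num)

lemma dx_eq_ext (f : smoothAlg T) {h : ℝ → ℝ} {x t : ℝ} (hx : x ∈ Icc (-1 : ℝ) 1)
    (ht : t ∈ Ico 0 T) (he : ∀ y ∈ Icc (-1 : ℝ) 1, h y = ext f (y, t)) :
    dx h x = ext (dz f) (x, t) := by
  unfold dx
  rw [derivWithin_congr (fun y hy => he y hy) (he x hx)]
  exact (hasDerivWithinAt_z f hx ht).derivWithin (Icc_unique x hx)

lemma dt_eq_ext (f : smoothAlg T) {h : ℝ → ℝ} {h' x t : ℝ} (hx : x ∈ Icc (-1 : ℝ) 1)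
    (ht : t ∈ Ico 0 T) (he : ∀ s ∈ Ico 0 T, h s = ext f (x, s))
    (hd : HasDerivWithinAt h h' (Ico 0 T) t) : ext (dt f) (x, t) = h' := by
  have h1 := hasDerivWithinAt_t f hx ht
  have h2 : HasDerivWithinAt h (ext (dt f) (x, t)) (Ico 0 T) t :=
    h1.congr (fun s hs => he s hs) (he t ht)
  have hu : UniqueDiffWithinAt ℝ (Ico 0 T) t := uniqueDiffOn_Ico 0 T t ht
  exact hu.eq_deriv _ h2 hd

/-- the coordinate function -/
noncomputable def Xs : smoothAlg T := mkS (fun p => p.1) contDiff_fst.contDiffOn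

lemma ext_Xs {p : ℝ × ℝ} (hp : p ∈ dom T) : ext (Xs : smoothAlg T) p = p.1 := ext_mkS _ hp

/-- the time function -/
noncomputable def Ts : smoothAlg T := mkS (fun p => p.2) contDiff_snd.contDiffOn

lemma ext_Ts {p : ℝ × ℝ} (hp : p ∈ dom T) : ext (Ts : smoothAlg T) p = p.2 := ext_mkS _ hp

lemma dz_eq_of (f : smoothAlg T) {G : ℝ × ℝ → ℝ} {p : ℝ × ℝ} (hp : p ∈ dom T)
    (h : HasDerivWithinAt (fun z => ext f (z, p.2)) (G p) (Icc (-1) 1) p.1) :
    ext (dz f) p = G p := by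
  have h1 := hasDerivWithinAt_z f hp.1 hp.2
  exact (Icc_unique p.1 hp.1).eq_deriv _ h1 h

lemma dt_eq_of (f : smoothAlg T) {G : ℝ × ℝ → ℝ} {p : ℝ × ℝ} (hp : p ∈ dom T)
    (h : HasDerivWithinAt (fun s => ext f (p.1, s)) (G p) (Ico 0 T) p.2) :
    ext (dt f) p = G p := by
  have h1 := hasDerivWithinAt_t f hp.1 hp.2
  exact (uniqueDiffOn_Ico 0 T p.2 hp.2).eq_deriv _ h1 h

lemma dz_Xs : dz (Xs : smoothAlg T) = 1 := by
  apply smooth_ext
  intro p hp
  rw [ext_one hp]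
  refine dz_eq_of Xs (G := fun _ => 1) hp ?_
  refine (hasDerivWithinAt_id p.1 _).congr (fun z hz => ?_) ?_
  · exact ext_Xs ⟨hz, hp.2⟩
  · exact ext_Xs ⟨hp.1, hp.2⟩

lemma dt_Xs : dt (Xs : smoothAlg T) = 0 := by
  apply smooth_ext
  intro p hp
  rw [ext_zero]
  refine dt_eq_of Xs (G := fun _ => 0) hp ?_
  refine (hasDerivWithinAt_const p.2 _ p.1).congr (fun s hs => ?_) ?_
  · exact ext_Xs ⟨hp.1, hs⟩
  · exact ext_Xs ⟨hp.1, hp.2⟩

lemma dz_Ts : dz (Ts : smoothAlg T) = 0 := by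
  apply smooth_ext
  intro p hp
  rw [ext_zero]
  refine dz_eq_of Ts (G := fun _ => 0) hp ?_
  refine (hasDerivWithinAt_const p.1 _ p.2).congr (fun z hz => ?_) ?_
  · exact ext_Ts ⟨hz, hp.2⟩
  · exact ext_Ts ⟨hp.1, hp.2⟩

lemma dt_Ts : dt (Ts : smoothAlg T) = 1 := by
  apply smooth_ext
  intro p hp
  rw [ext_one hp]
  refine dt_eq_of Ts (G := fun _ => 1) hp ?_
  refine (hasDerivWithinAt_id p.2 _).congr (fun s hs => ?_) ?_
  · exact ext_Ts ⟨hp.1, hs⟩
  · exact ext_Ts ⟨hp.1, hp.2⟩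

/-- composition with a smooth function of one variable -/
noncomputable def compS (φ : ℝ → ℝ) (hφ : ContDiff ℝ ∞ φ) (f : smoothAlg T) : smoothAlg T :=
  mkS (fun p => φ (ext f p)) (hφ.comp_contDiffOn (ext_contDiffOn f))

lemma ext_compS {φ : ℝ → ℝ} (hφ : ContDiff ℝ ∞ φ) (f : smoothAlg T) {p : ℝ × ℝ} (hp : p ∈ dom T) :
    ext (compS φ hφ f) p = φ (ext f p) := ext_mkS _ hp

lemma dz_compS {φ φ' : ℝ → ℝ} (hφ : ContDiff ℝ ∞ φ) (hφ' : ContDiff ℝ ∞ φ')
    (hd : ∀ y, HasDerivAt φ (φ' y) y) (f : smoothAlg T) :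
    dz (compS φ hφ f) = compS φ' hφ' f * dz f := by
  apply smooth_ext
  intro p hp
  rw [ext_mul, ext_compS hφ' f hp]
  refine dz_eq_of _ (G := fun p => φ' (ext f p) * ext (dz f) p) hp ?_
  have h1 := (hd (ext f (p.1, p.2))).comp_hasDerivWithinAt p.1 (hasDerivWithinAt_z f hp.1 hp.2)
  refine h1.congr (fun z hz => ?_) ?_
  · exact ext_compS hφ f ⟨hz, hp.2⟩
  · exact ext_compS hφ f ⟨hp.1, hp.2⟩

lemma dt_compS {φ φ' : ℝ → ℝ} (hφ : ContDiff ℝ ∞ φ) (hφ' : ContDiff ℝ ∞ φ')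
    (hd : ∀ y, HasDerivAt φ (φ' y) y) (f : smoothAlg T) :
    dt (compS φ hφ f) = compS φ' hφ' f * dt f := by
  apply smooth_ext
  intro p hp
  rw [ext_mul, ext_compS hφ' f hp]
  refine dt_eq_of _ (G := fun p => φ' (ext f p) * ext (dt f) p) hp ?_
  have h1 := (hd (ext f (p.1, p.2))).comp_hasDerivWithinAt p.2 (hasDerivWithinAt_t f hp.1 hp.2)
  refine h1.congr (fun s hs => ?_) ?_
  · exact ext_compS hφ f ⟨hp.1, hs⟩
  · exact ext_compS hφ f ⟨hp.1, hp.2⟩

/-- exponential -/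
noncomputable def expS (f : smoothAlg T) : smoothAlg T := compS Real.exp Real.contDiff_exp f

lemma ext_expS (f : smoothAlg T) {p : ℝ × ℝ} (hp : p ∈ dom T) :
    ext (expS f) p = Real.exp (ext f p) := ext_compS _ f hp

lemma dz_expS (f : smoothAlg T) : dz (expS f) = expS f * dz f :=
  dz_compS Real.contDiff_exp Real.contDiff_exp Real.hasDerivAt_exp f

lemma dt_expS (f : smoothAlg T) : dt (expS f) = expS f * dt f :=
  dt_compS Real.contDiff_exp Real.contDiff_exp Real.hasDerivAt_exp f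

lemma expS_add (f g : smoothAlg T) : expS (f + g) = expS f * expS g := by
  apply smooth_ext
  intro p hp
  rw [ext_mul, ext_expS _ hp, ext_expS _ hp, ext_expS _ hp, ext_add, Real.exp_add]

lemma expS_zero : expS (0 : smoothAlg T) = 1 := by
  apply smooth_ext
  intro p hp
  rw [ext_expS _ hp, ext_zero, Real.exp_zero, ext_one hp]

lemma expS_neg_mul (f : smoothAlg T) : expS (-f) * expS f = 1 := by
  rw [← expS_add, neg_add_cancel, expS_zero]

lemma expS_pos (f : smoothAlg T) {p : ℝ × ℝ} (hp : p ∈ dom T) : 0 < ext (expS f) p := by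
  rw [ext_expS _ hp]; exact Real.exp_pos _

/-! ### the primitive -/

lemma prim_smooth (f : smoothAlg T) :
    ContDiffOn ℝ ∞ (fun p : ℝ × ℝ => ∫ y in (0 : ℝ)..p.1, ext f (y, p.2)) (dom T) := by
  intro p hp
  obtain ⟨T', h1, h2⟩ := exists_between hp.2.2
  have h0 : 0 < T' := lt_of_le_of_lt hp.2.1 h1
  set K : Set (ℝ × ℝ) := Icc (-1) 1 ×ˢ Icc 0 T' with hK
  have hKd : K ⊆ dom T := fun q hq => ⟨hq.1, ⟨hq.2.1, lt_of_le_of_lt hq.2.2 h2⟩⟩
  have hmem : ∀ q ∈ K, ∀ s ∈ Icc (0 : ℝ) 1, (s * q.1, q.2) ∈ K := by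
    intro q hq s hs
    refine ⟨⟨?_, ?_⟩, hq.2⟩
    · have := hq.1.1; have := hq.1.2; obtain ⟨h5, h6⟩ := hs
      show -1 ≤ s * q.1
      nlinarith
    · have := hq.1.1; have := hq.1.2; obtain ⟨h5, h6⟩ := hs
      show s * q.1 ≤ 1
      nlinarith
  have hint : ContDiffOn ℝ ∞ (fun q : ℝ × ℝ => ∫ s in (0:ℝ)..1, ext f (s * q.1, q.2)) K := by
    refine P264.Cal.contDiffOn_integral (isCompact_Icc.prod isCompact_Icc)
      ((convex_Icc _ _).prod (convex_Icc _ _))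
      (P264.Cal.uniqueDiffOn_box (by norm_num) h0) zero_lt_one
      (f := fun q : (ℝ × ℝ) × ℝ => ext f (q.2 * q.1.1, q.1.2)) ?_
    refine (ext_contDiffOn f).comp (f := fun q : (ℝ × ℝ) × ℝ => (q.2 * q.1.1, q.1.2)) ?_ ?_
    · apply ContDiff.contDiffOn
      fun_prop
    · rintro ⟨q, s⟩ ⟨hq, hs⟩
      exact hKd (hmem q hq s hs)
  have hF : ContDiffOn ℝ ∞ (fun p : ℝ × ℝ => ∫ y in (0 : ℝ)..p.1, ext f (y, p.2)) K := by
    refine (contDiff_fst.contDiffOn.mul hint).congr fun q hq => ?_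
    have := intervalIntegral.smul_integral_comp_mul_right (f := fun y => ext f (y, q.2))
      (a := 0) (b := 1) q.1
    simp only [zero_mul, one_mul, smul_eq_mul] at this
    exact this.symm
  have hnb : K ∈ 𝓝[dom T] p := by
    have h3 : (univ : Set ℝ) ×ˢ Iio T' ∈ 𝓝 p :=
      prod_mem_nhds univ_mem (Iio_mem_nhds h1)
    have h4 : (univ : Set ℝ) ×ˢ Iio T' ∩ dom T ⊆ K := by
      rintro q ⟨hq1, hq2⟩
      exact ⟨hq2.1, ⟨hq2.2.1, le_of_lt hq1.2⟩⟩
    exact mem_of_superset (inter_mem (mem_nhdsWithin_of_mem_nhds h3) self_mem_nhdsWithin) h4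
  exact (hF p ⟨hp.1, ⟨hp.2.1, h1.le⟩⟩).mono_of_mem_nhdsWithin hnb

/-- the primitive in the space variable, vanishing at `x = 0` -/
noncomputable def primS (f : smoothAlg T) : smoothAlg T := mkS _ (prim_smooth f)

lemma ext_primS (f : smoothAlg T) {p : ℝ × ℝ} (hp : p ∈ dom T) :
    ext (primS f) p = ∫ y in (0 : ℝ)..p.1, ext f (y, p.2) := ext_mkS _ hp

lemma slice_continuousOn (f : smoothAlg T) {t : ℝ} (ht : t ∈ Ico 0 T) :
    ContinuousOn (fun z => ext f (z, t)) (Icc (-1) 1) :=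
  (ext_continuousOn f).comp (f := fun z : ℝ => ((z, t) : ℝ × ℝ)) (by fun_prop)
    (fun _ hz => ⟨hz, ht⟩)

lemma dz_primS (f : smoothAlg T) : dz (primS f) = f := by
  apply smooth_ext
  intro p hp
  refine dz_eq_of _ (G := fun p => ext f p) hp ?_
  have hc := slice_continuousOn f hp.2
  have hx := hp.1
  -- fundamental theorem of calculus within `[-1,1]`
  have hi : IntervalIntegrable (fun y => ext f (y, p.2)) MeasureTheory.volume 0 p.1 := by
    apply ContinuousOn.intervalIntegrable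
    refine hc.mono (fun y hy => ?_)
    rcases le_total 0 p.1 with h | h
    · rw [uIcc_of_le h] at hy; exact ⟨by linarith only [hy, hy.1], hy.2.trans hx.2⟩
    · rw [uIcc_of_ge h] at hy; exact ⟨hx.1.trans hy.1, by linarith only [hy, hy.2]⟩
  have hm : StronglyMeasurableAtFilter (fun y => ext f (y, p.2)) (𝓝[Icc (-1) 1] p.1)
      MeasureTheory.volume :=
    hc.stronglyMeasurableAtFilter_nhdsWithin measurableSet_Icc p.1
  have : Fact (p.1 ∈ Icc (-1 : ℝ) 1) := ⟨hx⟩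
  have hd := intervalIntegral.integral_hasDerivWithinAt_right (s := Icc (-1 : ℝ) 1)
    (t := Icc (-1 : ℝ) 1) hi hm (hc p.1 hx)
  refine hd.congr (fun z hz => ?_) ?_
  · exact ext_primS f ⟨hz, hp.2⟩
  · exact ext_primS f ⟨hp.1, hp.2⟩

lemma primS_zero (f : smoothAlg T) {t : ℝ} (ht : t ∈ Ico 0 T) : ext (primS f) (0, t) = 0 := by
  rw [ext_primS f ⟨by norm_num, ht⟩]
  simp

end Vale.Agent.P244.ST
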