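import Mathlib

/-!
# P244-ST, block B : calculus tools for the bubble profile

Derivative towers, Hadamard's lemma in one variable, derivative of `tanh`.
-/

open Set Filter Topology Real
open scoped ContDiff

namespace Vale.Agent.P244.ST.BD.BT

/-- derivative of `tanh` -/
theorem bt_tanh_deriv (u : ℝ) : HasDerivAt tanh (1 - tanh u ^ 2) u := by
  have hc : cosh u ≠ 0 := (cosh_pos u).ne'
  have h : HasDerivAt (fun x => sinh x / cosh x)
      ((cosh u * cosh u - sinh u * sinh u) / cosh u ^ 2) u :=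
    (hasDerivAt_sinh u).div (hasDerivAt_cosh u) hc
  have e : (tanh : ℝ → ℝ) = fun x => sinh x / cosh x := by
    funext x; exact tanh_eq_sinh_div_cosh x
  rw [e]
  convert h using 1
  field_simp

/-- smoothness of `tanh` -/
theorem bt_tanh_contDiff {n : WithTop ℕ∞} : ContDiff ℝ n tanh := by
  have e : (tanh : ℝ → ℝ) = fun x => sinh x / cosh x := by
    funext x; exact tanh_eq_sinh_div_cosh x
  rw [e]
  exact contDiff_sinh.div contDiff_cosh fun x => (cosh_pos x).ne'

/-- A tower of successive derivatives on an open set is smooth. -/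
theorem bt_tower {f : ℕ → ℝ → ℝ} {s : Set ℝ} (hs : IsOpen s)
    (h : ∀ n, ∀ x ∈ s, HasDerivAt (f n) (f (n + 1) x) x) (k : ℕ) : ContDiffOn ℝ ∞ (f k) s := by
  have key : ∀ N : ℕ, ∀ k : ℕ, ContDiffOn ℝ (N : WithTop ℕ∞) (f k) s := by
    intro N
    induction N with
    | zero =>
      intro k
      have : ContinuousOn (f k) s := fun x hx => (h k x hx).continuousAt.continuousWithinAt
      simpa using (contDiffOn_zero (𝕜 := ℝ)).2 this
    | succ N ih =>
      intro k
      have e : ((N + 1 : ℕ) : WithTop ℕ∞) = (N : WithTop ℕ∞) + 1 := by push_cast; rfl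
      rw [e, contDiffOn_succ_iff_deriv_of_isOpen hs]
      refine ⟨fun x hx => (h k x hx).differentiableAt.differentiableWithinAt, ?_, ?_⟩
      · intro h0
        exact absurd h0 (by exact_mod_cast (WithTop.coe_ne_top (a := (N : ℕ∞))))
      · exact (ih (k + 1)).congr fun x hx => (h k x hx).deriv
  exact contDiffOn_infty.2 fun n => key n k

/-- derivatives of a smooth function on an open set, as a tower -/
theorem bt_iter {h : ℝ → ℝ} {s : Set ℝ} (hs : IsOpen s) (hh : ContDiffOn ℝ ∞ h s) (n : ℕ) :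
    ∀ x ∈ s, HasDerivAt (iteratedDerivWithin n h s) (iteratedDerivWithin (n + 1) h s x) x := by
  intro x hx
  have h1 : DifferentiableOn ℝ (iteratedDerivWithin n h s) s :=
    hh.differentiableOn_iteratedDerivWithin (by exact_mod_cast ENat.natCast_lt_top n)
      hs.uniqueDiffOn
  have h2 : DifferentiableAt ℝ (iteratedDerivWithin n h s) x :=
    (h1 x hx).differentiableAt (hs.mem_nhds hx)
  rw [iteratedDerivWithin_succ, derivWithin_of_isOpen hs hx]
  exact h2.hasDerivAt

theorem bt_mul_mem {ε t x : ℝ} (ht : t ∈ Icc (0 : ℝ) 1) (hx : x ∈ Ioo (-ε) ε) :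
    t * x ∈ Ioo (-ε) ε := by
  have h1 : |x| < ε := abs_lt.2 hx
  have h2 : |t * x| ≤ |x| := by
    rw [abs_mul, abs_of_nonneg ht.1]
    exact mul_le_of_le_one_left (abs_nonneg _) ht.2
  exact abs_lt.1 (lt_of_le_of_lt h2 h1)

/-- differentiation of the averages `∫ t^n H_{n+1}(t x)` -/
theorem bt_param {ε : ℝ} {H : ℕ → ℝ → ℝ}
    (hH : ∀ n, ∀ x ∈ Ioo (-ε) ε, HasDerivAt (H n) (H (n + 1) x) x) (n : ℕ) (x : ℝ)
    (hx : x ∈ Ioo (-ε) ε) :
    HasDerivAt (fun x => ∫ t in (0 : ℝ)..1, t ^ n * H (n + 1) (t * x))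
      (∫ t in (0 : ℝ)..1, t ^ (n + 1) * H (n + 1 + 1) (t * x)) x := by
  have hcont : ∀ k, ContinuousOn (H k) (Ioo (-ε) ε) := fun k y hy =>
    (hH k y hy).continuousAt.continuousWithinAt
  have hF : ∀ k j : ℕ, ∀ y ∈ Ioo (-ε) ε,
      ContinuousOn (fun t : ℝ => t ^ j * H k (t * y)) (Icc 0 1) := by
    intro k j y hy
    refine (continuousOn_id.pow j).mul ?_
    exact (hcont k).comp (continuousOn_id.mul continuousOn_const) fun t ht => bt_mul_mem ht hy
  have huIoc : uIoc (0 : ℝ) 1 ⊆ Icc 0 1 := by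
    rw [uIoc_of_le zero_le_one]; exact Ioc_subset_Icc_self
  have hmeas : ∀ k j : ℕ, ∀ y ∈ Ioo (-ε) ε, MeasureTheory.AEStronglyMeasurable
      (fun t : ℝ => t ^ j * H k (t * y)) (MeasureTheory.volume.restrict (uIoc 0 1)) := by
    intro k j y hy
    exact ((hF k j y hy).mono huIoc).aestronglyMeasurable measurableSet_uIoc
  obtain ⟨δ, hδ1, hδ2⟩ := exists_between (abs_lt.2 hx)
  have hK : Icc (-δ) δ ⊆ Ioo (-ε) ε := fun y hy => ⟨by linarith only [hδ2, hy, hy.1], by linarith only [hδ2, hy, hy.2]⟩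
  obtain ⟨C, hC⟩ := isCompact_Icc.exists_bound_of_continuousOn ((hcont (n + 1 + 1)).mono hK)
  have hs : Ioo (-δ) δ ∈ 𝓝 x := Ioo_mem_nhds (abs_lt.1 hδ1).1 (abs_lt.1 hδ1).2
  have hsub : Ioo (-δ) δ ⊆ Ioo (-ε) ε := Ioo_subset_Icc_self.trans hK
  refine (intervalIntegral.hasDerivAt_integral_of_dominated_loc_of_deriv_le
    (F := fun y t => t ^ n * H (n + 1) (t * y))
    (F' := fun y t => t ^ (n + 1) * H (n + 1 + 1) (t * y)) (bound := fun _ => C) hs
    ?_ ?_ (hmeas _ _ x hx) ?_ (intervalIntegrable_const) ?_).2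
  · filter_upwards [hs] with y hy
    exact hmeas _ _ y (hsub hy)
  · have := hF (n + 1) n x hx
    rw [← uIcc_of_le (zero_le_one' ℝ)] at this
    exact this.intervalIntegrable
  · refine Eventually.of_forall fun t ht y hy => ?_
    have ht' := huIoc ht
    have h1 : t * y ∈ Icc (-δ) δ := Ioo_subset_Icc_self (bt_mul_mem ht' hy)
    rw [norm_mul, norm_pow, Real.norm_of_nonneg ht'.1]
    have h2 := hC _ h1
    calc t ^ (n + 1) * ‖H (n + 1 + 1) (t * y)‖ ≤ 1 * C :=
          mul_le_mul (pow_le_one₀ ht'.1 ht'.2) h2 (norm_nonneg _) zero_le_one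
      _ = C := one_mul C
  · refine Eventually.of_forall fun t ht y hy => ?_
    have ht' := huIoc ht
    have h1 : t * y ∈ Ioo (-ε) ε := bt_mul_mem ht' (hsub hy)
    have h2 := (hH (n + 1) (t * y) h1).comp y ((hasDerivAt_id y).const_mul t)
    have h3 := h2.const_mul (t ^ n)
    refine h3.congr_deriv ?_
    simp only [mul_one]
    ring

/-- Hadamard's lemma: `h(x) = h(0) + x k(x)` with `k` smooth. -/
theorem bt_hadamard {ε : ℝ} {h : ℝ → ℝ} (hh : ContDiffOn ℝ ∞ h (Ioo (-ε) ε)) :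
    ∃ k : ℝ → ℝ, ContDiffOn ℝ ∞ k (Ioo (-ε) ε) ∧ ∀ x ∈ Ioo (-ε) ε, h x = h 0 + x * k x := by
  set H : ℕ → ℝ → ℝ := fun n => iteratedDerivWithin n h (Ioo (-ε) ε) with hHdef
  have hH : ∀ n, ∀ x ∈ Ioo (-ε) ε, HasDerivAt (H n) (H (n + 1) x) x := fun n =>
    bt_iter isOpen_Ioo hh n
  have hcont : ∀ k, ContinuousOn (H k) (Ioo (-ε) ε) := fun k y hy =>
    (hH k y hy).continuousAt.continuousWithinAt
  refine ⟨fun x => ∫ t in (0 : ℝ)..1, t ^ 0 * H (0 + 1) (t * x), ?_, ?_⟩
  · exact bt_tower (f := fun n x => ∫ t in (0 : ℝ)..1, t ^ n * H (n + 1) (t * x)) isOpen_Ioo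
      (fun n x hx => bt_param hH n x hx) 0
  · intro x hx
    have h1 : ∀ t ∈ uIcc (0 : ℝ) 1, HasDerivAt (fun t : ℝ => H 0 (t * x)) (x * H 1 (t * x)) t := by
      intro t ht
      rw [uIcc_of_le zero_le_one] at ht
      have h2 := (hH 0 (t * x) (bt_mul_mem ht hx)).comp t ((hasDerivAt_id t).mul_const x)
      refine h2.congr_deriv ?_
      simp only [one_mul, zero_add]
      ring
    have h2 : ContinuousOn (fun t : ℝ => x * H 1 (t * x)) (uIcc (0 : ℝ) 1) := by
      rw [uIcc_of_le zero_le_one]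
      exact continuousOn_const.mul ((hcont 1).comp (continuousOn_id.mul continuousOn_const)
        fun t ht => bt_mul_mem ht hx)
    have h3 := intervalIntegral.integral_eq_sub_of_hasDerivAt h1 h2.intervalIntegrable
    have h0 : H 0 = h := iteratedDerivWithin_zero
    simp only [h0, one_mul, zero_mul, intervalIntegral.integral_const_mul] at h3
    simp only [pow_zero, one_mul, zero_add]
    linarith only [h3]

end Vale.Agent.P244.ST.BD.BT
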