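import Vale.Agent.P244.ST.BDefs
import Vale.Agent.P244.ST.BTools

/-!
# P244-ST, block B : elementary consequences of the structure `IsBub`

Numerical facts on `κ`, elementary bounds for `tanh`, cubic asymptotics of `g` at `0`.
-/

open Set Filter Topology Real
open scoped ContDiff

namespace Vale.Agent.P244.ST.BD.BA

open Vale.Agent.P244.ST.BD Vale.Agent.P244.ST.BD.BT

theorem ba_kap_bounds : 2.11 < kap 40 ∧ kap 40 < 2.12 := by
  have e : ((40 : ℝ) - 1) * (40 - 9) = 1209 := by norm_num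
  have h1 : sqrt 1209 < 34.78 := by
    rw [sqrt_lt' (by norm_num)]; norm_num
  have h2 : 34.76 < sqrt 1209 := by
    rw [lt_sqrt (by norm_num)]; norm_num
  unfold kap
  rw [e]
  constructor <;> linarith only [h1, h2]

theorem ba_kap_sq : kap 40 ^ 2 = 39 * kap 40 - 78 := by
  have e : ((40 : ℝ) - 1) * (40 - 9) = 1209 := by norm_num
  have h1 : sqrt 1209 ^ 2 = 1209 := sq_sqrt (by norm_num)
  unfold kap
  rw [e]
  linear_combination (1 / 4) * h1

theorem ba_kap_pos : 0 < kap 40 := by linarith only [ba_kap_bounds.1]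

theorem ba_tanh_nonneg {u : ℝ} (hu : 0 ≤ u) : 0 ≤ tanh u := by
  rw [tanh_eq_sinh_div_cosh]
  exact div_nonneg (sinh_nonneg_iff.2 hu) (cosh_pos u).le

theorem ba_tanh_pos {u : ℝ} (hu : 0 < u) : 0 < tanh u := by
  rw [tanh_eq_sinh_div_cosh]
  exact div_pos (sinh_pos_iff.2 hu) (cosh_pos u)

theorem ba_tanh_lt_one (u : ℝ) : tanh u < 1 := by
  rw [tanh_eq_sinh_div_cosh, div_lt_one (cosh_pos u)]
  exact sinh_lt_cosh u

theorem ba_tanh_zero : tanh 0 = 0 := by simp

theorem ba_tanh_cont : Continuous tanh := bt_tanh_contDiff (n := 0).continuous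

/-- `tanh u ≤ u` -/
theorem ba_tanh_le {u : ℝ} (hu : 0 ≤ u) : tanh u ≤ u := by
  have hm : MonotoneOn (fun x : ℝ => x - tanh x) (Ici 0) := by
    refine monotoneOn_of_hasDerivWithinAt_nonneg (f' := fun x => tanh x ^ 2) (convex_Ici 0)
      ((continuous_id.sub ba_tanh_cont).continuousOn) ?_ ?_
    · intro x _
      have := ((hasDerivAt_id x).sub (bt_tanh_deriv x)).hasDerivWithinAt
        (s := interior (Ici (0 : ℝ)))
      exact this.congr_deriv (by ring)
    · intro x _; exact sq_nonneg _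
  have := hm (mem_Ici.2 le_rfl) (mem_Ici.2 hu) hu
  simp only [ba_tanh_zero, sub_zero] at this
  linarith only [this]

/-- `u - tanh u ≤ u^3/3` -/
theorem ba_tanh_ge {u : ℝ} (hu : 0 ≤ u) : u - tanh u ≤ u ^ 3 / 3 := by
  have hm : MonotoneOn (fun x : ℝ => x ^ 3 / 3 - (x - tanh x)) (Ici 0) := by
    refine monotoneOn_of_hasDerivWithinAt_nonneg (f' := fun x => x ^ 2 - tanh x ^ 2) (convex_Ici 0)
      ((((continuous_pow 3).div_const 3).sub (continuous_id.sub ba_tanh_cont)).continuousOn) ?_ ?_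
    · intro x _
      have := (((hasDerivAt_pow 3 x).div_const 3).sub
        ((hasDerivAt_id x).sub (bt_tanh_deriv x))).hasDerivWithinAt
        (s := interior (Ici (0 : ℝ)))
      refine this.congr_deriv ?_
      push_cast
      ring
    · intro x hx
      rw [interior_Ici] at hx
      have h1 := ba_tanh_le (le_of_lt hx)
      have h2 := ba_tanh_nonneg (le_of_lt hx)
      nlinarith only [h1, h2]
  have := hm (mem_Ici.2 le_rfl) (mem_Ici.2 hu) hu
  simp only [ba_tanh_zero] at this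
  linarith only [this]

/-- `u ≤ (1+u) tanh u` -/
theorem ba_tanh_lower (u : ℝ) : u ≤ (1 + u) * tanh u := by
  have h1 : tanh u = (exp u - exp (-u)) / (exp u + exp (-u)) := by
    rw [tanh_eq]
  have h2 : 0 < exp u + exp (-u) := by positivity
  rw [h1, mul_div_assoc', le_div_iff₀ h2]
  have h3 : exp u * exp (-u) = 1 := by rw [← exp_add]; simp
  have h4 : 1 + 2 * u ≤ exp u ^ 2 := by
    have := add_one_le_exp (2 * u)
    rw [← exp_nat_mul]
    push_cast
    linarith only [this]
  have h5 : 0 < exp u := exp_pos u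
  have h6 : (1 + 2 * u) * exp (-u) ≤ exp u := by
    have := mul_le_mul_of_nonneg_right h4 (exp_pos (-u)).le
    calc (1 + 2 * u) * exp (-u) ≤ exp u ^ 2 * exp (-u) := this
      _ = exp u * (exp u * exp (-u)) := by ring
      _ = exp u := by rw [h3, mul_one]
  linarith only [h6]

variable {g : ℝ → ℝ}

theorem ba_g_pos (hg : IsBub 40 g) {u : ℝ} (hu : 0 < u) : 0 < g u := by
  have := hg.lower u hu
  linarith only [hu, this, ba_tanh_pos hu]

theorem ba_q_pos (hg : IsBub 40 g) {u : ℝ} (hu : 0 < u) : 38 < qf 40 (g u) := by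
  have h1 := ba_g_pos hg hu
  have h2 := hg.lt_two u hu
  unfold qf
  nlinarith only [h1, h2]

theorem ba_q_le (y : ℝ) : qf 40 y ≤ 39 := by
  unfold qf
  nlinarith only [sq_nonneg y]

theorem ba_gRhs (hg : IsBub 40 g) {u : ℝ} (hu : 0 < u) :
    g u * gRhs 40 u (g u) = qf 40 (g u) * (g u - 2 * tanh u) := by
  unfold gRhs
  have := (ba_g_pos hg hu).ne'
  field_simp

theorem ba_g_lt (hg : IsBub 40 g) {u : ℝ} (hu : 0 < u) : g u < kap 40 * u := by
  have h1 := hg.upper u hu
  have h2 := ba_tanh_le hu.le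
  have h3 := ba_kap_pos
  nlinarith only [h1, h2, h3]

/-- cubic asymptotics of `g`: `0 < κ u - g(u) ≤ C u³` for all `u > 0`. -/
theorem ba_g_cubic (hg : IsBub 40 g) : ∃ C, 0 ≤ C ∧ ∀ u > 0, kap 40 * u - g u ≤ C * u ^ 3 := by
  obtain ⟨C, hC⟩ := hg.near_zero
  have hk := ba_kap_pos
  refine ⟨|C| + kap 40 / 3, by positivity, fun u hu => ?_⟩
  have h1 := hC u hu
  have hT := ba_tanh_pos hu
  have h2 : kap 40 * tanh u - g u ≤ C * tanh u ^ 3 := by
    have := mul_le_mul_of_nonneg_right h1 hT.le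
    have e1 : (kap 40 - g u / tanh u) * tanh u = kap 40 * tanh u - g u := by
      field_simp
    rw [e1] at this
    linarith only [this]
  have h3 : C * tanh u ^ 3 ≤ |C| * u ^ 3 := by
    have h4 : tanh u ^ 3 ≤ u ^ 3 := pow_le_pow_left₀ hT.le (ba_tanh_le hu.le) 3
    calc C * tanh u ^ 3 ≤ |C| * tanh u ^ 3 :=
          mul_le_mul_of_nonneg_right (le_abs_self C) (by positivity)
      _ ≤ |C| * u ^ 3 := mul_le_mul_of_nonneg_left h4 (abs_nonneg _)
  have h5 := mul_le_mul_of_nonneg_left (ba_tanh_ge hu.le) hk.le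
  nlinarith only [h2, h3, h5]

end Vale.Agent.P244.ST.BD.BA
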