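import Vale.Agent.P244.ST.BData

/-! # P244-ST, block B5 : `B2Statement` -/

open Set Filter Topology Real MeasureTheory
open scoped ContDiff

namespace Vale.Agent.P244.ST.BD.BB2

open BConf BData BDict BPre BubG

section time0

variable {q : ST.Par}

theorem tau_zero : ST.tau 0 = 1 := by unfold ST.tau; norm_num

theorem A_zero : q.A 0 = q.eps := by
  unfold ST.Par.A
  rw [tau_zero, Real.one_rpow, mul_one]

theorem T0_zero : q.T0 0 = q.eps * q.rho0 ^ (-(BD.kap 40)) := by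
  unfold ST.Par.T0
  rw [A_zero, kap_eq]

theorem yv_zero (w f : ST.Fn) (x : ℝ) : ST.yv w f 0 x = ST.rr w f 0 x := by
  unfold ST.yv
  rw [tau_zero, Real.sqrt_one, div_one]

theorem exp_rpow (l s : ℝ) : exp l ^ s = exp (s * l) := by
  rw [← Real.exp_mul]; ring_nf

theorem UB_zero (l : ℝ) : q.UB 0 (exp l) =
    q.CU * q.eps * (exp (bex * l) - 300 * exp ((bex - 2) * l)) := by
  unfold ST.Par.UB
  rw [tau_zero, exp_rpow, exp_rpow]
  have : ST.bb = bex := by unfold ST.bb bex; rw [kap_eq]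
  rw [this]
  ring

theorem PB_zero (l : ℝ) : q.PB 0 (exp l) =
    q.CP * q.eps * (exp ((bex - 1) * l) - 300 * exp ((bex - 3) * l)) := by
  unfold ST.Par.PB
  rw [tau_zero, exp_rpow, exp_rpow]
  have : ST.bb = bex := by unfold ST.bb bex; rw [kap_eq]
  rw [this]
  ring

theorem VB_zero (l : ℝ) : q.VB 0 (exp l) =
    q.CV * q.eps * (exp ((bex - 2) * l) - 300 * exp ((bex - 4) * l)) := by
  unfold ST.Par.VB
  rw [tau_zero, exp_rpow, exp_rpow, exp_zero]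
  have : ST.bb = bex := by unfold ST.bb bex; rw [kap_eq]
  rw [this]
  ring

theorem bar_pos {l s : ℝ} (hl : log 25 ≤ l) : 0 < exp (s * l) - 300 * exp ((s - 2) * l) := by
  have h1 : exp (s * l) = exp ((s - 2) * l) * exp (2 * l) := by
    rw [← exp_add]; ring_nf
  have h2 : (625 : ℝ) ≤ exp (2 * l) := by
    have h3 : exp (2 * log 25) = 625 := by
      rw [two_mul, exp_add, exp_log (by norm_num)]; norm_num
    rw [← h3]
    exact Real.exp_le_exp.2 (by linarith only [hl])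
  rw [h1]
  have := exp_pos ((s - 2) * l)
  nlinarith only [h2, this]

end time0

/-- Pointwise inequalities at `x ∈ (0,1)`. -/
theorem boot_at {q : ST.Par} {g Φ w f lx u N Z : ℝ → ℝ} {β M : ℝ} (hr0 : 0 < q.rho0)
    (hN : 0 < q.N) (heps : 0 < q.eps) (hGR : 0 ≤ q.GR)
    (hMU : M ≤ q.MU) (hMP : M ≤ q.MP) (hMV : M ≤ q.MV) (hCU : M ≤ q.CU) (hCP : M ≤ q.CP)
    (hCV : M ≤ q.CV)
    (hD : RData w f lx u N Z (log q.N))
    (hB : Boot0 (oddExt g) Φ q.B q.BV M β q.rho0 q.N q.eps (log q.N) u Z)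
    {x : ℝ} (hx : x ∈ Ioo (0 : ℝ) 1) :
    ST.BootAtS q g (fun _ => w) (fun _ => f) 0 x := by
  have hl := hD.lx_lt x hx
  set l := lx x with hl_def
  have hrr : ST.rr (fun _ => w) (fun _ => f) 0 x = exp l := rr_eq hD hx
  have hyv : ST.yv (fun _ => w) (fun _ => f) 0 x = exp l := by rw [yv_zero, hrr]
  have huu : ST.uu (fun _ => w) (fun _ => f) 0 x = u l := uu_eq hD hx
  have hVV : ST.VV (fun _ => w) (fun _ => f) 0 x = r2V u Z l * exp (-2 * l) := by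
    rw [VV_eq hD hx, ← hl_def]
    unfold r2V
    rw [mul_comm]
    congr 2
    ring
  have hRR : ST.RR (fun _ => w) (fun _ => f) 0 x = r2R u Z l * exp (-2 * l) := by
    rw [RR_eq hD hx, ← hl_def]
    unfold r2R
    rw [mul_comm]
    congr 2
    ring
  have hPP : ST.PP (fun _ => w) (fun _ => f) 0 x = sqrt (Z l) * deriv u l * exp (-l) := by
    rw [PP_eq hD hx, S_eq hD (hD.lx_lt x hx)]
    ring
  have e1 : (0 : ℝ) < exp (-2 * l) := exp_pos _
  have e2 : (0 : ℝ) < exp (-l) := exp_pos _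
  have hVa : |r2V u Z l * exp (-2 * l)| = |r2V u Z l| * exp (-2 * l) := by
    rw [abs_mul, abs_of_pos e1]
  have hPa : |sqrt (Z l) * deriv u l * exp (-l)| = |sqrt (Z l) * deriv u l| * exp (-l) := by
    rw [abs_mul, abs_of_pos e2]
  have le1 : exp l ≤ q.rho0 → l ≤ log q.rho0 := fun h => by
    rw [← Real.log_exp l]
    exact Real.log_le_log (exp_pos _) h
  have a1 : ST.aa = 1 / 20 := rfl
  refine ⟨?_, ?_, ?_, ?_, ?_⟩
  · intro _ hy
    rw [hyv] at hy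
    have h1 := le1 hy
    have hu := hB.b1u l h1
    rw [huu]
    refine ⟨hu, ?_⟩
    have h2 := hB.b1f l h1
    have h3 : ST.ff g (fun _ => w) (fun _ => f) 0 x = fq (oddExt g) u l := by
      rw [ff_eq hD g hx]
      unfold fq
      rw [← hl_def, oddExt_pos hu]
    rw [h3]
    unfold ST.Par.fb
    rw [tau_zero, T0_zero, div_one, a1]
    convert h2 using 3
    norm_num
  · intro _ hy
    rw [hyv] at hy
    have h1 := le1 hy
    have h2 := hB.b2 l h1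
    rw [huu, hVV, hVa]
    unfold ST.Par.Vb
    rw [tau_zero, T0_zero, div_one, a1]
    exact h2
  · have h2 := hB.b3 l hl
    rw [hRR, hrr, huu]
    refine lt_of_lt_of_le h2 ?_
    unfold ST.Par.RB ST.Par.eta
    have h3 : (0:ℝ) < 10 ^ 4 / q.N ^ 2 := by positivity
    have h4 : (5 * 10 ^ 3 / q.N ^ 2 : ℝ) = (10 ^ 4 / q.N ^ 2) / 2 := by ring
    have h5 : 0 ≤ cosh (u l) - 1 := by linarith only [Real.one_le_cosh (u l)]
    have h6 : 0 ≤ q.GR * exp l ^ 2 * (cosh (u l) - 1) * q.eps ^ (-(2 * ST.aa))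
        * (ST.tau 0 + exp l ^ 2 / 100) ^ (-ST.gam) := by
      rw [tau_zero]
      positivity
    rw [h4]
    linarith only [h3, h6]
  · intro hy1 hy2
    rw [hyv] at hy1 hy2
    have h1 : log q.rho0 ≤ l := by
      rw [← Real.log_exp l]
      exact Real.log_le_log hr0 hy1
    have h2 : l ≤ log 25 := by
      rw [← Real.log_exp l]
      exact Real.log_le_log (exp_pos _) hy2
    have h3 : l ∈ Icc (log (q.rho0 / 16)) (log 400) := by
      refine ⟨le_trans (Real.log_le_log (by positivity) (by linarith only [hr0])) h1, ?_⟩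
      exact h2.trans (Real.log_le_log (by norm_num) (by norm_num))
    rw [A_zero, tau_zero, Real.sqrt_one, div_one, div_one, huu, hPP, hVV, hVa, hPa]
    exact ⟨lt_of_lt_of_le (hB.b4u l h3) (by gcongr), lt_of_lt_of_le (hB.b4P l h3) (by gcongr),
      lt_of_lt_of_le (hB.b4V l h3) (by gcongr)⟩
  · intro hy
    rw [hyv] at hy
    have h1 : log 25 ≤ l := by
      rw [← Real.log_exp l]
      exact Real.log_le_log (by norm_num) hy
    rw [hrr, UB_zero, PB_zero, VB_zero, huu, hPP, hVV, hVa, hPa]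
    have p0 := (bar_pos (s := bex) h1).le
    have p1 := (bar_pos (s := bex - 1) h1).le
    have p2 := (bar_pos (s := bex - 2) h1).le
    have r1 : bex - 1 - 2 = bex - 3 := by ring
    have r2 : bex - 2 - 2 = bex - 4 := by ring
    rw [r1] at p1
    rw [r2] at p2
    refine ⟨lt_of_lt_of_le (hB.b5u l h1 hl.le) ?_, lt_of_lt_of_le (hB.b5P l h1 hl) ?_,
      lt_of_lt_of_le (hB.b5V l h1 hl) ?_⟩
    · exact mul_le_mul_of_nonneg_right (mul_le_mul_of_nonneg_right hCU heps.le) p0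
    · exact mul_le_mul_of_nonneg_right (mul_le_mul_of_nonneg_right hCP heps.le) p1
    · exact mul_le_mul_of_nonneg_right (mul_le_mul_of_nonneg_right hCV heps.le) p2

/-- The values at the equator. -/
theorem at_zero {g : ℝ → ℝ} {d : IPar} (hg : IsBub 40 g) (hd : d.Ok g)
    {w0 f0 : (Fin 3 → ℝ) → ℝ → ℝ} {lx : ℝ → ℝ} (hI : d.IsInit g w0 f0 lx) (b : Fin 3 → ℝ) :
    ST.uu (fun _ => w0 b) (fun _ => f0 b) 0 0 = 0 ∧
    ST.rr (fun _ => w0 b) (fun _ => f0 b) 0 0 = exp d.L ∧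
    ST.PP (fun _ => w0 b) (fun _ => f0 b) 0 0 = 0 ∧
    ST.VV (fun _ => w0 b) (fun _ => f0 b) 0 0 = 0 ∧
    ST.RR (fun _ => w0 b) (fun _ => f0 b) 0 0 = exp (-(2 * d.L)) * 1640 := by
  have hD := rdata hg hd hI b
  have hsub : Ioo (-1 : ℝ) 1 ⊆ Icc (-1) 1 := Ioo_subset_Icc_self
  have hw := (hI.data b).smooth_w.mono hsub
  have hf := (hI.data b).smooth_f.mono hsub
  have hlx : Tendsto lx (𝓝[>] 0) (𝓝 d.L) := by
    have h1 : ContinuousAt lx 0 :=
      hI.lx_smooth.continuousOn.continuousAt (Ioo_mem_nhds (by norm_num) (by norm_num))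
    have h2 := h1.tendsto
    rw [hI.lx_zero] at h2
    exact h2.mono_left nhdsWithin_le_nhds
  have hZ := Z_smooth hg hd b d.L
  have hu0 : ∀ᶠ l in 𝓝 d.L, d.u b l = 0 := by
    have := hd.l1L
    filter_upwards [Ioi_mem_nhds this] with y hy
    exact u_outer hd b (le_of_lt hy)
  have hu0' : d.u b =ᶠ[𝓝 d.L] fun _ => 0 := hu0
  have hu1' : deriv (d.u b) =ᶠ[𝓝 d.L] fun _ => 0 := by
    have h1 := hu0'.deriv
    refine h1.trans ?_
    filter_upwards with y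
    simp
  have uL : d.u b d.L = 0 := hu0'.self_of_nhds
  have u1 : deriv (d.u b) d.L = 0 := hu1'.self_of_nhds
  have u2 : deriv (deriv (d.u b)) d.L = 0 := by
    rw [hu1'.deriv_eq]
    simp
  have hl0L : d.l0 < d.L := by
    have h2 : 0 < log 2 := log_pos (by norm_num)
    have := hd.l0b
    have := hd.lb1
    have := hd.l1L
    linarith
  have ZL : d.Z g b d.L = 0 := by
    rw [Z_outer b hl0L.le, sub_self, mul_zero, exp_zero, sub_self, mul_zero]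
  have hZe : d.Z g b =ᶠ[𝓝 d.L] fun l => 1 - exp (2 * (l - d.L)) := by
    filter_upwards [hu0, Ioi_mem_nhds hl0L] with y hy hy2
    rw [Z_outer b (le_of_lt hy2), hy, exp_zero, one_mul]
  have Z1 : deriv (d.Z g b) d.L = -2 := by
    rw [hZe.deriv_eq]
    have h1 : HasDerivAt (fun l => 1 - exp (2 * (l - d.L))) (-(exp (2 * (d.L - d.L)) * (2 * 1)))
        d.L := by
      have h2 : HasDerivAt (fun l => 2 * (l - d.L)) (2 * 1) d.L :=
        ((hasDerivAt_id d.L).sub_const d.L).const_mul 2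
      exact h2.exp.const_sub 1
    rw [h1.deriv]
    simp
  refine ⟨?_, ?_, ?_, ?_, ?_⟩
  · rw [uu_zero hD hw hf hlx, uL]
  · exact rr_zero hD hw hf hlx
  · rw [PP_zero hD hw hf hlx hZ, u1, zero_mul]
  · rw [VV_zero hD hw hf hlx hZ, uL, u1, u2]
    simp
  · rw [RR_zero hD hw hf hlx hZ, uL, u1, ZL, Z1]
    rw [Real.cosh_zero]
    ring

/-- Value of `u` for `r ∈ [2 rb, 2 √N]`. -/
theorem u_mid {Y : ℝ → ℝ} {rb ρ0 N ε sg : ℝ} (hρ : 0 < ρ0) (hrb : 0 < rb)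
    (hN : 0 < N) (b : Fin 3 → ℝ) {y : ℝ} (hy1 : 2 * rb ≤ y) (hy2 : y ≤ 2 * sqrt N) :
    (stdPar cfL Y rb ρ0 N ε).u (sg • b) (log y) = ε * vb ρ0 sg b y := by
  have hy : 0 < y := by linarith only [hrb, hy1]
  have h1 : cut (log rb) (log y) = 1 := by
    apply cut_one
    rw [← Real.log_mul hrb.ne' (by norm_num)]
    exact Real.log_le_log (by positivity) (by linarith only [hy1])
  have h2 : cutO (log N / 2 + log 2) (log y) = 1 := by
    unfold cutO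
    rw [cut_zero, sub_zero]
    have h3 : log N / 2 + log 2 = log (2 * sqrt N) := by
      rw [Real.log_mul (by norm_num) (Real.sqrt_pos.2 hN).ne', Real.log_sqrt hN.le]
      ring
    rw [h3]
    exact Real.log_le_log hy hy2
  have h3 : cut (log ρ0) (log y) = smoothTransition (log (y / ρ0) / log 2) := by
    unfold cut
    rw [Real.log_div hy.ne' hρ.ne']
  unfold IPar.u IPar.uS IPar.uB vb
  simp only [stdPar]
  rw [h1, h2, h3, Pcf_eq, exp_log hy]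
  have h4 : ∑ i : Fin 3, (sg • b) i * Pcf cfL i.val (log y) =
      sg * ∑ j : Fin 3, b j * ST.ph j y := by
    rw [Finset.mul_sum]
    refine Finset.sum_congr rfl fun i _ => ?_
    rw [Pcf_eq, exp_log hy, Pi.smul_apply, smul_eq_mul]
    ring
  rw [h4]
  ring

theorem stp_zero {z : ℝ} (hz : z ≤ 1) : ST.stp z = 0 :=
  smoothTransition.zero_of_nonpos (by linarith only [hz])

theorem stp_one {z : ℝ} (hz : 2 ≤ z) : ST.stp z = 1 :=
  smoothTransition.one_of_one_le (by linarith only [hz])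

theorem stp_cont : Continuous ST.stp := by
  unfold ST.stp
  exact smoothTransition.continuous.comp (continuous_id.sub continuous_const)

theorem chi_zero (q : ST.Par) (y : ℝ) : ST.chi q 0 y = ch0 q.d0 q.N y := by
  unfold ST.chi ch0
  rw [tau_zero, Real.one_rpow, mul_one, Real.sqrt_one, one_mul]

theorem ph_cont (i : ℕ) : ContinuousOn (ST.ph i) (Ioi 0) := by
  unfold ST.ph ST.ll
  apply ContinuousOn.mul
  · intro y hy
    exact (Real.continuousAt_rpow_const y _ (Or.inl (ne_of_gt hy))).continuousWithinAt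
  · apply Continuous.continuousOn
    fun_prop

theorem Wt_cont : Continuous ST.Wt := by
  unfold ST.Wt
  fun_prop

/-- Change of variables for a function supported in `[d0, 2√N]`. -/
theorem chg_apply (hC : ChgStatement) {g : ℝ → ℝ} {d : IPar} (hg : IsBub 40 g) (hd : d.Ok g)
    {w0 f0 : (Fin 3 → ℝ) → ℝ → ℝ} {lx : ℝ → ℝ} (hI : d.IsInit g w0 f0 lx) (b : Fin 3 → ℝ)
    (H : ℝ → ℝ → ℝ) (F : ℝ → ℝ) (a : ℝ) (ha : 0 < a) (hF : ContinuousOn F (Ioi 0))
    (h0 : ∀ y ≤ a, F y = 0) (h1 : ∀ y ≥ exp d.L, F y = 0)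
    (hHF : ∀ x ∈ Ioo (0 : ℝ) 1, H (exp (lx x)) (d.u b (lx x)) = F (exp (lx x))) :
    ∫ x in (0 : ℝ)..1, H (ST.yv (fun _ => w0 b) (fun _ => f0 b) 0 x)
        (ST.uu (fun _ => w0 b) (fun _ => f0 b) 0 x) *
        (-(deriv (ST.yv (fun _ => w0 b) (fun _ => f0 b) 0) x)) =
      ∫ y in Ioi (0 : ℝ), F y := by
  have hD := rdata hg hd hI b
  have hyv : ∀ x ∈ Ioo (0:ℝ) 1, ST.yv (fun _ => w0 b) (fun _ => f0 b) 0 x = exp (lx x) := by
    intro x hx
    rw [yv_zero]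
    exact rr_eq hD hx
  have hsm : ∀ x ∈ Ioo (0:ℝ) 1, ContDiffAt ℝ ∞ lx x := fun x hx =>
    hI.lx_smooth.contDiffAt (Ioo_mem_nhds (by linarith only [hx, hx.1]) hx.2)
  have hc0 : ContinuousOn lx (Ico 0 1) :=
    hI.lx_smooth.continuousOn.mono fun x hx => ⟨by linarith only [hx, hx.1], hx.2⟩
  have hanti : StrictAntiOn lx (Ico 0 1) := by
    apply strictAntiOn_of_deriv_neg (convex_Ico 0 1) hc0
    intro x hx
    rw [interior_Ico] at hx
    rw [(hI.lx_deriv x hx).deriv]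
    have h2 := N_pos hg hd (hI.lx_lt x hx)
    have h3 : 0 < 1 - x ^ 2 := by nlinarith only [hx, hx.1, hx.2]
    exact div_neg_of_neg_of_pos (by linarith only [h2]) h3
  have hder : ContinuousOn (deriv lx) (Ioo 0 1) := by
    have h2 : ContDiffOn ℝ ∞ lx (Ioo 0 1) := fun x hx => (hsm x hx).contDiffWithinAt
    rw [contDiffOn_infty_iff_deriv_of_isOpen isOpen_Ioo] at h2
    exact h2.2.continuousOn
  rw [← hC lx d.L (fun x hx => (hsm x hx).differentiableAt (by simp)) hc0 hI.lx_zero hanti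
    hI.lx_top F a ha hF h0 h1 hder]
  apply intervalIntegral.integral_congr_ae
  have hne : ∀ᵐ x ∂(volume : Measure ℝ), x ≠ 1 := by
    simp [ae_iff, measure_singleton]
  filter_upwards [hne] with x hx1 hx
  rw [uIoc_of_le zero_le_one] at hx
  have hx' : x ∈ Ioo (0:ℝ) 1 := ⟨hx.1, lt_of_le_of_ne hx.2 hx1⟩
  have hd' : deriv (ST.yv (fun _ => w0 b) (fun _ => f0 b) 0) x = deriv (fun x => exp (lx x)) x := by
    apply Filter.EventuallyEq.deriv_eq
    filter_upwards [Ioo_mem_nhds hx'.1 hx'.2] with y hy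
    exact hyv y hy
  rw [hd', hyv x hx', uu_eq hD hx', hHF x hx']

theorem ch0_small {d0 N y : ℝ} (hd : 0 < d0) (hy : y ≤ d0) : ch0 d0 N y = 0 := by
  unfold ch0
  rw [stp_zero ((div_le_one hd).2 hy), zero_mul]

theorem ch0_large {d0 N y : ℝ} (hN : 0 < N) (hy : 2 * sqrt N ≤ y) : ch0 d0 N y = 0 := by
  unfold ch0
  rw [stp_one (z := y / sqrt N) ((le_div_iff₀ (Real.sqrt_pos.2 hN)).2 hy), sub_self, mul_zero]

theorem ch0_cont (d0 N : ℝ) : Continuous (ch0 d0 N) := by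
  unfold ch0
  exact (stp_cont.comp (continuous_id.div_const _)).mul
    (continuous_const.sub (stp_cont.comp (continuous_id.div_const _)))

section modes

variable {q : ST.Par} {g : ℝ → ℝ} {Y : ℝ → ℝ} {b : Fin 3 → ℝ}
  {w0 f0 : (Fin 3 → ℝ) → ℝ → ℝ} {lx : ℝ → ℝ}

/-- The modes of the data. -/
theorem gami_eq (hC : ChgStatement) (hg : IsBub 40 g)
    (hd : (stdPar cfL Y q.rb q.rho0 q.N q.eps).Ok g)
    (hI : (stdPar cfL Y q.rb q.rho0 q.N q.eps).IsInit g w0 f0 lx)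
    (hρ : 0 < q.rho0) (hrb : 0 < q.rb) (hd0 : 2 * q.rb ≤ q.d0) (hN : 4 ≤ q.N) (i : ℕ) :
    ST.gami q (fun _ => w0 (q.sg • b)) (fun _ => f0 (q.sg • b)) i 0 =
      (∫ y in Ioi (0 : ℝ), ch0 q.d0 q.N y * vb q.rho0 q.sg b y * ST.ph i y * ST.Wt y)
        / ST.nph i := by
  have he : 0 < q.eps := hd.eps
  have hN0 : 0 < q.N := by linarith only [hN]
  have hd00 : 0 < q.d0 := by linarith only [hrb, hd0]
  have hL : exp (stdPar cfL Y q.rb q.rho0 q.N q.eps).L = q.N := exp_log hN0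
  have hsq : 2 * sqrt q.N ≤ q.N := by
    have h1 : 2 ≤ sqrt q.N := by
      rw [show (2:ℝ) = sqrt 4 by rw [show (4:ℝ) = 2 ^ 2 by norm_num, Real.sqrt_sq (by norm_num)]]
      exact Real.sqrt_le_sqrt hN
    nlinarith only [hN, hN0, h1, Real.mul_self_sqrt hN0.le]
  have hu := u_smooth1 hd (q.sg • b)
  have hcu : ContinuousOn (fun y =>
      (stdPar cfL Y q.rb q.rho0 q.N q.eps).u (q.sg • b) (log y)) (Ioi 0) :=
    hu.continuous.comp_continuousOn
      (Real.continuousOn_log.mono fun y hy => ne_of_gt hy)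
  have key := chg_apply hC hg hd hI (q.sg • b)
    (fun y u => ch0 q.d0 q.N y * u * ST.ph i y * ST.Wt y)
    (fun y => ch0 q.d0 q.N y * (stdPar cfL Y q.rb q.rho0 q.N q.eps).u (q.sg • b) (log y) *
      ST.ph i y * ST.Wt y) q.d0 hd00
    ((((ch0_cont _ _).continuousOn.mul hcu).mul (ph_cont i)).mul Wt_cont.continuousOn)
    (fun y hy => by rw [ch0_small hd00 hy]; ring)
    (fun y hy => by
      rw [hL] at hy
      rw [ch0_large hN0 (hsq.trans hy)]; ring)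
    (fun x _ => by simp only [Real.log_exp])
  unfold ST.gami
  rw [A_zero]
  simp only [chi_zero]
  rw [key]
  have h3 : ∫ y in Ioi (0:ℝ), ch0 q.d0 q.N y *
      (stdPar cfL Y q.rb q.rho0 q.N q.eps).u (q.sg • b) (log y) * ST.ph i y * ST.Wt y =
      q.eps * ∫ y in Ioi (0 : ℝ), ch0 q.d0 q.N y * vb q.rho0 q.sg b y * ST.ph i y * ST.Wt y := by
    rw [← integral_const_mul]
    apply setIntegral_congr_fun measurableSet_Ioi
    intro y _
    simp only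
    rcases le_or_gt y q.d0 with h | h
    · rw [ch0_small hd00 h]; ring
    rcases le_or_gt y (2 * sqrt q.N) with h' | h'
    · rw [u_mid hρ hrb hN0 b (by linarith only [hd0, h]) h']; ring
    · rw [ch0_large hN0 h'.le]; ring
  rw [h3]
  rw [mul_div_mul_left _ _ he.ne']

/-- The norm of the data. -/
theorem nrmU_eq (hC : ChgStatement) (hg : IsBub 40 g)
    (hd : (stdPar cfL Y q.rb q.rho0 q.N q.eps).Ok g)
    (hI : (stdPar cfL Y q.rb q.rho0 q.N q.eps).IsInit g w0 f0 lx)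
    (hρ : 0 < q.rho0) (hrb : 0 < q.rb) (hd0 : 2 * q.rb ≤ q.d0) (hN : 4 ≤ q.N) :
    ST.nrmU q (fun _ => w0 (q.sg • b)) (fun _ => f0 (q.sg • b)) 0 =
      ∫ y in Ioi (0 : ℝ), (ch0 q.d0 q.N y * vb q.rho0 q.sg b y) ^ 2 * ST.Wt y := by
  have he : 0 < q.eps := hd.eps
  have hN0 : 0 < q.N := by linarith only [hN]
  have hd00 : 0 < q.d0 := by linarith only [hrb, hd0]
  have hL : exp (stdPar cfL Y q.rb q.rho0 q.N q.eps).L = q.N := exp_log hN0
  have hsq : 2 * sqrt q.N ≤ q.N := by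
    have h1 : 2 ≤ sqrt q.N := by
      rw [show (2:ℝ) = sqrt 4 by rw [show (4:ℝ) = 2 ^ 2 by norm_num, Real.sqrt_sq (by norm_num)]]
      exact Real.sqrt_le_sqrt hN
    nlinarith only [hN, hN0, h1, Real.mul_self_sqrt hN0.le]
  have hu := u_smooth1 hd (q.sg • b)
  have hcu : ContinuousOn (fun y =>
      (stdPar cfL Y q.rb q.rho0 q.N q.eps).u (q.sg • b) (log y)) (Ioi 0) :=
    hu.continuous.comp_continuousOn
      (Real.continuousOn_log.mono fun y hy => ne_of_gt hy)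
  have key := chg_apply hC hg hd hI (q.sg • b)
    (fun y u => (ch0 q.d0 q.N y * u) ^ 2 * ST.Wt y)
    (fun y => (ch0 q.d0 q.N y *
      (stdPar cfL Y q.rb q.rho0 q.N q.eps).u (q.sg • b) (log y)) ^ 2 * ST.Wt y) q.d0 hd00
    ((((ch0_cont _ _).continuousOn.mul hcu).pow 2).mul Wt_cont.continuousOn)
    (fun y hy => by rw [ch0_small hd00 hy]; ring)
    (fun y hy => by
      rw [hL] at hy
      rw [ch0_large hN0 (hsq.trans hy)]; ring)
    (fun x _ => by simp only [Real.log_exp])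
  unfold ST.nrmU
  rw [A_zero]
  simp only [chi_zero]
  rw [key]
  have h3 : ∫ y in Ioi (0:ℝ), (ch0 q.d0 q.N y *
      (stdPar cfL Y q.rb q.rho0 q.N q.eps).u (q.sg • b) (log y)) ^ 2 * ST.Wt y =
      q.eps ^ 2 * ∫ y in Ioi (0 : ℝ), (ch0 q.d0 q.N y * vb q.rho0 q.sg b y) ^ 2 * ST.Wt y := by
    rw [← integral_const_mul]
    apply setIntegral_congr_fun measurableSet_Ioi
    intro y _
    simp only
    rcases le_or_gt y q.d0 with h | h
    · rw [ch0_small hd00 h]; ring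
    rcases le_or_gt y (2 * sqrt q.N) with h' | h'
    · rw [u_mid hρ hrb hN0 b (by linarith only [hd0, h]) h']; ring
    · rw [ch0_large hN0 h'.le]; ring
  rw [h3, mul_div_cancel_left₀ _ (by positivity)]

end modes

/-- All hypotheses (parameters and data). -/
structure Ctx (q : ST.Par) (g : ℝ → ℝ) (Y : ℝ → ℝ) (b : Fin 3 → ℝ)
    (w0 f0 : (Fin 3 → ℝ) → ℝ → ℝ) (lx : ℝ → ℝ) (M : ℝ) : Prop where
  hM1 : 1 ≤ M
  hg : IsBub 40 (oddExt g)
  hd : (stdPar cfL Y q.rb q.rho0 q.N q.eps).Ok (oddExt g)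
  hI : (stdPar cfL Y q.rb q.rho0 q.N q.eps).IsInit (oddExt g) w0 f0 lx
  hρ : 0 < q.rho0
  hρ1 : q.rho0 ≤ 1
  hrb : 0 < q.rb
  hrb' : q.rb ≤ q.rho0 / 64
  hd0 : 2 * q.rb ≤ q.d0
  hN : 26 ≤ q.N
  hBV : 2 * M ≤ q.BV
  hGR : 0 ≤ q.GR
  hMU : M ≤ q.MU
  hMP : M ≤ q.MP
  hMV : M ≤ q.MV
  hCU : M ≤ q.CU
  hCP : M ≤ q.CP
  hCV : M ≤ q.CV
  hsg : 0 < q.sg
  hsg1 : 64 * M * sqrt q.sg ≤ q.rho0
  heps : q.eps * M ≤ 1
  hB : Boot0 (oddExt g) (Pcf cfL 3) q.B q.BV M (2 * q.sg) q.rho0 q.N q.eps (log q.N)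
      ((stdPar cfL Y q.rb q.rho0 q.N q.eps).u (q.sg • b))
      ((stdPar cfL Y q.rb q.rho0 q.N q.eps).Z (oddExt g) (q.sg • b))

namespace Ctx

variable {q : ST.Par} {g : ℝ → ℝ} {Y : ℝ → ℝ} {b : Fin 3 → ℝ}
    {w0 f0 : (Fin 3 → ℝ) → ℝ → ℝ} {lx : ℝ → ℝ} {M : ℝ} (c : Ctx q g Y b w0 f0 lx M)
include c

theorem rd : RData (w0 (q.sg • b)) (f0 (q.sg • b)) lx
    ((stdPar cfL Y q.rb q.rho0 q.N q.eps).u (q.sg • b))
    ((stdPar cfL Y q.rb q.rho0 q.N q.eps).N (oddExt g))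
    ((stdPar cfL Y q.rb q.rho0 q.N q.eps).Z (oddExt g) (q.sg • b)) (log q.N) :=
  rdata c.hg c.hd c.hI (q.sg • b)

theorem N0 : 0 < q.N := by linarith only [c, c.hN]

theorem e0 : 0 < q.eps := c.hd.eps

theorem zeros :
    ST.uu (fun _ => w0 (q.sg • b)) (fun _ => f0 (q.sg • b)) 0 0 = 0 ∧
    ST.rr (fun _ => w0 (q.sg • b)) (fun _ => f0 (q.sg • b)) 0 0 = q.N ∧
    ST.PP (fun _ => w0 (q.sg • b)) (fun _ => f0 (q.sg • b)) 0 0 = 0 ∧
    ST.VV (fun _ => w0 (q.sg • b)) (fun _ => f0 (q.sg • b)) 0 0 = 0 ∧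
    ST.RR (fun _ => w0 (q.sg • b)) (fun _ => f0 (q.sg • b)) 0 0 = 1640 / q.N ^ 2 := by
  obtain ⟨z1, z2, z3, z4, z5⟩ := at_zero c.hg c.hd c.hI (q.sg • b)
  have hL : (stdPar cfL Y q.rb q.rho0 q.N q.eps).L = log q.N := rfl
  rw [hL] at z2 z5
  rw [exp_log c.N0] at z2
  refine ⟨z1, z2, z3, z4, ?_⟩
  rw [z5, Real.exp_neg, two_mul, exp_add, exp_log c.N0]
  have := c.N0
  field_simp

theorem RRx {x : ℝ} (hx : x ∈ Ioo (0:ℝ) 1) :
    ST.RR (fun _ => w0 (q.sg • b)) (fun _ => f0 (q.sg • b)) 0 x =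
      r2R ((stdPar cfL Y q.rb q.rho0 q.N q.eps).u (q.sg • b))
        ((stdPar cfL Y q.rb q.rho0 q.N q.eps).Z (oddExt g) (q.sg • b)) (lx x) *
        exp (-2 * lx x) := by
  rw [RR_eq c.rd hx]
  unfold r2R
  rw [mul_comm]
  congr 2
  ring

theorem VVx {x : ℝ} (hx : x ∈ Ioo (0:ℝ) 1) :
    ST.VV (fun _ => w0 (q.sg • b)) (fun _ => f0 (q.sg • b)) 0 x =
      r2V ((stdPar cfL Y q.rb q.rho0 q.N q.eps).u (q.sg • b))
        ((stdPar cfL Y q.rb q.rho0 q.N q.eps).Z (oddExt g) (q.sg • b)) (lx x) *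
        exp (-2 * lx x) := by
  rw [VV_eq c.rd hx]
  unfold r2V
  rw [mul_comm]
  congr 2
  ring

theorem reg {x : ℝ} (h1 : q.rho0 / 16 ≤ exp (lx x)) (h2 : exp (lx x) ≤ 400) :
    lx x ∈ Icc (log (q.rho0 / 16)) (log 400) := by
  have := c.hρ
  constructor
  · rw [← Real.log_exp (lx x)]
    exact Real.log_le_log (by positivity) h1
  · rw [← Real.log_exp (lx x)]
    exact Real.log_le_log (exp_pos _) h2

theorem R_nonneg : ∀ x ∈ Ico (0 : ℝ) 1,
    0 ≤ ST.RR (fun _ => w0 (q.sg • b)) (fun _ => f0 (q.sg • b)) 0 x := by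
  intro x hx
  rcases eq_or_lt_of_le hx.1 with h | h
  · rw [← h, c.zeros.2.2.2.2]
    have := c.N0
    positivity
  · rw [c.RRx ⟨h, hx.2⟩]
    exact mul_nonneg (c.hB.Rnn _ (c.rd.lx_lt x ⟨h, hx.2⟩)) (exp_pos _).le

theorem G_lt : ∀ x ∈ Ioo (0 : ℝ) 1,
    |ST.GG (fun _ => w0 (q.sg • b)) (fun _ => f0 (q.sg • b)) 0 x| < 2 := by
  intro x hx
  rw [GG_eq c.rd hx, abs_neg]
  exact c.hB.Gle _ (c.rd.lx_lt x hx)

theorem boot_zero : ST.BootAtS q g (fun _ => w0 (q.sg • b)) (fun _ => f0 (q.sg • b)) 0 0 := by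
  obtain ⟨z1, z2, z3, z4, z5'⟩ := c.zeros
  have hN0 := c.N0
  have hN := c.hN
  have he := c.e0
  have hy : ST.yv (fun _ => w0 (q.sg • b)) (fun _ => f0 (q.sg • b)) 0 0 = q.N := by
    rw [yv_zero, z2]
  refine ⟨fun h => absurd h (lt_irrefl _), fun h => absurd h (lt_irrefl _), ?_, ?_, ?_⟩
  · rw [z5', z1, z2]
    unfold ST.Par.RB ST.Par.eta
    rw [Real.cosh_zero, tau_zero, sub_self, mul_zero, zero_mul, zero_mul, add_zero, add_zero,
      mul_one]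
    exact div_lt_div_of_pos_right (by norm_num) (by positivity)
  · intro _ h2
    rw [hy] at h2
    linarith only [hN, h2]
  · intro _
    have hl : log 25 ≤ log q.N := Real.log_le_log (by norm_num) (by linarith only [hN])
    have p0 := (bar_pos (s := bex) hl)
    have p1 := (bar_pos (s := bex - 1) hl)
    have p2 := (bar_pos (s := bex - 2) hl)
    have r1 : bex - 1 - 2 = bex - 3 := by ring
    have r2 : bex - 2 - 2 = bex - 4 := by ring
    rw [r1] at p1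
    rw [r2] at p2
    rw [z1, z2, z3, z4, abs_zero]
    have e : q.N = exp (log q.N) := (exp_log hN0).symm
    have hM1 := c.hM1
    have c1 : 0 < q.CU := by linarith only [c, hM1, c.hCU]
    have c2 : 0 < q.CP := by linarith only [c, hM1, c.hCP]
    have c3 : 0 < q.CV := by linarith only [c, hM1, c.hCV]
    have u1 := UB_zero (q := q) (log q.N)
    have u2 := PB_zero (q := q) (log q.N)
    have u3 := VB_zero (q := q) (log q.N)
    rw [← e] at u1 u2 u3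
    rw [u1, u2, u3]
    exact ⟨mul_pos (mul_pos c1 he) p0, mul_pos (mul_pos c2 he) p1, mul_pos (mul_pos c3 he) p2⟩

theorem boot : ∀ x ∈ Ico (0 : ℝ) 1,
    ST.BootAtS q g (fun _ => w0 (q.sg • b)) (fun _ => f0 (q.sg • b)) 0 x := by
  intro x hx
  rcases eq_or_lt_of_le hx.1 with h | h
  · rw [← h]
    exact c.boot_zero
  · exact boot_at c.hρ c.N0 c.e0 c.hGR c.hMU c.hMP c.hMV c.hCU c.hCP c.hCV c.rd c.hB ⟨h, hx.2⟩

theorem close_u : ∀ x ∈ Ioo (0 : ℝ) 1,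
    q.rho0 / 16 ≤ ST.rr (fun _ => w0 (q.sg • b)) (fun _ => f0 (q.sg • b)) 0 x →
    ST.rr (fun _ => w0 (q.sg • b)) (fun _ => f0 (q.sg • b)) 0 x ≤ 400 →
    |ST.uu (fun _ => w0 (q.sg • b)) (fun _ => f0 (q.sg • b)) 0 x -
      q.eps * ST.Ph 3 0 (ST.rr (fun _ => w0 (q.sg • b)) (fun _ => f0 (q.sg • b)) 0 x)|
      ≤ Real.sqrt q.sg * q.eps := by
  intro x hx h1 h2
  have hD := c.rd
  have hsq : 0 < sqrt q.sg := Real.sqrt_pos.2 c.hsg
  have hsq2 : sqrt q.sg * sqrt q.sg = q.sg := Real.mul_self_sqrt c.hsg.le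
  rw [rr_eq hD hx] at h1 h2 ⊢
  rw [uu_eq hD hx, Ph_zero, ← Pcf_eq]
  refine (c.hB.b4v _ (c.reg h1 h2)).trans ?_
  have h3 := c.hsg1
  have h4 := c.hρ1
  have h5 : 2 * M * sqrt q.sg ≤ 1 := by
    have : 0 ≤ M * sqrt q.sg := mul_nonneg (by linarith only [c, c.hM1]) hsq.le
    nlinarith only [h3, h4]
  have h6 : M * (2 * q.sg) ≤ sqrt q.sg := by
    calc M * (2 * q.sg) = (2 * M * sqrt q.sg) * sqrt q.sg := by
          linear_combination (-2 * M) * hsq2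
      _ ≤ 1 * sqrt q.sg := mul_le_mul_of_nonneg_right h5 hsq.le
      _ = sqrt q.sg := one_mul _
  exact mul_le_mul_of_nonneg_right h6 c.e0.le

theorem Z_le {x : ℝ} (hx : x ∈ Ioo (0:ℝ) 1) (hmem : lx x ∈ Icc (log (q.rho0 / 16)) (log 400)) :
    (stdPar cfL Y q.rb q.rho0 q.N q.eps).Z (oddExt g) (q.sg • b) (lx x) ≤ 4 := by
  have hu1 := c.hB.b4u _ hmem
  have hl := c.rd.lx_lt x hx
  have hρ := c.hρ
  have h3 : (stdPar cfL Y q.rb q.rho0 q.N q.eps).l0 ≤ lx x := by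
    refine le_trans ?_ hmem.1
    exact Real.log_le_log c.hrb (by linarith only [c, hρ, c.hrb'])
  rw [Z_outer _ h3]
  have h4 : (stdPar cfL Y q.rb q.rho0 q.N q.eps).u (q.sg • b) (lx x) ≤ 1 := by
    have h5 := (abs_lt.1 hu1).2
    have h6 := c.heps
    linarith only [h5, h6, mul_comm q.eps M]
  have h5 := Real.exp_le_exp.2 h4
  have h6 : exp 1 < 4 := by linarith only [Real.exp_one_lt_d9]
  have hL : (stdPar cfL Y q.rb q.rho0 q.N q.eps).L = log q.N := rfl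
  rw [hL]
  have h8 : exp (2 * (lx x - log q.N)) ≤ 1 := by
    rw [← Real.exp_zero]
    exact Real.exp_le_exp.2 (by linarith only [hl])
  have h9 := exp_pos ((stdPar cfL Y q.rb q.rho0 q.N q.eps).u (q.sg • b) (lx x))
  have h10 := exp_pos (2 * (lx x - log q.N))
  nlinarith only [h5, h6, h8, h10]

theorem close_P : ∀ x ∈ Ioo (0 : ℝ) 1,
    q.rho0 / 16 ≤ ST.rr (fun _ => w0 (q.sg • b)) (fun _ => f0 (q.sg • b)) 0 x →
    ST.rr (fun _ => w0 (q.sg • b)) (fun _ => f0 (q.sg • b)) 0 x ≤ 400 →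
    |ST.PP (fun _ => w0 (q.sg • b)) (fun _ => f0 (q.sg • b)) 0 x -
      q.eps * ST.Ds (fun _ => w0 (q.sg • b)) (fun t x => ST.Ph 3 t (ST.rr (fun _ =>
        w0 (q.sg • b)) (fun _ => f0 (q.sg • b)) t x)) 0 x|
      ≤ Real.sqrt q.sg * q.eps := by
  intro x hx h1 h2
  have hD := c.rd
  have hM1 := c.hM1
  have hρ := c.hρ
  have he := c.e0
  have hsq : 0 < sqrt q.sg := Real.sqrt_pos.2 c.hsg
  have hsq2 : sqrt q.sg * sqrt q.sg = q.sg := Real.mul_self_sqrt c.hsg.le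
  rw [rr_eq hD hx] at h1 h2
  have hl := hD.lx_lt x hx
  have hPhd : HasDerivAt (Pcf cfL 3) (deriv (Pcf cfL 3) (lx x)) (lx x) :=
    ((c.hd.P3s.differentiable (by simp)) (lx x)).hasDerivAt
  have hDs := Ds_eq hD (t := 0) (H := fun t x => ST.Ph 3 t (ST.rr (fun _ =>
        w0 (q.sg • b)) (fun _ => f0 (q.sg • b)) t x)) hx (k := Pcf cfL 3)
        (fun y hy => by rw [rr_eq hD hy, Ph_zero, ← Pcf_eq]) hPhd
  rw [hDs, PP_eq hD hx]
  have hS := S_eq hD hl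
  have hS0 := S_pos hD hl
  have hmem := c.reg h1 h2
  have hv := c.hB.b4v1 _ hmem
  have hZle := c.Z_le hx hmem
  generalize Sl ((stdPar cfL Y q.rb q.rho0 q.N q.eps).u (q.sg • b))
    ((stdPar cfL Y q.rb q.rho0 q.N q.eps).N (oddExt g)) (lx x) = S at hS hS0 ⊢
  have hSle : S ≤ 32 / q.rho0 := by
    rw [hS]
    have h3 : sqrt ((stdPar cfL Y q.rb q.rho0 q.N q.eps).Z (oddExt g) (q.sg • b) (lx x)) ≤ 2 := by
      rw [show (2:ℝ) = sqrt 4 by
        rw [show (4:ℝ) = 2 ^ 2 by norm_num, Real.sqrt_sq (by norm_num)]]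
      exact Real.sqrt_le_sqrt hZle
    have h4 : exp (-(lx x)) ≤ 16 / q.rho0 := by
      rw [Real.exp_neg, inv_le_comm₀ (exp_pos _) (by positivity), inv_div]
      exact h1
    calc _ ≤ 2 * (16 / q.rho0) := mul_le_mul h3 h4 (exp_pos _).le (by norm_num)
      _ = 32 / q.rho0 := by ring
  have e1 : deriv ((stdPar cfL Y q.rb q.rho0 q.N q.eps).u (q.sg • b)) (lx x) * S -
      q.eps * (deriv (Pcf cfL 3) (lx x) * S) =
      (deriv ((stdPar cfL Y q.rb q.rho0 q.N q.eps).u (q.sg • b)) (lx x) -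
        q.eps * deriv (Pcf cfL 3) (lx x)) * S := by ring
  rw [e1, abs_mul, abs_of_pos hS0]
  have hsg := c.hsg
  have h5 := mul_le_mul hv hSle hS0.le (by positivity : 0 ≤ M * (2 * q.sg) * q.eps)
  refine h5.trans ?_
  have h6 : M * (2 * q.sg) * q.eps * (32 / q.rho0) =
      (64 * M * sqrt q.sg / q.rho0) * (sqrt q.sg * q.eps) := by
    linear_combination (-64 * M * q.eps / q.rho0) * hsq2
  rw [h6]
  have h7 : 64 * M * sqrt q.sg / q.rho0 ≤ 1 := by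
    rw [div_le_one hρ]
    exact c.hsg1
  have h8 : 0 < sqrt q.sg * q.eps := by positivity
  exact mul_le_of_le_one_left h8.le h7

theorem bound_V : ∀ x ∈ Ioo (0 : ℝ) 1,
    q.rho0 / 16 ≤ ST.rr (fun _ => w0 (q.sg • b)) (fun _ => f0 (q.sg • b)) 0 x →
    ST.rr (fun _ => w0 (q.sg • b)) (fun _ => f0 (q.sg • b)) 0 x ≤ 400 →
    |ST.VV (fun _ => w0 (q.sg • b)) (fun _ => f0 (q.sg • b)) 0 x| ≤ q.BV / 2 * q.eps := by
  intro x hx h1 h2
  rw [rr_eq c.rd hx] at h1 h2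
  have h3 := c.hB.b4V _ (c.reg h1 h2)
  have e1 : (0 : ℝ) < exp (-2 * lx x) := exp_pos _
  rw [c.VVx hx, abs_mul, abs_of_pos e1]
  refine h3.le.trans ?_
  have : M ≤ q.BV / 2 := by linarith only [c, c.hBV]
  exact mul_le_mul_of_nonneg_right this c.e0.le

/-- The conditions at `t = 0`. -/
theorem initOK (hC : ChgStatement) (hR : RsStatement)
    (hm : |(∫ y in Ioi (0 : ℝ), ch0 q.d0 q.N y * vb q.rho0 q.sg b y * ST.ph 3 y * ST.Wt y)
        / ST.nph 3 - 1| ≤ q.sg / 10 ∧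
      (∀ i : Fin 3, |(∫ y in Ioi (0 : ℝ), ch0 q.d0 q.N y * vb q.rho0 q.sg b y * ST.ph i y *
        ST.Wt y) / ST.nph i - q.sg * b i| ≤ q.sg / 10) ∧
      (∫ y in Ioi (0 : ℝ), (ch0 q.d0 q.N y * vb q.rho0 q.sg b y) ^ 2 * ST.Wt y) -
        ∑ i ∈ Finset.range 4, ((∫ y in Ioi (0 : ℝ), ch0 q.d0 q.N y * vb q.rho0 q.sg b y *
          ST.ph i y * ST.Wt y) / ST.nph i) ^ 2 * ST.nph i ≤ (q.sg / 10) ^ 2) :
    ST.InitOK q g b (fun _ => w0 (q.sg • b)) (fun _ => f0 (q.sg • b)) := by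
  have hN4 : 4 ≤ q.N := by linarith only [c, c.hN]
  refine ⟨c.R_nonneg, hR _ c.hg _ c.hd w0 f0 lx c.hI (q.sg • b), c.G_lt, c.boot, ?_, ?_,
    c.close_u, c.close_P, c.bound_V, ?_, ?_, ?_⟩
  · rw [c.zeros.2.1]; linarith only [hN4]
  · rw [c.zeros.2.1]
  · rw [gami_eq hC c.hg c.hd c.hI c.hρ c.hrb c.hd0 hN4]
    exact hm.1
  · intro i
    rw [gami_eq hC c.hg c.hd c.hI c.hρ c.hrb c.hd0 hN4]
    exact hm.2.1 i
  · unfold ST.enU
    rw [nrmU_eq hC c.hg c.hd c.hI c.hρ c.hrb c.hd0 hN4]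
    simp only [gami_eq hC c.hg c.hd c.hI c.hρ c.hrb c.hd0 hN4]
    exact hm.2.2

end Ctx

/-- BLOCK B2 from its parts. -/
theorem b2_of (hP : ProfStatement) (hI : InitStatement) (hQ : IneqStatement)
    (hM : ModeStatement) (hC : ChgStatement) (hR : RsStatement) : ST.B2Statement := by
  intro g hg
  have hg' := isBub_odd hg
  obtain ⟨Y, hY⟩ := hP _ hg'
  obtain ⟨C0, hC0, ρs, hρs, hQ1⟩ := hQ _ hg' Y hY cfL cfL_isLag
  obtain ⟨ρs', hρs', hM1⟩ := hM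
  refine ⟨C0, fun B hB => ⟨min (min ρs ρs') 1, by positivity, fun rho0 hrho0 => ?_⟩⟩
  have hr0 : 0 < rho0 := hrho0.1
  have hr1 : rho0 ≤ ρs := hrho0.2.trans ((min_le_left _ _).trans (min_le_left _ _))
  have hr2 : rho0 ≤ ρs' := hrho0.2.trans ((min_le_left _ _).trans (min_le_right _ _))
  have hr3 : rho0 ≤ 1 := hrho0.2.trans (min_le_right _ _)
  obtain ⟨M0, hQ2⟩ := hQ1 rho0 ⟨hr0, hr1⟩
  have hM2 := hM1 rho0 ⟨hr0, hr2⟩
  obtain ⟨M, hMd⟩ : ∃ M, M = max M0 1 := ⟨_, rfl⟩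
  have hMM : M0 ≤ M := by rw [hMd]; exact le_max_left _ _
  have hMone : 1 ≤ M := by rw [hMd]; exact le_max_right _ _
  refine ⟨max C0 (2 * M), fun BV hBV => ⟨M, fun MU hMU => ⟨M, fun MP hMP => ⟨M, fun MV hMV =>
    ⟨M, fun CU hCU => ⟨M, fun CP hCP => ⟨M, fun CV hCV => ⟨0, fun GR hGR => ?_⟩⟩⟩⟩⟩⟩⟩⟩
  refine ⟨min (1 / 2) ((rho0 / (64 * M)) ^ 2), by positivity, fun sg hsg => ?_⟩
  have hsg0 : 0 < sg := hsg.1
  have hsg1 : sg ≤ 1 / 2 := hsg.2.trans (min_le_left _ _)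
  have hsg2 : 64 * M * sqrt sg ≤ rho0 := by
    have h1 : sqrt sg ≤ rho0 / (64 * M) := by
      rw [← Real.sqrt_sq (by positivity : 0 ≤ rho0 / (64 * M))]
      exact Real.sqrt_le_sqrt (hsg.2.trans (min_le_right _ _))
    calc 64 * M * sqrt sg ≤ 64 * M * (rho0 / (64 * M)) :=
          mul_le_mul_of_nonneg_left h1 (by positivity)
      _ = rho0 := by field_simp
  obtain ⟨d1, hd1, hM3⟩ := hM2 sg ⟨hsg0, by linarith only [hsg0, hsg1]⟩
  refine ⟨d1, hd1, fun d0 hd0 => ?_⟩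
  have hd00 : 0 < d0 := hd0.1
  refine ⟨min (d0 / 2) (rho0 / 64), by positivity, fun rb hrb => ?_⟩
  have hrb0 : 0 < rb := hrb.1
  have hrb1 : rb ≤ d0 / 2 := hrb.2.trans (min_le_left _ _)
  have hrb2 : rb ≤ rho0 / 64 := hrb.2.trans (min_le_right _ _)
  obtain ⟨N0, hQ3⟩ := hQ2 rb ⟨hrb0, hrb2⟩
  obtain ⟨N1, hM4⟩ := hM3 d0 hd0
  refine ⟨max (max N0 N1) 26, fun N hN => ?_⟩
  have hN0 : N0 ≤ N := ((le_max_left _ _).trans (le_max_left _ _)).trans hN
  have hN1 : N1 ≤ N := ((le_max_right _ _).trans (le_max_left _ _)).trans hN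
  have hN2 : 26 ≤ N := (le_max_right _ _).trans hN
  obtain ⟨ε0, hε0, hQ4⟩ := hQ3 N hN0
  refine ⟨min (ε0 / 2) (1 / M), by positivity, fun eps heps => ?_⟩
  have heps0 : 0 < eps := heps.1
  have heps1 : eps < ε0 := by
    have := heps.2.trans (min_le_left _ _)
    linarith only [heps0, this]
  have heps2 : eps * M ≤ 1 := by
    have := heps.2.trans (min_le_right _ _)
    rwa [le_div_iff₀ (by linarith only [hr3, hMone, hrb0, hrb2])] at this
  obtain ⟨hOk, hB0⟩ := hQ4 eps ⟨heps0, heps1⟩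
  obtain ⟨w0, f0, lx, hIn⟩ := hI _ hg' _ hOk
  have hsm : ContDiffOn ℝ ∞ (fun z : (Fin 3 → ℝ) × ℝ => (sg • z.1, z.2))
      (univ ×ˢ Icc (-1 : ℝ) 1) :=
    ((contDiff_fst.const_smul sg).prodMk contDiff_snd).contDiffOn
  have hmaps : MapsTo (fun z : (Fin 3 → ℝ) × ℝ => (sg • z.1, z.2)) (univ ×ˢ Icc (-1 : ℝ) 1)
      (univ ×ˢ Icc (-1 : ℝ) 1) := fun z hz => ⟨mem_univ _, hz.2⟩
  refine ⟨fun b => w0 (sg • b), fun b => f0 (sg • b), ?_, ?_, fun b hb =>
    ⟨hIn.data _, ?_⟩⟩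
  · exact hIn.smooth_w.comp hsm hmaps
  · exact hIn.smooth_f.comp hsm hmaps
  · have hbi : ∀ i, |(sg • b) i| ≤ 2 * sg := by
      intro i
      have h1 : |b i| ≤ 2 := abs_le.2 ⟨hb.1 i, hb.2 i⟩
      rw [Pi.smul_apply, smul_eq_mul, abs_mul, abs_of_pos hsg0]
      nlinarith only [hsg0, h1]
    have hBoot := hB0 B hB BV ((le_max_left _ _).trans hBV) M hMM (sg • b) (2 * sg)
      (by linarith only [hsg1]) hbi
    have c : Ctx ⟨B, rho0, BV, MU, MP, MV, CU, CP, CV, GR, sg, d0, rb, N, eps⟩ g Y b w0 f0 lx M :=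
      ⟨hMone, hg', hOk, hIn, hr0, hr3, hrb0, hrb2, by simp only; linarith only [hrb1], hN2,
        (le_max_right _ _).trans hBV, hGR, hMU, hMP, hMV, hCU, hCP, hCV, hsg0, hsg2, heps2,
        hBoot⟩
    exact c.initOK hC hR (hM4 N hN1 b hb)

end Vale.Agent.P244.ST.BD.BB2
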