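import Mathlib

/-!
# P244-ST, block B : the bubble profile (interface)

`m = 2p = 40`; `u = log (φ/ψ)`, `G = - r u_r`; the Ricci-flat cohomogeneity-one
metric is `G = g(u)`, `Z = r_s² = Zs(u)`; `l = log r`.
-/

open Set Filter Topology Real
open scoped ContDiff

namespace Vale.Agent.P244.ST.BD

/-- indicial exponent `κ` -/
noncomputable def kap (m : ℝ) : ℝ := ((m - 1) - sqrt ((m - 1) * (m - 9))) / 2

/-- `q = (m-1) - g²/4` -/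
noncomputable def qf (m y : ℝ) : ℝ := (m - 1) - y ^ 2 / 4

/-- right hand side of `g' = q (g - 2 tanh u)/g` -/
noncomputable def gRhs (m u y : ℝ) : ℝ := qf m y * (y - 2 * tanh u) / y

/-- The bubble profile `g` (odd), with all qualitative properties (g1)-(g7) of P244-B1. -/
structure IsBub (m : ℝ) (g : ℝ → ℝ) : Prop where
  zero : g 0 = 0
  odd : ∀ u, g (-u) = - g u
  deriv : ∀ u > 0, HasDerivAt g (gRhs m u (g u)) u
  lower : ∀ u > 0, 2 * tanh u < g u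
  upper : ∀ u > 0, g u < kap m * tanh u
  lt_two : ∀ u > 0, g u < 2
  rhs_pos : ∀ u > 0, 0 < gRhs m u (g u)
  quot : ∀ u > 0, gRhs m u (g u) * tanh u ≤ g u * (1 - tanh u ^ 2)
  near_zero : ∃ C, ∀ u > 0, kap m - g u / tanh u ≤ C * tanh u ^ 2
  near_top : ∃ C, ∀ u > 0, g u / tanh u - 2 ≤ C * (1 - tanh u ^ 2)
  tip : ∃ h : ℝ → ℝ, ∃ ε > 0, ContDiffOn ℝ ∞ h (Ioo (-ε) ε) ∧ h 0 = 2 ∧
    ∀ u, exp (-2 * u) < ε → g u = h (exp (-2 * u))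

/-- B1 + B2 -/
def BubStatement : Prop := ∃ g, IsBub 40 g

/-- `Zs(u) = (m-1) cosh u / q` -/
noncomputable def Zs (m : ℝ) (g : ℝ → ℝ) (u : ℝ) : ℝ := (m - 1) * cosh u / qf m (g u)

/-- `c0(u) = cosh u - 2 sinh u / g` -/
noncomputable def c0 (g : ℝ → ℝ) (u : ℝ) : ℝ := cosh u - 2 * sinh u / g u

/-- `As(u) = (m-1)(4 sinh u / g - cosh u)` -/
noncomputable def As (m : ℝ) (g : ℝ → ℝ) (u : ℝ) : ℝ := (m - 1) * (4 * sinh u / g u - cosh u)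

/-- The bubble in the variable `l = log r`: `Y' = - g(Y)`, `Y ~ e^{-κ l}` at infinity. -/
structure IsProf (m : ℝ) (g Y : ℝ → ℝ) : Prop where
  pos : ∀ l, 0 < Y l
  deriv : ∀ l, HasDerivAt Y (-(g (Y l))) l
  top : Tendsto Y atBot atTop
  smooth : ContDiff ℝ ∞ Y
  asym : ∃ C, ∀ l ≥ 0, ∀ j ≤ 4,
    |iteratedDeriv j Y l - (-(kap m)) ^ j * exp (-(kap m) * l)| ≤ C * exp (-(3 * kap m) * l)
  tip : ∃ S : ℝ → ℝ, ∃ ε > 0, ContDiffOn ℝ ∞ S (Ioo (-ε) ε) ∧ (∀ E ∈ Ioo (-ε) ε, 0 < S E) ∧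
    ∀ l, exp (-2 * Y l) < ε → exp (4 * l) = exp (-2 * Y l) * S (exp (-2 * Y l))

/-- B1b -/
def ProfStatement : Prop := ∀ g, IsBub 40 g → ∃ Y, IsProf 40 g Y

end Vale.Agent.P244.ST.BD
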