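import Mathlib
import Vale.Agent.P244.ST.BDefs

/-!
# P244-ST, block B2: smoothness of the bubble function at the tip

With `ζ = e^{-2u}`, `σ = ζ/(1+ζ)`, `v = 1/g = 1/2 + y`, `a = (m-2)/4` the bubble equation
`g g' = ((m-1) - g²/4)(g - 2 tanh u)` becomes the regular singular equation
`ζ y_ζ = (a + (m-1)(y+y²))(-y + σ(1+2y))`.  We solve it by the implicit function theorem in
the Banach algebra `C([0,1])`, which gives a solution analytic at `ζ = 0`.
-/

open Set Filter Topology MeasureTheory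
open scoped ContDiff

namespace Vale.Agent.P244.ST.BD.BubTip


/-- The Banach algebra `C([0,1])`. -/
abbrev XX := C(↥(Icc (0:ℝ) 1), ℝ)

/-- Projection to `[0,1]`. -/
noncomputable def pr (t : ℝ) : ↥(Icc (0:ℝ) 1) := projIcc 0 1 zero_le_one t

theorem continuous_pr : Continuous pr := continuous_projIcc (h := zero_le_one)

theorem pr_val {t : ℝ} (h0 : 0 ≤ t) (h1 : t ≤ 1) : ((pr t : ↥(Icc (0:ℝ) 1)) : ℝ) = t := by
  unfold pr
  rw [projIcc_of_mem zero_le_one (⟨h0, h1⟩ : t ∈ Icc (0:ℝ) 1)]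

theorem pr_coe (s : ↥(Icc (0:ℝ) 1)) : pr (s : ℝ) = s := by
  unfold pr
  exact projIcc_val zero_le_one s

theorem cont_integrand (a : ℝ) (ha : 1 ≤ a) (f : XX) :
    Continuous (Function.uncurry (fun (s : ↥(Icc (0:ℝ) 1)) (τ : ℝ) =>
      τ ^ (a - 1) * f (pr (τ * s)))) := by
  have h1 : Continuous fun p : ↥(Icc (0:ℝ) 1) × ℝ => p.2 ^ (a - 1) :=
    continuous_snd.rpow_const (fun p => Or.inr (by linarith only [ha]))
  have h2 : Continuous fun p : ↥(Icc (0:ℝ) 1) × ℝ => f (pr (p.2 * (p.1 : ℝ))) :=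
    f.continuous.comp (continuous_pr.comp
      (continuous_snd.mul (continuous_subtype_val.comp continuous_fst)))
  exact h1.mul h2

/-- The integral operator as a function. -/
noncomputable def opFun (a : ℝ) (ha : 1 ≤ a) (f : XX) : XX :=
  ⟨fun s => ∫ τ in (0:ℝ)..1, τ ^ (a - 1) * f (pr (τ * s)),
    intervalIntegral.continuous_parametric_intervalIntegral_of_continuous'
      (cont_integrand a ha f) 0 1⟩

theorem opFun_apply (a : ℝ) (ha : 1 ≤ a) (f : XX) (s : ↥(Icc (0:ℝ) 1)) :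
    opFun a ha f s = ∫ τ in (0:ℝ)..1, τ ^ (a - 1) * f (pr (τ * s)) := rfl

theorem intble (a : ℝ) (ha : 1 ≤ a) (f : XX) (s : ↥(Icc (0:ℝ) 1)) :
    IntervalIntegrable (fun τ : ℝ => τ ^ (a - 1) * f (pr (τ * s))) volume 0 1 := by
  apply Continuous.intervalIntegrable
  exact (cont_integrand a ha f).comp (continuous_const.prodMk continuous_id)

/-- The integral operator `(T f)(s) = ∫₀¹ τ^{a-1} f(τ s) dτ`. -/
noncomputable def op (a : ℝ) (ha : 1 ≤ a) : XX →L[ℝ] XX :=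
  LinearMap.mkContinuous
    { toFun := opFun a ha
      map_add' := by
        intro f g
        ext s
        rw [ContinuousMap.add_apply, opFun_apply, opFun_apply, opFun_apply,
          ← intervalIntegral.integral_add (intble a ha f s) (intble a ha g s)]
        congr 1
        ext τ
        rw [ContinuousMap.add_apply]
        ring
      map_smul' := by
        intro c f
        ext s
        rw [ContinuousMap.smul_apply, opFun_apply, opFun_apply, RingHom.id_apply, smul_eq_mul,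
          ← intervalIntegral.integral_const_mul]
        congr 1
        ext τ
        rw [ContinuousMap.smul_apply, smul_eq_mul]
        ring } 1 (by
      intro f
      rw [one_mul]
      refine (ContinuousMap.norm_le _ (norm_nonneg f)).2 ?_
      intro s
      change ‖∫ τ in (0:ℝ)..1, τ ^ (a - 1) * f (pr (τ * s))‖ ≤ ‖f‖
      have h := intervalIntegral.norm_integral_le_of_norm_le_const (a := (0:ℝ)) (b := 1)
        (f := fun τ : ℝ => τ ^ (a - 1) * f (pr (τ * s))) (C := ‖f‖) ?_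
      · simpa using h
      · intro τ hτ
        rw [uIoc_of_le zero_le_one] at hτ
        rw [norm_mul]
        have h1 : ‖τ ^ (a - 1)‖ ≤ 1 := by
          rw [Real.norm_of_nonneg (Real.rpow_nonneg hτ.1.le _)]
          exact Real.rpow_le_one hτ.1.le hτ.2 (by linarith only [ha])
        have h2 : ‖f (pr (τ * s))‖ ≤ ‖f‖ := f.norm_coe_le_norm _
        nlinarith only [h1, h2, norm_nonneg (f (pr (τ * s))), norm_nonneg (τ ^ (a - 1))])

theorem op_apply (a : ℝ) (ha : 1 ≤ a) (f : XX) (s : ↥(Icc (0:ℝ) 1)) :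
    op a ha f s = ∫ τ in (0:ℝ)..1, τ ^ (a - 1) * f (pr (τ * s)) := rfl

/-- The coordinate function. -/
noncomputable def iot : XX := ⟨fun s => (s : ℝ), continuous_subtype_val⟩

theorem iot_apply (s : ↥(Icc (0:ℝ) 1)) : iot s = (s : ℝ) := rfl

/-- `σ` as a function of `μ` with values in `C([0,1])`. -/
noncomputable def sg (μ : ℝ) : XX := (μ • iot) * Ring.inverse (1 + μ • iot)

theorem isUnit_sg {μ : ℝ} (hμ : |μ| < 1) : IsUnit (1 + μ • iot) := by
  rw [ContinuousMap.isUnit_iff_forall_ne_zero]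
  intro s
  rw [ContinuousMap.add_apply, ContinuousMap.smul_apply, ContinuousMap.one_apply, smul_eq_mul,
    iot_apply]
  have h1 := s.2.1
  have h2 := s.2.2
  have h3 : |μ * s| < 1 := by
    rw [abs_mul, abs_of_nonneg h1]
    nlinarith only [hμ, h2, abs_nonneg μ]
  have h4 := abs_lt.1 h3
  linarith only [h4, h4.1]

theorem sg_apply {μ : ℝ} (hμ : |μ| < 1) (s : ↥(Icc (0:ℝ) 1)) :
    sg μ s = (μ * s) / (1 + μ * s) := by
  have h := Ring.inverse_mul_cancel _ (isUnit_sg hμ)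
  have h2 := congrArg (fun f : XX => f s) h
  simp only [ContinuousMap.mul_apply, ContinuousMap.add_apply, ContinuousMap.one_apply,
    ContinuousMap.smul_apply, smul_eq_mul, iot_apply] at h2
  have h3 : (1 + μ * (s:ℝ)) ≠ 0 := by
    intro h0
    rw [h0, mul_zero] at h2
    exact zero_ne_one h2
  unfold sg
  simp only [ContinuousMap.mul_apply, ContinuousMap.smul_apply, smul_eq_mul, iot_apply]
  rw [div_eq_mul_inv]
  congr 1
  exact eq_inv_of_mul_eq_one_left h2

theorem sg_zero : sg 0 = 0 := by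
  unfold sg
  simp

theorem contDiffAt_sg : ContDiffAt ℝ ω sg 0 := by
  unfold sg
  have h1 : ContDiffAt ℝ ω (fun μ : ℝ => μ • iot) 0 := contDiffAt_id.smul contDiffAt_const
  refine h1.mul ?_
  have h2 : ContDiffAt ℝ ω (fun μ : ℝ => (1 : XX) + μ • iot) 0 := contDiffAt_const.add h1
  have h3 : ContDiffAt ℝ ω (Ring.inverse : XX → XX) ((1 : XX) + (0:ℝ) • iot) := by
    rw [zero_smul, add_zero]
    exact contDiffAt_ringInverse ℝ (1 : XXˣ)
  exact ContDiffAt.comp (0:ℝ) h3 h2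

/-- Right-hand side (scalar). -/
noncomputable def NN (m a σ y : ℝ) : ℝ :=
  a * σ * (1 + 2 * y) + (m - 1) * (y + y ^ 2) * (-y + σ * (1 + 2 * y))

/-- Right-hand side in the Banach algebra. -/
noncomputable def Nop (m a : ℝ) (v : ℝ × XX) : XX :=
  a • (sg v.1 * (1 + (2:ℝ) • v.2)) +
    (m - 1) • ((v.2 + v.2 ^ 2) * (-v.2 + sg v.1 * (1 + (2:ℝ) • v.2)))

theorem Nop_apply (m a : ℝ) {μ : ℝ} (hμ : |μ| < 1) (h : XX) (s : ↥(Icc (0:ℝ) 1)) :
    Nop m a (μ, h) s = NN m a ((μ * s) / (1 + μ * s)) (h s) := by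
  unfold Nop NN
  simp only [ContinuousMap.mul_apply, ContinuousMap.add_apply, ContinuousMap.one_apply,
    ContinuousMap.smul_apply, smul_eq_mul, ContinuousMap.pow_apply, ContinuousMap.neg_apply,
    sg_apply hμ]
  ring

/-- The implicit equation. -/
noncomputable def FF (m a : ℝ) (ha : 1 ≤ a) (v : ℝ × XX) : XX := v.2 - op a ha (Nop m a v)

theorem contDiffAt_FF (m a : ℝ) (ha : 1 ≤ a) : ContDiffAt ℝ ω (FF m a ha) (0, 0) := by
  unfold FF
  have hsnd : ContDiffAt ℝ ω (fun v : ℝ × XX => v.2) (0, 0) := contDiffAt_snd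
  have hsg : ContDiffAt ℝ ω (fun v : ℝ × XX => sg v.1) (0, 0) :=
    ContDiffAt.comp (x := ((0, 0) : ℝ × XX)) (g := sg) (f := Prod.fst) contDiffAt_sg contDiffAt_fst
  refine hsnd.sub ?_
  refine (op a ha).contDiff.contDiffAt.comp _ ?_
  unfold Nop
  have h12 : ContDiffAt ℝ ω (fun v : ℝ × XX => (1 : XX) + (2:ℝ) • v.2) (0, 0) :=
    contDiffAt_const.add (hsnd.const_smul 2)
  have hA := hsg.mul h12
  exact (hA.const_smul a).add
    (((hsnd.add (hsnd.pow 2)).mul (hsnd.neg.add hA)).const_smul (m - 1))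

theorem FF_zero (m a : ℝ) (ha : 1 ≤ a) : FF m a ha (0, 0) = 0 := by
  unfold FF Nop
  simp [sg_zero]

theorem hasFDerivAt_inr (m a : ℝ) (ha : 1 ≤ a) :
    (fderiv ℝ (FF m a ha) (0, 0)) ∘L (ContinuousLinearMap.inr ℝ ℝ XX) =
      ContinuousLinearMap.id ℝ XX := by
  have hd : HasFDerivAt (FF m a ha) (fderiv ℝ (FF m a ha) (0, 0)) ((0, 0) : ℝ × XX) :=
    ((contDiffAt_FF m a ha).differentiableAt (by simp)).hasFDerivAt
  have hc : HasFDerivAt (fun h : XX => FF m a ha (0, h))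
      ((fderiv ℝ (FF m a ha) (0, 0)) ∘L (ContinuousLinearMap.inr ℝ ℝ XX)) (0 : XX) := by
    have hi : HasFDerivAt (fun h : XX => ((0 : ℝ), h)) (ContinuousLinearMap.inr ℝ ℝ XX) (0 : XX) :=
      (ContinuousLinearMap.inr ℝ ℝ XX).hasFDerivAt
    exact HasFDerivAt.comp (0 : XX) hd hi
  have hc2 : HasFDerivAt (fun h : XX => FF m a ha (0, h)) (ContinuousLinearMap.id ℝ XX)
      (0 : XX) := by
    have e : (fun h : XX => FF m a ha (0, h)) =
        fun h : XX => h - op a ha ((m - 1) • ((h + h ^ 2) * (-h))) := by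
      ext1 h
      unfold FF Nop
      simp [sg_zero]
    rw [e]
    have h1 : HasFDerivAt (fun h : XX => h) (ContinuousLinearMap.id ℝ XX) (0 : XX) :=
      hasFDerivAt_id _
    have h2 := (h1.add (h1.pow 2)).mul h1.neg
    have h3 := (op a ha).hasFDerivAt.comp (0:XX) (h2.const_smul (m - 1))
    have h4 := h1.sub h3
    refine h4.congr_fderiv ?_
    ext1 h
    simp
  exact hc.unique hc2

theorem exists_psi (m a : ℝ) (ha : 1 ≤ a) : ∃ ψ : ℝ → XX, ContDiffAt ℝ ω ψ 0 ∧ ψ 0 = 0 ∧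
    ∃ r > 0, r < 1 ∧ (∀ μ : ℝ, |μ| < r → FF m a ha (μ, ψ μ) = 0) ∧
      (∀ (μ : ℝ) (h : XX), |μ| < r → ‖h‖ < r → FF m a ha (μ, h) = 0 → h = ψ μ) := by
  have hinv : (fderiv ℝ (FF m a ha) ((0, 0) : ℝ × XX) ∘L
      ContinuousLinearMap.inr ℝ ℝ XX).IsInvertible := by
    rw [hasFDerivAt_inr]
    exact ⟨ContinuousLinearEquiv.refl ℝ XX, rfl⟩
  have hn : (ω : WithTop ℕ∞) ≠ 0 := by simp
  have hc := contDiffAt_FF m a ha
  refine ⟨hc.implicitFunction hn hinv, hc.contDiffAt_implicitFunction hn hinv,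
    hc.implicitFunction_apply_self hn hinv, ?_⟩
  have h1 := hc.eventually_apply_implicitFunction hn hinv
  have h2 := hc.eventually_apply_eq_iff_implicitFunction hn hinv
  rw [FF_zero] at h1 h2
  obtain ⟨r1, hr1, h1'⟩ := Metric.eventually_nhds_iff.1 h1
  obtain ⟨r2, hr2, h2'⟩ := Metric.eventually_nhds_iff.1 h2
  refine ⟨min (1/2) (min r1 r2), by positivity, ?_, ?_, ?_⟩
  · exact lt_of_le_of_lt (min_le_left _ _) (by norm_num)
  · intro μ hμ
    apply h1'
    simp only [Real.dist_eq, sub_zero]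
    exact lt_of_lt_of_le hμ ((min_le_right _ _).trans (min_le_left _ _))
  · intro μ h hμ hh h0
    have h3 := (h2' (y := (μ, h)) ?_).1 h0
    · exact h3.symm
    · rw [Prod.dist_eq]
      simp only [dist_zero_right, Real.norm_eq_abs]
      have hmin := (min_le_right (1/2 : ℝ) (min r1 r2)).trans (min_le_right _ _)
      exact max_lt (lt_of_lt_of_le hμ hmin) (lt_of_lt_of_le hh hmin)

/-- Rescaling of a function on `[0,1]`. -/
noncomputable def resc (σ : ↥(Icc (0:ℝ) 1)) (h : XX) : XX :=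
  ⟨fun s => h (pr (σ * s)),
    h.continuous.comp (continuous_pr.comp (continuous_const.mul continuous_subtype_val))⟩

theorem resc_apply (σ : ↥(Icc (0:ℝ) 1)) (h : XX) (s : ↥(Icc (0:ℝ) 1)) :
    resc σ h s = h (pr (σ * s)) := rfl

theorem norm_resc_le (σ : ↥(Icc (0:ℝ) 1)) (h : XX) : ‖resc σ h‖ ≤ ‖h‖ :=
  (ContinuousMap.norm_le _ (norm_nonneg h)).2 (fun _ => h.norm_coe_le_norm _)

theorem FF_resc (m a : ℝ) (ha : 1 ≤ a) {μ : ℝ} (hμ : |μ| < 1) (h : XX)
    (h0 : FF m a ha (μ, h) = 0) (σ : ↥(Icc (0:ℝ) 1)) : FF m a ha (μ * σ, resc σ h) = 0 := by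
  have hs1 := σ.2.1
  have hs2 := σ.2.2
  have hμσ : |μ * (σ:ℝ)| < 1 := by
    rw [abs_mul, abs_of_nonneg hs1]
    nlinarith only [hμ, hs2, abs_nonneg μ]
  ext s
  have hss1 := s.2.1
  have hss2 := s.2.2
  have h1 := congrArg (fun f : XX => f (pr (σ * s))) h0
  unfold FF at h1 ⊢
  simp only [ContinuousMap.sub_apply, ContinuousMap.zero_apply, op_apply] at h1 ⊢
  rw [resc_apply]
  refine Eq.trans ?_ h1
  congr 1
  apply intervalIntegral.integral_congr
  intro τ hτ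
  rw [uIcc_of_le zero_le_one] at hτ
  have h01 : 0 ≤ τ * (s:ℝ) := mul_nonneg hτ.1 hss1
  have h02 : τ * (s:ℝ) ≤ 1 := by nlinarith only [hss1, hss2, hτ, hτ.1, hτ.2]
  have h03 : 0 ≤ (σ:ℝ) * s := mul_nonneg hs1 hss1
  have h04 : (σ:ℝ) * s ≤ 1 := by nlinarith only [hs1, hs2, hss2]
  have h05 : 0 ≤ τ * ((σ:ℝ) * s) := mul_nonneg hτ.1 h03
  have h06 : τ * ((σ:ℝ) * s) ≤ 1 := by nlinarith only [hs1, hs2, h02, hτ.1, hτ.2]
  simp only
  rw [Nop_apply m a hμσ, Nop_apply m a hμ, resc_apply, pr_val h01 h02, pr_val h03 h04,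
    pr_val h05 h06]
  have e1 : μ * (σ:ℝ) * (τ * s) = μ * (τ * (σ * s)) := by ring
  have e2 : (σ:ℝ) * (τ * s) = τ * (σ * s) := by ring
  rw [e1, e2]

theorem exists_H (m a : ℝ) (ha : 1 ≤ a) : ∃ H : ℝ → ℝ, ContDiffAt ℝ ω H 0 ∧ H 0 = 0 ∧
    ∃ r > 0, r < 1 ∧ ∀ μ : ℝ, |μ| < r →
      H μ = ∫ τ in (0:ℝ)..1, τ ^ (a - 1) * NN m a (μ * τ / (1 + μ * τ)) (H (μ * τ)) := by
  obtain ⟨ψ, hψ, hψ0, r, hr, hr1, hz, hu⟩ := exists_psi m a ha
  have hcont : ∀ᶠ μ in 𝓝 (0:ℝ), ‖ψ μ‖ < r := by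
    have h1 : Tendsto (fun μ => ‖ψ μ‖) (𝓝 0) (𝓝 0) := by
      have h2 := hψ.continuousAt.norm
      have h3 : ‖ψ 0‖ = 0 := by rw [hψ0, norm_zero]
      unfold ContinuousAt at h2
      simp only at h2
      rwa [h3] at h2
    exact h1.eventually (gt_mem_nhds hr)
  obtain ⟨r', hr', h'⟩ := Metric.eventually_nhds_iff.1 hcont
  have hone : (1:ℝ) ∈ Icc (0:ℝ) 1 := ⟨zero_le_one, le_rfl⟩
  refine ⟨fun μ => ψ μ ⟨1, hone⟩, ?_, by simp [hψ0], min r r', lt_min hr hr',
    lt_of_le_of_lt (min_le_left _ _) hr1, ?_⟩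
  · have h1 : ContDiffAt ℝ ω (fun f : XX => f ⟨1, hone⟩) (ψ 0) :=
      (ContinuousMap.evalCLM (R := ℝ) (M := ℝ)
        (⟨1, hone⟩ : ↥(Icc (0:ℝ) 1))).contDiff.contDiffAt
    exact h1.comp 0 hψ
  · intro μ hμ
    have hμr : |μ| < r := lt_of_lt_of_le hμ (min_le_left _ _)
    have hμ1 : |μ| < 1 := hμr.trans hr1
    have key : ∀ σ : ↥(Icc (0:ℝ) 1), ψ μ σ = ψ (μ * σ) ⟨1, hone⟩ := by
      intro σ
      have hs1 := σ.2.1
      have hs2 := σ.2.2
      have h1 := FF_resc m a ha hμ1 (ψ μ) (hz μ hμr) σ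
      have hμσ : |μ * (σ:ℝ)| ≤ |μ| := by
        rw [abs_mul, abs_of_nonneg hs1]
        nlinarith only [hr, hr1, hs2, abs_nonneg μ]
      have h2 := hu (μ * σ) (resc σ (ψ μ)) (lt_of_le_of_lt hμσ hμr)
        (lt_of_le_of_lt (norm_resc_le _ _)
          (h' (by rw [Real.dist_eq, sub_zero]; exact lt_of_lt_of_le hμ (min_le_right _ _)))) h1
      rw [← h2, resc_apply]
      congr 1
      rw [mul_one]
      exact (pr_coe σ).symm
    have h1 := congrArg (fun f : XX => f ⟨1, hone⟩) (hz μ hμr)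
    unfold FF at h1
    simp only [ContinuousMap.sub_apply, ContinuousMap.zero_apply, op_apply] at h1
    simp only
    rw [sub_eq_zero.1 h1]
    apply intervalIntegral.integral_congr
    intro τ hτ
    rw [uIcc_of_le zero_le_one] at hτ
    simp only
    rw [mul_one, Nop_apply m a hμ1, pr_val hτ.1 hτ.2, key, pr_val hτ.1 hτ.2]

theorem rescale_integral (a ζ : ℝ) (ha : 1 ≤ a) (hζ : 0 < ζ) (n : ℝ → ℝ) :
    (∫ τ in (0:ℝ)..1, τ ^ (a - 1) * n (ζ * τ)) * ζ ^ a = ∫ t in (0:ℝ)..ζ, t ^ (a - 1) * n t := by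
  have h1 := intervalIntegral.integral_comp_mul_left (a := (0:ℝ)) (b := 1)
    (fun t => t ^ (a - 1) * n t) hζ.ne'
  rw [mul_zero, mul_one, smul_eq_mul] at h1
  have h2 : ∫ t in (0:ℝ)..ζ, t ^ (a - 1) * n t =
      ζ * ∫ x in (0:ℝ)..1, (ζ * x) ^ (a - 1) * n (ζ * x) := by
    rw [h1, ← mul_assoc, mul_inv_cancel₀ hζ.ne', one_mul]
  rw [h2, ← intervalIntegral.integral_mul_const, ← intervalIntegral.integral_const_mul]
  apply intervalIntegral.integral_congr
  intro τ hτ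
  rw [uIcc_of_le zero_le_one] at hτ
  simp only
  rw [Real.mul_rpow hζ.le hτ.1]
  have h3 : ζ ^ a = ζ * ζ ^ (a - 1) := by
    rw [← Real.rpow_one_add' hζ.le]
    · congr 1; ring
    · intro h
      linarith only [ha, h]
  rw [h3]
  ring

theorem exists_y (m a : ℝ) (ha : 1 ≤ a) : ∃ y : ℝ → ℝ, y 0 = 0 ∧
    ∃ r > 0, r < 1 ∧ AnalyticOnNhd ℝ y (Metric.ball 0 r) ∧ ∀ ζ ∈ Ioo (0:ℝ) r,
      ζ * deriv y ζ + a * y ζ = NN m a (ζ / (1 + ζ)) (y ζ) := by
  obtain ⟨H, hH, hH0, r1, hr1, hr11, hint⟩ := exists_H m a ha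
  obtain ⟨r2, hr2, han⟩ := hH.analyticAt.exists_ball_analyticOnNhd
  have hr : 0 < min r1 r2 := lt_min hr1 hr2
  have hsub : Metric.ball (0:ℝ) (min r1 r2) ⊆ Metric.ball 0 r2 :=
    Metric.ball_subset_ball (min_le_right _ _)
  refine ⟨H, hH0, min r1 r2, hr, lt_of_le_of_lt (min_le_left _ _) hr11, han.mono hsub, ?_⟩
  intro ζ hζ
  set R := min r1 r2 with hR
  have hR1 : R ≤ r1 := min_le_left _ _
  set n : ℝ → ℝ := fun t => NN m a (t / (1 + t)) (H t) with hn
  have hmem : ∀ t ∈ Ioo (-R) R, t ∈ Metric.ball (0:ℝ) r2 := by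
    intro t ht
    apply hsub
    rw [Metric.mem_ball, Real.dist_eq, sub_zero, abs_lt]
    exact ht
  have hncont : ContinuousOn n (Ioo (-R) R) := by
    intro t ht
    have h1 : ContinuousAt H t := (han t (hmem t ht)).continuousAt
    have h2 : (1 + t) ≠ 0 := by
      have := ht.1
      linarith only [hr11, hR1, this]
    have h3 : ContinuousAt (fun t : ℝ => t / (1 + t)) t :=
      continuousAt_id.div (continuousAt_const.add continuousAt_id) h2
    apply ContinuousAt.continuousWithinAt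
    change ContinuousAt (fun t => NN m a (t / (1 + t)) (H t)) t
    unfold NN
    exact (((continuousAt_const.mul h3).mul (continuousAt_const.add (continuousAt_const.mul h1))).add
      ((continuousAt_const.mul (h1.add (h1.pow 2))).mul
        (h1.neg.add (h3.mul (continuousAt_const.add (continuousAt_const.mul h1))))))
  have hfcont : ContinuousOn (fun t : ℝ => t ^ (a - 1) * n t) (Ioo (-R) R) :=
    ((continuous_id.rpow_const (fun _ => Or.inr (by linarith only [ha]))).continuousOn).mul hncont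
  have key : ∀ z ∈ Ioo (0:ℝ) R, H z * z ^ a = ∫ t in (0:ℝ)..z, t ^ (a - 1) * n t := by
    intro z hz
    rw [← rescale_integral a z ha hz.1 n]
    congr 1
    apply hint
    rw [abs_of_pos hz.1]
    linarith only [hR1, hz, hz.2]
  have hζm : ζ ∈ Ioo (-R) R := ⟨by linarith only [hr, hζ, hζ.1], hζ.2⟩
  have hd1 : HasDerivAt (fun z => ∫ t in (0:ℝ)..z, t ^ (a - 1) * n t)
      (ζ ^ (a - 1) * n ζ) ζ := by
    apply intervalIntegral.integral_hasDerivAt_right
    · apply ContinuousOn.intervalIntegrable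
      apply hfcont.mono
      rw [uIcc_of_le hζ.1.le]
      intro t ht
      exact ⟨by linarith only [hr, ht, ht.1], by linarith only [hζ, ht, ht.2, hζ.2]⟩
    · exact hfcont.stronglyMeasurableAtFilter isOpen_Ioo ζ hζm
    · exact hfcont.continuousAt (isOpen_Ioo.mem_nhds hζm)
  have hHd : HasDerivAt H (deriv H ζ) ζ := (han ζ (hmem ζ hζm)).differentiableAt.hasDerivAt
  have hd2 : HasDerivAt (fun z => H z * z ^ a)
      (deriv H ζ * ζ ^ a + H ζ * (a * ζ ^ (a - 1))) ζ :=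
    hHd.mul (Real.hasDerivAt_rpow_const (Or.inl hζ.1.ne'))
  have hd3 : HasDerivAt (fun z => H z * z ^ a) (ζ ^ (a - 1) * n ζ) ζ := by
    apply hd1.congr_of_eventuallyEq
    filter_upwards [isOpen_Ioo.mem_nhds hζ] with z hz
    exact key z hz
  have h4 := hd2.unique hd3
  have h5 : ζ ^ a = ζ * ζ ^ (a - 1) := by
    rw [← Real.rpow_one_add' hζ.1.le]
    · congr 1; ring
    · intro h
      linarith only [ha, hr1, hr11, h]
  have h6 : 0 < ζ ^ (a - 1) := Real.rpow_pos_of_pos hζ.1 _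
  rw [h5] at h4
  have h7 : ζ ^ (a - 1) * (ζ * deriv H ζ + a * H ζ) = ζ ^ (a - 1) * n ζ := by
    rw [← h4]; ring
  exact mul_left_cancel₀ h6.ne' h7

theorem tanh_eq (u : ℝ) : Real.tanh u = (1 - Real.exp (-2 * u)) / (1 + Real.exp (-2 * u)) := by
  rw [Real.tanh_eq_sinh_div_cosh, Real.sinh_eq, Real.cosh_eq]
  have h1 : Real.exp (-2 * u) = Real.exp (-u) * Real.exp (-u) := by
    rw [← Real.exp_add]; congr 1; ring
  have h2 : Real.exp (-u) * Real.exp u = 1 := by
    rw [← Real.exp_add]; simp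
  have h3 := Real.exp_pos u
  have h4 := Real.exp_pos (-u)
  rw [h1, div_eq_div_iff (by positivity) (by positivity)]
  have e1 : Real.exp u * (Real.exp (-u) * Real.exp (-u)) = Real.exp (-u) := by
    calc Real.exp u * (Real.exp (-u) * Real.exp (-u)) =
          (Real.exp (-u) * Real.exp u) * Real.exp (-u) := by ring
      _ = _ := by rw [h2, one_mul]
  linear_combination e1

/-- The local solution at the tip, in the variable `u`. -/
theorem exists_local (m : ℝ) (hm : 6 ≤ m) : ∃ h : ℝ → ℝ, ∃ ε > 0,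
    AnalyticOnNhd ℝ h (Ioo (-ε) ε) ∧ h 0 = 2 ∧ (∀ ζ ∈ Ioo (-ε) ε, 1 < h ζ ∧ h ζ < 3) ∧
    ∀ u, Real.exp (-2 * u) < ε →
      HasDerivAt (fun u => h (Real.exp (-2 * u))) (gRhs m u (h (Real.exp (-2 * u)))) u := by
  have ha : (1:ℝ) ≤ (m - 2) / 4 := by linarith only [hm]
  obtain ⟨y, hy0, r, hr, hr1, han, hode⟩ := exists_y m ((m - 2) / 4) ha
  have hc : ContinuousAt y 0 := (han 0 (Metric.mem_ball_self hr)).continuousAt
  have hev : ∀ᶠ z in 𝓝 (0:ℝ), |y z| < 1 / 10 := by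
    have h1 : Tendsto (fun z => |y z|) (𝓝 0) (𝓝 0) := by
      have h2 := hc.abs
      unfold ContinuousAt at h2
      simp only at h2
      rwa [hy0, abs_zero] at h2
    exact h1.eventually (gt_mem_nhds (by norm_num))
  obtain ⟨r2, hr2, h2⟩ := Metric.eventually_nhds_iff.1 hev
  have hε : 0 < min r r2 := lt_min hr hr2
  have hmem : ∀ z ∈ Ioo (-(min r r2)) (min r r2), z ∈ Metric.ball (0:ℝ) r ∧ |y z| < 1 / 10 := by
    intro z hz
    have h3 : |z| < min r r2 := abs_lt.2 hz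
    refine ⟨?_, h2 ?_⟩
    · rw [Metric.mem_ball, Real.dist_eq, sub_zero]
      exact lt_of_lt_of_le h3 (min_le_left _ _)
    · rw [Real.dist_eq, sub_zero]
      exact lt_of_lt_of_le h3 (min_le_right _ _)
  refine ⟨fun z => (1 / 2 + y z)⁻¹, min r r2, hε, ?_, ?_, ?_, ?_⟩
  · intro z hz
    obtain ⟨h3, h4⟩ := hmem z hz
    have h5 := abs_lt.1 h4
    have h6 : AnalyticAt ℝ (fun z => (1:ℝ) / 2 + y z) z := analyticAt_const.add (han z h3)
    exact h6.inv (by linarith only [hr, hr1, h5, h5.1])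
  · simp [hy0]
  · intro z hz
    obtain ⟨h3, h4⟩ := hmem z hz
    have h5 := abs_lt.1 h4
    have h6 : 0 < 1 / 2 + y z := by linarith only [hr, hr1, h5, h5.1]
    constructor
    · rw [lt_inv_comm₀ one_pos h6]
      linarith only [hr, hr1, h5, h5.2]
    · rw [inv_lt_comm₀ h6 (by norm_num)]
      linarith only [hr, hr1, h5, h5.1]
  · intro u hu
    have hz0 := Real.exp_pos (-2 * u)
    have hz : Real.exp (-2 * u) ∈ Ioo (-(min r r2)) (min r r2) := ⟨by linarith only [hu, hz0], hu⟩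
    obtain ⟨h3, h4⟩ := hmem _ hz
    have h5 := abs_lt.1 h4
    have h6 : 0 < 1 / 2 + y (Real.exp (-2 * u)) := by linarith only [hr, hr1, h5, h5.1]
    have hyd := hode (Real.exp (-2 * u)) ⟨hz0, lt_of_lt_of_le hu (min_le_left _ _)⟩
    have hexp : HasDerivAt (fun u : ℝ => Real.exp (-2 * u)) (Real.exp (-2 * u) * (-2)) u := by
      have h7 : HasDerivAt (fun u : ℝ => -2 * u) (-2) u := by
        simpa using (hasDerivAt_id u).const_mul (-2)
      exact h7.exp
    have hyd1 : HasDerivAt y (deriv y (Real.exp (-2 * u))) (Real.exp (-2 * u)) :=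
      (han _ h3).differentiableAt.hasDerivAt
    have h8 : HasDerivAt (fun u : ℝ => (1:ℝ) / 2 + y (Real.exp (-2 * u)))
        (deriv y (Real.exp (-2 * u)) * (Real.exp (-2 * u) * (-2))) u :=
      (hyd1.comp u hexp).const_add _
    have h9 := h8.inv h6.ne'
    refine h9.congr_deriv ?_
    unfold gRhs qf
    rw [tanh_eq]
    unfold NN at hyd
    beta_reduce
    set ζ := Real.exp (-2 * u) with hζ
    set d := deriv y ζ with hd
    set w := y ζ with hw
    have h10 : (1 + ζ) ≠ 0 := by positivity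
    have h11 : ζ * d = -((m - 2) / 4) * w + ((m - 2) / 4 * (ζ / (1 + ζ)) * (1 + 2 * w) +
      (m - 1) * (w + w ^ 2) * (-w + ζ / (1 + ζ) * (1 + 2 * w))) := by linarith only [hyd]
    have h12 : d * (ζ * -2) = -2 * (ζ * d) := by ring
    have h13 : (1 + 2 * w) ≠ 0 := by linarith only [hr, hr1, h5]
    rw [h12, h11]
    have h14 : (1 / 2 + w) = (1 + 2 * w) / 2 := by ring
    rw [h14]
    field_simp
    ring

/-- Uniqueness of the solution with `g → 2`. -/
theorem unique_top (m : ℝ) (hm : 6 ≤ m) (g₁ g₂ : ℝ → ℝ) (U₀ : ℝ)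
    (h₁ : ∀ u > U₀, HasDerivAt g₁ (gRhs m u (g₁ u)) u)
    (h₂ : ∀ u > U₀, HasDerivAt g₂ (gRhs m u (g₂ u)) u)
    (l₁ : Tendsto g₁ atTop (𝓝 2)) (l₂ : Tendsto g₂ atTop (𝓝 2)) :
    ∃ U₁ > U₀, ∀ u ≥ U₁, g₁ u = g₂ u := by
  have lT : Tendsto Real.tanh atTop (𝓝 1) := by
    have h0 : Tendsto (fun u : ℝ => Real.exp (-2 * u)) atTop (𝓝 0) := by
      apply Real.tendsto_exp_atBot.comp
      exact tendsto_id.const_mul_atTop_of_neg (by norm_num)
    have h1 : Tendsto (fun u : ℝ => (1 - Real.exp (-2 * u)) / (1 + Real.exp (-2 * u))) atTop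
        (𝓝 ((1 - 0) / (1 + 0))) := (tendsto_const_nhds.sub h0).div (tendsto_const_nhds.add h0)
        (by norm_num)
    simp only [sub_zero, add_zero, div_one] at h1
    refine h1.congr ?_
    intro u
    exact (tanh_eq u).symm
  have lc : Tendsto (fun u => -(g₁ u + g₂ u) / 4 + 2 * Real.tanh u * (m - 1) / (g₁ u * g₂ u) +
      Real.tanh u / 2) atTop (𝓝 (-(2 + 2) / 4 + 2 * 1 * (m - 1) / (2 * 2) + 1 / 2)) := by
    refine ((l₁.add l₂).neg.div_const 4).add ?_ |>.add (lT.div_const 2)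
    exact ((lT.const_mul 2).mul_const (m - 1)).div (l₁.mul l₂) (by norm_num)
  have e1 : ∀ᶠ u in atTop, 0 < -(g₁ u + g₂ u) / 4 + 2 * Real.tanh u * (m - 1) / (g₁ u * g₂ u) +
      Real.tanh u / 2 := lc.eventually (lt_mem_nhds (by linarith only [hm]))
  have e2 : ∀ᶠ u in atTop, 1 < g₁ u := l₁.eventually (lt_mem_nhds (by norm_num))
  have e3 : ∀ᶠ u in atTop, 1 < g₂ u := l₂.eventually (lt_mem_nhds (by norm_num))
  obtain ⟨U, hU⟩ := eventually_atTop.1 (e1.and (e2.and e3))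
  refine ⟨max U (U₀ + 1), lt_of_lt_of_le (by linarith only []) (le_max_right _ _), ?_⟩
  set V := max U (U₀ + 1) with hV
  have hder : ∀ u ≥ V, HasDerivAt (fun u => (g₁ u - g₂ u) ^ 2)
      (2 * (g₁ u - g₂ u) ^ 2 * (-(g₁ u + g₂ u) / 4 + 2 * Real.tanh u * (m - 1) / (g₁ u * g₂ u) +
      Real.tanh u / 2)) u := by
    intro u hu
    have hu1 : u ≥ U := (le_max_left _ _).trans hu
    have hu2 : u > U₀ := by
      have := (le_max_right U (U₀ + 1)).trans hu
      linarith only [this]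
    obtain ⟨c1, c2, c3⟩ := hU u hu1
    have hd := ((h₁ u hu2).sub (h₂ u hu2)).pow 2
    refine hd.congr_deriv ?_
    unfold gRhs qf
    simp only [Pi.sub_apply]
    have c4 : g₁ u ≠ 0 := by linarith only [c2]
    have c5 : g₂ u ≠ 0 := by linarith only [c3]
    field_simp
    ring
  have hmono : MonotoneOn (fun u => (g₁ u - g₂ u) ^ 2) (Ici V) := by
    apply monotoneOn_of_deriv_nonneg (convex_Ici V)
    · intro u hu
      exact (hder u hu).continuousAt.continuousWithinAt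
    · intro u hu
      rw [interior_Ici] at hu
      exact (hder u (le_of_lt hu)).differentiableAt.differentiableWithinAt
    · intro u hu
      rw [interior_Ici] at hu
      have hu' : u ≥ V := le_of_lt hu
      rw [(hder u hu').deriv]
      have := (hU u ((le_max_left _ _).trans hu')).1
      positivity
  intro u hu
  have lim : Tendsto (fun u => (g₁ u - g₂ u) ^ 2) atTop (𝓝 0) := by
    have := (l₁.sub l₂).pow 2
    simpa using this
  have h0 : (g₁ u - g₂ u) ^ 2 ≤ 0 := by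
    refine ge_of_tendsto lim ?_
    filter_upwards [eventually_ge_atTop u] with w hw
    exact hmono hu (le_trans hu hw) hw
  have h1 : g₁ u - g₂ u = 0 := by
    have := le_antisymm h0 (sq_nonneg _)
    exact pow_eq_zero_iff (two_ne_zero) |>.1 this
  linarith only [h1]

/-- B2: smoothness (analyticity) at the tip of any solution with `g → 2`. -/
theorem tip_analytic (m : ℝ) (hm : 6 ≤ m) (g : ℝ → ℝ) (U₀ : ℝ)
    (hg : ∀ u > U₀, HasDerivAt g (gRhs m u (g u)) u) (hl : Tendsto g atTop (𝓝 2)) :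
    ∃ h : ℝ → ℝ, ∃ ε > 0, AnalyticOnNhd ℝ h (Ioo (-ε) ε) ∧ h 0 = 2 ∧
      (∀ ζ ∈ Ioo (-ε) ε, 1 < h ζ ∧ h ζ < 3) ∧
      ∀ u, Real.exp (-2 * u) < ε → U₀ < u ∧ g u = h (Real.exp (-2 * u)) := by
  obtain ⟨h, ε, hε, han, h0, hb, hd⟩ := exists_local m hm
  have hlim0 : Tendsto (fun u : ℝ => Real.exp (-2 * u)) atTop (𝓝 0) := by
    apply Real.tendsto_exp_atBot.comp
    exact tendsto_id.const_mul_atTop_of_neg (by norm_num)
  have l2 : Tendsto (fun u : ℝ => h (Real.exp (-2 * u))) atTop (𝓝 2) := by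
    have h1 : ContinuousAt h 0 := (han 0 ⟨by linarith only [hε], hε⟩).continuousAt
    have h2 := h1.tendsto.comp hlim0
    rw [h0] at h2
    exact h2
  obtain ⟨V, hV⟩ := eventually_atTop.1 (hlim0.eventually (gt_mem_nhds hε))
  obtain ⟨U₁, hU₁, heq⟩ := unique_top m hm g (fun u => h (Real.exp (-2 * u))) (max U₀ V)
    (fun u hu => hg u (lt_of_le_of_lt (le_max_left _ _) hu))
    (fun u hu => hd u (hV u (le_of_lt (lt_of_le_of_lt (le_max_right _ _) hu)))) hl l2
  have hsub : Ioo (-(min ε (Real.exp (-2 * U₁)))) (min ε (Real.exp (-2 * U₁))) ⊆ Ioo (-ε) ε := by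
    intro z hz
    exact ⟨lt_of_le_of_lt (neg_le_neg (min_le_left _ _)) hz.1, lt_of_lt_of_le hz.2 (min_le_left _ _)⟩
  refine ⟨h, min ε (Real.exp (-2 * U₁)), lt_min hε (Real.exp_pos _), han.mono hsub, h0,
    fun z hz => hb z (hsub hz), ?_⟩
  intro u hu
  have h1 : Real.exp (-2 * u) < Real.exp (-2 * U₁) := lt_of_lt_of_le hu (min_le_right _ _)
  have h2 := Real.exp_lt_exp.1 h1
  have h3 : U₁ < u := by linarith only [h2]
  refine ⟨?_, heq u h3.le⟩
  have := le_max_left U₀ V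
  linarith only [hU₁, h3, this]

/-- The field `tip` of `IsBub`. -/
theorem tip_of (m : ℝ) (hm : 6 ≤ m) (g : ℝ → ℝ) (U₀ : ℝ)
    (hg : ∀ u > U₀, HasDerivAt g (gRhs m u (g u)) u) (hl : Tendsto g atTop (𝓝 2)) :
    ∃ h : ℝ → ℝ, ∃ ε > 0, ContDiffOn ℝ ∞ h (Ioo (-ε) ε) ∧ h 0 = 2 ∧
      ∀ u, Real.exp (-2 * u) < ε → g u = h (Real.exp (-2 * u)) := by
  obtain ⟨h, ε, hε, han, h0, _, heq⟩ := tip_analytic m hm g U₀ hg hl
  exact ⟨h, ε, hε, han.contDiffOn isOpen_Ioo.uniqueDiffOn, h0, fun u hu => (heq u hu).2⟩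

end Vale.Agent.P244.ST.BD.BubTip
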