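import Vale.Agent.P244.ST.BubG
import Vale.Agent.P244.ST.BubTip

/-!
# P244-ST, block B : the bubble profile exists (`BubStatement`)
-/

open Set Filter Topology

namespace Vale.Agent.P244.ST.BD.BubG


variable {m κ : ℝ} {g : ℝ → ℝ}

theorem bub_tendsto (h : BubPar m κ) (hg : IsBub0 m κ g) : Tendsto g atTop (𝓝 2) := by
  have hlim : Tendsto (fun u : ℝ => 2 + 4 / 3 * (4 / u)) atTop (𝓝 2) := by
    have h1 : Tendsto (fun u : ℝ => 4 / u) atTop (𝓝 0) := tendsto_const_nhds.div_atTop tendsto_id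
    have h2 := (h1.const_mul (4 / 3)).const_add 2
    simpa using h2
  have hlow : Tendsto (fun u : ℝ => 2 - 2 * (4 / u)) atTop (𝓝 2) := by
    have h1 : Tendsto (fun u : ℝ => 4 / u) atTop (𝓝 0) := tendsto_const_nhds.div_atTop tendsto_id
    have h2 := (h1.const_mul 2).const_sub 2
    simpa using h2
  refine tendsto_of_tendsto_of_tendsto_of_le_of_le' hlow hlim ?_ ?_
  · filter_upwards [eventually_gt_atTop 0] with u hu
    have h1 := hg.lo u hu
    have h2 := one_sub_tanh_sq_le hu
    have hT := tanh_pos hu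
    have hT1 := Real.tanh_lt_one u
    have h3 : 1 - Real.tanh u ≤ 1 - Real.tanh u ^ 2 := by nlinarith only [hT, hT1]
    linarith only [h1, h2, h3]
  · filter_upwards [eventually_gt_atTop 0] with u hu
    have h1 := bub_near_top h hg hu
    have h2 := one_sub_tanh_sq_le hu
    have hT := tanh_pos hu
    have hT1 := Real.tanh_lt_one u
    have h3 : g u ≤ g u / Real.tanh u := by
      rw [le_div_iff₀ hT]
      exact mul_le_of_le_one_right (bub_pos hg hu).le hT1.le
    linarith only [h1, h2, h3]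

/-- B1 + B2. -/
theorem bubStatement : BubStatement := by
  obtain ⟨g, hg, h0, hodd⟩ := exists_core
  obtain ⟨hP, hC1, hC2⟩ := bubPar_forty
  exact ⟨g, h0, hodd, hg.ode, hg.lo, hg.hi, fun u hu => bub_lt_two hP hg hu,
    fun u hu => bub_rhs_pos hP hg hu, fun u hu => bub_quot hP hg hu,
    ⟨1 / 4, fun u hu => bub_near_zero hP hg hC1 hC2 hu⟩,
    ⟨4 / 3, fun u hu => bub_near_top hP hg hu⟩,
    BubTip.tip_of 40 (by norm_num) g 0 hg.ode (bub_tendsto hP hg)⟩

end Vale.Agent.P244.ST.BD.BubG
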