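import Vale.Agent.P244.ST.Iface
import Vale.Agent.P244.ST.BubMain

/-!
# P244-ST, block B1 : `B1Statement` of the interface file
-/

open Set Filter Topology
open scoped ContDiff

namespace Vale.Agent.P244.ST.BBridge

theorem glue_smooth {hl G : ℝ → ℝ} {ε : ℝ} (hε : 0 < ε) (hl_s : ContDiffOn ℝ ∞ hl (Ioo (-ε) ε))
    (hG : ContDiffOn ℝ ∞ G (Ioo 0 1)) (heq : ∀ X, 0 < X → X < ε → hl X = G X) :
    ∃ h : ℝ → ℝ, ContDiffOn ℝ ∞ h (Ioo (-1) 1) ∧ ∀ X ∈ Ioo (0 : ℝ) 1, h X = G X := by
  set st : ℝ → ℝ := fun X => Real.smoothTransition ((X + 2 * ε / 3) / (ε / 3)) with hst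
  have hst_s : ContDiff ℝ ∞ st := by
    have h1 : ContDiff ℝ ∞ (fun X : ℝ => (X + 2 * ε / 3) / (ε / 3)) := by fun_prop
    exact Real.smoothTransition.contDiff.comp h1
  have hst1 : ∀ X, -ε / 3 ≤ X → st X = 1 := by
    intro X hX
    refine Real.smoothTransition.one_of_one_le ?_
    rw [le_div_iff₀ (by positivity)]
    linarith only [hX]
  have hst0 : ∀ X, X ≤ -(2 * ε / 3) → st X = 0 := by
    intro X hX
    refine Real.smoothTransition.zero_of_nonpos ?_
    exact div_nonpos_of_nonpos_of_nonneg (by linarith only [hX]) (by positivity)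
  set h : ℝ → ℝ := fun X => if X < ε / 2 then st X * hl X else G X with hh
  have e1 : ∀ X ∈ Ioo (0 : ℝ) 1, h X = G X := by
    intro X hX
    rw [hh]
    simp only
    split_ifs with hlt
    · rw [hst1 X (by linarith only [hε, hX, hX.1]), one_mul, heq X hX.1 (by linarith only [hε, hlt])]
    · rfl
  refine ⟨h, ?_, e1⟩
  intro x hx
  refine ContDiffAt.contDiffWithinAt ?_
  rcases lt_or_ge 0 x with hpos | hneg
  · have h2 : ContDiffAt ℝ ∞ G x := (hG x ⟨hpos, hx.2⟩).contDiffAt (Ioo_mem_nhds hpos hx.2)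
    refine h2.congr_of_eventuallyEq ?_
    filter_upwards [Ioo_mem_nhds hpos hx.2] with X hX
    exact e1 X hX
  · rcases lt_or_ge x (-(2 * ε / 3)) with hx2 | hx2
    · refine (contDiffAt_const (c := (0 : ℝ))).congr_of_eventuallyEq ?_
      filter_upwards [Iio_mem_nhds hx2] with X hX
      rw [hh]
      simp only
      have hX' : X < -(2 * ε / 3) := hX
      rw [if_pos (by linarith only [hε, hX']), hst0 X hX'.le, zero_mul]
    · have hx3 : x ∈ Ioo (-ε) (ε / 2) := ⟨by linarith only [hε, hx2], by linarith only [hε, hneg]⟩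
      have h2 : ContDiffAt ℝ ∞ hl x :=
        (hl_s x ⟨hx3.1, by linarith only [hε, hneg, hx3.2]⟩).contDiffAt (Ioo_mem_nhds hx3.1 (by linarith only [hε, hneg, hx3.2]))
      refine (hst_s.contDiffAt.mul h2).congr_of_eventuallyEq ?_
      filter_upwards [Ioo_mem_nhds hx3.1 hx3.2] with X hX
      rw [hh]
      simp only
      rw [if_pos hX.2]

theorem kap_eq : BD.kap 40 = kap := by
  unfold BD.kap kap
  norm_num

theorem gRhs_eq (u y : ℝ) :
    BD.gRhs 40 u y = (39 - y ^ 2 / 4) * (y - 2 * Real.tanh u) / y := by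
  unfold BD.gRhs BD.qf
  norm_num

/-- The interface structure from the structure of block B. -/
theorem isBub_of {g : ℝ → ℝ} (hg : BD.IsBub 40 g) : IsBub g := by
  have h0 : BD.BubG.IsBub0 40 (BD.kap 40) g := ⟨hg.deriv, hg.lower, hg.upper⟩
  have hder : ∀ u > 0, deriv g u = BD.gRhs 40 u (g u) := fun u hu => (hg.deriv u hu).deriv
  refine ⟨BD.BubG.bub_smooth h0, ?_, hg.lower, ?_, hg.lt_two, ?_, ?_, ?_, ?_, ?_⟩
  · intro u hu
    rw [← gRhs_eq]
    exact hg.deriv u hu
  · intro u hu
    rw [← kap_eq]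
    exact hg.upper u hu
  · intro u hu
    rw [hder u hu]
    exact hg.rhs_pos u hu
  · intro u hu
    rw [hder u hu]
    exact hg.quot u hu
  · obtain ⟨C, hC⟩ := hg.near_zero
    refine ⟨C, fun u hu => ?_⟩
    have hT := BD.BubG.tanh_pos hu
    have h1 := mul_le_mul_of_nonneg_right (hC u hu) hT.le
    rw [← kap_eq]
    have h2 : (BD.kap 40 - g u / Real.tanh u) * Real.tanh u = BD.kap 40 * Real.tanh u - g u := by
      rw [sub_mul, div_mul_cancel₀ _ hT.ne']
    rw [h2] at h1
    calc _ ≤ _ := h1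
      _ = _ := by ring
  · obtain ⟨C, hC⟩ := hg.near_top
    refine ⟨C, fun u hu => ?_⟩
    have hT := BD.BubG.tanh_pos hu
    have hT1 := Real.tanh_lt_one u
    have h3 := hC u hu
    have h2 : g u - 2 * Real.tanh u = (g u / Real.tanh u - 2) * Real.tanh u := by
      rw [sub_mul, div_mul_cancel₀ _ hT.ne']
    have h4 : 0 ≤ g u / Real.tanh u - 2 := by
      rw [sub_nonneg, le_div_iff₀ hT]
      exact (hg.lower u hu).le
    rw [h2]
    exact (mul_le_of_le_one_right h4 hT1.le).trans h3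
  · obtain ⟨hl, ε, hε, hsm, h2, hgu⟩ := hg.tip
    set ε' := min ε 1 with hε'
    have hε'0 : 0 < ε' := by positivity
    have hle : ε' ≤ ε := min_le_left _ _
    have hG : ContDiffOn ℝ ∞ (fun X : ℝ => g (-(Real.log X) / 2)) (Ioo 0 1) := by
      have h1 : ContDiffOn ℝ ∞ (fun X : ℝ => -(Real.log X) / 2) (Ioo 0 1) := by
        refine ((ContDiffOn.log contDiffOn_id ?_).neg).div_const 2
        intro x hx
        exact hx.1.ne'
      refine (BD.BubG.bub_smooth h0).comp h1 ?_
      intro x hx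
      have : Real.log x < 0 := Real.log_neg hx.1 hx.2
      simp only [mem_Ioi]
      linarith only [this]
    obtain ⟨h, hh1, hh2⟩ := glue_smooth hε'0 (hsm.mono (Ioo_subset_Ioo (by linarith only [hle]) hle)) hG (by
      intro X hX1 hX2
      have h5 := hgu (-(Real.log X) / 2) (by
        have : -2 * (-(Real.log X) / 2) = Real.log X := by ring
        rw [this, Real.exp_log hX1]
        linarith only [hle, hX2])
      have : -2 * (-(Real.log X) / 2) = Real.log X := by ring
      rw [this, Real.exp_log hX1] at h5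
      exact h5.symm)
    refine ⟨h, hh1, fun u hu => ?_⟩
    have h6 : Real.exp (-2 * u) < 1 := by
      rw [← Real.exp_zero]
      exact Real.exp_lt_exp.mpr (by linarith only [hu])
    rw [hh2 _ ⟨Real.exp_pos _, h6⟩, Real.log_exp]
    congr 1
    ring

/-- BLOCK B1. -/
theorem b1Statement : B1Statement := by
  obtain ⟨g, hg⟩ := BD.BubG.bubStatement
  exact ⟨g, isBub_of hg⟩

end Vale.Agent.P244.ST.BBridge
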