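import Vale.Agent.P244.ST.BSub

/-!
# P244-ST, block B3c : assembly of the initial data in the conformal gauge

`B3cStatement : TipXStatement → GaugeStatement → InitStatement`.
`lx x = lX (artanh x)`; the two functions are given on `(-1,1)` by the relations
`rel_f`, `rel_w` and near `x = 1` they are smooth functions of `ξ = (1-x)/(1+x)`
(independent of `b`).
-/

open Set Filter Topology Real
open scoped ContDiff

namespace Vale.Agent.P244.ST.BConf

open Vale.Agent.P244.ST.BD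

/-- `artanh x` -/
noncomputable def ath (x : ℝ) : ℝ := (log (1 + x) - log (1 - x)) / 2

theorem ath_neg (x : ℝ) : ath (-x) = - ath x := by
  unfold ath
  rw [sub_neg_eq_add, ← sub_eq_add_neg]
  ring

theorem ath_zero : ath 0 = 0 := by simp [ath]

theorem ath_smooth {x : ℝ} (hx : x ∈ Ioo (-1 : ℝ) 1) : ContDiffAt ℝ ∞ ath x := by
  unfold ath
  have h1 : ContDiffAt ℝ ∞ (fun x : ℝ => log (1 + x)) x :=
    (contDiffAt_const.add contDiffAt_id).log (by linarith only [hx, hx.1] : (0:ℝ) < 1 + x).ne'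
  have h2 : ContDiffAt ℝ ∞ (fun x : ℝ => log (1 - x)) x :=
    (contDiffAt_const.sub contDiffAt_id).log (by linarith only [hx, hx.2] : (0:ℝ) < 1 - x).ne'
  exact (h1.sub h2).div_const 2

theorem ath_deriv {x : ℝ} (hx : x ∈ Ioo (-1 : ℝ) 1) : HasDerivAt ath (1 / (1 - x ^ 2)) x := by
  unfold ath
  have p1 : (0:ℝ) < 1 + x := by linarith only [hx, hx.1]
  have p2 : (0:ℝ) < 1 - x := by linarith only [hx, hx.2]
  have h1 : HasDerivAt (fun x : ℝ => log (1 + x)) (1 / (1 + x)) x :=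
    ((hasDerivAt_id x).const_add 1).log p1.ne'
  have h2 : HasDerivAt (fun x : ℝ => log (1 - x)) (-1 / (1 - x)) x :=
    ((hasDerivAt_id x).const_sub 1).log p2.ne'
  refine ((h1.sub h2).div_const 2).congr_deriv ?_
  have p3 : (1 - x ^ 2 : ℝ) ≠ 0 := by nlinarith only [p1, p2, mul_pos p1 p2]
  have := p1.ne'
  have := p2.ne'
  field_simp
  ring

theorem ath_pos {x : ℝ} (hx : x ∈ Ioo (0 : ℝ) 1) : 0 < ath x := by
  unfold ath
  have h1 : log (1 - x) < log (1 + x) :=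
    log_lt_log (by linarith only [hx, hx.2]) (by linarith only [hx, hx.1])
  linarith only [h1]

theorem ath_exp {x : ℝ} (hx : x ∈ Ioo (-1 : ℝ) 1) : exp (-2 * ath x) = (1 - x) / (1 + x) := by
  unfold ath
  have p1 : (0:ℝ) < 1 + x := by linarith only [hx, hx.1]
  have p2 : (0:ℝ) < 1 - x := by linarith only [hx, hx.2]
  have : -2 * ((log (1 + x) - log (1 - x)) / 2) = log (1 - x) - log (1 + x) := by ring
  rw [this, exp_sub, exp_log p1, exp_log p2]

theorem ath_tendsto : Tendsto ath (𝓝[<] 1) atTop := by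
  have h1 : Tendsto (fun x : ℝ => log (1 + x)) (𝓝[<] 1) (𝓝 (log (1 + 1))) := by
    have : ContinuousAt (fun x : ℝ => log (1 + x)) 1 :=
      (continuousAt_const.add continuousAt_id).log (by norm_num)
    exact this.tendsto.mono_left nhdsWithin_le_nhds
  have h2 : Tendsto (fun x : ℝ => log (1 - x)) (𝓝[<] 1) atBot := by
    have h3 : Tendsto (fun x : ℝ => 1 - x) (𝓝[<] 1) (𝓝[>] 0) := by
      refine tendsto_nhdsWithin_iff.2 ⟨?_, ?_⟩
      · have : ContinuousAt (fun x : ℝ => 1 - x) 1 := by fun_prop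
        have h := this.tendsto.mono_left (nhdsWithin_le_nhds (s := Iio 1))
        simpa using h
      · filter_upwards [self_mem_nhdsWithin] with x hx
        simp only [mem_Iio] at hx
        simp only [mem_Ioi]
        linarith only [hx]
    exact tendsto_log_nhdsGT_zero.comp h3
  have h3 : Tendsto (fun x : ℝ => log (1 + x) - log (1 - x)) (𝓝[<] 1) atTop := by
    have h4 : Tendsto (fun x : ℝ => -log (1 - x)) (𝓝[<] 1) atTop := tendsto_neg_atBot_atTop.comp h2
    simpa [sub_eq_add_neg] using h1.add_atTop h4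
  exact h3.atTop_div_const (by norm_num)

/-- Gluing: an even function, smooth in `(b,x)` for `|x| < 1`, equal near `x = 1` to a smooth
function of `x` alone, extends smoothly to `[-1,1]`. -/
theorem glue (F : (Fin 3 → ℝ) → ℝ → ℝ) (T : ℝ → ℝ) (a : ℝ) (ha : a < 1) (ha0 : -1 < a)
    (hF : ∀ b, ∀ x ∈ Ioo (-1 : ℝ) 1,
      ContDiffAt ℝ ∞ (fun z : (Fin 3 → ℝ) × ℝ => F z.1 z.2) (b, x))
    (hev : ∀ b x, F b (-x) = F b x)
    (hT : ContDiffAt ℝ ∞ T 1) (hFT : ∀ b, ∀ x ∈ Ioo a 1, F b x = T x) :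
    ∃ F' : (Fin 3 → ℝ) → ℝ → ℝ,
      ContDiffOn ℝ ∞ (fun z : (Fin 3 → ℝ) × ℝ => F' z.1 z.2) (univ ×ˢ Icc (-1) 1) ∧
      (∀ b x, F' b (-x) = F' b x) ∧ ∀ b, ∀ x ∈ Ioo (-1 : ℝ) 1, F' b x = F b x := by
  classical
  refine ⟨fun b x => if |x| < 1 then F b x else T 1, ?_, ?_, ?_⟩
  · rintro ⟨b, x⟩ hz
    have hx : x ∈ Icc (-1 : ℝ) 1 := hz.2
    have key : ∀ x' ∈ Icc (-1 : ℝ) 1, a < x' → ∀ b',
        (if |x'| < 1 then F b' x' else T 1) = T x' := by
      intro x' hx' hax' b'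
      split_ifs with h
      · exact hFT b' x' ⟨hax', (abs_lt.1 h).2⟩
      · have h1 : x' = 1 := by
          rcases eq_or_lt_of_le hx'.2 with h2 | h2
          · exact h2
          · exact absurd (abs_lt.2 ⟨by linarith only [ha0, hax'], h2⟩) h
        rw [h1]
    rcases eq_or_lt_of_le hx.2 with h1 | h1
    · subst h1
      have hTs : ContDiffAt ℝ ∞ (fun z : (Fin 3 → ℝ) × ℝ => T z.2) (b, 1) :=
        ContDiffAt.comp (b, (1:ℝ)) hT contDiffAt_snd
      refine hTs.contDiffWithinAt.congr_of_eventuallyEq ?_ ?_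
      · have hnb : {z : (Fin 3 → ℝ) × ℝ | a < z.2} ∈ 𝓝 ((b, 1) : (Fin 3 → ℝ) × ℝ) :=
          (isOpen_lt continuous_const continuous_snd).mem_nhds ha
        filter_upwards [mem_nhdsWithin_of_mem_nhds hnb, self_mem_nhdsWithin] with z hz1 hz2
        exact key z.2 hz2.2 hz1 z.1
      · exact key 1 hx ha b
    rcases eq_or_lt_of_le hx.1 with h2 | h2
    · subst h2
      have hTs : ContDiffAt ℝ ∞ (fun z : (Fin 3 → ℝ) × ℝ => T (-z.2)) (b, -1) := by
        have h3 : ContDiffAt ℝ ∞ T (-(-1)) := by rw [neg_neg]; exact hT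
        exact ContDiffAt.comp (b, (-1:ℝ)) h3 contDiffAt_snd.neg
      have key2 : ∀ x' ∈ Icc (-1 : ℝ) 1, x' < -a → ∀ b',
          (if |x'| < 1 then F b' x' else T 1) = T (-x') := by
        intro x' hx' hax' b'
        have := key (-x') ⟨by linarith only [ha0, hax', hx'.2], by linarith only [hx', hx'.1]⟩ (by linarith only [hax']) b'
        rw [abs_neg, hev] at this
        exact this
      refine hTs.contDiffWithinAt.congr_of_eventuallyEq ?_ ?_
      · have hnb : {z : (Fin 3 → ℝ) × ℝ | z.2 < -a} ∈ 𝓝 ((b, -1) : (Fin 3 → ℝ) × ℝ) :=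
          (isOpen_lt continuous_snd continuous_const).mem_nhds (show (-1:ℝ) < -a by linarith only [ha])
        filter_upwards [mem_nhdsWithin_of_mem_nhds hnb, self_mem_nhdsWithin] with z hz1 hz2
        exact key2 z.2 hz2.2 hz1 z.1
      · exact key2 (-1) hx (by linarith only [ha]) b
    · have h3 := hF b x ⟨h2, h1⟩
      refine ContDiffAt.contDiffWithinAt (h3.congr_of_eventuallyEq ?_)
      have hnb : {z : (Fin 3 → ℝ) × ℝ | |z.2| < 1} ∈ 𝓝 ((b, x) : (Fin 3 → ℝ) × ℝ) :=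
        (isOpen_lt continuous_snd.abs continuous_const).mem_nhds (abs_lt.2 ⟨h2, h1⟩)
      filter_upwards [hnb] with z hz1
      exact if_pos hz1
  · intro b x
    simp only [abs_neg, hev]
  · intro b x hx
    exact if_pos (abs_lt.2 hx)

theorem cut_smooth (a : ℝ) : ContDiff ℝ ∞ (cut a) := by
  unfold cut
  exact smoothTransition.contDiff.comp ((contDiff_id.sub contDiff_const).div_const _)

theorem cut_zero {a l : ℝ} (h : l ≤ a) : cut a l = 0 := by
  unfold cut
  apply smoothTransition.zero_of_nonpos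
  have : 0 < log 2 := log_pos (by norm_num)
  rw [div_nonpos_iff]
  right
  exact ⟨by linarith only [h], this.le⟩

theorem u_smooth {g : ℝ → ℝ} {d : IPar} (hd : d.Ok g) :
    ContDiff ℝ ∞ (fun z : (Fin 3 → ℝ) × ℝ => d.u z.1 z.2) := by
  unfold IPar.u IPar.uS IPar.uB cutO
  have hc : ∀ a, ContDiff ℝ ∞ (fun z : (Fin 3 → ℝ) × ℝ => cut a z.2) := fun a =>
    (cut_smooth a).comp contDiff_snd
  have hY : ContDiff ℝ ∞ (fun z : (Fin 3 → ℝ) × ℝ => d.Y (z.2 - d.lam)) :=
    hd.prof.smooth.comp (contDiff_snd.sub contDiff_const)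
  have hP : ContDiff ℝ ∞ (fun z : (Fin 3 → ℝ) × ℝ => d.P3 z.2) := hd.P3s.comp contDiff_snd
  have hb : ContDiff ℝ ∞ (fun z : (Fin 3 → ℝ) × ℝ => ∑ i, z.1 i * d.Pb i z.2) := by
    apply ContDiff.sum
    intro i _
    have h1 : ContDiff ℝ ∞ (fun z : (Fin 3 → ℝ) × ℝ => z.1 i) :=
      (contDiff_apply ℝ ℝ i).comp contDiff_fst
    exact h1.mul ((hd.Pbs i).comp contDiff_snd)
  have h1 : ContDiff ℝ ∞ (fun z : (Fin 3 → ℝ) × ℝ => 1 - cut d.l1 z.2) :=
    contDiff_const.sub (hc _)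
  exact (((contDiff_const.sub (hc _)).mul hY).add
    ((hc _).mul ((contDiff_const.mul h1).mul hP))).add
    (((contDiff_const.mul (hc _)).mul h1).mul hb)

theorem u_inner {g : ℝ → ℝ} {d : IPar} (hd : d.Ok g) (b : Fin 3 → ℝ) {l : ℝ} (hl : l ≤ d.l0) :
    d.u b l = d.Y (l - d.lam) := by
  have h2 : 0 < log 2 := log_pos (by norm_num)
  have h3 := hd.l0b
  unfold IPar.u IPar.uS IPar.uB
  rw [cut_zero hl, cut_zero (by linarith only [hl, h2, h3] : l ≤ d.lb)]
  ring

theorem uS_inner {d : IPar} {l : ℝ} (hl : l ≤ d.l0) :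
    d.uS l = d.Y (l - d.lam) := by
  unfold IPar.uS
  rw [cut_zero hl]
  ring

theorem N_inner {g : ℝ → ℝ} {d : IPar} (hd : d.Ok g) {l : ℝ} (hl : l ≤ d.l0 - log 2) :
    d.N g l = exp (-(d.Y (l - d.lam)) / 2) * sqrt (zeta0 * Zs 40 g (d.Y (l - d.lam))) := by
  have h2 : 0 < log 2 := log_pos (by norm_num)
  unfold IPar.N IPar.Z
  rw [uS_inner (by linarith only [hl, h2]), u_inner hd 0 (by linarith only [hl, h2]), cut_zero hl]
  congr 3
  ring

theorem assembly : B3cStatement := by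
  intro hTip hGauge g hg d hd
  obtain ⟨lX, hlXs, hlXe, hlX0, hlXd, hlXt⟩ := hGauge g hg d hd
  have hlog2 : 0 < log 2 := log_pos (by norm_num)
  -- large `X`
  obtain ⟨X1', hX1'⟩ := eventually_atTop.1 (hlXt.eventually (eventually_le_atBot (d.l0 - log 2)))
  set X1 := max X1' 0 with hX1
  have hX1le : ∀ X > X1, lX X ≤ d.l0 - log 2 := fun X hX =>
    hX1' X (le_trans (le_max_left _ _) hX.le)
  have hX1pos : ∀ X > X1, 0 < X := fun X hX => lt_of_le_of_lt (le_max_right _ _) hX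
  set U : ℝ → ℝ := fun X => d.Y (lX X - d.lam) with hU
  have hUd : ∀ X > X1, HasDerivAt U
      (g (U X) * exp (-(U X) / 2) * sqrt (zeta0 * Zs 40 g (U X))) X := by
    intro X hX
    have h1 := (hlXd X (hX1pos X hX)).2
    have h2 := (hd.prof.deriv (lX X - d.lam)).comp X (h1.sub_const d.lam)
    refine h2.congr_deriv ?_
    rw [N_inner hd (hX1le X hX)]
    ring
  have hUt : Tendsto U atTop atTop := by
    apply hd.prof.top.comp
    exact tendsto_atBot_add_const_right _ (-d.lam) hlXt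
  obtain ⟨Q, δ, hδ, hQs, hQp, hQ⟩ := hTip g hg U X1 hUd hUt
  obtain ⟨S, ε, hε, hSs, hSp, hS⟩ := hd.prof.tip
  -- tip variable
  set ξ : ℝ → ℝ := fun x => (1 - x) / (1 + x) with hξ
  have hξs : ContDiffAt ℝ ∞ ξ 1 := by
    rw [hξ]
    exact (contDiffAt_const.sub contDiffAt_id).div (contDiffAt_const.add contDiffAt_id)
      (by norm_num)
  have hξ1 : ξ 1 = 0 := by rw [hξ]; simp
  have hQat : ContDiffAt ℝ ∞ (fun x => Q (ξ x)) 1 := by
    have h1 : ContDiffAt ℝ ∞ Q (ξ 1) := by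
      rw [hξ1]
      exact hQs.contDiffAt (isOpen_Ioo.mem_nhds ⟨by linarith only [hδ], hδ⟩)
    exact ContDiffAt.comp (1:ℝ) h1 hξs
  have hSat : ContDiffAt ℝ ∞ (fun x => S (ξ x * Q (ξ x))) 1 := by
    have h1 : ContDiffAt ℝ ∞ S (ξ 1 * Q (ξ 1)) := by
      rw [hξ1, zero_mul]
      exact hSs.contDiffAt (isOpen_Ioo.mem_nhds ⟨by linarith only [hε], hε⟩)
    exact ContDiffAt.comp (1:ℝ) h1 (hξs.mul hQat)
  have hQpos1 : 0 < Q (ξ 1) := by rw [hξ1]; exact hQp 0 ⟨by linarith only [hδ], hδ⟩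
  have hSpos1 : 0 < S (ξ 1 * Q (ξ 1)) := by
    rw [hξ1, zero_mul]; exact hSp 0 ⟨by linarith only [hε], hε⟩
  -- neighbourhood of `x = 1`
  have hev : ∀ᶠ x in 𝓝[<] (1:ℝ), X1 < ath x ∧ exp (-2 * ath x) < δ ∧
      exp (-2 * U (ath x)) < ε := by
    have e1 := ath_tendsto.eventually (eventually_gt_atTop X1)
    have l2 : Tendsto (fun x => exp (-2 * ath x)) (𝓝[<] (1:ℝ)) (𝓝 0) := by
      apply tendsto_exp_atBot.comp
      exact ath_tendsto.const_mul_atTop_of_neg (by norm_num)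
    have l3 : Tendsto (fun x => exp (-2 * U (ath x))) (𝓝[<] (1:ℝ)) (𝓝 0) := by
      apply tendsto_exp_atBot.comp
      exact (hUt.comp ath_tendsto).const_mul_atTop_of_neg (by norm_num)
    exact e1.and ((l2.eventually (gt_mem_nhds hδ)).and (l3.eventually (gt_mem_nhds hε)))
  obtain ⟨a', ha', hsub⟩ := (mem_nhdsLT_iff_exists_Ioo_subset' (show (0:ℝ) < 1 by norm_num)).1 hev
  set a := max a' 0 with ha
  have ha1 : a < 1 := max_lt ha' (by norm_num)
  have ha0 : (-1:ℝ) < a := lt_of_lt_of_le (by norm_num) (le_max_right _ _)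
  have hkey : ∀ x ∈ Ioo a 1, lX (ath x) ≤ d.l0 ∧
      log (Q (ξ x)) = -2 * U (ath x) + 2 * ath x ∧
      log (S (ξ x * Q (ξ x))) = 4 * (lX (ath x) - d.lam) + 2 * U (ath x) := by
    intro x hx
    have hx' : x ∈ Ioo (-1 : ℝ) 1 := ⟨lt_trans ha0 hx.1, hx.2⟩
    obtain ⟨h1, h2, h3⟩ := hsub ⟨lt_of_le_of_lt (le_max_left _ _) hx.1, hx.2⟩
    have h4 := hQ (ath x) h1 h2
    have h5 := hS (lX (ath x) - d.lam) h3
    have e1 : exp (-2 * ath x) = ξ x := ath_exp hx'
    change exp (4 * (lX (ath x) - d.lam)) = exp (-2 * U (ath x)) * S (exp (-2 * U (ath x))) at h5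
    rw [e1] at h4
    rw [h4] at h5
    have e2 : Q (ξ x) = exp (-2 * U (ath x)) / exp (-2 * ath x) := by
      rw [h4, e1]
      have : ξ x ≠ 0 := by rw [← e1]; exact (exp_pos _).ne'
      field_simp
    have e3 : S (ξ x * Q (ξ x)) = exp (4 * (lX (ath x) - d.lam)) / exp (-2 * U (ath x)) := by
      rw [h5, h4]
      have : ξ x * Q (ξ x) ≠ 0 := by rw [← h4]; exact (exp_pos _).ne'
      rw [mul_div_cancel_left₀ _ this]
    refine ⟨by linarith only [hlog2, hX1le, h1, hX1le _ h1], ?_, ?_⟩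
    · rw [e2, ← exp_sub, log_exp]; ring
    · rw [e3, ← exp_sub, log_exp]; ring
  have hlxs : ∀ x ∈ Ioo (-1 : ℝ) 1, ContDiffAt ℝ ∞ (fun x => lX (ath x)) x := fun x hx =>
    ContDiffAt.comp x hlXs.contDiffAt (ath_smooth hx)
  have hlxe : ∀ x, lX (ath (-x)) = lX (ath x) := fun x => by rw [ath_neg, hlXe]
  have hlx2 : ∀ (b : Fin 3 → ℝ), ∀ x ∈ Ioo (-1 : ℝ) 1,
      ContDiffAt ℝ ∞ (fun z : (Fin 3 → ℝ) × ℝ => lX (ath z.2)) (b, x) := fun b x hx =>
    ContDiffAt.comp (b, x) (g := fun x => lX (ath x)) (hlxs x hx) contDiffAt_snd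
  have hux : ∀ (b : Fin 3 → ℝ), ∀ x ∈ Ioo (-1 : ℝ) 1,
      ContDiffAt ℝ ∞ (fun z : (Fin 3 → ℝ) × ℝ => d.u z.1 (lX (ath z.2))) (b, x) := by
    intro b x hx
    exact ContDiffAt.comp (b, x) (g := fun z : (Fin 3 → ℝ) × ℝ => d.u z.1 z.2)
      (f := fun z : (Fin 3 → ℝ) × ℝ => (z.1, lX (ath z.2)))
      (u_smooth hd).contDiffAt (contDiffAt_fst.prodMk (hlx2 b x hx))
  obtain ⟨f0, hf0s, hf0e, hf0⟩ := glue
    (fun b x => log zeta0 / 2 + lX (ath x) + d.u b (lX (ath x)) / 2)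
    (fun x => log zeta0 / 2 + d.lam + log (S (ξ x * Q (ξ x))) / 4) a ha1 ha0
    (fun b x hx => (contDiffAt_const.add (hlx2 b x hx)).add ((hux b x hx).div_const 2))
    (fun b x => by simp only [hlxe])
    (contDiffAt_const.add ((hSat.log hSpos1.ne').div_const 4))
    (fun b x hx => by
      obtain ⟨h1, h2, h3⟩ := hkey x hx
      rw [h3, u_inner hd b h1]
      change log zeta0 / 2 + lX (ath x) + U (ath x) / 2 = _
      ring)
  obtain ⟨w0, hw0s, hw0e, hw0⟩ := glue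
    (fun b x => log zeta0 / 2 + lX (ath x) - d.u b (lX (ath x)) / 2 - log (1 - x ^ 2) / 2)
    (fun x => log zeta0 / 2 + d.lam + log (S (ξ x * Q (ξ x))) / 4 + log (Q (ξ x)) / 2
      - log (1 + x)) a ha1 ha0
    (fun b x hx => by
      have h1 : ContDiffAt ℝ ∞ (fun z : (Fin 3 → ℝ) × ℝ => log (1 - z.2 ^ 2)) (b, x) :=
        (contDiffAt_const.sub (contDiffAt_snd.pow 2)).log (by
          have : 0 < (1 - x) * (1 + x) := mul_pos (by linarith only [hx, hx.2]) (by linarith only [hx, hx.1])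
          simp only
          nlinarith only [this])
      exact ((contDiffAt_const.add (hlx2 b x hx)).sub ((hux b x hx).div_const 2)).sub
        (h1.div_const 2))
    (fun b x => by simp only [hlxe, neg_sq])
    (by
      have h1 : ContDiffAt ℝ ∞ (fun x : ℝ => log (1 + x)) 1 :=
        (contDiffAt_const.add contDiffAt_id).log (by norm_num)
      exact ((contDiffAt_const.add ((hSat.log hSpos1.ne').div_const 4)).add
        ((hQat.log hQpos1.ne').div_const 2)).sub h1)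
    (fun b x hx => by
      obtain ⟨h1, h2, h3⟩ := hkey x hx
      rw [h3, h2, u_inner hd b h1]
      change log zeta0 / 2 + lX (ath x) - U (ath x) / 2 - _ = _
      have p1 : (0:ℝ) < 1 + x := by linarith only [ha0, hx, hx.1]
      have p2 : (0:ℝ) < 1 - x := by linarith only [hx, hx.2]
      have e1 : (1 - x ^ 2 : ℝ) = (1 - x) * (1 + x) := by ring
      rw [e1, log_mul p2.ne' p1.ne']
      have e2 : ath x = (log (1 + x) - log (1 - x)) / 2 := rfl
      linear_combination (-1) * e2)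
  have hsec : ∀ b : Fin 3 → ℝ, ContDiffOn ℝ ∞ (fun x : ℝ => (b, x)) (Icc (-1) 1) := fun b =>
    (contDiff_const.prodMk contDiff_id).contDiffOn
  have hmaps : ∀ b : Fin 3 → ℝ, MapsTo (fun x : ℝ => (b, x)) (Icc (-1) 1)
      (univ ×ˢ Icc (-1) 1) := fun b x hx => ⟨mem_univ _, hx⟩
  refine ⟨w0, f0, fun x => lX (ath x), ?_⟩
  refine ⟨hw0s, hf0s, ?_, ?_, hlxe, ?_, ?_, ?_, ?_, ?_, ?_⟩
  · intro b
    refine ⟨?_, ?_, fun x _ => hw0e b x, fun x _ => hf0e b x⟩
    · exact hw0s.comp (hsec b) (hmaps b)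
    · exact hf0s.comp (hsec b) (hmaps b)
  · intro x hx
    exact (hlxs x hx).contDiffWithinAt
  · simp only [ath_zero]
    exact hlX0
  · intro x hx
    have hx' : x ∈ Ioo (-1 : ℝ) 1 := ⟨by linarith only [hx, hx.1], hx.2⟩
    have h1 := (hlXd _ (ath_pos hx)).2.comp x (ath_deriv hx')
    refine h1.congr_deriv ?_
    ring
  · intro x hx
    exact (hlXd _ (ath_pos hx)).1
  · exact hlXt.comp ath_tendsto
  · intro b x hx
    exact hf0 b x hx
  · intro b x hx
    exact hw0 b x hx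

end Vale.Agent.P244.ST.BConf
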