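import Vale.Agent.P244.ST.BSub2
import Vale.Agent.P244.ST.BConf
import Vale.Agent.P244.ST.BAux

/-! # P244-ST, block B5 : `ChgStatement` (change of variables) and `RsStatement` -/

open Set Filter Topology Real MeasureTheory
open scoped ContDiff

namespace Vale.Agent.P244.ST.BD.BChg

theorem chg : ChgStatement := by
  intro lx L hd hc h0 hanti htop F a _ _ _ hF2 _
  have himg : (fun x => exp (lx x)) '' Ioo (0 : ℝ) 1 = Ioo 0 (exp L) := by
    apply Subset.antisymm
    · rintro _ ⟨x, hx, rfl⟩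
      refine ⟨exp_pos _, exp_lt_exp.2 ?_⟩
      rw [← h0]
      exact hanti ⟨le_rfl, one_pos⟩ ⟨hx.1.le, hx.2⟩ hx.1
    · rintro y ⟨hy0, hy1⟩
      have hlog : log y < L := by
        rw [← exp_lt_exp, exp_log hy0]
        exact hy1
      have e1 := htop.eventually (eventually_lt_atBot (log y))
      have e2 : ∀ᶠ x in 𝓝[<] (1 : ℝ), x ∈ Ioo (0 : ℝ) 1 := Ioo_mem_nhdsLT one_pos
      obtain ⟨x1, hx1, hx1'⟩ := (e1.and e2).exists
      have hcc : ContinuousOn lx (Icc 0 x1) :=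
        hc.mono (fun z hz => ⟨hz.1, lt_of_le_of_lt hz.2 hx1'.2⟩)
      obtain ⟨x, hx, hxy⟩ := intermediate_value_Icc' hx1'.1.le hcc
        (show log y ∈ Icc (lx x1) (lx 0) from ⟨hx1.le, by rw [h0]; exact hlog.le⟩)
      refine ⟨x, ⟨lt_of_le_of_ne hx.1 ?_, lt_of_le_of_lt hx.2 hx1'.2⟩, ?_⟩
      · intro h
        rw [← h, h0] at hxy
        exact hlog.ne hxy.symm
      · change exp (lx x) = y
        rw [hxy, exp_log hy0]
  have hder : ∀ x ∈ Ioo (0 : ℝ) 1, HasDerivWithinAt (fun x => exp (lx x))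
      (deriv (fun x => exp (lx x)) x) (Ioo 0 1) x := fun x hx =>
    (hd x hx).exp.hasDerivAt.hasDerivWithinAt
  have hinj : InjOn (fun x => exp (lx x)) (Ioo (0 : ℝ) 1) := by
    intro x hx y hy hxy
    exact hanti.injOn ⟨hx.1.le, hx.2⟩ ⟨hy.1.le, hy.2⟩ (exp_injective hxy)
  have hneg : ∀ x ∈ Ioo (0 : ℝ) 1, deriv (fun x => exp (lx x)) x ≤ 0 := by
    intro x hx
    have h1 : deriv (fun x => exp (lx x)) x = exp (lx x) * deriv lx x :=
      (hd x hx).hasDerivAt.exp.deriv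
    rw [h1]
    have h2 : deriv lx x ≤ 0 := by
      have h3 : AntitoneOn lx (Ioo (0 : ℝ) 1) := fun y hy z hz hyz =>
        hanti.antitoneOn ⟨hy.1.le, hy.2⟩ ⟨hz.1.le, hz.2⟩ hyz
      have h4 := h3.derivWithin_nonpos (x := x)
      rw [derivWithin_of_mem_nhds (isOpen_Ioo.mem_nhds hx)] at h4
      exact h4
    exact mul_nonpos_of_nonneg_of_nonpos (exp_pos _).le h2
  have key := integral_image_eq_integral_abs_deriv_smul measurableSet_Ioo hder hinj F
  rw [himg] at key
  have e1 : ∫ y in Ioi (0 : ℝ), F y = ∫ y in Ioo (0 : ℝ) (exp L), F y := by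
    refine (setIntegral_eq_of_subset_of_forall_sdiff_eq_zero measurableSet_Ioi
      Ioo_subset_Ioi_self ?_)
    intro y hy
    apply hF2
    by_contra hlt
    exact hy.2 ⟨hy.1, not_le.1 hlt⟩
  rw [e1, key, intervalIntegral.integral_of_le zero_le_one, integral_Ioc_eq_integral_Ioo]
  refine setIntegral_congr_fun measurableSet_Ioo (fun x hx => ?_)
  simp only [smul_eq_mul]
  rw [abs_of_nonpos (hneg x hx)]
  ring

theorem cut_one {a l : ℝ} (h : a + log 2 ≤ l) : cut a l = 1 := by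
  unfold cut
  apply smoothTransition.one_of_one_le
  have : 0 < log 2 := log_pos (by norm_num)
  rw [le_div_iff₀ this]
  linarith only [h]

theorem cut_mem (a l : ℝ) : 0 ≤ cut a l ∧ cut a l ≤ 1 :=
  ⟨smoothTransition.nonneg _, smoothTransition.le_one _⟩

section
variable {g : ℝ → ℝ} (hg : IsBub 40 g) {d : IPar} (hd : d.Ok g)
include hg hd

theorem Z_inner_ge {l : ℝ} (hl : l ≤ d.l0) : 1 - exp (2 * (l - d.L)) ≤ d.Z g 0 l := by
  have hY : 0 < d.Y (l - d.lam) := hd.prof.pos _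
  have hu : d.u 0 l = d.Y (l - d.lam) := BConf.u_inner hd 0 hl
  have h1 : (1 : ℝ) ≤ Zs 40 g (d.Y (l - d.lam)) := by
    have h2 := BA.ba_q_pos hg hY
    have h3 := BA.ba_q_le (g (d.Y (l - d.lam)))
    have h4 := one_le_cosh (d.Y (l - d.lam))
    unfold Zs
    rw [le_div_iff₀ (by linarith only [h2])]
    linarith only [h3, h4]
  have h2 : (1 : ℝ) ≤ exp (d.Y (l - d.lam)) := one_le_exp hY.le
  have h3 : 0 < exp (2 * (l - d.L)) := exp_pos _
  have h4 : exp (2 * (l - d.L)) ≤ 1 := by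
    rw [exp_le_one_iff]
    have := hd.l0b
    have := hd.lb1
    have := hd.l1L
    have : 0 < log 2 := log_pos (by norm_num)
    linarith
  obtain ⟨h5, h6⟩ := cut_mem (d.l0 - log 2) l
  unfold IPar.Z
  rw [hu]
  have h7 : 1 - exp (2 * (l - d.L)) ≤
      exp (d.Y (l - d.lam)) * (1 - exp (2 * (l - d.L))) := by
    nlinarith only [h2, h4]
  nlinarith only [h1, h3, h5, h6, h7, mul_nonneg (sub_nonneg.2 h6) (sub_nonneg.2 h1), mul_nonneg h5 (sub_nonneg.2 h7)]

end

theorem Z_outer {g : ℝ → ℝ} {d : IPar} {l : ℝ} (hl : d.l0 ≤ l) :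
    d.Z g 0 l = exp (d.u 0 l) * (1 - exp (2 * (l - d.L))) := by
  unfold IPar.Z
  rw [cut_one (by linarith only [hl] : d.l0 - log 2 + log 2 ≤ l)]
  ring

theorem u_eq (d : IPar) (b : Fin 3 → ℝ) (l : ℝ) : d.u b l = d.uS l + d.uB b l := rfl

theorem u_zero (d : IPar) (l : ℝ) : d.u 0 l = d.uS l := by
  simp [IPar.u, IPar.uB]

theorem rs_val {g : ℝ → ℝ} {d : IPar} {w0 f0 : (Fin 3 → ℝ) → ℝ → ℝ} {lx : ℝ → ℝ}
    (hi : d.IsInit g w0 f0 lx) (b : Fin 3 → ℝ) {x : ℝ} (hx : x ∈ Ioo (0 : ℝ) 1) :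
    ST.rs (fun _ => w0 b) (fun _ => f0 b) 0 x =
      sqrt (d.Z g 0 (lx x)) * exp (d.uB b (lx x) / 2 - lx x) := by
  have hz : ST.zeta0 = zeta0 := rfl
  have hz0 : 0 < zeta0 := by unfold zeta0; norm_num
  have hsub : Ioo (0 : ℝ) 1 ⊆ Ioo (-1 : ℝ) 1 := Ioo_subset_Ioo_left (by norm_num)
  have hrho : ∀ y ∈ Ioo (0 : ℝ) 1, ST.rho (fun _ => w0 b) (fun _ => f0 b) 0 y = lx y := by
    intro y hy
    change (f0 b y + w0 b y + log (1 - y ^ 2) / 2 - log ST.zeta0) / 2 = lx y
    rw [hi.rel_f b y (hsub hy), hi.rel_w b y (hsub hy), hz]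
    ring
  have hdx : deriv (ST.rho (fun _ => w0 b) (fun _ => f0 b) 0) x =
      -(d.N g (lx x)) / (1 - x ^ 2) := by
    refine HasDerivAt.deriv ((hi.lx_deriv x hx).congr_of_eventuallyEq ?_)
    filter_upwards [isOpen_Ioo.mem_nhds hx] with y hy
    exact hrho y hy
  have h1 : 0 < 1 - x ^ 2 := by nlinarith only [hx, hx.1, hx.2]
  change -(ST.sx x * exp (-(w0 b x))) * deriv (ST.rho (fun _ => w0 b) (fun _ => f0 b) 0) x = _
  rw [hdx, hi.rel_w b x (hsub hx)]
  have h2 : exp (log (1 - x ^ 2) / 2) = sqrt (1 - x ^ 2) := by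
    rw [sqrt_eq_rpow, rpow_def_of_pos h1]
    congr 1
    ring
  have h3 : exp (-(log zeta0 / 2)) = (sqrt zeta0)⁻¹ := by
    rw [exp_neg, sqrt_eq_rpow, rpow_def_of_pos hz0]
    congr 2
    ring
  have h4 : -(log zeta0 / 2 + lx x - d.u b (lx x) / 2 - log (1 - x ^ 2) / 2) =
      (-(log zeta0 / 2)) + (d.uB b (lx x) / 2 - lx x) + d.uS (lx x) / 2 +
        log (1 - x ^ 2) / 2 := by
    rw [u_eq]; ring
  rw [h4, exp_add, exp_add, exp_add, h2, h3]
  unfold IPar.N ST.sx
  rw [sqrt_mul hz0.le]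
  have h5 := mul_self_sqrt h1.le
  have h6 : exp (-d.uS (lx x) / 2) * exp (d.uS (lx x) / 2) = 1 := by
    rw [← exp_add, neg_div, neg_add_cancel, exp_zero]
  have h7 : sqrt zeta0 ≠ 0 := (sqrt_pos.2 hz0).ne'
  have h8 : (sqrt zeta0)⁻¹ * sqrt zeta0 = 1 := inv_mul_cancel₀ h7
  generalize sqrt zeta0 = z at *
  generalize sqrt (1 - x ^ 2) = s at *
  generalize sqrt (d.Z g 0 (lx x)) = Z at *
  generalize exp (-d.uS (lx x) / 2) = e1 at *
  generalize exp (d.uS (lx x) / 2) = e2 at *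
  generalize exp (d.uB b (lx x) / 2 - lx x) = e3 at *
  have h9 : (1 - x ^ 2) ≠ 0 := h1.ne'
  have h10 : -(s * (z⁻¹ * e3 * e2 * s)) * (-(e1 * (z * Z)) / (1 - x ^ 2)) =
      (s * s) / (1 - x ^ 2) * (z⁻¹ * z) * (e1 * e2) * (Z * e3) := by
    ring
  rw [h10, h5, h8, h6, div_self h9]
  ring

theorem rsL : RsStatement := by
  intro g hg d hd w0 f0 lx hi b
  have hlog2 : 0 < log 2 := log_pos (by norm_num)
  have hz0 : 0 < zeta0 := by unfold zeta0; norm_num
  have hl0L : d.l0 < d.L := by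
    have := hd.l0b
    have := hd.lb1
    have := hd.l1L
    linarith
  -- lower bound of `rs` by `c * sqrt (1 - exp (2 (l - L)))`
  have hucont : Continuous fun l => exp (d.u b l / 2 - l) := by
    have h1 : Continuous (fun l : ℝ => d.u b l) :=
      (BConf.u_smooth hd).continuous.comp (Continuous.prodMk_right b)
    fun_prop
  obtain ⟨c1, hc1, hc1b⟩ : ∃ c1 > 0, ∀ l ∈ Icc d.l0 d.L, c1 ≤ exp (d.u b l / 2 - l) := by
    obtain ⟨l, hl, hmin⟩ := isCompact_Icc.exists_isMinOn (nonempty_Icc.2 hl0L.le)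
      hucont.continuousOn
    exact ⟨_, exp_pos _, fun l' hl' => hmin hl'⟩
  have hS : ∃ c > 0, ∀ l < d.L, c * sqrt (1 - exp (2 * (l - d.L))) ≤
      sqrt (d.Z g 0 l) * exp (d.uB b l / 2 - l) := by
    refine ⟨min c1 (exp (-d.l0)), lt_min hc1 (exp_pos _), fun l hl => ?_⟩
    have hq0 : 0 ≤ 1 - exp (2 * (l - d.L)) := by
      have : exp (2 * (l - d.L)) ≤ 1 := by rw [exp_le_one_iff]; linarith only [hl]
      linarith only [this]
    rcases le_total l d.l0 with h | h
    · have h1 : d.uB b l = 0 := by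
        unfold IPar.uB
        rw [BConf.cut_zero (by linarith only [hd, hlog2, h, hd.l0b] : l ≤ d.lb)]
        ring
      rw [h1]
      have h2 := sqrt_le_sqrt (Z_inner_ge hg hd h)
      have h3 : exp (-d.l0) ≤ exp (0 / 2 - l) := exp_le_exp.2 (by linarith only [h])
      have h4 : min c1 (exp (-d.l0)) ≤ exp (0 / 2 - l) := (min_le_right _ _).trans h3
      rw [mul_comm]
      exact mul_le_mul h2 h4 (lt_min hc1 (exp_pos _)).le (sqrt_nonneg _)
    · rw [Z_outer h, u_zero, sqrt_mul (exp_pos _).le]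
      have h1 : sqrt (exp (d.uS l)) = exp (d.uS l / 2) := (exp_half _).symm
      rw [h1]
      have h2 : exp (d.uS l / 2) * sqrt (1 - exp (2 * (l - d.L))) * exp (d.uB b l / 2 - l) =
          exp (d.u b l / 2 - l) * sqrt (1 - exp (2 * (l - d.L))) := by
        have : d.u b l / 2 - l = d.uS l / 2 + (d.uB b l / 2 - l) := by rw [u_eq]; ring
        rw [this, exp_add]
        ring
      rw [h2]
      exact mul_le_mul_of_nonneg_right ((min_le_left _ _).trans (hc1b l ⟨h, hl.le⟩))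
        (sqrt_nonneg _)
  obtain ⟨c, hc, hS⟩ := hS
  -- monotonicity of `lx`
  have hsub : Ioo (0 : ℝ) 1 ⊆ Ioo (-1 : ℝ) 1 := Ioo_subset_Ioo_left (by norm_num)
  have hcont : ContinuousOn lx (Ico 0 1) :=
    hi.lx_smooth.continuousOn.mono (fun z hz => ⟨by linarith only [hz, hz.1], hz.2⟩)
  have hanti : AntitoneOn lx (Ico 0 1) := by
    refine antitoneOn_of_deriv_nonpos (convex_Ico 0 1) hcont ?_ ?_
    · intro y hy
      rw [interior_Ico] at hy
      exact (hi.lx_deriv y hy).differentiableAt.differentiableWithinAt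
    · intro y hy
      rw [interior_Ico] at hy
      rw [(hi.lx_deriv y hy).deriv]
      have h1 : 0 ≤ d.N g (lx y) := mul_nonneg (exp_pos _).le (sqrt_nonneg _)
      have h2 : 0 < 1 - y ^ 2 := by nlinarith only [hy, hy.1, hy.2]
      rw [neg_div]
      exact neg_nonpos.2 (div_nonneg h1 h2.le)
  -- lower bound of `sqrt (1 - exp (2 (lx x - L)))`
  have hq : ∃ c' > 0, ∀ x ∈ Ioo (0 : ℝ) 1, c' * x ≤ sqrt (1 - exp (2 * (lx x - d.L))) := by
    have hpos0 : 0 < 1 - exp (2 * (d.l0 - d.L)) := by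
      have : exp (2 * (d.l0 - d.L)) < 1 := by rw [exp_lt_one_iff]; linarith only [hl0L]
      linarith only [this]
    refine ⟨min (sqrt (1 - exp (2 * (d.l0 - d.L)))) (exp (2 * (d.l0 - d.L)) * sqrt zeta0),
      lt_min (sqrt_pos.2 hpos0) (mul_pos (exp_pos _) (sqrt_pos.2 hz0)), fun x hx => ?_⟩
    rcases le_or_gt (lx x) d.l0 with h | h
    · have h1 : sqrt (1 - exp (2 * (d.l0 - d.L))) ≤ sqrt (1 - exp (2 * (lx x - d.L))) := by
        apply sqrt_le_sqrt
        have : exp (2 * (lx x - d.L)) ≤ exp (2 * (d.l0 - d.L)) := exp_le_exp.2 (by linarith only [h])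
        linarith only [this]
      refine le_trans ?_ h1
      have h2 := min_le_left (sqrt (1 - exp (2 * (d.l0 - d.L))))
        (exp (2 * (d.l0 - d.L)) * sqrt zeta0)
      have h3 : 0 ≤ min (sqrt (1 - exp (2 * (d.l0 - d.L))))
        (exp (2 * (d.l0 - d.L)) * sqrt zeta0) :=
        le_min (sqrt_nonneg _) (mul_nonneg (exp_pos _).le (sqrt_nonneg _))
      calc _ ≤ _ := mul_le_of_le_one_right h3 hx.2.le
        _ ≤ _ := h2
    · set q : ℝ → ℝ := fun y => sqrt (1 - exp (2 * (lx y - d.L))) with hqdef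
      have hqd : ∀ y ∈ Ioo (0 : ℝ) x, HasDerivAt q
          (exp (2 * (lx y - d.L)) * sqrt zeta0 / (1 - y ^ 2)) y := by
        intro y hy
        have hy' : y ∈ Ioo (0 : ℝ) 1 := ⟨hy.1, hy.2.trans hx.2⟩
        have hly : d.l0 < lx y := lt_of_lt_of_le h
          (hanti ⟨hy'.1.le, hy'.2⟩ ⟨hx.1.le, hx.2⟩ hy.2.le)
        have hlL := hi.lx_lt y hy'
        have hE : exp (2 * (lx y - d.L)) < 1 := by rw [exp_lt_one_iff]; linarith only [hlL]
        have hN : d.N g (lx y) = sqrt zeta0 * q y := by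
          unfold IPar.N
          rw [Z_outer hly.le, u_zero, sqrt_mul hz0.le, sqrt_mul (exp_pos _).le]
          have h1 : sqrt (exp (d.uS (lx y))) = exp (d.uS (lx y) / 2) := (exp_half _).symm
          have h6 : exp (-d.uS (lx y) / 2) * exp (d.uS (lx y) / 2) = 1 := by
            rw [← exp_add, neg_div, neg_add_cancel, exp_zero]
          rw [h1, hqdef]
          linear_combination (sqrt zeta0 * sqrt (1 - exp (2 * (lx y - d.L)))) * h6
        have h2 : HasDerivAt (fun y => 1 - exp (2 * (lx y - d.L)))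
            (-(exp (2 * (lx y - d.L)) * (2 * (-(d.N g (lx y)) / (1 - y ^ 2))))) y :=
          ((((hi.lx_deriv y hy').sub_const d.L).const_mul 2).exp).const_sub 1
        have h3 := h2.sqrt (by linarith only [hE])
        refine h3.congr_deriv ?_
        have hqpos : 0 < q y := sqrt_pos.2 (by linarith only [hE])
        change -(exp (2 * (lx y - d.L)) * (2 * (-(d.N g (lx y)) / (1 - y ^ 2)))) / (2 * q y) = _
        rw [hN]
        have h4 : 0 < 1 - y ^ 2 := by nlinarith only [hy', hy'.1, hy'.2]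
        field_simp
      have hqc : ContinuousOn q (Icc 0 x) := by
        have h1 : ContinuousOn lx (Icc 0 x) :=
          hcont.mono (fun z hz => ⟨hz.1, lt_of_le_of_lt hz.2 hx.2⟩)
        exact (continuousOn_const.sub
          (continuousOn_const.mul (h1.sub continuousOn_const)).rexp).sqrt
      have hmv := (convex_Icc (0 : ℝ) x).mul_sub_le_image_sub_of_le_deriv hqc
        (C := exp (2 * (d.l0 - d.L)) * sqrt zeta0)
        (by
          intro y hy
          rw [interior_Icc] at hy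
          exact (hqd y hy).differentiableAt.differentiableWithinAt)
        (by
          intro y hy
          rw [interior_Icc] at hy
          rw [(hqd y hy).deriv]
          have hy' : y ∈ Ioo (0 : ℝ) 1 := ⟨hy.1, hy.2.trans hx.2⟩
          have hly : d.l0 < lx y := lt_of_lt_of_le h
            (hanti ⟨hy'.1.le, hy'.2⟩ ⟨hx.1.le, hx.2⟩ hy.2.le)
          have h4 : 0 < 1 - y ^ 2 := by nlinarith only [hy', hy'.1, hy'.2]
          rw [le_div_iff₀ h4]
          have h5 : exp (2 * (d.l0 - d.L)) ≤ exp (2 * (lx y - d.L)) :=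
            exp_le_exp.2 (by linarith only [hly])
          have h6 : 0 ≤ exp (2 * (d.l0 - d.L)) * sqrt zeta0 :=
            mul_nonneg (exp_pos _).le (sqrt_nonneg _)
          calc _ ≤ exp (2 * (d.l0 - d.L)) * sqrt zeta0 :=
                mul_le_of_le_one_right h6 (by nlinarith only [hy'.1])
            _ ≤ _ := mul_le_mul_of_nonneg_right h5 (sqrt_nonneg _))
        0 (left_mem_Icc.2 hx.1.le) x (right_mem_Icc.2 hx.1.le) hx.1.le
      have hq00 : q 0 = 0 := by
        simp only [hqdef, hi.lx_zero]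
        simp
      rw [hq00, sub_zero, sub_zero] at hmv
      have h3 := mul_le_mul_of_nonneg_right (min_le_right (sqrt (1 - exp (2 * (d.l0 - d.L))))
        (exp (2 * (d.l0 - d.L)) * sqrt zeta0)) hx.1.le
      exact h3.trans hmv
  obtain ⟨c', hc', hq⟩ := hq
  refine ⟨c * c', mul_pos hc hc', fun x hx => ?_⟩
  rw [rs_val hi b hx]
  have h1 := hS (lx x) (hi.lx_lt x hx)
  have h2 := mul_le_mul_of_nonneg_left (hq x hx) hc.le
  calc c * c' * x = c * (c' * x) := by ring
    _ ≤ _ := h2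
    _ ≤ _ := h1

end Vale.Agent.P244.ST.BD.BChg
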