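import Vale.Agent.P244.ST.BDefs

/-!
# P244-ST, block B4 : curvature of the initial data in the `r`-gauge, pointwise algebra

`l = log r`; `u, Z = r_s²` are functions of `l`, `u1 = u_l`, `u2 = u_ll`, `z1 = Z_l`; `G = -u1`.
`rRq = r² R / m`, `rVq = r² V` (formulas (E3), (F1), (E2) with `m = 40`).
-/

open Set Filter Topology Real
open scoped ContDiff

namespace Vale.Agent.P244.ST.BD


/-- `r² R / m`. -/
noncomputable def rRq (u u1 z z1 : ℝ) : ℝ := 39 * (cosh u - z) - z1 - z * u1 ^ 2 / 4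

/-- `r² V`. -/
noncomputable def rVq (u u1 u2 z z1 : ℝ) : ℝ := z * u2 + (z1 / 2 + 39 * z) * u1 + 78 * sinh u

section bubble

variable {g : ℝ → ℝ} (hg : IsBub 40 g)
include hg

theorem IsBub.g_pos {u : ℝ} (hu : 0 < u) : 0 < g u := by
  have h1 := hg.lower u hu
  have h2 : 0 < tanh u := by
    rw [tanh_eq_sinh_div_cosh]
    exact div_pos (sinh_pos_iff.2 hu) (cosh_pos u)
  linarith only [h1, h2]

theorem IsBub.qf_gt {u : ℝ} (hu : 0 < u) : 38 < qf 40 (g u) := by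
  have h1 := hg.g_pos hu
  have h2 := hg.lt_two u hu
  unfold qf
  nlinarith only [h1, h2]

theorem IsBub.qf_lt {u : ℝ} (hu : 0 < u) : qf 40 (g u) < 39 := by
  have h1 := hg.g_pos hu
  unfold qf
  nlinarith only [h1]

theorem IsBub.Zs_ge {u : ℝ} (hu : 0 < u) : cosh u ≤ Zs 40 g u := by
  have h1 := hg.qf_gt hu
  have h2 := hg.qf_lt hu
  have h3 := cosh_pos u
  unfold Zs
  rw [le_div_iff₀ (by linarith only [h1, h2])]
  nlinarith only [h2, h3]

theorem IsBub.Zs_le {u : ℝ} (hu : 0 < u) : Zs 40 g u ≤ cosh u * (39 / 38) := by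
  have h1 := hg.qf_gt hu
  have h3 := cosh_pos u
  unfold Zs
  rw [div_le_iff₀ (by linarith only [h1])]
  nlinarith only [h1, h3]

theorem IsBub.hasDerivAt_Zs {u : ℝ} (hu : 0 < u) :
    HasDerivAt (Zs 40 g) (g u * Zs 40 g u / 2) u := by
  have h1 := hg.deriv u hu
  have hgp := hg.g_pos hu
  have hq := hg.qf_gt hu
  have h2 : HasDerivAt (fun u => qf 40 (g u)) (-(2 * g u * gRhs 40 u (g u)) / 4) u := by
    have h3 := ((h1.pow 2).div_const 4).const_sub (40 - 1)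
    refine h3.congr_deriv ?_
    simp
    ring
  have h4 : HasDerivAt (fun u => (40 - 1) * cosh u) ((40 - 1) * sinh u) u :=
    (hasDerivAt_cosh u).const_mul _
  refine (h4.div h2 (by linarith only [hq])).congr_deriv ?_
  have h5 : g u * gRhs 40 u (g u) = qf 40 (g u) * (g u - 2 * tanh u) := by
    unfold gRhs
    field_simp
  have h6 : cosh u * tanh u = sinh u := by
    rw [tanh_eq_sinh_div_cosh]
    have := (cosh_pos u).ne'
    field_simp
  have h7 : (40 - 1) * cosh u * (-(2 * g u * gRhs 40 u (g u)) / 4) =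
      -((40 - 1) / 2 * qf 40 (g u) * (cosh u * g u - 2 * (cosh u * tanh u))) := by
    have : (40 - 1) * cosh u * (-(2 * g u * gRhs 40 u (g u)) / 4) =
      -((40 - 1) / 2 * cosh u * (g u * gRhs 40 u (g u))) := by ring
    rw [this, h5]
    ring
  rw [h7, h6]
  unfold Zs
  have hq' : qf 40 (g u) ≠ 0 := by linarith only [hq]
  field_simp
  ring

theorem IsBub.rRq_eq_zero {u : ℝ} (hu : 0 < u) :
    rRq u (-(g u)) (Zs 40 g u) (g u * Zs 40 g u / 2 * (-(g u))) = 0 := by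
  have hq := hg.qf_gt hu
  have h1 : Zs 40 g u * qf 40 (g u) = 39 * cosh u := by
    unfold Zs
    have : qf 40 (g u) ≠ 0 := by linarith only [hq]
    field_simp
    ring
  have h2 : qf 40 (g u) = 39 - g u ^ 2 / 4 := by
    unfold qf
    ring
  unfold rRq
  rw [h2] at h1
  linarith only [h1]

theorem IsBub.rVq_eq_zero {u : ℝ} (hu : 0 < u) :
    rVq u (-(g u)) (g u * gRhs 40 u (g u)) (Zs 40 g u) (g u * Zs 40 g u / 2 * (-(g u))) = 0 := by
  have hq := hg.qf_gt hu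
  have hgp := hg.g_pos hu
  have h1 : Zs 40 g u * qf 40 (g u) = 39 * cosh u := by
    unfold Zs
    have : qf 40 (g u) ≠ 0 := by linarith only [hq]
    field_simp
    ring
  have h2 : qf 40 (g u) = 39 - g u ^ 2 / 4 := by
    unfold qf
    ring
  have h5 : g u * gRhs 40 u (g u) = qf 40 (g u) * (g u - 2 * tanh u) := by
    unfold gRhs
    field_simp
  have h6 : cosh u * tanh u = sinh u := by
    rw [tanh_eq_sinh_div_cosh]
    have := (cosh_pos u).ne'
    field_simp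
  have h8 : Zs 40 g u * (qf 40 (g u) * (g u - 2 * tanh u)) =
      39 * (cosh u * g u) - 78 * sinh u := by
    rw [← mul_assoc, h1, ← h6]
    ring
  unfold rVq
  rw [h5, h8]
  have h9 : (g u * Zs 40 g u / 2 * (-(g u)) / 2 + 39 * Zs 40 g u) * (-(g u)) =
      -(g u * (Zs 40 g u * (39 - g u ^ 2 / 4))) := by ring
  rw [h9, ← h2, h1]
  ring

end bubble

theorem rRq_affine (u u1 z z1 z' z1' c c1 : ℝ) :
    rRq u u1 ((1 - c) * z + c * z') ((1 - c) * z1 + c * z1' + c1 * (z' - z)) =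
      (1 - c) * rRq u u1 z z1 + c * rRq u u1 z' z1' + c1 * (z - z') := by
  unfold rRq
  ring

theorem rVq_affine (u u1 u2 z z1 z' z1' c c1 : ℝ) :
    rVq u u1 u2 ((1 - c) * z + c * z') ((1 - c) * z1 + c * z1' + c1 * (z' - z)) =
      (1 - c) * rVq u u1 u2 z z1 + c * rVq u u1 u2 z' z1' + c1 * (z' - z) * u1 / 2 := by
  unfold rVq
  ring

/-- The outer metric: `Z = e^u (1 - s)`, `s = r²/Rc²`, `s_l = 2 s`. -/
theorem rRq_out (u u1 s : ℝ) :
    rRq u u1 (exp u * (1 - s)) (exp u * (u1 * (1 - s) - 2 * s)) =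
      41 * exp u * s - 39 * sinh u - exp u * (1 - s) * (u1 + u1 ^ 2 / 4) := by
  unfold rRq
  have h := exp_sub_cosh u
  have h1 : exp u = cosh u + sinh u := by linarith only [h]
  rw [h1]
  ring

theorem rVq_out (u u1 u2 s : ℝ) :
    rVq u u1 u2 (exp u * (1 - s)) (exp u * (u1 * (1 - s) - 2 * s)) =
      (u2 + 39 * u1 + 78 * u) + (exp u * (1 - s) - 1) * (u2 + 39 * u1) +
        exp u * (u1 * (1 - s) - 2 * s) / 2 * u1 + 78 * (sinh u - u) := by
  unfold rVq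
  ring

theorem abs_exp_sub_one_le' {u : ℝ} (h : |u| ≤ 1) : |exp u - 1| ≤ 2 * |u| :=
  Real.abs_exp_sub_one_le h

theorem abs_sinh_le' {u : ℝ} (h : |u| ≤ 1) : |sinh u| ≤ 2 * |u| := by
  have h1 := abs_exp_sub_one_le' h
  have h2 := abs_exp_sub_one_le' (u := -u) (by rwa [abs_neg])
  rw [abs_neg] at h2
  rw [sinh_eq]
  have h3 : (exp u - exp (-u)) / 2 = ((exp u - 1) - (exp (-u) - 1)) / 2 := by ring
  rw [h3, abs_div, abs_of_pos (two_pos : (0 : ℝ) < 2)]
  have h4 := abs_sub (exp u - 1) (exp (-u) - 1)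
  linarith only [h1, h2, h4]

theorem exp_le_three {u : ℝ} (h : |u| ≤ 1) : exp u ≤ 3 := by
  have h1 : exp u ≤ exp 1 := exp_le_exp.2 (le_of_abs_le h)
  have h2 := exp_one_lt_d9
  linarith only [h1, h2]

/-- `|r² R/m - 41 s| ≤ 250 δ` for `|u|, |u_l| ≤ δ ≤ 1`. -/
theorem rRq_out_bound {u u1 s δ : ℝ} (hu : |u| ≤ δ) (hu1 : |u1| ≤ δ) (hδ : δ ≤ 1) (hs0 : 0 ≤ s)
    (hs1 : s ≤ 1) :
    |rRq u u1 (exp u * (1 - s)) (exp u * (u1 * (1 - s) - 2 * s)) - 41 * s| ≤ 250 * δ := by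
  have hδ0 : 0 ≤ δ := (abs_nonneg _).trans hu
  have h1 := abs_exp_sub_one_le' (hu.trans hδ)
  have h2 := abs_sinh_le' (hu.trans hδ)
  have h3 := exp_le_three (hu.trans hδ)
  have h4 := exp_pos u
  rw [rRq_out]
  have h5 : 41 * exp u * s - 39 * sinh u - exp u * (1 - s) * (u1 + u1 ^ 2 / 4) - 41 * s =
      41 * (s * (exp u - 1)) - 39 * sinh u - exp u * (1 - s) * (u1 + u1 ^ 2 / 4) := by ring
  rw [h5]
  have h6 : |s * (exp u - 1)| ≤ 2 * δ := by
    rw [abs_mul, abs_of_nonneg hs0]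
    calc s * |exp u - 1| ≤ 1 * (2 * |u|) := mul_le_mul hs1 h1 (abs_nonneg _) zero_le_one
      _ ≤ 2 * δ := by linarith only [hu]
  have h7 : |exp u * (1 - s) * (u1 + u1 ^ 2 / 4)| ≤ 3 * (2 * δ) := by
    rw [abs_mul, abs_mul, abs_of_pos h4, abs_of_nonneg (by linarith only [hs1] : 0 ≤ 1 - s)]
    have h8 : |u1 + u1 ^ 2 / 4| ≤ 2 * δ := by
      have h9 : |u1 ^ 2 / 4| ≤ δ := by
        rw [abs_of_nonneg (by positivity), ← sq_abs]
        nlinarith only [hu1, hδ, hδ0, abs_nonneg u1]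
      exact (abs_add_le _ _).trans (by linarith only [hu1, h9])
    refine mul_le_mul ?_ h8 (abs_nonneg _) (by norm_num)
    nlinarith only [hs0, h3, h4]
  have h10 := abs_sub (41 * (s * (exp u - 1)) - 39 * sinh u)
    (exp u * (1 - s) * (u1 + u1 ^ 2 / 4))
  have h11 := abs_sub (41 * (s * (exp u - 1))) (39 * sinh u)
  rw [abs_mul (41 : ℝ), abs_mul (39 : ℝ), abs_of_pos (by norm_num : (0 : ℝ) < 41),
    abs_of_pos (by norm_num : (0 : ℝ) < 39)] at h11
  linarith only [hu, hδ0, h2, h6, h7, h10, h11]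

/-- `|r² V - lin| ≤ ..` for `|u|, |u_l| ≤ δ ≤ 1`. -/
theorem rVq_out_bound {u u1 u2 s δ : ℝ} (hu : |u| ≤ δ) (hu1 : |u1| ≤ δ) (hδ : δ ≤ 1) (hs0 : 0 ≤ s)
    (hs1 : s ≤ 1) :
    |rVq u u1 u2 (exp u * (1 - s)) (exp u * (u1 * (1 - s) - 2 * s)) - (u2 + 39 * u1 + 78 * u)| ≤
      250 * (δ + s) * (|u| + |u1| + |u2|) := by
  have hδ0 : 0 ≤ δ := (abs_nonneg _).trans hu
  have h1 := abs_exp_sub_one_le' (hu.trans hδ)
  have h3 := exp_le_three (hu.trans hδ)
  have h4 := exp_pos u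
  rw [rVq_out]
  have h5 : u2 + 39 * u1 + 78 * u + (exp u * (1 - s) - 1) * (u2 + 39 * u1) +
        exp u * (u1 * (1 - s) - 2 * s) / 2 * u1 + 78 * (sinh u - u) - (u2 + 39 * u1 + 78 * u) =
      (exp u * (1 - s) - 1) * (u2 + 39 * u1) +
        exp u * (u1 * (1 - s) - 2 * s) / 2 * u1 + 78 * (sinh u - u) := by ring
  rw [h5]
  have h6 : |exp u * (1 - s) - 1| ≤ 2 * δ + 3 * s := by
    have h7 : exp u * (1 - s) - 1 = (exp u - 1) - exp u * s := by ring
    rw [h7]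
    refine (abs_sub _ _).trans ?_
    rw [abs_of_nonneg (by positivity : 0 ≤ exp u * s)]
    nlinarith only [hu, hs0, h1, h3]
  have h8 : |exp u * (u1 * (1 - s) - 2 * s) / 2| ≤ 3 * (δ + s) := by
    rw [abs_div, abs_mul, abs_of_pos h4, abs_of_pos (two_pos : (0 : ℝ) < 2)]
    have h9 : |u1 * (1 - s) - 2 * s| ≤ δ + 2 * s := by
      refine (abs_sub _ _).trans ?_
      rw [abs_mul, abs_of_nonneg (by linarith only [hs1] : 0 ≤ 1 - s), abs_of_nonneg (by linarith only [hs0] : 0 ≤ 2 * s)]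
      nlinarith only [hu1, hs0, hs1, hδ0, abs_nonneg u1]
    have h10 : exp u * |u1 * (1 - s) - 2 * s| ≤ 3 * (δ + 2 * s) :=
      mul_le_mul h3 h9 (abs_nonneg _) (by norm_num)
    linarith only [hδ0, h10]
  have h11 : |sinh u - u| ≤ δ * |u| := by
    have h12 : |sinh u - u| ≤ |u| ^ 2 := by
      have h13 := Real.abs_exp_sub_one_sub_id_le (hu.trans hδ)
      have h14 := Real.abs_exp_sub_one_sub_id_le (x := -u) (by rw [abs_neg]; exact hu.trans hδ)
      have h15 : sinh u - u = ((exp u - 1 - u) - (exp (-u) - 1 - -u)) / 2 := by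
        rw [sinh_eq]
        ring
      rw [h15, abs_div, abs_of_pos (two_pos : (0 : ℝ) < 2)]
      have h16 := abs_sub (exp u - 1 - u) (exp (-u) - 1 - -u)
      have h17 : (-u) ^ 2 = u ^ 2 := by ring
      rw [h17] at h14
      rw [sq_abs]
      linarith only [h13, h14, h16]
    refine h12.trans ?_
    rw [pow_two]
    exact mul_le_mul_of_nonneg_right hu (abs_nonneg _)
  have e1 : |(exp u * (1 - s) - 1) * (u2 + 39 * u1)| ≤ (2 * δ + 3 * s) * (|u2| + 39 * |u1|) := by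
    rw [abs_mul]
    refine mul_le_mul h6 ?_ (abs_nonneg _) (by positivity)
    refine (abs_add_le _ _).trans ?_
    rw [abs_mul (39 : ℝ), abs_of_pos (by norm_num : (0 : ℝ) < 39)]
  have e2 : |exp u * (u1 * (1 - s) - 2 * s) / 2 * u1| ≤ 3 * (δ + s) * |u1| := by
    rw [abs_mul]
    exact mul_le_mul_of_nonneg_right h8 (abs_nonneg _)
  have e3 : |78 * (sinh u - u)| ≤ 78 * (δ * |u|) := by
    rw [abs_mul, abs_of_pos (by norm_num : (0 : ℝ) < 78)]
    exact mul_le_mul_of_nonneg_left h11 (by norm_num)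
  refine (abs_add_le _ _).trans ((add_le_add ((abs_add_le _ _).trans (add_le_add e1 e2)) e3).trans ?_)
  have a1 := abs_nonneg u
  have a2 := abs_nonneg u1
  have a3 := abs_nonneg u2
  nlinarith only [hs0, hδ0, a1, a2, a3, mul_nonneg hδ0 a1, mul_nonneg hδ0 a2, mul_nonneg hδ0 a3, mul_nonneg hs0 a1,
    mul_nonneg hs0 a2, mul_nonneg hs0 a3]

end Vale.Agent.P244.ST.BD
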