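import Vale.Agent.P244.ST.BPre
import Vale.Agent.P244.ST.BCurv

/-! # P244-ST, block B5 : the data in the `r`-gauge as `BDict.RData` -/

open Set Filter Topology Real MeasureTheory
open scoped ContDiff

namespace Vale.Agent.P244.ST.BD.BData

open BConf

variable {g : ℝ → ℝ} {d : IPar}

theorem zeta0_eq : BD.zeta0 = ST.zeta0 := rfl

theorem zeta0_pos : 0 < BD.zeta0 := by unfold BD.zeta0; norm_num

theorem cut_one {a l : ℝ} (h : a + log 2 ≤ l) : cut a l = 1 := by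
  unfold cut
  apply smoothTransition.one_of_one_le
  have : 0 < log 2 := log_pos (by norm_num)
  rw [le_div_iff₀ this]
  linarith only [h]

theorem cut_mem (a l : ℝ) : 0 ≤ cut a l ∧ cut a l ≤ 1 :=
  ⟨smoothTransition.nonneg _, smoothTransition.le_one _⟩

theorem u_zero (l : ℝ) : d.u 0 l = d.uS l := by
  unfold IPar.u IPar.uB
  simp

theorem u_low (b : Fin 3 → ℝ) {l : ℝ} (hl : l ≤ d.lb) : d.u b l = d.uS l := by
  unfold IPar.u IPar.uB
  rw [cut_zero hl]
  simp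

theorem u_smooth1 (hd : d.Ok g) (b : Fin 3 → ℝ) : ContDiff ℝ ∞ (d.u b) := by
  have h := (u_smooth hd).comp
    (contDiff_const.prodMk contDiff_id : ContDiff ℝ ∞ (fun l : ℝ => (b, l)))
  exact h

theorem u_pos_inner (hd : d.Ok g) (b : Fin 3 → ℝ) {l : ℝ} (hl : l ≤ d.l0) : 0 < d.u b l := by
  rw [u_inner hd b hl]
  exact hd.prof.pos _

theorem u_outer (hd : d.Ok g) (b : Fin 3 → ℝ) {l : ℝ} (hl : d.l1 + log 2 ≤ l) : d.u b l = 0 := by
  have h2 : 0 < log 2 := log_pos (by norm_num)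
  have h3 := hd.l0b
  have h4 := hd.lb1
  unfold IPar.u IPar.uS IPar.uB cutO
  rw [cut_one hl, cut_one (by linarith only [hl, h2, h3, h4] : d.l0 + log 2 ≤ l)]
  ring

theorem Zs_smooth (hg : IsBub 40 g) {u : ℝ} (hu : 0 < u) : ContDiffAt ℝ ∞ (Zs 40 g) u := by
  have h0 : BubG.IsBub0 40 (BD.kap 40) g := ⟨hg.deriv, hg.lower, hg.upper⟩
  have h1 : ContDiffAt ℝ ∞ g u := (BubG.bub_smooth h0 u hu).contDiffAt (Ioi_mem_nhds hu)
  have h2 := hg.qf_gt hu
  have h3 : ContDiffAt ℝ ∞ (fun u => qf 40 (g u)) u := by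
    unfold qf
    exact contDiffAt_const.sub ((h1.pow 2).div_const 4)
  unfold Zs
  exact (contDiffAt_const.mul Real.contDiff_cosh.contDiffAt).div h3 (by linarith only [h2])

theorem Zs_pos (hg : IsBub 40 g) {u : ℝ} (hu : 0 < u) : 0 < Zs 40 g u :=
  lt_of_lt_of_le (cosh_pos u) (hg.Zs_ge hu)

theorem Z_outer (b : Fin 3 → ℝ) {l : ℝ} (hl : d.l0 ≤ l) :
    d.Z g b l = exp (d.u b l) * (1 - exp (2 * (l - d.L))) := by
  unfold IPar.Z
  rw [cut_one (by linarith only [hl] : d.l0 - log 2 + log 2 ≤ l)]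
  ring

theorem Z_smooth (hg : IsBub 40 g) (hd : d.Ok g) (b : Fin 3 → ℝ) (l : ℝ) :
    ContDiffAt ℝ ∞ (d.Z g b) l := by
  have hu := u_smooth1 hd b
  have h2 : ContDiff ℝ ∞ (fun l => exp (d.u b l) * (1 - exp (2 * (l - d.L)))) := by
    fun_prop
  rcases le_or_gt l d.l0 with hl | hl
  · have h1 : ContDiffAt ℝ ∞ (fun l => Zs 40 g (d.u b l)) l :=
      ContDiffAt.comp l (Zs_smooth hg (u_pos_inner hd b hl)) hu.contDiffAt
    have h3 := (cut_smooth (d.l0 - log 2)).contDiffAt (x := l)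
    exact ((contDiffAt_const.sub h3).mul h1).add (h3.mul h2.contDiffAt)
  · refine h2.contDiffAt.congr_of_eventuallyEq ?_
    filter_upwards [Ioi_mem_nhds hl] with y hy
    exact Z_outer b (le_of_lt hy)

theorem Z_pos (hg : IsBub 40 g) (hd : d.Ok g) (b : Fin 3 → ℝ) {l : ℝ} (hl : l < d.L) :
    0 < d.Z g b l := by
  have h1 : 0 < exp (d.u b l) * (1 - exp (2 * (l - d.L))) := by
    have : exp (2 * (l - d.L)) < 1 := by
      rw [← Real.exp_zero]
      exact Real.exp_lt_exp.2 (by linarith only [hl])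
    have := exp_pos (d.u b l)
    apply mul_pos this
    linarith
  rcases le_or_gt l d.l0 with h | h
  · unfold IPar.Z
    obtain ⟨c0, c1⟩ := cut_mem (d.l0 - log 2) l
    have h2 := Zs_pos hg (u_pos_inner hd b h)
    rcases eq_or_lt_of_le c0 with hc | hc
    · rw [← hc]
      linarith only [h2]
    · have h3 : 0 ≤ (1 - cut (d.l0 - log 2) l) * Zs 40 g (d.u b l) :=
        mul_nonneg (by linarith only [c1]) h2.le
      have h4 := mul_pos hc h1
      linarith only [h3, h4]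
  · rw [Z_outer b h.le]
    exact h1

theorem Z_b (hd : d.Ok g) (b : Fin 3 → ℝ) (l : ℝ) :
    d.Z g b l = exp (d.u b l - d.uS l) * d.Z g 0 l := by
  have h2 : 0 < log 2 := log_pos (by norm_num)
  rcases le_or_gt l d.lb with h | h
  · rw [u_low b h, sub_self, exp_zero, one_mul]
    unfold IPar.Z
    rw [u_low b h, u_low 0 h]
  · have h3 : d.l0 ≤ l := by
      have := hd.l0b
      linarith only [h2, h, this]
    rw [Z_outer b h3, Z_outer 0 h3, u_zero, ← mul_assoc, ← exp_add, sub_add_cancel]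

theorem N_pos (hg : IsBub 40 g) (hd : d.Ok g) {l : ℝ} (hl : l < d.L) : 0 < d.N g l := by
  unfold IPar.N
  exact mul_pos (exp_pos _) (sqrt_pos.2 (mul_pos zeta0_pos (Z_pos hg hd 0 hl)))

theorem N_smooth (hg : IsBub 40 g) (hd : d.Ok g) : ContDiffOn ℝ ∞ (d.N g) (Iio d.L) := by
  intro l hl
  refine ContDiffAt.contDiffWithinAt ?_
  have h1 : ContDiff ℝ ∞ d.uS := by
    have := u_smooth1 hd 0
    have h2 : d.u 0 = d.uS := funext u_zero
    rwa [h2] at this
  have h2 : ContDiffAt ℝ ∞ (fun l => exp (-(d.uS l) / 2)) l := by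
    have h3 : ContDiffAt ℝ ∞ (fun l => -(d.uS l) / 2) l := (h1.contDiffAt.neg).div_const 2
    exact h3.exp
  have h3 : ContDiffAt ℝ ∞ (fun l => sqrt (BD.zeta0 * d.Z g 0 l)) l :=
    (contDiffAt_const.mul (Z_smooth hg hd 0 l)).sqrt
      (mul_pos zeta0_pos (Z_pos hg hd 0 hl)).ne'
  exact h2.mul h3

theorem rdata (hg : IsBub 40 g) (hd : d.Ok g) {w0 f0 : (Fin 3 → ℝ) → ℝ → ℝ} {lx : ℝ → ℝ}
    (hI : d.IsInit g w0 f0 lx) (b : Fin 3 → ℝ) :
    BDict.RData (w0 b) (f0 b) lx (d.u b) (d.N g) (d.Z g b) d.L := by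
  refine ⟨u_smooth1 hd b, N_smooth hg hd, fun l hl => N_pos hg hd hl, ?_, hI.lx_lt,
    hI.lx_deriv, ?_, ?_⟩
  · intro l hl
    rw [Z_b hd b l]
    unfold IPar.N
    have h1 := (mul_pos zeta0_pos (Z_pos hg hd 0 hl)).le
    rw [mul_pow, Real.sq_sqrt h1, ← zeta0_eq]
    have h2 : exp (-(d.uS l) / 2) ^ 2 = exp (-(d.uS l)) := by
      rw [← Real.exp_nat_mul]
      congr 1
      push_cast
      ring
    have h3 : exp (d.u b l - d.uS l) = exp (-(d.uS l)) * exp (d.u b l) := by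
      rw [← exp_add]
      congr 1
      ring
    rw [h2, h3]
    have := zeta0_pos.ne'
    field_simp
  · intro x hx
    exact hI.rel_f b x ⟨by linarith only [hx, hx.1], hx.2⟩
  · intro x hx
    exact hI.rel_w b x ⟨by linarith only [hx, hx.1], hx.2⟩

end Vale.Agent.P244.ST.BD.BData
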