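import Vale.Agent.P244.ST.Geo

/-!
# P244-ST, block B : dictionary between the `r`-gauge data and `Geo.lean`

`w f` functions of `x` (constant in time); `lx x = log r`; `u, Z` functions of `l = log r`.
-/

open Set Filter Topology
open scoped ContDiff

namespace Vale.Agent.P244.ST.BDict

open Vale.Agent.P244.ST

noncomputable section

/-- Data in the `r`-gauge. -/
structure RData (w f lx u N Z : ℝ → ℝ) (L : ℝ) : Prop where
  u_s : ContDiff ℝ ∞ u
  N_s : ContDiffOn ℝ ∞ N (Iio L)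
  N_pos : ∀ l < L, 0 < N l
  Z_eq : ∀ l < L, Z l = N l ^ 2 * Real.exp (u l) / zeta0
  lx_lt : ∀ x ∈ Ioo (0 : ℝ) 1, lx x < L
  lx_d : ∀ x ∈ Ioo (0 : ℝ) 1, HasDerivAt lx (-(N (lx x)) / (1 - x ^ 2)) x
  rel_f : ∀ x ∈ Ioo (0 : ℝ) 1, f x = Real.log zeta0 / 2 + lx x + u (lx x) / 2
  rel_w : ∀ x ∈ Ioo (0 : ℝ) 1,
    w x = Real.log zeta0 / 2 + lx x - u (lx x) / 2 - Real.log (1 - x ^ 2) / 2

/-- `ρ_s` as a function of `l`. -/
def Sl (u N : ℝ → ℝ) (l : ℝ) : ℝ := N l / Real.sqrt zeta0 * Real.exp (u l / 2 - l)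

lemma zeta0_pos : 0 < zeta0 := by unfold zeta0; norm_num

variable {w f lx u N Z : ℝ → ℝ} {L : ℝ}

section
variable (h : RData w f lx u N Z L)
include h

lemma S_pos {l : ℝ} (hl : l < L) : 0 < Sl u N l := by
  have h1 := h.N_pos l hl
  have h2 := Real.sqrt_pos.2 zeta0_pos
  unfold Sl
  positivity

lemma Z_eq' {l : ℝ} (hl : l < L) : Z l = Real.exp (2 * l) * Sl u N l ^ 2 := by
  rw [h.Z_eq l hl]
  unfold Sl
  rw [mul_pow, div_pow, Real.sq_sqrt zeta0_pos.le]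
  have h1 : Real.exp (u l / 2 - l) ^ 2 = Real.exp (u l) * Real.exp (-(2 * l)) := by
    rw [← Real.exp_nat_mul, ← Real.exp_add]
    congr 1
    push_cast
    ring
  have h2 : Real.exp (2 * l) * Real.exp (-(2 * l)) = 1 := by
    rw [← Real.exp_add]; simp
  rw [h1]
  have h3 : Real.exp (2 * l) * (N l ^ 2 / zeta0 * (Real.exp (u l) * Real.exp (-(2 * l)))) =
      (Real.exp (2 * l) * Real.exp (-(2 * l))) * (N l ^ 2 * Real.exp (u l) / zeta0) := by ring
  rw [h3, h2, one_mul]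

lemma Z_pos {l : ℝ} (hl : l < L) : 0 < Z l := by
  rw [Z_eq' h hl]
  have := S_pos h hl
  positivity

lemma S_eq {l : ℝ} (hl : l < L) : Sl u N l = Real.sqrt (Z l) * Real.exp (-l) := by
  rw [Z_eq' h hl]
  have h1 := S_pos h hl
  have h2 : Real.exp (2 * l) * Sl u N l ^ 2 = (Real.exp l * Sl u N l) ^ 2 := by
    rw [mul_pow, ← Real.exp_nat_mul]
    push_cast
    ring
  rw [h2, Real.sqrt_sq (by positivity)]
  have h3 : Real.exp l * Real.exp (-l) = 1 := by rw [← Real.exp_add]; simp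
  linear_combination (-(Sl u N l)) * h3

lemma exp_w {x : ℝ} (hx : x ∈ Ioo (0:ℝ) 1) :
    sx x * Real.exp (-(w x)) = (1 - x ^ 2) * (Real.exp (u (lx x) / 2 - lx x) / Real.sqrt zeta0) := by
  have h1 : 0 < 1 - x ^ 2 := by nlinarith only [hx, hx.1, hx.2]
  have h2 : Real.exp (Real.log (1 - x ^ 2) / 2) = Real.sqrt (1 - x ^ 2) := by
    rw [Real.sqrt_eq_rpow, Real.rpow_def_of_pos h1]
    congr 1
    ring
  have h3 : Real.exp (-(Real.log zeta0 / 2)) = (Real.sqrt zeta0)⁻¹ := by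
    rw [Real.exp_neg, Real.sqrt_eq_rpow, Real.rpow_def_of_pos zeta0_pos]
    congr 2
    ring
  have h4 : -(w x) = (-(Real.log zeta0 / 2)) + (u (lx x) / 2 - lx x) + Real.log (1 - x ^ 2) / 2 := by
    rw [h.rel_w x hx]; ring
  rw [h4, Real.exp_add, Real.exp_add, h2, h3]
  unfold sx
  have h5 := Real.mul_self_sqrt h1.le
  generalize Real.exp (u (lx x) / 2 - lx x) = e
  rw [div_eq_mul_inv]
  linear_combination (e * (Real.sqrt zeta0)⁻¹) * h5

/-- derivative `D_s` of a function of `l`. -/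
lemma Ds_eq {H : Fn} {t x h' : ℝ} {k : ℝ → ℝ} (hx : x ∈ Ioo (0:ℝ) 1)
    (hH : ∀ y ∈ Ioo (0:ℝ) 1, H t y = k (lx y)) (hk : HasDerivAt k h' (lx x)) :
    Ds (fun _ => w) H t x = h' * Sl u N (lx x) := by
  unfold Ds Dx
  have h1 : HasDerivAt (H t) (h' * (-(N (lx x)) / (1 - x ^ 2))) x := by
    have h2 := hk.comp x (h.lx_d x hx)
    refine h2.congr_of_eventuallyEq ?_
    filter_upwards [isOpen_Ioo.mem_nhds hx] with y hy
    exact hH y hy
  rw [h1.deriv, exp_w h hx]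
  unfold Sl
  have h3 : (1 - x ^ 2) ≠ 0 := by nlinarith only [hx, hx.1, hx.2]
  field_simp

lemma uu_eq {t x : ℝ} (hx : x ∈ Ioo (0:ℝ) 1) : uu (fun _ => w) (fun _ => f) t x = u (lx x) := by
  change f x - w x - Real.log (1 - x ^ 2) / 2 = u (lx x)
  rw [h.rel_f x hx, h.rel_w x hx]
  ring

lemma rho_eq {t x : ℝ} (hx : x ∈ Ioo (0:ℝ) 1) : rho (fun _ => w) (fun _ => f) t x = lx x := by
  change (f x + w x + Real.log (1 - x ^ 2) / 2 - Real.log zeta0) / 2 = lx x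
  rw [h.rel_f x hx, h.rel_w x hx]
  ring

lemma rr_eq {t x : ℝ} (hx : x ∈ Ioo (0:ℝ) 1) :
    rr (fun _ => w) (fun _ => f) t x = Real.exp (lx x) := by
  unfold rr
  rw [rho_eq h hx]

lemma rs_eq {t x : ℝ} (hx : x ∈ Ioo (0:ℝ) 1) :
    rs (fun _ => w) (fun _ => f) t x = Sl u N (lx x) := by
  unfold rs
  rw [Ds_eq h hx (k := fun l => l) (h' := 1) (fun y hy => rho_eq h hy) (hasDerivAt_id _), one_mul]

lemma u_d (l : ℝ) : HasDerivAt u (deriv u l) l :=
  (h.u_s.differentiable (by simp) l).hasDerivAt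

lemma u1_s : ContDiff ℝ ∞ (deriv u) := by
  have := h.u_s
  rw [contDiff_infty_iff_deriv] at this
  exact this.2

lemma u_d2 (l : ℝ) : HasDerivAt (deriv u) (deriv (deriv u) l) l :=
  ((u1_s h).differentiable (by simp) l).hasDerivAt

lemma PP_eq {t x : ℝ} (hx : x ∈ Ioo (0:ℝ) 1) :
    PP (fun _ => w) (fun _ => f) t x = deriv u (lx x) * Sl u N (lx x) := by
  unfold PP
  exact Ds_eq h hx (k := u) (fun y hy => uu_eq h hy) (u_d h _)

lemma N_d {l : ℝ} (hl : l < L) : HasDerivAt N (deriv N l) l :=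
  ((h.N_s.contDiffAt (isOpen_Iio.mem_nhds hl)).differentiableAt (by simp)).hasDerivAt

/-- derivative of `S` in terms of `Z`. -/
lemma S_d {l : ℝ} (hl : l < L) :
    HasDerivAt (Sl u N) (deriv (Sl u N) l) l := by
  apply DifferentiableAt.hasDerivAt
  have h1 := (N_d h hl).differentiableAt
  have h2 := (u_d h l).differentiableAt
  unfold Sl
  fun_prop

lemma Z_d {l : ℝ} (hl : l < L) :
    HasDerivAt Z (2 * Real.exp (2 * l) * Sl u N l ^ 2 +
      2 * Real.exp (2 * l) * Sl u N l * deriv (Sl u N) l) l := by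
  have h1 : HasDerivAt (fun l : ℝ => Real.exp (2 * l)) (Real.exp (2 * l) * 2) l := by
    have : HasDerivAt (fun l : ℝ => 2 * l) 2 l := by
      simpa using (hasDerivAt_id l).const_mul 2
    exact this.exp
  have h2 := h1.mul ((S_d h hl).pow 2)
  have h3 : HasDerivAt Z _ l := h2.congr_of_eventuallyEq (by
    filter_upwards [isOpen_Iio.mem_nhds hl] with y hy
    exact Z_eq' h hy)
  refine h3.congr_deriv ?_
  simp
  ring

lemma dS_eq {l : ℝ} (hl : l < L) :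
    Sl u N l * deriv (Sl u N) l = Real.exp (-(2 * l)) * (deriv Z l / 2 - Z l) := by
  rw [(Z_d h hl).deriv, Z_eq' h hl]
  have h2 : Real.exp (-(2 * l)) * Real.exp (2 * l) = 1 := by
    rw [← Real.exp_add]; simp
  linear_combination (-(Sl u N l * deriv (Sl u N) l)) * h2

lemma S2_eq {l : ℝ} (hl : l < L) : Sl u N l ^ 2 = Real.exp (-(2 * l)) * Z l := by
  rw [Z_eq' h hl]
  have h2 : Real.exp (-(2 * l)) * Real.exp (2 * l) = 1 := by
    rw [← Real.exp_add]; simp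
  linear_combination (-(Sl u N l ^ 2)) * h2

/-- second derivative -/
lemma Ds2_eq {H : Fn} {t x : ℝ} {k k1 : ℝ → ℝ} {k2 : ℝ} (hx : x ∈ Ioo (0:ℝ) 1)
    (hH : ∀ y ∈ Ioo (0:ℝ) 1, H t y = k (lx y)) (hk : ∀ l, HasDerivAt k (k1 l) l)
    (hk1 : HasDerivAt k1 k2 (lx x)) :
    Ds (fun _ => w) (Ds (fun _ => w) H) t x =
      k2 * Sl u N (lx x) ^ 2 + k1 (lx x) * (Sl u N (lx x) * deriv (Sl u N) (lx x)) := by
  have h1 : ∀ y ∈ Ioo (0:ℝ) 1, Ds (fun _ => w) H t y = (fun l => k1 l * Sl u N l) (lx y) :=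
    fun y hy => Ds_eq h hy hH (hk _)
  rw [Ds_eq h hx (k := fun l => k1 l * Sl u N l) h1 (hk1.mul (S_d h (h.lx_lt x hx)))]
  ring

lemma Lp_eq {H : Fn} {t x : ℝ} {k k1 : ℝ → ℝ} {k2 : ℝ} (hx : x ∈ Ioo (0:ℝ) 1)
    (hH : ∀ y ∈ Ioo (0:ℝ) 1, H t y = k (lx y)) (hk : ∀ l, HasDerivAt k (k1 l) l)
    (hk1 : HasDerivAt k1 k2 (lx x)) :
    Lp (fun _ => w) (fun _ => f) H t x = Real.exp (-(2 * lx x)) *
      (Z (lx x) * k2 + (deriv Z (lx x) / 2 + 39 * Z (lx x)) * k1 (lx x)) := by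
  have hl := h.lx_lt x hx
  unfold Lp
  rw [Ds2_eq h hx hH hk hk1]
  have h1 : Ds (fun _ => w) (rho (fun _ => w) (fun _ => f)) t x = Sl u N (lx x) := rs_eq h hx
  rw [h1, Ds_eq h hx hH (hk _)]
  have h2 := dS_eq h hl
  have h3 := S2_eq h hl
  linear_combination (k1 (lx x)) * h2 + (k2 + 40 * k1 (lx x)) * h3

lemma VV_eq {t x : ℝ} (hx : x ∈ Ioo (0:ℝ) 1) :
    VV (fun _ => w) (fun _ => f) t x = Real.exp (-(2 * lx x)) *
      (Z (lx x) * deriv (deriv u) (lx x) +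
        (deriv Z (lx x) / 2 + 39 * Z (lx x)) * deriv u (lx x) + 78 * Real.sinh (u (lx x))) := by
  unfold VV
  rw [Lp_eq h hx (k := u) (fun y hy => uu_eq h hy) (u_d h) (u_d2 h _), uu_eq h hx, rr_eq h hx,
    Real.exp_neg]
  have h1 : Real.exp (2 * lx x) = Real.exp (lx x) ^ 2 := by
    rw [← Real.exp_nat_mul]; push_cast; rfl
  rw [h1]
  have := (Real.exp_pos (lx x)).ne'
  field_simp

lemma yy_eq {t x : ℝ} (hx : x ∈ Ioo (0:ℝ) 1) :
    yy (fun _ => w) (fun _ => f) t x = Real.exp (-(2 * lx x)) *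
      (deriv Z (lx x) / 2 + 39 * Z (lx x) - 39 * Real.cosh (u (lx x))) := by
  unfold yy
  rw [Lp_eq h hx (k := fun l => l) (k1 := fun _ => 1) (k2 := 0) (fun y hy => rho_eq h hy)
    (fun l => hasDerivAt_id l) (hasDerivAt_const _ _), uu_eq h hx, rr_eq h hx,
    Real.exp_neg]
  have h1 : Real.exp (2 * lx x) = Real.exp (lx x) ^ 2 := by
    rw [← Real.exp_nat_mul]; push_cast; rfl
  rw [h1]
  have := (Real.exp_pos (lx x)).ne'
  field_simp
  ring

lemma E0_eq {t x : ℝ} (hx : x ∈ Ioo (0:ℝ) 1) :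
    E0 (fun _ => w) (fun _ => f) t x = -(Real.exp (-(2 * lx x)) *
      (20 * deriv Z (lx x) + 10 * deriv u (lx x) ^ 2 * Z (lx x))) := by
  have hl := h.lx_lt x hx
  unfold E0
  have h1 : Ds (fun _ => w) (rs (fun _ => w) (fun _ => f)) t x =
      deriv (Sl u N) (lx x) * Sl u N (lx x) :=
    Ds_eq h hx (k := Sl u N) (fun y hy => rs_eq h hy) (S_d h hl)
  rw [h1, rs_eq h hx, PP_eq h hx]
  have h2 := dS_eq h hl
  have h3 := S2_eq h hl
  linear_combination (-40) * h2 + (-40 - 10 * deriv u (lx x) ^ 2) * h3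

lemma RR_eq {t x : ℝ} (hx : x ∈ Ioo (0:ℝ) 1) :
    RR (fun _ => w) (fun _ => f) t x = Real.exp (-(2 * lx x)) *
      (40 * (39 * (Real.cosh (u (lx x)) - Z (lx x)) - deriv Z (lx x)
        - Z (lx x) * deriv u (lx x) ^ 2 / 4)) := by
  unfold RR
  rw [E0_eq h hx, yy_eq h hx]
  ring

lemma ZZ_eq {t x : ℝ} (hx : x ∈ Ioo (0:ℝ) 1) : ZZ (fun _ => w) (fun _ => f) t x = Z (lx x) := by
  unfold ZZ
  rw [rr_eq h hx, rs_eq h hx, Z_eq' h (h.lx_lt x hx)]
  have h1 : Real.exp (2 * lx x) = Real.exp (lx x) ^ 2 := by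
    rw [← Real.exp_nat_mul]; push_cast; rfl
  rw [h1]

lemma GG_eq {t x : ℝ} (hx : x ∈ Ioo (0:ℝ) 1) :
    GG (fun _ => w) (fun _ => f) t x = -(deriv u (lx x)) := by
  unfold GG
  rw [PP_eq h hx, rs_eq h hx]
  have := (S_pos h (h.lx_lt x hx)).ne'
  field_simp

lemma Dr_eq {H : Fn} {t x h' : ℝ} {k : ℝ → ℝ} (hx : x ∈ Ioo (0:ℝ) 1)
    (hH : ∀ y ∈ Ioo (0:ℝ) 1, H t y = k (lx y)) (hk : HasDerivAt k h' (lx x)) :
    Dr (fun _ => w) (fun _ => f) H t x = h' := by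
  unfold Dr
  rw [Ds_eq h hx hH hk, rs_eq h hx]
  have := (S_pos h (h.lx_lt x hx)).ne'
  field_simp

lemma ee_eq (g : ℝ → ℝ) {t x : ℝ} (hx : x ∈ Ioo (0:ℝ) 1) :
    ee g (fun _ => w) (fun _ => f) t x = 1 - (-(deriv u (lx x))) / g (u (lx x)) := by
  unfold ee
  rw [GG_eq h hx, uu_eq h hx]

lemma ff_eq (g : ℝ → ℝ) {t x : ℝ} (hx : x ∈ Ioo (0:ℝ) 1) :
    ff g (fun _ => w) (fun _ => f) t x =
      (1 - (-(deriv u (lx x))) / g (u (lx x))) * Real.exp (-2 * lx x) := by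
  unfold ff
  rw [ee_eq h g hx, rr_eq h hx]
  have h1 : Real.exp (-2 * lx x) = (Real.exp (lx x) ^ 2)⁻¹ := by
    rw [← Real.exp_nat_mul, ← Real.exp_neg]
    push_cast
    congr 1
    ring
  rw [h1, div_eq_mul_inv]

lemma th_eq (g : ℝ → ℝ) {t x : ℝ} (hx : x ∈ Ioo (0:ℝ) 1) :
    th g (fun _ => w) (fun _ => f) t x = Z (lx x) / Zs g (u (lx x)) - 1 := by
  unfold th
  rw [ZZ_eq h hx, uu_eq h hx]

end

/-! ### The equator `x = 0` -/

lemma smooth_Dx {H : Fn} {t : ℝ} (hH : ContDiffOn ℝ ∞ (H t) (Ioo (-1) 1)) :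
    ContDiffOn ℝ ∞ (Dx H t) (Ioo (-1) 1) := by
  rw [contDiffOn_infty_iff_deriv_of_isOpen isOpen_Ioo] at hH
  exact hH.2

lemma smooth_Ds {w : ℝ → ℝ} (hw : ContDiffOn ℝ ∞ w (Ioo (-1) 1)) {H : Fn} {t : ℝ}
    (hH : ContDiffOn ℝ ∞ (H t) (Ioo (-1) 1)) :
    ContDiffOn ℝ ∞ (Ds (fun _ => w) H t) (Ioo (-1) 1) := by
  have h1 : ContDiffOn ℝ ∞ (fun x : ℝ => sx x) (Ioo (-1) 1) := by
    unfold sx
    intro x hx
    have h2 : ContDiffAt ℝ ∞ (fun x : ℝ => 1 - x ^ 2) x := by fun_prop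
    exact (h2.sqrt (by nlinarith only [hx, hx.1, hx.2])).contDiffWithinAt
  have h2 := smooth_Dx hH
  unfold Ds
  exact (h1.mul hw.neg.exp).neg.mul h2

lemma smooth_log : ContDiffOn ℝ ∞ (fun x : ℝ => Real.log (1 - x ^ 2) / 2) (Ioo (-1) 1) := by
  intro x hx
  have h2 : ContDiffAt ℝ ∞ (fun x : ℝ => 1 - x ^ 2) x := by fun_prop
  exact ((h2.log (by nlinarith only [hx, hx.1, hx.2])).div_const 2).contDiffWithinAt

section
variable {w f : ℝ → ℝ} (hw : ContDiffOn ℝ ∞ w (Ioo (-1) 1)) (hf : ContDiffOn ℝ ∞ f (Ioo (-1) 1))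
include hw hf

lemma smooth_uu (t : ℝ) : ContDiffOn ℝ ∞ (uu (fun _ => w) (fun _ => f) t) (Ioo (-1) 1) := by
  change ContDiffOn ℝ ∞ (fun x => f x - w x - Real.log (1 - x ^ 2) / 2) (Ioo (-1) 1)
  exact (hf.sub hw).sub smooth_log

lemma smooth_rho (t : ℝ) : ContDiffOn ℝ ∞ (rho (fun _ => w) (fun _ => f) t) (Ioo (-1) 1) := by
  change ContDiffOn ℝ ∞ (fun x => (f x + w x + Real.log (1 - x ^ 2) / 2 - Real.log zeta0) / 2)
    (Ioo (-1) 1)
  exact (((hf.add hw).add smooth_log).sub contDiffOn_const).div_const 2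

lemma smooth_rr (t : ℝ) : ContDiffOn ℝ ∞ (rr (fun _ => w) (fun _ => f) t) (Ioo (-1) 1) :=
  (smooth_rho hw hf t).exp

lemma smooth_rs (t : ℝ) : ContDiffOn ℝ ∞ (rs (fun _ => w) (fun _ => f) t) (Ioo (-1) 1) :=
  smooth_Ds hw (smooth_rho hw hf t)

lemma smooth_PP (t : ℝ) : ContDiffOn ℝ ∞ (PP (fun _ => w) (fun _ => f) t) (Ioo (-1) 1) :=
  smooth_Ds hw (smooth_uu hw hf t)

lemma smooth_Lp {H : Fn} {t : ℝ} (hH : ContDiffOn ℝ ∞ (H t) (Ioo (-1) 1)) :
    ContDiffOn ℝ ∞ (Lp (fun _ => w) (fun _ => f) H t) (Ioo (-1) 1) := by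
  have h1 := smooth_Ds hw hH
  have h2 := smooth_Ds hw (H := Ds (fun _ => w) H) h1
  exact h2.add ((contDiffOn_const.mul (smooth_rs hw hf t)).mul h1)

lemma smooth_VV (t : ℝ) : ContDiffOn ℝ ∞ (VV (fun _ => w) (fun _ => f) t) (Ioo (-1) 1) := by
  have h1 := smooth_Lp hw hf (smooth_uu hw hf t)
  have h2 := smooth_uu hw hf t
  have h3 := smooth_rr hw hf t
  refine h1.add ?_
  have h4 : ContDiffOn ℝ ∞ (fun x => 78 * Real.sinh (uu (fun _ => w) (fun _ => f) t x))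
      (Ioo (-1) 1) := contDiffOn_const.mul (Real.contDiff_sinh.comp_contDiffOn h2)
  refine h4.div (h3.pow 2) ?_
  intro x _
  have : 0 < rr (fun _ => w) (fun _ => f) t x := Real.exp_pos _
  positivity

lemma smooth_yy (t : ℝ) : ContDiffOn ℝ ∞ (yy (fun _ => w) (fun _ => f) t) (Ioo (-1) 1) := by
  have h1 := smooth_Lp hw hf (smooth_rho hw hf t)
  have h2 := smooth_uu hw hf t
  have h3 := smooth_rr hw hf t
  refine h1.sub ?_
  have h4 : ContDiffOn ℝ ∞ (fun x => 39 * Real.cosh (uu (fun _ => w) (fun _ => f) t x))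
      (Ioo (-1) 1) := contDiffOn_const.mul (Real.contDiff_cosh.comp_contDiffOn h2)
  refine h4.div (h3.pow 2) ?_
  intro x _
  have : 0 < rr (fun _ => w) (fun _ => f) t x := Real.exp_pos _
  positivity

lemma smooth_E0 (t : ℝ) : ContDiffOn ℝ ∞ (E0 (fun _ => w) (fun _ => f) t) (Ioo (-1) 1) := by
  have h1 := smooth_Ds hw (smooth_rs hw hf t)
  have h2 := smooth_rs hw hf t
  have h3 := smooth_PP hw hf t
  exact ((contDiffOn_const.mul h1).neg.sub (contDiffOn_const.mul (h2.pow 2))).sub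
    (contDiffOn_const.mul (h3.pow 2))

lemma smooth_RR (t : ℝ) : ContDiffOn ℝ ∞ (RR (fun _ => w) (fun _ => f) t) (Ioo (-1) 1) :=
  (smooth_E0 hw hf t).sub (contDiffOn_const.mul (smooth_yy hw hf t))

end

lemma zero_lim {K k : ℝ → ℝ} {lx : ℝ → ℝ} {L : ℝ} (hK : ContDiffOn ℝ ∞ K (Ioo (-1) 1))
    (hk : ContinuousAt k L) (hlx : Tendsto lx (𝓝[>] 0) (𝓝 L))
    (he : ∀ x ∈ Ioo (0:ℝ) 1, K x = k (lx x)) : K 0 = k L := by
  have h1 : Tendsto K (𝓝[>] 0) (𝓝 (K 0)) :=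
    (hK.continuousOn.continuousAt (isOpen_Ioo.mem_nhds (by constructor <;> norm_num))).tendsto.mono_left
      nhdsWithin_le_nhds
  have h2 : Tendsto K (𝓝[>] 0) (𝓝 (k L)) := by
    have h3 : Tendsto (fun x => k (lx x)) (𝓝[>] 0) (𝓝 (k L)) := hk.tendsto.comp hlx
    refine h3.congr' ?_
    filter_upwards [Ioo_mem_nhdsGT (zero_lt_one : (0:ℝ) < 1)] with x hx
    exact (he x hx).symm
  exact tendsto_nhds_unique h1 h2

lemma cont_deriv {Z : ℝ → ℝ} {L : ℝ} (hZ : ContDiffAt ℝ ∞ Z L) : ContinuousAt (deriv Z) L := by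
  have h1 : ContDiffAt ℝ 1 Z L := hZ.of_le (by exact_mod_cast le_top)
  have h2 : ContDiffAt ℝ 0 (deriv Z) L := by
    have h3 := h1.fderiv_right (m := 0) (by norm_num)
    have h4 : deriv Z = fun x => (fderiv ℝ Z x) 1 := by
      ext x
      exact (fderiv_apply_one_eq_deriv).symm
    rw [h4]
    exact h3.clm_apply contDiffAt_const
  exact h2.continuousAt

section
variable (h : RData w f lx u N Z L)
  (hw : ContDiffOn ℝ ∞ w (Ioo (-1) 1)) (hf : ContDiffOn ℝ ∞ f (Ioo (-1) 1))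
  (hlx : Tendsto lx (𝓝[>] 0) (𝓝 L)) (hZ : ContDiffAt ℝ ∞ Z L)
include h hw hf hlx

lemma uu_zero {t : ℝ} : uu (fun _ => w) (fun _ => f) t 0 = u L :=
  zero_lim (smooth_uu hw hf t) h.u_s.continuous.continuousAt hlx (fun _ hx => uu_eq h hx)

lemma rr_zero {t : ℝ} : rr (fun _ => w) (fun _ => f) t 0 = Real.exp L :=
  zero_lim (smooth_rr hw hf t) Real.continuous_exp.continuousAt hlx (fun _ hx => rr_eq h hx)

include hZ

lemma RR_zero {t : ℝ} : RR (fun _ => w) (fun _ => f) t 0 = Real.exp (-(2 * L)) *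
      (40 * (39 * (Real.cosh (u L) - Z L) - deriv Z L - Z L * deriv u L ^ 2 / 4)) := by
  refine zero_lim (k := fun l => Real.exp (-(2 * l)) *
      (40 * (39 * (Real.cosh (u l) - Z l) - deriv Z l - Z l * deriv u l ^ 2 / 4)))
      (smooth_RR hw hf t) ?_ hlx (fun _ hx => RR_eq h hx)
  have h1 := cont_deriv hZ
  have h2 := hZ.continuousAt
  have h3 : Continuous u := h.u_s.continuous
  have h4 : Continuous (deriv u) := (u1_s h).continuous
  have h5 : Continuous fun l => Real.cosh (u l) := Real.continuous_cosh.comp h3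
  have h6 : ContinuousAt (fun l : ℝ => Real.exp (-(2 * l))) L := by fun_prop
  exact h6.mul (continuousAt_const.mul (((continuousAt_const.mul
    (h5.continuousAt.sub h2)).sub h1).sub ((h2.mul (h4.continuousAt.pow 2)).div_const 4)))

lemma VV_zero {t : ℝ} : VV (fun _ => w) (fun _ => f) t 0 = Real.exp (-(2 * L)) *
      (Z L * deriv (deriv u) L + (deriv Z L / 2 + 39 * Z L) * deriv u L +
        78 * Real.sinh (u L)) := by
  refine zero_lim (k := fun l => Real.exp (-(2 * l)) *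
      (Z l * deriv (deriv u) l + (deriv Z l / 2 + 39 * Z l) * deriv u l +
        78 * Real.sinh (u l)))
      (smooth_VV hw hf t) ?_ hlx (fun _ hx => VV_eq h hx)
  have h1 := cont_deriv hZ
  have h2 := hZ.continuousAt
  have h3 : Continuous u := h.u_s.continuous
  have h4 : Continuous (deriv u) := (u1_s h).continuous
  have h4' : Continuous (deriv (deriv u)) := by
    have := u1_s h
    rw [contDiff_infty_iff_deriv] at this
    exact this.2.continuous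
  have h5 : Continuous fun l => Real.sinh (u l) := Real.continuous_sinh.comp h3
  have h6 : ContinuousAt (fun l : ℝ => Real.exp (-(2 * l))) L := by fun_prop
  exact h6.mul (((h2.mul h4'.continuousAt).add (((h1.div_const 2).add
    (continuousAt_const.mul h2)).mul h4.continuousAt)).add (continuousAt_const.mul h5.continuousAt))

lemma PP_zero {t : ℝ} : PP (fun _ => w) (fun _ => f) t 0 =
    deriv u L * (Real.sqrt (Z L) * Real.exp (-L)) := by
  refine zero_lim (k := fun l => deriv u l * (Real.sqrt (Z l) * Real.exp (-l)))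
      (smooth_PP hw hf t) ?_ hlx (fun x hx => ?_)
  · have h2 := hZ.continuousAt
    have h4 : Continuous (deriv u) := (u1_s h).continuous
    have h6 : ContinuousAt (fun l : ℝ => Real.exp (-l)) L := by fun_prop
    exact h4.continuousAt.mul ((Real.continuous_sqrt.continuousAt.comp h2).mul h6)
  · change PP (fun _ => w) (fun _ => f) t x = _
    rw [PP_eq h hx, S_eq h (h.lx_lt x hx)]

end

end

end Vale.Agent.P244.ST.BDict
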