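import Vale.Agent.P244.ST.BDefs

/-!
# P244-ST : the bubble equation `g g' = q (g - 2 tanh u)`, `q = (m-1) - g²/4`

Existence and qualitative properties of the bubble profile `g` on `(0,∞)`.
-/

open Set Filter Topology

namespace Vale.Agent.P244.ST.BD.BubG


theorem hasDerivAt_tanh (u : ℝ) : HasDerivAt Real.tanh (1 - Real.tanh u ^ 2) u := by
  have hc : Real.cosh u ≠ 0 := (Real.cosh_pos u).ne'
  have h := (Real.hasDerivAt_sinh u).div (Real.hasDerivAt_cosh u) hc
  have h1 : (fun x => Real.sinh x / Real.cosh x) = Real.tanh := by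
    funext x; rw [Real.tanh_eq_sinh_div_cosh]
  have h2 : (Real.cosh u * Real.cosh u - Real.sinh u * Real.sinh u) / Real.cosh u ^ 2 =
      1 - Real.tanh u ^ 2 := by
    rw [Real.tanh_eq_sinh_div_cosh]
    field_simp
  rw [← h2, ← h1]
  exact h

theorem tanh_pos {u : ℝ} (hu : 0 < u) : 0 < Real.tanh u := by
  rw [Real.tanh_eq_sinh_div_cosh]
  exact div_pos (Real.sinh_pos_iff.mpr hu) (Real.cosh_pos u)

theorem tanh_mono : StrictMono Real.tanh := by
  refine strictMono_of_deriv_pos fun u => ?_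
  rw [(hasDerivAt_tanh u).deriv]
  have := Real.tanh_sq_lt_one u
  linarith only [this]

theorem continuous_tanh : Continuous Real.tanh :=
  continuous_iff_continuousAt.mpr fun u => (hasDerivAt_tanh u).continuousAt

theorem gRhs_eq (m u : ℝ) {y : ℝ} (hy : y ≠ 0) :
    gRhs m u y = (m - 1) - y ^ 2 / 4 - 2 * Real.tanh u * (m - 1) / y + Real.tanh u * y / 2 := by
  unfold gRhs qf
  field_simp
  ring

/-- The factor in the difference of the right-hand sides. -/
noncomputable def bubK (m u y y' : ℝ) : ℝ :=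
  Real.tanh u / 2 - (y + y') / 4 + 2 * Real.tanh u * (m - 1) / (y * y')

theorem gRhs_sub (m u : ℝ) {y y' : ℝ} (hy : y ≠ 0) (hy' : y' ≠ 0) :
    gRhs m u y - gRhs m u y' = bubK m u y y' * (y - y') := by
  rw [gRhs_eq m u hy, gRhs_eq m u hy', bubK]
  field_simp
  ring

/-- The parameters: `κ` is the smaller root of `κ² - (m-1) κ + 2 (m-1)`. -/
structure BubPar (m κ : ℝ) : Prop where
  eq : κ ^ 2 = (m - 1) * (κ - 2)
  lo : 2 < κ
  hi : κ ≤ 3

/-- A bubble profile on `(0,∞)`. -/
structure IsBub0 (m κ : ℝ) (g : ℝ → ℝ) : Prop where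
  ode : ∀ u, 0 < u → HasDerivAt g (gRhs m u (g u)) u
  lo : ∀ u, 0 < u → 2 * Real.tanh u < g u
  hi : ∀ u, 0 < u → g u < κ * Real.tanh u

variable {m κ : ℝ}

theorem BubPar.m_ge (h : BubPar m κ) : 9 ≤ m - 1 := by
  have h1 := h.lo
  have h2 : 0 < κ - 2 := by linarith only [h1]
  have h3 : 0 ≤ (κ - 3) * (κ - 6) := mul_nonneg_of_nonpos_of_nonpos (by linarith only [h, h.hi]) (by linarith only [h, h.hi])
  have h4 : 9 * (κ - 2) ≤ (m - 1) * (κ - 2) := by
    rw [← h.eq]; nlinarith only [h3]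
  exact le_of_mul_le_mul_right h4 h2

/-- Bounds for the factor `bubK` in the region. -/
theorem bubK_ge (h : BubPar m κ) {u y y' : ℝ} (hu : 0 < u) (h1 : 2 * Real.tanh u ≤ y)
    (h2 : y ≤ κ * Real.tanh u) (h1' : 2 * Real.tanh u ≤ y') (h2' : y' ≤ κ * Real.tanh u) :
    1 ≤ bubK m u y y' := by
  have hT := tanh_pos hu
  have hT1 := Real.tanh_lt_one u
  set T := Real.tanh u
  have hy : 0 < y := by linarith only [h1, hT]
  have hy' : 0 < y' := by linarith only [h1', hT]
  have hm := h.m_ge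
  have hκ := h.lo
  have hyy : y * y' ≤ κ ^ 2 * T ^ 2 := by
    calc y * y' ≤ (κ * T) * (κ * T) := mul_le_mul h2 h2' hy'.le (by positivity)
      _ = κ ^ 2 * T ^ 2 := by ring
  have h3 : 2 / T ≤ 2 * T * (m - 1) / (y * y') := by
    rw [div_le_div_iff₀ hT (mul_pos hy hy')]
    calc 2 * (y * y') ≤ 2 * (κ ^ 2 * T ^ 2) := by linarith only [hyy]
      _ = 2 * ((m - 1) * (κ - 2)) * T ^ 2 := by rw [h.eq]; ring
      _ ≤ 2 * ((m - 1) * 1) * T ^ 2 := by
          have : (m - 1) * (κ - 2) ≤ (m - 1) * 1 :=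
            mul_le_mul_of_nonneg_left (by linarith only [h, h.hi]) (by linarith only [hT, hT1, hm])
          nlinarith only [this, sq_nonneg T]
      _ = 2 * T * (m - 1) * T := by ring
  have h4 : 2 ≤ 2 / T := by
    rw [le_div_iff₀ hT]; linarith only [hT1]
  have h5 : y + y' ≤ 6 * T := by
    have : κ * T ≤ 3 * T := mul_le_mul_of_nonneg_right h.hi hT.le
    linarith only [h2, h2', this]
  unfold bubK
  linarith only [hT1, h3, h4, h5]

theorem bubK_le (h : BubPar m κ) {u y y' : ℝ} (hu : 0 < u) (h1 : 2 * Real.tanh u ≤ y)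
    (h1' : 2 * Real.tanh u ≤ y') :
    bubK m u y y' ≤ (m - 1) / Real.tanh u := by
  have hT := tanh_pos hu
  have hT1 := Real.tanh_lt_one u
  have hm := h.m_ge
  unfold bubK
  set T := Real.tanh u
  have hy : 0 < y := by linarith only [h1, hT]
  have hy' : 0 < y' := by linarith only [h1', hT]
  have hyy : (2 * T) * (2 * T) ≤ y * y' := mul_le_mul h1 h1' (by positivity) hy.le
  have h3 : 2 * T * (m - 1) / (y * y') ≤ (m - 1) / T := by
    rw [div_le_div_iff₀ (mul_pos hy hy') hT]
    calc 2 * T * (m - 1) * T = (m - 1) * (2 * T ^ 2) := by ring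
      _ ≤ (m - 1) * (y * y') := mul_le_mul_of_nonneg_left (by nlinarith only [hyy]) (by linarith only [hm, hT, hT1])
  linarith only [h1, h1', hT, h3]

/-- A backward barrier lemma. -/
theorem nonneg_backward {φ φ' : ℝ → ℝ} {a b : ℝ} (hc : ContinuousOn φ (Icc a b))
    (hd : ∀ u ∈ Ioo a b, HasDerivAt φ (φ' u) u) (hneg : ∀ u ∈ Ioo a b, φ u < 0 → φ' u ≤ 0)
    (hb : 0 ≤ φ b) : ∀ u ∈ Icc a b, 0 ≤ φ u := by
  intro u₀ hu₀
  by_contra hlt
  rw [not_le] at hlt
  set S : Set ℝ := {u ∈ Icc u₀ b | 0 ≤ φ u} with hS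
  have hsub : Icc u₀ b ⊆ Icc a b := Icc_subset_Icc hu₀.1 le_rfl
  have hbS : b ∈ S := ⟨⟨hu₀.2, le_rfl⟩, hb⟩
  have hScl : IsClosed S := by
    have : S = Icc u₀ b ∩ φ ⁻¹' (Ici 0) := rfl
    rw [this]
    exact (hc.mono hsub).preimage_isClosed_of_isClosed isClosed_Icc isClosed_Ici
  have hSb : BddBelow S := ⟨u₀, fun u hu => hu.1.1⟩
  have hcS : sInf S ∈ S := hScl.csInf_mem ⟨b, hbS⟩ hSb
  set c := sInf S
  have hcu : u₀ ≤ c := hcS.1.1
  have hanti : AntitoneOn φ (Icc u₀ c) := by
    refine antitoneOn_of_deriv_nonpos (convex_Icc _ _) (hc.mono ?_) ?_ ?_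
    · exact Icc_subset_Icc hu₀.1 hcS.1.2
    · intro u hu
      rw [interior_Icc] at hu
      exact (hd u ⟨lt_of_le_of_lt hu₀.1 hu.1, lt_of_lt_of_le hu.2 hcS.1.2⟩).differentiableAt.differentiableWithinAt
    · intro u hu
      rw [interior_Icc] at hu
      have hu' : u ∈ Ioo a b := ⟨lt_of_le_of_lt hu₀.1 hu.1, lt_of_lt_of_le hu.2 hcS.1.2⟩
      rw [(hd u hu').deriv]
      refine hneg u hu' ?_
      by_contra h0
      rw [not_lt] at h0
      exact absurd (csInf_le hSb (show u ∈ S from ⟨⟨hu.1.le, hu'.2.le⟩, h0⟩)) (not_le.mpr hu.2)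
  have := hanti ⟨le_rfl, hcu⟩ ⟨hcu, le_rfl⟩ hcu
  have h0 : 0 ≤ φ c := hcS.2
  linarith only [hlt, this, h0]

/-- The value clamped to the region. -/
noncomputable def bubC (κ u y : ℝ) : ℝ := max (2 * Real.tanh u) (min y (κ * Real.tanh u))

theorem bubC_lo (κ u y : ℝ) : 2 * Real.tanh u ≤ bubC κ u y := le_max_left _ _

theorem bubC_hi (h : BubPar m κ) {u : ℝ} (hu : 0 < u) (y : ℝ) : bubC κ u y ≤ κ * Real.tanh u := by
  have hT := tanh_pos hu
  refine max_le (mul_le_mul_of_nonneg_right h.lo.le hT.le) (min_le_right _ _)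

theorem bubC_lip (κ u y y' : ℝ) : |bubC κ u y - bubC κ u y'| ≤ |y - y'| := by
  unfold bubC
  refine (abs_max_sub_max_le_max _ _ _ _).trans ?_
  rw [sub_self, abs_zero]
  refine max_le (abs_nonneg _) ?_
  refine (abs_min_sub_min_le_max _ _ _ _).trans ?_
  rw [sub_self, abs_zero]
  exact max_le le_rfl (abs_nonneg _)

theorem gRhs_bound (h : BubPar m κ) {u y : ℝ} (hu : 0 < u) (h1 : 2 * Real.tanh u ≤ y)
    (h2 : y ≤ κ * Real.tanh u) : 0 ≤ gRhs m u y ∧ gRhs m u y ≤ m - 1 := by
  have hT := tanh_pos hu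
  have hT1 := Real.tanh_lt_one u
  have hm := h.m_ge
  unfold gRhs qf
  set T := Real.tanh u
  have hy : 0 < y := by linarith only [h1, hT]
  have hy3 : y ≤ 3 := by
    have : κ * T ≤ 3 * 1 := mul_le_mul h.hi hT1.le hT.le (by norm_num)
    linarith only [h2, this]
  have hq : 0 ≤ (m - 1) - y ^ 2 / 4 := by nlinarith only [hm, h1, hT, hT1, hy3]
  refine ⟨div_nonneg (mul_nonneg hq (by linarith only [h1])) hy.le, ?_⟩
  rw [div_le_iff₀ hy]
  have hq2 : (m - 1) - y ^ 2 / 4 ≤ m - 1 := by nlinarith only [sq_nonneg y]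
  exact mul_le_mul hq2 (by linarith only [hT]) (by linarith only [h1]) (by linarith only [hm, hT, hT1])

/-- Solutions on compact intervals, from a value at the right end point. -/
theorem exists_bub_on (h : BubPar m κ) {a b : ℝ} (ha : 0 < a) (hab : a ≤ b) {y₀ : ℝ}
    (h1 : 2 * Real.tanh b ≤ y₀) (h2 : y₀ ≤ κ * Real.tanh b) :
    ∃ g : ℝ → ℝ, g b = y₀ ∧ (∀ u ∈ Icc a b, 2 * Real.tanh u ≤ g u ∧ g u ≤ κ * Real.tanh u) ∧
      ContinuousOn g (Icc a b) ∧ ∀ u ∈ Ioo a b, HasDerivAt g (gRhs m u (g u)) u := by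
  have hm := h.m_ge
  have hTa := tanh_pos ha
  have hpos : ∀ u ∈ Icc a b, 0 < u := fun u hu => lt_of_lt_of_le ha hu.1
  set L : NNReal := ⟨m - 1, by linarith only [hm]⟩ with hL
  set K : NNReal := ⟨(m - 1) / Real.tanh a, by positivity⟩ with hK
  set R : NNReal := ⟨(m - 1) * (b - a), mul_nonneg (by linarith only [hm]) (by linarith only [hab])⟩ with hR
  have hPL : IsPicardLindelof (fun u y => gRhs m u (bubC κ u y))
      (⟨b, ⟨hab, le_rfl⟩⟩ : Icc a b) y₀ R 0 L K := by
    constructor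
    · intro u hu
      refine LipschitzWith.lipschitzOnWith ?_
      refine LipschitzWith.of_dist_le_mul fun y y' => ?_
      have hu0 := hpos u hu
      have hT := tanh_pos hu0
      have e1 := bubC_lo κ u y
      have e2 := bubC_lo κ u y'
      have e3 := bubC_hi h hu0 y
      have e4 := bubC_hi h hu0 y'
      rw [Real.dist_eq, Real.dist_eq, gRhs_sub m u (by linarith only [hT, e1]) (by linarith only [hT, e2]), abs_mul]
      have e5 := bubK_ge h hu0 e1 e3 e2 e4
      have e6 := bubK_le h hu0 e1 e2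
      rw [abs_of_nonneg (by linarith only [e5])]
      have e7 : (m - 1) / Real.tanh u ≤ (m - 1) / Real.tanh a :=
        div_le_div_of_nonneg_left (by linarith only [hm]) hTa (tanh_mono.monotone hu.1)
      exact mul_le_mul (e6.trans e7) (bubC_lip κ u y y') (abs_nonneg _) (by positivity)
    · intro y _ u hu
      have hu0 := hpos u hu
      have hT := tanh_pos hu0
      have e1 := bubC_lo κ u y
      have hcC : ContinuousAt (fun u => bubC κ u y) u := by
        unfold bubC
        have := continuous_tanh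
        fun_prop
      have ht : ContinuousAt Real.tanh u := continuous_tanh.continuousAt
      unfold gRhs qf
      refine ContinuousAt.continuousWithinAt ?_
      refine ContinuousAt.div (by fun_prop) hcC ?_
      linarith only [hT, e1]
    · intro u hu y _
      have hu0 := hpos u hu
      obtain ⟨e1, e2⟩ := gRhs_bound h hu0 (bubC_lo κ u y) (bubC_hi h hu0 y)
      rw [Real.norm_eq_abs, abs_of_nonneg e1]
      exact e2
    · simp only [sub_self, NNReal.coe_zero, sub_zero]
      rw [max_eq_right (by linarith only [hab])]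
      exact le_rfl
  obtain ⟨g, hgb, hg⟩ := hPL.exists_eq_forall_mem_Icc_hasDerivWithinAt₀
  have hgc : ContinuousOn g (Icc a b) := fun u hu => (hg u hu).continuousWithinAt
  have hgd : ∀ u ∈ Ioo a b, HasDerivAt g (gRhs m u (bubC κ u (g u))) u := fun u hu =>
    (hg u (Ioo_subset_Icc_self hu)).hasDerivAt (Icc_mem_nhds hu.1 hu.2)
  have hcT : Continuous Real.tanh := continuous_tanh
  have hlo : ∀ u ∈ Icc a b, 0 ≤ g u - 2 * Real.tanh u := by
    refine nonneg_backward (φ := fun u => g u - 2 * Real.tanh u)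
      (φ' := fun u => gRhs m u (bubC κ u (g u)) - 2 * (1 - Real.tanh u ^ 2)) ?_ ?_ ?_ ?_
    · exact hgc.sub (by fun_prop)
    · intro u hu
      exact (hgd u hu).sub ((hasDerivAt_tanh u).const_mul 2)
    · intro u hu hneg
      have hu0 : 0 < u := lt_trans ha hu.1
      have hT := tanh_pos hu0
      have e1 : bubC κ u (g u) = 2 * Real.tanh u := by
        unfold bubC
        refine max_eq_left ?_
        exact (min_le_left _ _).trans (by linarith only [hneg])
      have e2 := Real.tanh_sq_lt_one u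
      rw [e1]
      unfold gRhs qf
      rw [sub_self, mul_zero, zero_div]
      linarith only [e2]
    · have : g b = y₀ := hgb
      rw [this]
      linarith only [h1]
  have hhi : ∀ u ∈ Icc a b, 0 ≤ κ * Real.tanh u - g u := by
    refine nonneg_backward (φ := fun u => κ * Real.tanh u - g u)
      (φ' := fun u => κ * (1 - Real.tanh u ^ 2) - gRhs m u (bubC κ u (g u))) ?_ ?_ ?_ ?_
    · exact ContinuousOn.sub (by fun_prop) hgc
    · intro u hu
      exact ((hasDerivAt_tanh u).const_mul κ).sub (hgd u hu)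
    · intro u hu hneg
      have hu0 : 0 < u := lt_trans ha hu.1
      have hT := tanh_pos hu0
      have e1 : bubC κ u (g u) = κ * Real.tanh u := by
        unfold bubC
        rw [min_eq_right (by linarith only [hneg]), max_eq_right]
        exact mul_le_mul_of_nonneg_right h.lo.le hT.le
      rw [e1]
      unfold gRhs qf
      set T := Real.tanh u
      have hκ := h.lo
      have e3 : ((m - 1) - (κ * T) ^ 2 / 4) * (κ * T - 2 * T) / (κ * T) =
          κ - κ * T ^ 2 * ((κ - 2) / 4) := by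
        have hκ0 : κ ≠ 0 := by linarith only [hκ]
        have hT0 : T ≠ 0 := hT.ne'
        rw [div_eq_iff (mul_ne_zero hκ0 hT0)]
        have := h.eq
        linear_combination (-T) * this
      rw [e3]
      have e4 : κ * T ^ 2 * ((κ - 2) / 4) ≤ κ * T ^ 2 * 1 :=
        mul_le_mul_of_nonneg_left (by linarith only [h, h.hi]) (by positivity)
      linarith only [e4]
    · have : g b = y₀ := hgb
      rw [this]
      linarith only [h2]
  refine ⟨g, hgb, fun u hu => ⟨by linarith only [hlo, hu, hlo u hu], by linarith only [hhi, hu, hhi u hu]⟩, hgc, ?_⟩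
  intro u hu
  have hu' := Ioo_subset_Icc_self hu
  have e : bubC κ u (g u) = g u := by
    unfold bubC
    rw [min_eq_left (by linarith only [hhi, hu', hhi u hu']), max_eq_right (by linarith only [hlo, hu', hlo u hu'])]
  have := hgd u hu
  rwa [e] at this

/-- Two solutions get closer backward. -/
theorem bub_contract (h : BubPar m κ) {a b : ℝ} (ha : 0 < a) {g g' : ℝ → ℝ}
    (h1 : ∀ u ∈ Icc a b, 2 * Real.tanh u ≤ g u ∧ g u ≤ κ * Real.tanh u)
    (h1' : ∀ u ∈ Icc a b, 2 * Real.tanh u ≤ g' u ∧ g' u ≤ κ * Real.tanh u)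
    (hc : ContinuousOn g (Icc a b)) (hc' : ContinuousOn g' (Icc a b))
    (hd : ∀ u ∈ Ioo a b, HasDerivAt g (gRhs m u (g u)) u)
    (hd' : ∀ u ∈ Ioo a b, HasDerivAt g' (gRhs m u (g' u)) u) :
    ∀ u ∈ Icc a b, |g u - g' u| ≤ Real.exp (u - b) * |g b - g' b| := by
  have hmono : MonotoneOn (fun u => (g u - g' u) ^ 2 * Real.exp (-2 * u)) (Icc a b) := by
    have hder : ∀ u ∈ Ioo a b, HasDerivAt (fun u => (g u - g' u) ^ 2 * Real.exp (-2 * u))
        (2 * (bubK m u (g u) (g' u) - 1) * (g u - g' u) ^ 2 * Real.exp (-2 * u)) u := by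
      intro u hu
      have hu0 : 0 < u := lt_trans ha hu.1
      have hT := tanh_pos hu0
      have hu' := Ioo_subset_Icc_self hu
      have e1 := ((hd u hu).sub (hd' u hu)).pow 2
      have e2 : HasDerivAt (fun u : ℝ => Real.exp (-2 * u)) (Real.exp (-2 * u) * (-2 * 1)) u :=
        ((hasDerivAt_id u).const_mul (-2)).exp
      have e3 := e1.mul e2
      refine e3.congr_deriv ?_
      have e4 := gRhs_sub m u (y := g u) (y' := g' u) (by linarith only [h1, hT, hu', (h1 u hu').1])
        (by linarith only [h1', hT, hu', (h1' u hu').1])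
      simp only [Pi.sub_apply, Pi.pow_apply]
      rw [e4]
      push_cast
      ring
    refine monotoneOn_of_deriv_nonneg (convex_Icc _ _) ?_ ?_ ?_
    · exact ((hc.sub hc').pow 2).mul (by fun_prop)
    · intro u hu
      rw [interior_Icc] at hu
      exact (hder u hu).differentiableAt.differentiableWithinAt
    · intro u hu
      rw [interior_Icc] at hu
      rw [(hder u hu).deriv]
      have hu' := Ioo_subset_Icc_self hu
      have e5 := bubK_ge h (lt_trans ha hu.1) (h1 u hu').1 (h1 u hu').2 (h1' u hu').1 (h1' u hu').2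
      have : 0 ≤ bubK m u (g u) (g' u) - 1 := by linarith only [e5]
      positivity
  intro u hu
  have h2 := hmono hu ⟨hu.1.trans hu.2, le_rfl⟩ hu.2
  simp only at h2
  have h3 : (g u - g' u) ^ 2 ≤ (Real.exp (u - b) * |g b - g' b|) ^ 2 := by
    have h4 : Real.exp (u - b) ^ 2 = Real.exp (-2 * b) * Real.exp (2 * u) := by
      rw [← Real.exp_nat_mul, ← Real.exp_add]
      congr 1
      push_cast
      ring
    rw [mul_pow, h4, sq_abs]
    have h5 : Real.exp (-2 * u) * Real.exp (2 * u) = 1 := by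
      rw [← Real.exp_add]
      simp
    calc (g u - g' u) ^ 2 = (g u - g' u) ^ 2 * Real.exp (-2 * u) * Real.exp (2 * u) := by
          rw [mul_assoc, h5, mul_one]
      _ ≤ (g b - g' b) ^ 2 * Real.exp (-2 * b) * Real.exp (2 * u) :=
          mul_le_mul_of_nonneg_right h2 (Real.exp_pos _).le
      _ = Real.exp (-2 * b) * Real.exp (2 * u) * (g b - g' b) ^ 2 := by ring
  exact abs_le_of_sq_le_sq h3 (by positivity)

theorem gRhs_hi (h : BubPar m κ) {u : ℝ} (hu : 0 < u) :
    gRhs m u (κ * Real.tanh u) = κ - κ * Real.tanh u ^ 2 * ((κ - 2) / 4) := by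
  have hT := tanh_pos hu
  unfold gRhs qf
  set T := Real.tanh u
  have hκ := h.lo
  have hκ0 : κ ≠ 0 := by linarith only [hκ]
  have hT0 : T ≠ 0 := hT.ne'
  rw [div_eq_iff (mul_ne_zero hκ0 hT0)]
  have := h.eq
  linear_combination (-T) * this

/-- Existence of the bubble profile. -/
theorem exists_bub (h : BubPar m κ) : ∃ g : ℝ → ℝ, IsBub0 m κ g := by
  have hm := h.m_ge
  have ha : ∀ n : ℕ, (0 : ℝ) < 1 / ((n : ℝ) + 1) := fun n => by positivity
  have hab : ∀ n : ℕ, 1 / ((n : ℝ) + 1) ≤ (n : ℝ) + 1 := fun n => by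
    rw [div_le_iff₀ (by positivity)]
    nlinarith only [Nat.cast_nonneg (α := ℝ) n]
  have hb : ∀ n : ℕ, (0 : ℝ) < (n : ℝ) + 1 := fun n => by positivity
  choose g hgb hreg hgc hgd using fun n : ℕ => exists_bub_on h (ha n) (hab n)
    (le_refl (2 * Real.tanh ((n : ℝ) + 1)))
    (mul_le_mul_of_nonneg_right h.lo.le (tanh_pos (hb n)).le)
  have hsub : ∀ n k : ℕ, n ≤ k →
      Icc (1 / ((n : ℝ) + 1)) ((n : ℝ) + 1) ⊆ Icc (1 / ((k : ℝ) + 1)) ((k : ℝ) + 1) := by
    intro n k hnk
    have hc : (n : ℝ) ≤ k := by exact_mod_cast hnk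
    refine Icc_subset_Icc ?_ (by linarith only [hc])
    exact one_div_le_one_div_of_le (hb n) (by linarith only [hc])
  have hsub' : ∀ n k : ℕ, n ≤ k →
      Ioo (1 / ((n : ℝ) + 1)) ((n : ℝ) + 1) ⊆ Ioo (1 / ((k : ℝ) + 1)) ((k : ℝ) + 1) := by
    intro n k hnk
    have hc : (n : ℝ) ≤ k := by exact_mod_cast hnk
    refine Ioo_subset_Ioo ?_ (by linarith only [hc])
    exact one_div_le_one_div_of_le (hb n) (by linarith only [hc])
  have hdist : ∀ n k : ℕ, n ≤ k → ∀ u ∈ Icc (1 / ((n : ℝ) + 1)) ((n : ℝ) + 1),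
      |g n u - g k u| ≤ Real.exp (u - ((n : ℝ) + 1)) := by
    intro n k hnk u hu
    have h1 := bub_contract h (ha n) (hreg n) (fun u hu => hreg k u (hsub n k hnk hu)) (hgc n)
      ((hgc k).mono (hsub n k hnk)) (hgd n) (fun u hu => hgd k u (hsub' n k hnk hu)) u hu
    refine h1.trans ?_
    have hend : (n : ℝ) + 1 ∈ Icc (1 / ((n : ℝ) + 1)) ((n : ℝ) + 1) := ⟨hab n, le_rfl⟩
    have h2 := hreg n _ hend
    have h3 := hreg k _ (hsub n k hnk hend)
    have hT1 := Real.tanh_lt_one ((n : ℝ) + 1)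
    have hT := tanh_pos (hb n)
    have h4 : κ * Real.tanh ((n : ℝ) + 1) - 2 * Real.tanh ((n : ℝ) + 1) ≤ 1 := by
      have : (κ - 2) * Real.tanh ((n : ℝ) + 1) ≤ 1 * 1 :=
        mul_le_mul (by linarith only [h, h.hi]) hT1.le hT.le (by norm_num)
      linarith only [this]
    have h5 : |g n ((n : ℝ) + 1) - g k ((n : ℝ) + 1)| ≤ 1 := by
      rw [abs_le]
      constructor <;> linarith only [h2, h3, h4, h2.1, h2.2, h3.1, h3.2]
    calc Real.exp (u - ((n : ℝ) + 1)) * |g n ((n : ℝ) + 1) - g k ((n : ℝ) + 1)|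
        ≤ Real.exp (u - ((n : ℝ) + 1)) * 1 := mul_le_mul_of_nonneg_left h5 (Real.exp_pos _).le
      _ = _ := mul_one _
  have hex : ∀ u v : ℝ, 0 < u → ∃ N : ℕ, 1 / ((N : ℝ) + 1) < u ∧ v < (N : ℝ) + 1 := by
    intro u v hu
    obtain ⟨N₁, hN₁⟩ := exists_nat_one_div_lt hu
    obtain ⟨N₂, hN₂⟩ := exists_nat_gt v
    refine ⟨max N₁ N₂, ?_, ?_⟩
    · refine lt_of_le_of_lt (one_div_le_one_div_of_le (hb N₁) ?_) hN₁
      push_cast
      linarith only [le_max_left (N₁ : ℝ) N₂]
    · push_cast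
      linarith only [hN₂, le_max_right (N₁ : ℝ) N₂]
  have hexp : ∀ u : ℝ, Tendsto (fun n : ℕ => Real.exp (u - ((n : ℝ) + 1))) atTop (𝓝 0) := by
    intro u
    refine Real.tendsto_exp_atBot.comp ?_
    refine tendsto_atBot_add_const_left _ u ?_ |>.congr fun n => (sub_eq_add_neg _ _).symm
    exact tendsto_neg_atTop_atBot.comp (tendsto_atTop_add_const_right _ 1 tendsto_natCast_atTop_atTop)
  have hlim : ∀ u : ℝ, ∃ l : ℝ, 0 < u → Tendsto (fun n => g n u) atTop (𝓝 l) := by
    intro u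
    by_cases hu : 0 < u
    · obtain ⟨N, hN1, hN2⟩ := hex u u hu
      have hcau : CauchySeq (fun n => g n u) := by
        rw [Metric.cauchySeq_iff']
        intro ε hε
        have h1 := (hexp u).eventually (gt_mem_nhds hε)
        obtain ⟨N', hN'⟩ := (h1.and (eventually_ge_atTop N)).exists
        refine ⟨N', fun n hn => ?_⟩
        rw [dist_comm, Real.dist_eq]
        refine lt_of_le_of_lt (hdist N' n hn u ?_) hN'.1
        exact hsub N N' hN'.2 ⟨hN1.le, hN2.le⟩
      obtain ⟨l, hl⟩ := cauchySeq_tendsto_of_complete hcau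
      exact ⟨l, fun _ => hl⟩
    · exact ⟨0, fun h => absurd h hu⟩
  choose G hG using hlim
  have herr : ∀ n : ℕ, ∀ u ∈ Icc (1 / ((n : ℝ) + 1)) ((n : ℝ) + 1),
      |g n u - G u| ≤ Real.exp (u - ((n : ℝ) + 1)) := by
    intro n u hu
    have hu0 : 0 < u := lt_of_lt_of_le (ha n) hu.1
    have h1 : Tendsto (fun k => |g n u - g k u|) atTop (𝓝 |g n u - G u|) :=
      (tendsto_const_nhds.sub (hG u hu0)).abs
    refine le_of_tendsto h1 ?_
    filter_upwards [eventually_ge_atTop n] with k hk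
    exact hdist n k hk u hu
  have hGreg : ∀ u, 0 < u → 2 * Real.tanh u ≤ G u ∧ G u ≤ κ * Real.tanh u := by
    intro u hu
    obtain ⟨N, hN1, hN2⟩ := hex u u hu
    constructor
    · refine ge_of_tendsto (hG u hu) ?_
      filter_upwards [eventually_ge_atTop N] with k hk
      exact (hreg k u (hsub N k hk ⟨hN1.le, hN2.le⟩)).1
    · refine le_of_tendsto (hG u hu) ?_
      filter_upwards [eventually_ge_atTop N] with k hk
      exact (hreg k u (hsub N k hk ⟨hN1.le, hN2.le⟩)).2
  have hode : ∀ u, 0 < u → HasDerivAt G (gRhs m u (G u)) u := by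
    intro u₀ hu₀
    obtain ⟨N, hN1, hN2⟩ := hex (u₀ / 2) (u₀ + 1) (by linarith only [hu₀])
    have hsubs : Ioo (u₀ / 2) (u₀ + 1) ⊆ Ioo (1 / ((N : ℝ) + 1)) ((N : ℝ) + 1) :=
      Ioo_subset_Ioo hN1.le hN2.le
    refine hasDerivAt_of_tendstoLocallyUniformlyOn (l := atTop) (f := g)
      (f' := fun n u => gRhs m u (g n u)) (g' := fun u => gRhs m u (G u))
      (isOpen_Ioo (a := u₀ / 2) (b := u₀ + 1)) ?_ ?_ ?_ ⟨by linarith only [hu₀], by linarith only []⟩
    · refine TendstoUniformlyOn.tendstoLocallyUniformlyOn ?_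
      rw [Metric.tendstoUniformlyOn_iff]
      intro ε hε
      have hT2 := tanh_pos (show 0 < u₀ / 2 by linarith only [hu₀])
      have h1 : Tendsto (fun n : ℕ => (m - 1) / Real.tanh (u₀ / 2) *
          Real.exp (u₀ + 1 - ((n : ℝ) + 1))) atTop (𝓝 0) := by
        have := (hexp (u₀ + 1)).const_mul ((m - 1) / Real.tanh (u₀ / 2))
        rwa [mul_zero] at this
      filter_upwards [h1.eventually (gt_mem_nhds hε), eventually_ge_atTop N] with n hn hnN
      intro u hu
      have hu0 : 0 < u := by linarith only [hu₀, hu, hu.1]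
      have hT := tanh_pos hu0
      have hun := hsub N n hnN (Ioo_subset_Icc_self (hsubs hu))
      have e1 := hreg n u hun
      have e2 := hGreg u hu0
      rw [dist_comm, Real.dist_eq, gRhs_sub m u (by linarith only [hT, e1, e1.1]) (by linarith only [hT, e2, e2.1]), abs_mul]
      have e5 := bubK_ge h hu0 e1.1 e1.2 e2.1 e2.2
      have e6 := bubK_le h hu0 e1.1 e2.1
      rw [abs_of_nonneg (by linarith only [e5] : 0 ≤ bubK m u (g n u) (G u))]
      have e7 : (m - 1) / Real.tanh u ≤ (m - 1) / Real.tanh (u₀ / 2) :=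
        div_le_div_of_nonneg_left (by linarith only [hm]) hT2 (tanh_mono.monotone hu.1.le)
      refine lt_of_le_of_lt ?_ hn
      refine mul_le_mul (e6.trans e7) ((herr n u hun).trans ?_) (abs_nonneg _) (by positivity)
      exact Real.exp_le_exp.mpr (by linarith only [hu, hu.2])
    · filter_upwards [eventually_ge_atTop N] with n hn
      intro u hu
      exact hgd n u (hsub' N n hn (hsubs hu))
    · intro u hu
      exact hG u (by linarith only [hu₀, hu, hu.1])
  refine ⟨G, hode, ?_, ?_⟩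
  · intro u hu
    refine lt_of_le_of_ne (hGreg u hu).1 fun heq => ?_
    have hmin : IsLocalMin (fun u => G u - 2 * Real.tanh u) u := by
      filter_upwards [Ioi_mem_nhds hu] with v hv
      have := (hGreg v hv).1
      linarith only [heq, this]
    have hd := (hode u hu).sub ((hasDerivAt_tanh u).const_mul 2)
    have h0 := hmin.hasDerivAt_eq_zero hd
    rw [← heq] at h0
    unfold gRhs qf at h0
    rw [sub_self, mul_zero, zero_div] at h0
    have := Real.tanh_sq_lt_one u
    linarith only [h0, this]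
  · intro u hu
    refine lt_of_le_of_ne (hGreg u hu).2 fun heq => ?_
    have hmin : IsLocalMin (fun u => κ * Real.tanh u - G u) u := by
      filter_upwards [Ioi_mem_nhds hu] with v hv
      have := (hGreg v hv).2
      linarith only [heq, this]
    have hd := ((hasDerivAt_tanh u).const_mul κ).sub (hode u hu)
    have h0 := hmin.hasDerivAt_eq_zero hd
    rw [heq, gRhs_hi h hu] at h0
    have hT := tanh_pos hu
    have hκ := h.lo
    have h1 : κ * Real.tanh u ^ 2 * ((κ - 2) / 4) < κ * Real.tanh u ^ 2 * 1 :=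
      mul_lt_mul_of_pos_left (by linarith only [h, h.hi]) (by positivity)
    linarith only [h0, h1]

section props

variable {g : ℝ → ℝ}

theorem bub_pos (hg : IsBub0 m κ g) {u : ℝ} (hu : 0 < u) : 0 < g u := by
  have h1 := hg.lo u hu
  have h2 := tanh_pos hu
  linarith only [h1, h2]

theorem bub_lt_three (h : BubPar m κ) (hg : IsBub0 m κ g) {u : ℝ} (hu : 0 < u) : g u < 3 := by
  have h1 := hg.hi u hu
  have hT := tanh_pos hu
  have hT1 := Real.tanh_lt_one u
  have : κ * Real.tanh u ≤ 3 * 1 := mul_le_mul h.hi hT1.le hT.le (by norm_num)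
  linarith only [h1, this]

theorem bub_q (h : BubPar m κ) (hg : IsBub0 m κ g) {u : ℝ} (hu : 0 < u) :
    27 / 4 < qf m (g u) := by
  have h1 := bub_pos hg hu
  have h2 := bub_lt_three h hg hu
  have hm := h.m_ge
  unfold qf
  nlinarith only [h1, h2, hm]

theorem bub_rhs_pos (h : BubPar m κ) (hg : IsBub0 m κ g) {u : ℝ} (hu : 0 < u) :
    0 < gRhs m u (g u) := by
  have h1 := bub_pos hg hu
  have h2 := bub_q h hg hu
  have h3 := hg.lo u hu
  unfold gRhs
  exact div_pos (mul_pos (by linarith only [h2]) (by linarith only [h3])) h1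

theorem bub_strictMono (h : BubPar m κ) (hg : IsBub0 m κ g) : StrictMonoOn g (Ioi 0) := by
  refine strictMonoOn_of_deriv_pos (convex_Ioi 0) ?_ ?_
  · exact fun u hu => (hg.ode u hu).continuousAt.continuousWithinAt
  · intro u hu
    rw [interior_Ioi] at hu
    rw [(hg.ode u hu).deriv]
    exact bub_rhs_pos h hg hu

/-- The quantity `Φ = g (1 - T²) - T g'`. -/
noncomputable def bubPhi (m : ℝ) (g : ℝ → ℝ) (u : ℝ) : ℝ :=
  g u * (1 - Real.tanh u ^ 2) - Real.tanh u * gRhs m u (g u)

theorem hasDerivAt_rhs (hg : IsBub0 m κ g) {u : ℝ} (hu : 0 < u) :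
    HasDerivAt (fun u => gRhs m u (g u))
      (bubK m u (g u) (g u) * gRhs m u (g u) +
        (1 - Real.tanh u ^ 2) * (g u / 2 - 2 * (m - 1) / g u)) u := by
  have h0 := bub_pos hg hu
  have hd := hg.ode u hu
  have hT := hasDerivAt_tanh u
  have h1 : HasDerivAt (fun u => (m - 1) - g u ^ 2 / 4 - 2 * Real.tanh u * (m - 1) / g u +
      Real.tanh u * g u / 2) (0 - (2 * g u ^ (2 - 1) * gRhs m u (g u)) / 4 -
      ((2 * (1 - Real.tanh u ^ 2) * (m - 1)) * g u - 2 * Real.tanh u * (m - 1) * gRhs m u (g u)) /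
        g u ^ 2 + ((1 - Real.tanh u ^ 2) * g u + Real.tanh u * gRhs m u (g u)) / 2) u := by
    have e1 := ((hasDerivAt_const u (m - 1)).sub ((hd.pow 2).div_const 4)).sub
      (((hT.const_mul 2).mul_const (m - 1)).div hd h0.ne')
    have e2 := e1.add ((hT.mul hd).div_const 2)
    refine e2.congr_deriv ?_
    push_cast
    ring
  have h2 : (fun u => gRhs m u (g u)) =ᶠ[𝓝 u] (fun u => (m - 1) - g u ^ 2 / 4 -
      2 * Real.tanh u * (m - 1) / g u + Real.tanh u * g u / 2) := by
    filter_upwards [Ioi_mem_nhds hu] with v hv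
    exact gRhs_eq m v (bub_pos hg hv).ne'
  refine (h1.congr_of_eventuallyEq h2).congr_deriv ?_
  unfold bubK
  field_simp
  ring

theorem hasDerivAt_phi (hg : IsBub0 m κ g) {u : ℝ} (hu : 0 < u) :
    HasDerivAt (bubPhi m g) (bubK m u (g u) (g u) * bubPhi m g u -
      (1 - Real.tanh u ^ 2) * g u * (3 * Real.tanh u - g u / 2)) u := by
  have h0 := bub_pos hg hu
  have hd := hg.ode u hu
  have hT := hasDerivAt_tanh u
  have h1 := (hd.mul ((hT.pow 2).const_sub 1)).sub (hT.mul (hasDerivAt_rhs hg hu))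
  have h2 : bubPhi m g = (g * fun x => 1 - (Real.tanh ^ 2) x) -
      (Real.tanh * fun u => gRhs m u (g u)) := by
    funext x
    simp [bubPhi]
  rw [h2]
  refine h1.congr_deriv ?_
  simp only [Pi.sub_apply, Pi.mul_apply, Pi.pow_apply]
  have hT0 := tanh_pos hu
  unfold bubK
  field_simp
  ring

theorem bub_neg_mono (h : BubPar m κ) (hg : IsBub0 m κ g) {u : ℝ} (hu : 0 < u)
    (hneg : bubPhi m g u ≤ 0) : bubK m u (g u) (g u) * bubPhi m g u -
      (1 - Real.tanh u ^ 2) * g u * (3 * Real.tanh u - g u / 2) < 0 := by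
  have h0 := bub_pos hg hu
  have hlo := hg.lo u hu
  have hhi := hg.hi u hu
  have hK := bubK_ge h hu hlo.le hhi.le hlo.le hhi.le
  have hT := tanh_pos hu
  have hT2 := Real.tanh_sq_lt_one u
  have h3 : κ * Real.tanh u ≤ 3 * Real.tanh u := mul_le_mul_of_nonneg_right h.hi hT.le
  have h4 : 0 < (1 - Real.tanh u ^ 2) * g u * (3 * Real.tanh u - g u / 2) :=
    mul_pos (mul_pos (by linarith only [hT2]) h0) (by linarith only [hlo, hhi, h3])
  have h5 : bubK m u (g u) (g u) * bubPhi m g u ≤ 0 :=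
    mul_nonpos_of_nonneg_of_nonpos (by linarith only [hK]) hneg
  linarith only [h4, h5]

theorem hasDerivAt_quot (hg : IsBub0 m κ g) {u : ℝ} (hu : 0 < u) :
    HasDerivAt (fun u => g u / Real.tanh u) (-(bubPhi m g u) / Real.tanh u ^ 2) u := by
  have hT := tanh_pos hu
  have h1 := (hg.ode u hu).div (hasDerivAt_tanh u) hT.ne'
  refine h1.congr_deriv ?_
  unfold bubPhi
  ring

theorem bub_phi_nonneg (h : BubPar m κ) (hg : IsBub0 m κ g) {u : ℝ} (hu : 0 < u) :
    0 ≤ bubPhi m g u := by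
  by_contra hlt
  rw [not_le] at hlt
  have hcont : ∀ v, 0 < v → ContinuousAt (bubPhi m g) v :=
    fun v hv => (hasDerivAt_phi hg hv).continuousAt
  have hneg : ∀ v, u ≤ v → bubPhi m g v < 0 := by
    intro v hv
    by_contra h0
    rw [not_lt] at h0
    have := nonneg_backward (φ := bubPhi m g) (φ' := fun u => bubK m u (g u) (g u) * bubPhi m g u -
      (1 - Real.tanh u ^ 2) * g u * (3 * Real.tanh u - g u / 2)) (a := u) (b := v)
      (fun x hx => (hcont x (lt_of_lt_of_le hu hx.1)).continuousWithinAt)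
      (fun x hx => hasDerivAt_phi hg (lt_trans hu hx.1))
      (fun x hx hx0 => (bub_neg_mono h hg (lt_trans hu hx.1) hx0.le).le) h0 u ⟨le_rfl, hv⟩
    linarith only [hlt, this]
  have hanti : AntitoneOn (bubPhi m g) (Ici u) := by
    refine antitoneOn_of_deriv_nonpos (convex_Ici u) ?_ ?_ ?_
    · exact fun x hx => (hcont x (lt_of_lt_of_le hu hx)).continuousWithinAt
    · intro x hx
      rw [interior_Ici] at hx
      exact (hasDerivAt_phi hg (lt_trans hu hx)).differentiableAt.differentiableWithinAt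
    · intro x hx
      rw [interior_Ici] at hx
      rw [(hasDerivAt_phi hg (lt_trans hu hx)).deriv]
      exact (bub_neg_mono h hg (lt_trans hu hx) (hneg x (le_of_lt hx)).le).le
  set c := -bubPhi m g u with hc
  have hc0 : 0 < c := by linarith only [hlt]
  have hmono : MonotoneOn (fun v => g v / Real.tanh v - c * v) (Ici u) := by
    have hder : ∀ x, 0 < x → HasDerivAt (fun v => g v / Real.tanh v - c * v)
        (-(bubPhi m g x) / Real.tanh x ^ 2 - c * 1) x := fun x hx =>
      (hasDerivAt_quot hg hx).sub ((hasDerivAt_id x).const_mul c)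
    refine monotoneOn_of_deriv_nonneg (convex_Ici u) ?_ ?_ ?_
    · exact fun x hx => (hder x (lt_of_lt_of_le hu hx)).continuousAt.continuousWithinAt
    · intro x hx
      rw [interior_Ici] at hx
      exact (hder x (lt_trans hu hx)).differentiableAt.differentiableWithinAt
    · intro x hx
      rw [interior_Ici] at hx
      have hx0 := lt_trans hu hx
      rw [(hder x hx0).deriv]
      have h1 := hanti (mem_Ici.mpr le_rfl) (mem_Ici.mpr (le_of_lt hx)) (le_of_lt hx)
      have hT := tanh_pos hx0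
      have hT2 := Real.tanh_sq_lt_one x
      have h2 : c ≤ -(bubPhi m g x) / Real.tanh x ^ 2 := by
        rw [le_div_iff₀ (by positivity)]
        calc c * Real.tanh x ^ 2 ≤ c * 1 := mul_le_mul_of_nonneg_left hT2.le hc0.le
          _ ≤ -(bubPhi m g x) := by linarith only [h1]
      linarith only [h2]
  have hb : ∀ v, 0 < v → 0 < g v / Real.tanh v ∧ g v / Real.tanh v < 3 := by
    intro v hv
    have hT := tanh_pos hv
    refine ⟨div_pos (bub_pos hg hv) hT, ?_⟩
    rw [div_lt_iff₀ hT]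
    exact lt_of_lt_of_le (hg.hi v hv) (mul_le_mul_of_nonneg_right h.hi hT.le)
  have h1 := hmono (mem_Ici.mpr le_rfl)
    (mem_Ici.mpr (by have := div_pos (show (0:ℝ) < 3 by norm_num) hc0; exact le_add_of_nonneg_right this.le))
    (by have := div_pos (show (0:ℝ) < 3 by norm_num) hc0; linarith only [this])
  simp only at h1
  have h2 := (hb u hu).1
  have h3 := (hb (u + 3 / c) (by have := div_pos (show (0:ℝ) < 3 by norm_num) hc0; linarith only [hu, this])).2
  have h4 : c * (u + 3 / c) = c * u + 3 := by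
    rw [mul_add, mul_div_cancel₀ _ hc0.ne']
  linarith only [h1, h2, h3, h4]

/-- (g4) -/
theorem bub_quot (h : BubPar m κ) (hg : IsBub0 m κ g) {u : ℝ} (hu : 0 < u) :
    gRhs m u (g u) * Real.tanh u ≤ g u * (1 - Real.tanh u ^ 2) := by
  have := bub_phi_nonneg h hg hu
  unfold bubPhi at this
  linarith only [this]

/-- `g / tanh` is nonincreasing. -/
theorem bub_anti (h : BubPar m κ) (hg : IsBub0 m κ g) :
    AntitoneOn (fun u => g u / Real.tanh u) (Ioi 0) := by
  refine antitoneOn_of_deriv_nonpos (convex_Ioi 0) ?_ ?_ ?_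
  · exact fun u hu => (hasDerivAt_quot hg hu).continuousAt.continuousWithinAt
  · intro u hu
    rw [interior_Ioi] at hu
    exact (hasDerivAt_quot hg hu).differentiableAt.differentiableWithinAt
  · intro u hu
    rw [interior_Ioi] at hu
    rw [(hasDerivAt_quot hg hu).deriv]
    have h1 := bub_phi_nonneg h hg hu
    exact div_nonpos_of_nonpos_of_nonneg (by linarith only [h1]) (by positivity)

/-- (g6) -/
theorem bub_near_top (h : BubPar m κ) (hg : IsBub0 m κ g) {u : ℝ} (hu : 0 < u) :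
    g u / Real.tanh u - 2 ≤ 4 / 3 * (1 - Real.tanh u ^ 2) := by
  have hT := tanh_pos hu
  have h1 := bub_quot h hg hu
  have h0 := bub_pos hg hu
  have hq := bub_q h hg hu
  have hlo := hg.lo u hu
  have hT2 := Real.tanh_sq_lt_one u
  have h3 : g u < 3 * Real.tanh u :=
    lt_of_lt_of_le (hg.hi u hu) (mul_le_mul_of_nonneg_right h.hi hT.le)
  rw [sub_le_iff_le_add, div_le_iff₀ hT]
  unfold gRhs at h1
  rw [div_mul_eq_mul_div, div_le_iff₀ h0] at h1
  set T := Real.tanh u
  set y := g u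
  -- `q (y - 2T) T ≤ y² (1 - T²)`
  have h4 : 27 / 4 * ((y - 2 * T) * T) ≤ qf m y * ((y - 2 * T) * T) :=
    mul_le_mul_of_nonneg_right hq.le (mul_nonneg (by linarith only [hlo]) hT.le)
  have h5 : y ^ 2 ≤ 9 * T ^ 2 := by nlinarith only [hT, h0, h3]
  have h6 : y ^ 2 * (1 - T ^ 2) ≤ 9 * T ^ 2 * (1 - T ^ 2) :=
    mul_le_mul_of_nonneg_right h5 (by linarith only [hT2])
  have h7 : 27 / 4 * ((y - 2 * T) * T) ≤ 9 * T ^ 2 * (1 - T ^ 2) := by
    calc 27 / 4 * ((y - 2 * T) * T) ≤ qf m y * ((y - 2 * T) * T) := h4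
      _ = qf m y * (y - 2 * T) * T := by ring
      _ ≤ y * (1 - T ^ 2) * y := h1
      _ = y ^ 2 * (1 - T ^ 2) := by ring
      _ ≤ _ := h6
  have h8 : (y - 2 * T) ≤ 4 / 3 * (T * (1 - T ^ 2)) := by
    have : (y - 2 * T) * T ≤ (4 / 3 * (T * (1 - T ^ 2))) * T := by linarith only [h1, h4, h6]
    exact le_of_mul_le_mul_right this hT
  linarith only [h8]

theorem one_sub_tanh_sq_le {u : ℝ} (hu : 0 < u) : 1 - Real.tanh u ^ 2 ≤ 4 / u := by
  have hc := Real.cosh_pos u
  have h1 : 1 - Real.tanh u ^ 2 = 1 / Real.cosh u ^ 2 := by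
    rw [Real.tanh_eq_sinh_div_cosh, div_pow, eq_div_iff (by positivity), sub_mul,
      div_mul_cancel₀ _ (by positivity)]
    have := Real.cosh_sq u
    linarith only [this]
  have h2 : u / 2 ≤ Real.cosh u := by
    have e1 := Real.add_one_le_exp u
    have e2 := Real.exp_pos (-u)
    rw [Real.cosh_eq]
    linarith only [e1, e2]
  have h3 := Real.one_le_cosh u
  rw [h1, div_le_div_iff₀ (by positivity) hu]
  nlinarith only [hu, hc, h2, h3]

/-- `g < 2` -/
theorem bub_lt_two (h : BubPar m κ) (hg : IsBub0 m κ g) {u : ℝ} (hu : 0 < u) : g u < 2 := by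
  by_contra hge
  rw [not_lt] at hge
  have h1 := bub_strictMono h hg (show u ∈ Ioi 0 from hu)
    (show u + 1 ∈ Ioi 0 from by simp only [mem_Ioi]; linarith only [hu]) (by linarith only [])
  set η := g (u + 1) - 2
  have hη : 0 < η := by linarith only [hge, h1]
  set v := max (u + 1) (8 / η) with hv
  have hv1 : u + 1 ≤ v := le_max_left _ _
  have hv2 : 8 / η ≤ v := le_max_right _ _
  have hv0 : 0 < v := by linarith only [hu, hv1]
  have h2 : g (u + 1) ≤ g v := (bub_strictMono h hg).monotoneOn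
    (show u + 1 ∈ Ioi 0 from by simp only [mem_Ioi]; linarith only [hu]) hv0 hv1
  have h3 := bub_near_top h hg hv0
  have h4 := one_sub_tanh_sq_le hv0
  have hT := tanh_pos hv0
  have hT1 := Real.tanh_lt_one v
  have h5 : g v ≤ g v / Real.tanh v := by
    rw [le_div_iff₀ hT]
    exact mul_le_of_le_one_right (bub_pos hg hv0).le hT1.le
  have h6 : 4 / v ≤ η / 2 := by
    rw [div_le_iff₀ hv0]
    have : η / 2 * (8 / η) ≤ η / 2 * v := mul_le_mul_of_nonneg_left hv2 (by linarith only [hge, h1])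
    have e : η / 2 * (8 / η) = 4 := by
      field_simp
      norm_num
    linarith only [this, e]
  linarith only [hge, h1, h2, h3, h4, h5, h6]

/-- (g5) -/
theorem bub_near_zero (h : BubPar m κ) (hg : IsBub0 m κ g) {C : ℝ} (hC1 : κ ^ 2 ≤ C * (m - 1 - 4 * κ))
    (hC2 : κ - 2 < C) {u : ℝ} (hu : 0 < u) : κ - g u / Real.tanh u ≤ C * Real.tanh u ^ 2 := by
  have hκ := h.lo
  have hC0 : 0 < C := by linarith only [hC2, hκ]
  -- a point where the barrier holds
  obtain ⟨b, hub, hb⟩ : ∃ b, u ≤ b ∧ κ - 2 ≤ C * Real.tanh b ^ 2 := by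
    have hε : 0 < C - (κ - 2) := by linarith only [hC2]
    refine ⟨max u (4 * C / (C - (κ - 2))), le_max_left _ _, ?_⟩
    set b := max u (4 * C / (C - (κ - 2)))
    have hb2 : 4 * C / (C - (κ - 2)) ≤ b := le_max_right _ _
    have hb0 : 0 < b := lt_of_lt_of_le hu (le_max_left _ _)
    have h4 := one_sub_tanh_sq_le hb0
    have h5 : C * (4 / b) ≤ C - (κ - 2) := by
      rw [← mul_div_assoc, div_le_iff₀ hb0]
      rw [div_le_iff₀ hε] at hb2
      linarith only [hb2]
    have h6 : C * (1 - Real.tanh b ^ 2) ≤ C * (4 / b) := mul_le_mul_of_nonneg_left h4 hC0.le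
    linarith only [h5, h6]
  have hmain := nonneg_backward
    (φ := fun u => g u - κ * Real.tanh u + C * Real.tanh u ^ 3)
    (φ' := fun u => gRhs m u (g u) - κ * (1 - Real.tanh u ^ 2) +
      C * (3 * Real.tanh u ^ 2 * (1 - Real.tanh u ^ 2))) (a := u) (b := b) ?_ ?_ ?_ ?_ u ⟨le_rfl, hub⟩
  · have hT := tanh_pos hu
    rw [sub_le_iff_le_add, ← sub_le_iff_le_add', le_div_iff₀ hT]
    linarith only [hmain]
  · intro x hx
    have hx0 : 0 < x := lt_of_lt_of_le hu hx.1
    have hc := (hg.ode x hx0).continuousAt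
    have ht : ContinuousAt Real.tanh x := continuous_tanh.continuousAt
    exact ContinuousAt.continuousWithinAt (by fun_prop)
  · intro x hx
    have hx0 : 0 < x := lt_trans hu hx.1
    have e := ((hg.ode x hx0).sub ((hasDerivAt_tanh x).const_mul κ)).add
      (((hasDerivAt_tanh x).pow 3).const_mul C)
    refine e.congr_deriv ?_
    push_cast
    ring
  · intro x hx hneg
    have hx0 : 0 < x := lt_trans hu hx.1
    have hT := tanh_pos hx0
    have hT2 := Real.tanh_sq_lt_one x
    have hlo := hg.lo x hx0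
    have h0 := bub_pos hg hx0
    set T := Real.tanh x
    set y := g x
    set ρ := κ - C * T ^ 2 with hρ
    have hyρ : y < ρ * T := by
      have : ρ * T = κ * T - C * T ^ 3 := by rw [hρ]; ring
      linarith only [hneg]
    have hρ2 : 2 < ρ := by
      have : 2 * T < ρ * T := by linarith only [hneg, hlo]
      exact lt_of_mul_lt_mul_right this hT.le
    have hm := h.m_ge
    have hT20 : 0 ≤ T ^ 2 := sq_nonneg T
    -- the key polynomial inequality
    have key : (m - 1) * (ρ - 2) ≤ (κ - 3 * C * T ^ 2) * (1 - T ^ 2) * ρ := by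
      have e1 : (m - 1) * (ρ - 2) = κ ^ 2 - (m - 1) * C * T ^ 2 := by
        rw [hρ, h.eq]; ring
      have e2 : (κ - 3 * C * T ^ 2) * (1 - T ^ 2) * ρ = κ ^ 2 - 4 * C * κ * T ^ 2 - κ ^ 2 * T ^ 2 +
          4 * C * κ * T ^ 2 * T ^ 2 + 3 * C ^ 2 * T ^ 2 * T ^ 2 * (1 - T ^ 2) := by
        rw [hρ]; ring
      have e3 : κ ^ 2 * T ^ 2 ≤ C * (m - 1 - 4 * κ) * T ^ 2 := mul_le_mul_of_nonneg_right hC1 hT20
      have e4 : 0 ≤ 4 * C * κ * T ^ 2 * T ^ 2 := by positivity
      have e5 : 0 ≤ 3 * C ^ 2 * T ^ 2 * T ^ 2 * (1 - T ^ 2) :=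
        mul_nonneg (by positivity) (by linarith only [hT2])
      rw [e1, e2]
      linarith only [e3, e4, e5]
    have hρT : 0 < ρ * T := by positivity
    have e6 : gRhs m x y ≤ (m - 1) * (y - 2 * T) / y := by
      unfold gRhs qf
      refine div_le_div_of_nonneg_right ?_ h0.le
      refine mul_le_mul_of_nonneg_right ?_ (by linarith only [hlo])
      nlinarith only [sq_nonneg y]
    have e7 : (m - 1) * (y - 2 * T) / y ≤ (κ - 3 * C * T ^ 2) * (1 - T ^ 2) := by
      rw [div_le_iff₀ h0]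
      have e8 : (m - 1) * (y - 2 * T) * ρ ≤ (m - 1) * (ρ - 2) * y := by
        have : (m - 1) * ((y - 2 * T) * ρ - (ρ - 2) * y) ≤ 0 := by
          refine mul_nonpos_of_nonneg_of_nonpos (by linarith only [hm]) ?_
          have : (y - 2 * T) * ρ - (ρ - 2) * y = 2 * (y - ρ * T) := by ring
          rw [this]
          linarith only [hneg]
        linarith only [this]
      have e9 : (m - 1) * (ρ - 2) * y ≤ (κ - 3 * C * T ^ 2) * (1 - T ^ 2) * ρ * y :=
        mul_le_mul_of_nonneg_right key h0.le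
      have e10 : (m - 1) * (y - 2 * T) * ρ ≤ (κ - 3 * C * T ^ 2) * (1 - T ^ 2) * y * ρ := by
        calc _ ≤ _ := e8
          _ ≤ _ := e9
          _ = _ := by ring
      exact le_of_mul_le_mul_right e10 (by linarith only [hρ2])
    have e11 : (κ - 3 * C * T ^ 2) * (1 - T ^ 2) = κ * (1 - T ^ 2) - C * (3 * T ^ 2 * (1 - T ^ 2)) := by
      ring
    linarith only [e6, e7]
  · have hb0 : 0 < b := lt_of_lt_of_le hu hub
    have hT := tanh_pos hb0
    have hlo := hg.lo b hb0
    have : 0 ≤ Real.tanh b * (C * Real.tanh b ^ 2 - (κ - 2)) := mul_nonneg hT.le (by linarith only [hb])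
    have e : Real.tanh b * (C * Real.tanh b ^ 2 - (κ - 2)) =
      2 * Real.tanh b - κ * Real.tanh b + C * Real.tanh b ^ 3 := by ring
    linarith only [hlo, this]

/-- A solution which stays in the region up to infinity is the bubble profile. -/
theorem bub_unique_top (h : BubPar m κ) (hg : IsBub0 m κ g) {g' : ℝ → ℝ} {U : ℝ} (hU : 0 < U)
    (hreg : ∀ u, U ≤ u → 2 * Real.tanh u ≤ g' u ∧ g' u ≤ κ * Real.tanh u)
    (hd : ∀ u, U ≤ u → HasDerivAt g' (gRhs m u (g' u)) u) : ∀ u, U ≤ u → g u = g' u := by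
  intro u hu
  have h1 : ∀ b, u ≤ b → |g u - g' u| ≤ Real.exp (u - b) := by
    intro b hb
    have hu0 : 0 < u := lt_of_lt_of_le hU hu
    have h2 := bub_contract h (a := u) (b := b) hu0 (g := g) (g' := g')
      (fun x hx => ⟨(hg.lo x (lt_of_lt_of_le hu0 hx.1)).le, (hg.hi x (lt_of_lt_of_le hu0 hx.1)).le⟩)
      (fun x hx => hreg x (hu.trans hx.1))
      (fun x hx => (hg.ode x (lt_of_lt_of_le hu0 hx.1)).continuousAt.continuousWithinAt)
      (fun x hx => (hd x (hu.trans hx.1)).continuousAt.continuousWithinAt)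
      (fun x hx => hg.ode x (lt_trans hu0 hx.1))
      (fun x hx => hd x (hu.trans hx.1.le)) u ⟨le_rfl, hb⟩
    refine h2.trans ?_
    have hb0 : 0 < b := lt_of_lt_of_le hu0 hb
    have hT := tanh_pos hb0
    have hT1 := Real.tanh_lt_one b
    have e1 := hg.lo b hb0
    have e2 := hg.hi b hb0
    have e3 := hreg b (hu.trans hb)
    have h4 : κ * Real.tanh b - 2 * Real.tanh b ≤ 1 := by
      have : (κ - 2) * Real.tanh b ≤ 1 * 1 :=
        mul_le_mul (by linarith only [h, h.hi]) hT1.le hT.le (by norm_num)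
      linarith only [this]
    have h5 : |g b - g' b| ≤ 1 := by
      rw [abs_le]
      constructor <;> linarith only [e1, e3, h4, e2, e3.1, e3.2]
    calc Real.exp (u - b) * |g b - g' b| ≤ Real.exp (u - b) * 1 :=
          mul_le_mul_of_nonneg_left h5 (Real.exp_pos _).le
      _ = _ := mul_one _
  have h2 : Tendsto (fun b : ℝ => Real.exp (u - b)) atTop (𝓝 0) := by
    refine Real.tendsto_exp_atBot.comp ?_
    exact tendsto_atBot_add_const_left _ u tendsto_neg_atTop_atBot |>.congr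
      fun n => (sub_eq_add_neg _ _).symm
  have h3 : |g u - g' u| ≤ 0 := by
    refine ge_of_tendsto h2 ?_
    filter_upwards [eventually_ge_atTop u] with b hb
    exact h1 b hb
  have h4 := abs_nonpos_iff.mp h3
  linarith only [h4]

theorem tanh_eq_exp (u : ℝ) : Real.tanh u = (1 - Real.exp (-2 * u)) / (1 + Real.exp (-2 * u)) := by
  rw [Real.tanh_eq, div_eq_div_iff (by positivity) (by positivity)]
  have h1 : Real.exp (-2 * u) = Real.exp (-u) * Real.exp (-u) := by
    rw [← Real.exp_add]; congr 1; ring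
  have h2 : Real.exp u * Real.exp (-u) = 1 := by
    rw [← Real.exp_add]; simp
  rw [h1]
  linear_combination (2 * Real.exp (-u)) * h2

/-- Identification with a smooth function of `exp (-2u)` near infinity. -/
theorem bub_tip (h : BubPar m κ) (hg : IsBub0 m κ g) {f : ℝ → ℝ} {f' ε : ℝ} (hε : 0 < ε)
    (h0 : f 0 = 2) (hf' : HasDerivAt f f' 0) (h1 : -4 < f')
    (hd : ∀ u, Real.exp (-2 * u) < ε → HasDerivAt (fun u => f (Real.exp (-2 * u)))
      (gRhs m u (f (Real.exp (-2 * u)))) u) :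
    ∃ ε' > 0, ε' ≤ ε ∧ ∀ u, Real.exp (-2 * u) < ε' → g u = f (Real.exp (-2 * u)) := by
  -- near `0`, `2 (1-E)/(1+E) ≤ f E ≤ κ (1-E)/(1+E)` for `E > 0`
  have hlow : ∀ᶠ E in 𝓝[>] (0 : ℝ), 2 * ((1 - E) / (1 + E)) ≤ f E := by
    have e1 : HasDerivAt (fun E : ℝ => f E - 2 * ((1 - E) / (1 + E))) (f' + 4) 0 := by
      have e2 : HasDerivAt (fun E : ℝ => (1 - E) / (1 + E)) ((-1 * (1 + 0) - (1 - 0) * 1) / (1 + 0) ^ 2)
          (0 : ℝ) := ((hasDerivAt_id (0 : ℝ)).const_sub 1).div ((hasDerivAt_id (0 : ℝ)).const_add 1)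
            (by norm_num)
      refine (hf'.sub (e2.const_mul 2)).congr_deriv ?_
      norm_num
    have e3 := (hasDerivAt_iff_tendsto_slope.mp e1).eventually (lt_mem_nhds (show 0 < f' + 4 by linarith only [h1]))
    have e4 : 𝓝[>] (0 : ℝ) ≤ 𝓝[≠] 0 := nhdsWithin_mono _ fun x hx => ne_of_gt hx
    filter_upwards [e4 e3, self_mem_nhdsWithin] with E hE hE0
    rw [slope_def_field] at hE
    have hE0' : (0 : ℝ) < E := hE0
    rw [h0] at hE
    have h5 : (0 : ℝ) < E - 0 := by linarith only [hE0']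
    have h6 := (lt_div_iff₀ h5).mp hE
    norm_num at h6
    linarith only [h6]
  have hupp : ∀ᶠ E in 𝓝[>] (0 : ℝ), f E ≤ κ * ((1 - E) / (1 + E)) := by
    have e1 : ContinuousAt (fun E : ℝ => κ * ((1 - E) / (1 + E)) - f E) 0 := by
      have := hf'.continuousAt
      have e2 : ContinuousAt (fun E : ℝ => (1 - E) / (1 + E)) 0 :=
        ContinuousAt.div (by fun_prop) (by fun_prop) (by norm_num)
      fun_prop
    have e2 : 0 < κ * ((1 - 0) / (1 + 0)) - f 0 := by
      rw [h0]
      have := h.lo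
      norm_num
      linarith only [this]
    have e3 := (e1.eventually (lt_mem_nhds e2))
    filter_upwards [nhdsWithin_le_nhds e3] with E hE
    linarith only [hE]
  obtain ⟨δ, hδ, hδ'⟩ := mem_nhdsGT_iff_exists_Ioo_subset.mp (hlow.and hupp)
  have hδ0 : (0 : ℝ) < δ := hδ
  refine ⟨min ε (min δ 1) / 2, by positivity, ?_, ?_⟩
  · have : min ε (min δ 1) ≤ ε := min_le_left _ _
    have h7 : 0 < min ε (min δ 1) := by positivity
    linarith only [hε, this]
  · intro u hu
    have h7 : 0 < min ε (min δ 1) := by positivity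
    have hm1 : min ε (min δ 1) ≤ ε := min_le_left _ _
    have hm2 : min ε (min δ 1) ≤ δ := (min_le_right _ _).trans (min_le_left _ _)
    have hm3 : min ε (min δ 1) ≤ 1 := (min_le_right _ _).trans (min_le_right _ _)
    have hu0 : 0 < u := by
      have : Real.exp (-2 * u) < Real.exp 0 := by rw [Real.exp_zero]; linarith only [hu, hm3]
      have := Real.exp_lt_exp.mp this
      linarith only [this]
    have hlt : ∀ v, u ≤ v → Real.exp (-2 * v) < min ε (min δ 1) := by
      intro v hv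
      have : Real.exp (-2 * v) ≤ Real.exp (-2 * u) := Real.exp_le_exp.mpr (by linarith only [hv])
      linarith only [hu, h7, this]
    refine bub_unique_top h hg (g' := fun u => f (Real.exp (-2 * u))) hu0 ?_ ?_ u le_rfl
    · intro v hv
      have h8 := hlt v hv
      have h9 := hδ' (show Real.exp (-2 * v) ∈ Ioo 0 δ from ⟨Real.exp_pos _, by linarith only [hm2, h8]⟩)
      rw [tanh_eq_exp v]
      exact h9
    · intro v hv
      exact hd v (by linarith only [hm1, hlt, hv, hlt v hv])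

open scoped ContDiff in
/-- Smoothness on `(0,∞)`. -/
theorem bub_smooth (hg : IsBub0 m κ g) : ContDiffOn ℝ ∞ g (Ioi 0) := by
  have hT : ContDiff ℝ ∞ Real.tanh := by
    have : Real.tanh = fun x => Real.sinh x / Real.cosh x := by
      funext x; exact Real.tanh_eq_sinh_div_cosh x
    rw [this]
    exact Real.contDiff_sinh.div Real.contDiff_cosh fun x => (Real.cosh_pos x).ne'
  rw [contDiffOn_infty]
  intro n
  induction n with
  | zero =>
    rw [Nat.cast_zero, contDiffOn_zero]
    exact fun u hu => (hg.ode u hu).continuousAt.continuousWithinAt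
  | succ n ih =>
    rw [Nat.cast_succ, contDiffOn_succ_iff_deriv_of_isOpen isOpen_Ioi]
    refine ⟨fun u hu => (hg.ode u hu).differentiableAt.differentiableWithinAt, ?_, ?_⟩
    · intro hω
      exact absurd hω (by simp)
    · have h1 : ContDiffOn ℝ n (fun u => gRhs m u (g u)) (Ioi 0) := by
        unfold gRhs qf
        refine ContDiffOn.div ?_ ih fun u hu => (bub_pos hg hu).ne'
        have hTn : ContDiffOn ℝ n Real.tanh (Ioi 0) := (hT.of_le (by exact_mod_cast le_top)).contDiffOn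
        fun_prop
      refine h1.congr fun u hu => ?_
      exact (hg.ode u hu).deriv

end props

/-- The parameters of the main theorem. -/
theorem bubPar_forty : BubPar 40 (kap 40) ∧ kap 40 ^ 2 ≤ 1 / 4 * (40 - 1 - 4 * kap 40) ∧
    kap 40 - 2 < 1 / 4 := by
  have h1 : Real.sqrt ((40 - 1) * (40 - 9)) ^ 2 = 1209 := by
    rw [Real.sq_sqrt (by norm_num)]; norm_num
  have h2 : 0 ≤ Real.sqrt ((40 - 1) * (40 - 9)) := Real.sqrt_nonneg _
  have h3 : Real.sqrt ((40 - 1) * (40 - 9)) < 34.8 := by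
    rw [Real.sqrt_lt' (by norm_num)]
    norm_num
  have h4 : 34.77 < Real.sqrt ((40 - 1) * (40 - 9)) := by
    rw [Real.lt_sqrt (by norm_num)]
    norm_num
  have h5 : kap 40 ^ 2 = 682.5 - 19.5 * Real.sqrt ((40 - 1) * (40 - 9)) := by
    unfold kap
    linear_combination h1 / 4
  have h6 : kap 40 = (39 - Real.sqrt ((40 - 1) * (40 - 9))) / 2 := by
    unfold kap
    norm_num
  refine ⟨⟨?_, ?_, ?_⟩, ?_, ?_⟩
  · rw [h5, h6]; ring
  · rw [h6]; linarith only [h3, h4]
  · rw [h6]; linarith only [h3, h4]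
  · rw [h5, h6]; linarith only [h3, h4]
  · rw [h6]; linarith only [h3, h4]

/-- The odd extension. -/
noncomputable def oddExt (g : ℝ → ℝ) (u : ℝ) : ℝ :=
  if 0 < u then g u else if u < 0 then -g (-u) else 0

theorem oddExt_pos {g : ℝ → ℝ} {u : ℝ} (hu : 0 < u) : oddExt g u = g u := if_pos hu

theorem oddExt_odd (g : ℝ → ℝ) (u : ℝ) : oddExt g (-u) = -oddExt g u := by
  unfold oddExt
  rcases lt_trichotomy u 0 with h | h | h
  · rw [if_pos (by linarith only [h]), if_neg (by linarith only [h]), if_pos h]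
    ring
  · subst h
    simp
  · rw [if_neg (by linarith only [h]), if_pos (by linarith only [h]), if_pos h]
    ring_nf

/-- The bubble profile: all the fields of `IsBub 40` with the exception of `tip`. -/
theorem exists_core : ∃ g : ℝ → ℝ, IsBub0 40 (kap 40) g ∧ g 0 = 0 ∧ (∀ u, g (-u) = - g u) := by
  obtain ⟨g, hg⟩ := exists_bub bubPar_forty.1
  refine ⟨oddExt g, ⟨?_, ?_, ?_⟩, by simp [oddExt], oddExt_odd g⟩
  · intro u hu
    have h1 : oddExt g =ᶠ[𝓝 u] g := by
      filter_upwards [Ioi_mem_nhds hu] with v hv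
      exact oddExt_pos hv
    rw [oddExt_pos hu]
    exact (hg.ode u hu).congr_of_eventuallyEq h1
  · intro u hu
    rw [oddExt_pos hu]
    exact hg.lo u hu
  · intro u hu
    rw [oddExt_pos hu]
    exact hg.hi u hu

open scoped ContDiff in
/-- `BubStatement` follows from the smooth solution at the tip. -/
theorem bubStatement_of_tip
    (H : ∃ (f : ℝ → ℝ) (f' ε : ℝ), 0 < ε ∧ ContDiffOn ℝ ∞ f (Ioo (-ε) ε) ∧ f 0 = 2 ∧
      HasDerivAt f f' 0 ∧ -4 < f' ∧ ∀ u, Real.exp (-2 * u) < ε →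
        HasDerivAt (fun u => f (Real.exp (-2 * u))) (gRhs 40 u (f (Real.exp (-2 * u)))) u) :
    BubStatement := by
  obtain ⟨g, hg, h0, hodd⟩ := exists_core
  obtain ⟨hP, hC1, hC2⟩ := bubPar_forty
  obtain ⟨f, f', ε, hε, hsm, hf0, hf', hf4, hd⟩ := H
  refine ⟨g, h0, hodd, hg.ode, hg.lo, hg.hi, fun u hu => bub_lt_two hP hg hu,
    fun u hu => bub_rhs_pos hP hg hu, fun u hu => bub_quot hP hg hu,
    ⟨1 / 4, fun u hu => bub_near_zero hP hg hC1 hC2 hu⟩,
    ⟨4 / 3, fun u hu => bub_near_top hP hg hu⟩, ?_⟩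
  obtain ⟨ε', hε', hle, hgu⟩ := bub_tip hP hg hε hf0 hf' hf4 hd
  refine ⟨f, ε', hε', hsm.mono (Ioo_subset_Ioo (by linarith only [hle]) hle), hf0, hgu⟩

end Vale.Agent.P244.ST.BD.BubG
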