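import Vale.Agent.P244.ST.BConf
import Vale.Agent.P244.ST.BCurv
import Vale.Agent.P244.ST.BubG

/-!
# P244-ST, block B3b : the gauge function `l = log r` as a function of `X = artanh x`
-/

open Set Filter Topology Real
open scoped ContDiff

namespace Vale.Agent.P244.ST.BGauge

open Vale.Agent.P244.ST.BD

/-- Inverse function of `T l = X0 + ∫_l^{l0} 1/N`. -/
theorem inv_gauge (N : ℝ → ℝ) (L l0 X0 C : ℝ) (hl0 : l0 < L) (hN : ContDiffOn ℝ ∞ N (Iio L))
    (hpos : ∀ l < L, 0 < N l) (hC : ∀ l ≤ l0, N l ≤ C) (E : ℝ → ℝ)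
    (hE : ∀ X ∈ Ioc 0 X0, E X < L ∧ HasDerivAt E (-(N (E X))) X) (hE0 : E X0 = l0) :
    ∃ G : ℝ → ℝ, (∀ X > 0, G X < L ∧ ContDiffAt ℝ ∞ G X ∧ HasDerivAt G (-(N (G X))) X) ∧
      (∀ X ∈ Ioc 0 X0, G X = E X) ∧ Tendsto G atTop atBot := by
  have hCpos : 0 < C := lt_of_lt_of_le (hpos l0 hl0) (hC l0 le_rfl)
  have hNc : ContinuousOn (fun l => (N l)⁻¹) (Iio L) :=
    hN.continuousOn.inv₀ (fun l hl => (hpos l hl).ne')
  set T : ℝ → ℝ := fun l => X0 - ∫ s in l0..l, (N s)⁻¹ with hT
  have hTd : ∀ l < L, HasDerivAt T (-(N l)⁻¹) l := by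
    intro l hl
    have h1 : HasDerivAt (fun l => ∫ s in l0..l, (N s)⁻¹) (N l)⁻¹ l := by
      apply intervalIntegral.integral_hasDerivAt_right
      · apply ContinuousOn.intervalIntegrable
        apply hNc.mono
        have h1 : (Iio L).OrdConnected := ordConnected_Iio
        exact h1.uIcc_subset hl0 hl
      · exact hNc.stronglyMeasurableAtFilter isOpen_Iio l hl
      · exact hNc.continuousAt (isOpen_Iio.mem_nhds hl)
    exact h1.const_sub X0
  have hTs : ContDiffOn ℝ ∞ T (Iio L) := by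
    rw [contDiffOn_infty_iff_deriv_of_isOpen isOpen_Iio]
    refine ⟨fun l hl => (hTd l hl).differentiableAt.differentiableWithinAt, ?_⟩
    have h1 : ContDiffOn ℝ ∞ (fun l => -(N l)⁻¹) (Iio L) :=
      (hN.inv (fun l hl => (hpos l hl).ne')).neg
    exact h1.congr (fun l hl => (hTd l hl).deriv)
  have hTanti : StrictAntiOn T (Iio L) := by
    apply strictAntiOn_of_deriv_neg (convex_Iio L)
    · exact hTs.continuousOn
    · intro l hl
      rw [interior_Iio] at hl
      rw [(hTd l hl).deriv]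
      have := inv_pos.2 (hpos l hl)
      linarith only [this]
  have hT0 : T l0 = X0 := by rw [hT]; simp
  have hTE : ∀ X ∈ Ioc 0 X0, T (E X) = X := by
    intro X hX
    have h1 : ∀ Y ∈ Icc X X0, HasDerivAt (fun Y => T (E Y) - Y) 0 Y := by
      intro Y hY
      have hY' : Y ∈ Ioc 0 X0 := ⟨lt_of_lt_of_le hX.1 hY.1, hY.2⟩
      obtain ⟨h2, h3⟩ := hE Y hY'
      have h4 := ((hTd _ h2).comp Y h3).sub (hasDerivAt_id Y)
      refine h4.congr_deriv ?_
      have h5 := (hpos _ h2).ne'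
      field_simp
      ring
    have h2 := constant_of_has_deriv_right_zero (f := fun Y => T (E Y) - Y) (a := X) (b := X0)
      (fun Y hY => (h1 Y hY).continuousAt.continuousWithinAt)
      (fun Y hY => (h1 Y ⟨hY.1, hY.2.le⟩).hasDerivWithinAt) X0 ⟨hX.2, le_rfl⟩
    simp only [hE0, hT0, sub_self] at h2
    linarith only [h2]
  have hTlow : ∀ l ≤ l0, X0 + (l0 - l) / C ≤ T l := by
    intro l hl
    have h1 : ∫ s in l0..l, (N s)⁻¹ = -∫ s in l..l0, (N s)⁻¹ := intervalIntegral.integral_symm _ _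
    have h2 : ∫ s in l..l0, C⁻¹ ≤ ∫ s in l..l0, (N s)⁻¹ := by
      apply intervalIntegral.integral_mono_on hl
      · exact continuous_const.intervalIntegrable _ _
      · apply ContinuousOn.intervalIntegrable
        apply hNc.mono
        have h1 : (Iio L).OrdConnected := ordConnected_Iio
        exact h1.uIcc_subset (lt_of_le_of_lt hl hl0) hl0
      · intro s hs
        have hs1 : s < L := lt_of_le_of_lt hs.2 hl0
        exact inv_anti₀ (hpos s hs1) (hC s hs.2)
    rw [intervalIntegral.integral_const, smul_eq_mul] at h2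
    rw [hT]
    simp only
    rw [h1]
    have h3 : (l0 - l) / C = (l0 - l) * C⁻¹ := div_eq_mul_inv _ _
    linarith only [h2, h3]
  have hex : ∀ X > 0, ∃ l < L, T l = X := by
    intro X hX
    by_cases hXX : X ≤ X0
    · exact ⟨E X, (hE X ⟨hX, hXX⟩).1, hTE X ⟨hX, hXX⟩⟩
    · push Not at hXX
      set l1 := l0 - C * (X - X0) with hl1
      have hl1' : l1 ≤ l0 := by
        have : 0 < C * (X - X0) := mul_pos hCpos (by linarith only [hXX])
        linarith only [this]
      have h1 : X ≤ T l1 := by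
        refine le_trans ?_ (hTlow l1 hl1')
        rw [hl1]
        have : (l0 - (l0 - C * (X - X0))) / C = X - X0 := by
          field_simp
          ring
        linarith only [this]
      have h2 : ContinuousOn T (Icc l1 l0) := by
        apply hTs.continuousOn.mono
        intro l hl
        exact lt_of_le_of_lt hl.2 hl0
      have h3 := intermediate_value_Icc' hl1' h2
      obtain ⟨l, hl, hl'⟩ := h3 ⟨by rw [hT0]; exact hXX.le, h1⟩
      exact ⟨l, lt_of_le_of_lt hl.2 hl0, hl'⟩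
  choose! G hG1 hG2 using hex
  have hGeq : ∀ X > 0, ∀ l < L, T l = X → G X = l := by
    intro X hX l hl h
    exact hTanti.injOn (hG1 X hX) hl (by rw [hG2 X hX, h])
  have hGs : ∀ X > 0, ContDiffAt ℝ ∞ G X := by
    intro X hX
    have hl1 := hG1 X hX
    have hTa : ContDiffAt ℝ ∞ T (G X) := hTs.contDiffAt (isOpen_Iio.mem_nhds hl1)
    have hne : -(N (G X))⁻¹ ≠ 0 := neg_ne_zero.2 (inv_ne_zero (hpos _ hl1).ne')
    set e := ContDiffAt.toOpenPartialHomeomorph T hTa ((hTd _ hl1).hasFDerivAt_equiv hne)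
      (by simp) with he
    have hecoe : (e : ℝ → ℝ) = T := ContDiffAt.toOpenPartialHomeomorph_coe _ _ _
    have hsrc : G X ∈ e.source := ContDiffAt.mem_toOpenPartialHomeomorph_source _ _ _
    have htgt : X ∈ e.target := by
      have := e.map_source hsrc
      rwa [hecoe, hG2 X hX] at this
    have hsX : e.symm X = G X := by
      have := e.left_inv hsrc
      rwa [hecoe, hG2 X hX] at this
    have h1 : ContDiffAt ℝ ∞ e.symm X := by
      have hd := hTd _ hl1
      rw [← hecoe] at hd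
      refine e.contDiffAt_symm_deriv (f₀' := -(N (G X))⁻¹) hne htgt ?_ ?_
      · rw [hsX]; exact hd
      · rw [hsX, hecoe]; exact hTa
    refine h1.congr_of_eventuallyEq ?_
    have h2 : ∀ᶠ Y in 𝓝 X, e.symm Y < L := by
      have h3 : ContinuousAt e.symm X := e.continuousAt_symm htgt
      have h4 : ∀ᶠ z in 𝓝 (e.symm X), z < L := by
        rw [hsX]
        exact isOpen_Iio.mem_nhds hl1
      exact h3.tendsto.eventually h4
    filter_upwards [h2, e.open_target.mem_nhds htgt, isOpen_Ioi.mem_nhds hX] with Y hY1 hY2 hY3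
    apply hGeq Y hY3 _ hY1
    have := e.right_inv hY2
    rwa [hecoe] at this
  refine ⟨G, fun X hX => ⟨hG1 X hX, hGs X hX, ?_⟩,
    fun X hX => hGeq X hX.1 _ (hE X hX).1 (hTE X hX), ?_⟩
  · have hd := ((hGs X hX).differentiableAt (by simp)).hasDerivAt
    have h1 := (hTd _ (hG1 X hX)).comp X hd
    have h2 : HasDerivAt (fun Y => T (G Y)) 1 X := by
      refine (hasDerivAt_id X).congr_of_eventuallyEq ?_
      filter_upwards [isOpen_Ioi.mem_nhds hX] with Y hY
      exact hG2 Y hY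
    have h3 := h1.unique h2
    have h4 := (hpos _ (hG1 X hX)).ne'
    refine hd.congr_deriv ?_
    field_simp at h3
    linarith only [h3]
  · rw [tendsto_atBot]
    intro b
    set l := min b (l0 - 1) with hl
    have hlL : l < L := by
      have := min_le_right b (l0 - 1)
      linarith only [hl0, this]
    filter_upwards [eventually_ge_atTop (T l), eventually_gt_atTop 0] with X hX hX0
    by_contra hcon
    push Not at hcon
    have h1 : l < G X := lt_of_le_of_lt (min_le_left _ _) hcon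
    have h2 := hTanti hlL (hG1 X hX0) h1
    rw [hG2 X hX0] at h2
    linarith only [hX, h2]

theorem cut_one {a l : ℝ} (h : a + log 2 ≤ l) : cut a l = 1 := by
  unfold cut
  apply smoothTransition.one_of_one_le
  have : 0 < log 2 := log_pos (by norm_num)
  rw [le_div_iff₀ this]
  linarith only [h]

theorem cut_nonneg (a l : ℝ) : 0 ≤ cut a l := smoothTransition.nonneg _

theorem cut_le_one (a l : ℝ) : cut a l ≤ 1 := smoothTransition.le_one _

theorem u_zero (d : IPar) (l : ℝ) : d.u 0 l = d.uS l := by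
  unfold IPar.u IPar.uB
  simp

theorem uS_smooth {g : ℝ → ℝ} {d : IPar} (hd : d.Ok g) : ContDiff ℝ ∞ d.uS := by
  have h1 := BConf.u_smooth hd
  have h2 : ContDiff ℝ ∞ (fun l : ℝ => ((0 : Fin 3 → ℝ), l)) :=
    ContDiff.prodMk contDiff_const contDiff_id
  have h3 := ContDiff.comp h1 h2
  have h4 : ((fun z : (Fin 3 → ℝ) × ℝ => d.u z.1 z.2) ∘ fun l : ℝ => ((0 : Fin 3 → ℝ), l)) =
      d.uS := by
    funext l
    exact u_zero d l
  rw [h4] at h3
  exact h3

theorem bub_smooth' {g : ℝ → ℝ} (hg : IsBub 40 g) : ContDiffOn ℝ ∞ g (Ioi 0) := by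
  have h0 : BubG.IsBub0 40 (kap 40) g := ⟨hg.deriv, hg.lower, hg.upper⟩
  exact BubG.bub_smooth h0

theorem Zs_smoothAt {g : ℝ → ℝ} (hg : IsBub 40 g) {u : ℝ} (hu : 0 < u) :
    ContDiffAt ℝ ∞ (Zs 40 g) u := by
  have h1 : ContDiffAt ℝ ∞ g u := (bub_smooth' hg).contDiffAt (isOpen_Ioi.mem_nhds hu)
  have h2 : ContDiffAt ℝ ∞ (fun u => qf 40 (g u)) u := by
    unfold qf
    exact contDiffAt_const.sub ((h1.pow 2).div_const 4)
  have h3 : ContDiffAt ℝ ∞ (fun u : ℝ => (40 - 1) * cosh u) u :=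
    contDiffAt_const.mul contDiff_cosh.contDiffAt
  have h4 := hg.qf_gt hu
  exact h3.div h2 (by linarith only [h4])

theorem uS_pos {g : ℝ → ℝ} {d : IPar} (hd : d.Ok g) {l : ℝ} (hl : l ≤ d.l0) : 0 < d.uS l := by
  rw [BConf.uS_inner hl]
  exact hd.prof.pos _

theorem Z_out (d : IPar) (g : ℝ → ℝ) {l : ℝ} (hl : d.l0 ≤ l) :
    d.Z g 0 l = exp (d.uS l) * (1 - exp (2 * (l - d.L))) := by
  unfold IPar.Z
  rw [cut_one (by linarith only [hl]), u_zero]
  ring

theorem Z_pos {g : ℝ → ℝ} (hg : IsBub 40 g) {d : IPar} (hd : d.Ok g) {l : ℝ} (hl : l < d.L) :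
    0 < d.Z g 0 l := by
  have h1 : 0 < 1 - exp (2 * (l - d.L)) := by
    have : exp (2 * (l - d.L)) < 1 := by
      rw [exp_lt_one_iff]
      linarith only [hl]
    linarith only [this]
  have h2 := exp_pos (d.uS l)
  by_cases h : d.l0 ≤ l
  · rw [Z_out d g h]
    positivity
  · push Not at h
    have h3 := uS_pos hd h.le
    have h4 := hg.Zs_ge h3
    have h5 := cosh_pos (d.uS l)
    have h6 := cut_nonneg (d.l0 - log 2) l
    have h7 := cut_le_one (d.l0 - log 2) l
    unfold IPar.Z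
    rw [u_zero]
    have h8 : 0 < exp (d.uS l) * (1 - exp (2 * (l - d.L))) := by positivity
    have h9 : 0 < Zs 40 g (d.uS l) := by linarith only [h4, h5]
    rcases eq_or_lt_of_le h6 with h10 | h10
    · rw [← h10]
      linarith only [h4, h5]
    · have h11 : 0 ≤ (1 - cut (d.l0 - log 2) l) * Zs 40 g (d.uS l) :=
        mul_nonneg (by linarith only [h7]) h9.le
      have h12 : 0 < cut (d.l0 - log 2) l * (exp (d.uS l) * (1 - exp (2 * (l - d.L)))) :=
        mul_pos h10 h8
      linarith only [h11, h12]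

theorem Z_smooth {g : ℝ → ℝ} (hg : IsBub 40 g) {d : IPar} (hd : d.Ok g) :
    ContDiff ℝ ∞ (fun l => d.Z g 0 l) := by
  have hu := uS_smooth hd
  have h2 : ContDiff ℝ ∞ (fun l => exp (d.uS l) * (1 - exp (2 * (l - d.L)))) := by
    have h3 : ContDiff ℝ ∞ (fun l : ℝ => exp (2 * (l - d.L))) := by fun_prop
    exact hu.exp.mul (contDiff_const.sub h3)
  rw [contDiff_iff_contDiffAt]
  intro l
  by_cases h : l ≤ d.l0
  · have h3 := uS_pos hd h
    have h4 : ContDiffAt ℝ ∞ (fun l => Zs 40 g (d.uS l)) l :=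
      (Zs_smoothAt hg h3).comp l hu.contDiffAt
    have h5 := (BConf.cut_smooth (d.l0 - log 2)).contDiffAt (x := l)
    have h6 : (fun l => d.Z g 0 l) = fun l => (1 - cut (d.l0 - log 2) l) * Zs 40 g (d.uS l)
        + cut (d.l0 - log 2) l * (exp (d.uS l) * (1 - exp (2 * (l - d.L)))) := by
      funext l
      unfold IPar.Z
      rw [u_zero]
    rw [h6]
    exact ((contDiffAt_const.sub h5).mul h4).add (h5.mul h2.contDiffAt)
  · push Not at h
    refine h2.contDiffAt.congr_of_eventuallyEq ?_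
    filter_upwards [isOpen_Ioi.mem_nhds h] with y hy
    exact Z_out d g (le_of_lt hy)

theorem N_smooth {g : ℝ → ℝ} (hg : IsBub 40 g) {d : IPar} (hd : d.Ok g) :
    ContDiffOn ℝ ∞ (d.N g) (Iio d.L) := by
  intro l hl
  apply ContDiffAt.contDiffWithinAt
  have h1 : ContDiffAt ℝ ∞ (fun l => exp (-(d.uS l) / 2)) l :=
    ((uS_smooth hd).neg.div_const 2).exp.contDiffAt
  have h2 : ContDiffAt ℝ ∞ (fun l => zeta0 * d.Z g 0 l) l :=
    contDiffAt_const.mul (Z_smooth hg hd).contDiffAt
  have h3 := Z_pos hg hd hl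
  have h4 : 0 < zeta0 := by unfold zeta0; norm_num
  exact h1.mul (h2.sqrt (by positivity))

theorem N_pos {g : ℝ → ℝ} (hg : IsBub 40 g) {d : IPar} (hd : d.Ok g) {l : ℝ} (hl : l < d.L) :
    0 < d.N g l := by
  have h3 := Z_pos hg hd hl
  have h4 : 0 < zeta0 := by unfold zeta0; norm_num
  unfold IPar.N
  have h5 : 0 < sqrt (zeta0 * d.Z g 0 l) := sqrt_pos.2 (by positivity)
  have h6 := exp_pos (-(d.uS l) / 2)
  positivity

theorem N_le {g : ℝ → ℝ} (hg : IsBub 40 g) {d : IPar} (hd : d.Ok g) {l : ℝ} (hl : l ≤ d.l0)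
    (hL : d.l0 < d.L) : d.N g l ≤ 1 := by
  have h3 := uS_pos hd hl
  have h4 := hg.Zs_le h3
  have h5 : cosh (d.uS l) ≤ exp (d.uS l) := by
    rw [cosh_eq]
    have : exp (-(d.uS l)) ≤ exp (d.uS l) := exp_le_exp.2 (by linarith)
    linarith
  have h6 := cut_nonneg (d.l0 - log 2) l
  have h7 := cut_le_one (d.l0 - log 2) l
  have he := exp_pos (d.uS l)
  have he2 := exp_pos (2 * (l - d.L))
  have h8 : d.Z g 0 l ≤ (39 / 38) * exp (d.uS l) := by
    unfold IPar.Z
    rw [u_zero]
    have h9 : Zs 40 g (d.uS l) ≤ (39 / 38) * exp (d.uS l) := by nlinarith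
    have h10 : exp (d.uS l) * (1 - exp (2 * (l - d.L))) ≤ (39 / 38) * exp (d.uS l) := by nlinarith
    nlinarith [mul_le_mul_of_nonneg_left h9 (by linarith : 0 ≤ 1 - cut (d.l0 - log 2) l),
      mul_le_mul_of_nonneg_left h10 h6]
  have h11 : exp (-(d.uS l) / 2) ^ 2 = exp (-(d.uS l)) := by
    rw [← exp_nat_mul]
    congr 1
    push_cast
    ring
  have h12 : exp (-(d.uS l)) * exp (d.uS l) = 1 := by
    rw [← exp_add]; simp
  have h13 : 0 ≤ zeta0 * d.Z g 0 l := by
    have := Z_pos hg hd (lt_of_le_of_lt hl hL)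
    unfold zeta0
    positivity
  have h14 : d.N g l ^ 2 ≤ 1 := by
    unfold IPar.N
    rw [mul_pow, sq_sqrt h13, h11]
    unfold zeta0
    have h15 := exp_pos (-(d.uS l))
    nlinarith only [h8, h12, h15, mul_le_mul_of_nonneg_left h8 h15.le]
  have h15 := N_pos hg hd (lt_of_le_of_lt hl hL)
  nlinarith only [h14, h15]

/-- The explicit outer gauge function. -/
noncomputable def Eo (L X : ℝ) : ℝ := L - log (cosh (sqrt zeta0 * X))

theorem Eo_smooth (L : ℝ) : ContDiff ℝ ∞ (Eo L) := by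
  unfold Eo
  have h1 : ContDiff ℝ ∞ (fun X : ℝ => cosh (sqrt zeta0 * X)) :=
    contDiff_cosh.comp (contDiff_const.mul contDiff_id)
  exact contDiff_const.sub (h1.log (fun X => (cosh_pos _).ne'))

theorem Eo_even (L X : ℝ) : Eo L (-X) = Eo L X := by
  unfold Eo
  rw [mul_neg, cosh_neg]

theorem Eo_deriv (L X : ℝ) :
    HasDerivAt (Eo L) (-(sqrt zeta0 * tanh (sqrt zeta0 * X))) X := by
  unfold Eo
  have h1 : HasDerivAt (fun X : ℝ => sqrt zeta0 * X) (sqrt zeta0) X := by
    simpa using (hasDerivAt_id X).const_mul (sqrt zeta0)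
  have h2 := (h1.cosh.log (cosh_pos _).ne').const_sub L
  refine h2.congr_deriv ?_
  rw [tanh_eq_sinh_div_cosh]
  ring

theorem gauge : GaugeStatement := by
  intro g hg d hd
  have hlog2 : 0 < log 2 := log_pos (by norm_num)
  have hl0L : d.l0 < d.L := by
    have h1 := hd.l0b
    have h2 := hd.lb1
    have h3 := hd.l1L
    linarith only [hlog2, h1, h2, h3]
  have hz : 0 < zeta0 := by unfold zeta0; norm_num
  have hsz : 0 < sqrt zeta0 := sqrt_pos.2 hz
  set s := sqrt (exp (2 * (d.L - d.l0)) - 1) with hs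
  have he1 : 1 < exp (2 * (d.L - d.l0)) := one_lt_exp_iff.2 (by linarith only [hl0L])
  have hspos : 0 < s := sqrt_pos.2 (by linarith only [he1])
  set X0 := arsinh s / sqrt zeta0 with hX0
  have hars : 0 < arsinh s := by
    rw [← arsinh_zero]
    exact arsinh_lt_arsinh.2 hspos
  have hX0p : 0 < X0 := div_pos hars hsz
  have hmul : sqrt zeta0 * X0 = arsinh s := by
    rw [hX0]
    field_simp
  have hcosh : cosh (sqrt zeta0 * X0) = exp (d.L - d.l0) := by
    rw [hmul, cosh_arsinh, hs, sq_sqrt (by linarith only [he1])]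
    have h1 : 1 + (exp (2 * (d.L - d.l0)) - 1) = exp (d.L - d.l0) ^ 2 := by
      rw [← exp_nat_mul]
      push_cast
      ring
    rw [h1, sqrt_sq (exp_pos _).le]
  have hE0 : Eo d.L X0 = d.l0 := by
    unfold Eo
    rw [hcosh, log_exp]
    ring
  have hE : ∀ X ∈ Ioc 0 X0, Eo d.L X < d.L ∧ HasDerivAt (Eo d.L) (-(d.N g (Eo d.L X))) X := by
    intro X hX
    have h1 : 0 < sqrt zeta0 * X := mul_pos hsz hX.1
    have h2 : 1 < cosh (sqrt zeta0 * X) := one_lt_cosh.2 h1.ne'
    have h3 : 0 < log (cosh (sqrt zeta0 * X)) := log_pos h2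
    have h4 : cosh (sqrt zeta0 * X) ≤ cosh (sqrt zeta0 * X0) := by
      rw [cosh_le_cosh, abs_of_pos h1, abs_of_pos (mul_pos hsz hX0p)]
      exact mul_le_mul_of_nonneg_left hX.2 hsz.le
    have h5 : d.l0 ≤ Eo d.L X := by
      rw [← hE0]
      unfold Eo
      have := log_le_log (by linarith only [h2]) h4
      linarith only [this]
    refine ⟨by unfold Eo; linarith only [h3], ?_⟩
    refine (Eo_deriv d.L X).congr_deriv ?_
    congr 1
    unfold IPar.N
    rw [Z_out d g h5]
    have h6 : exp (2 * (Eo d.L X - d.L)) = (cosh (sqrt zeta0 * X) ^ 2)⁻¹ := by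
      unfold Eo
      have : 2 * (d.L - log (cosh (sqrt zeta0 * X)) - d.L) =
        -(2 * log (cosh (sqrt zeta0 * X))) := by ring
      rw [this, exp_neg]
      congr 1
      rw [two_mul, exp_add, exp_log (by linarith only [h2])]
      ring
    have h7 : 1 - exp (2 * (Eo d.L X - d.L)) = tanh (sqrt zeta0 * X) ^ 2 := by
      rw [h6, tanh_eq_sinh_div_cosh, div_pow]
      have h8 := cosh_sq (sqrt zeta0 * X)
      have h9 : cosh (sqrt zeta0 * X) ^ 2 ≠ 0 := by positivity
      field_simp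
      linarith only [h8]
    have h8 : 0 ≤ tanh (sqrt zeta0 * X) := by
      rw [tanh_eq_sinh_div_cosh]
      exact div_nonneg (sinh_nonneg_iff.2 h1.le) (cosh_pos _).le
    rw [h7]
    have h9 : zeta0 * (exp (d.uS (Eo d.L X)) * tanh (sqrt zeta0 * X) ^ 2) =
        (sqrt zeta0 * exp (d.uS (Eo d.L X) / 2) * tanh (sqrt zeta0 * X)) ^ 2 := by
      rw [mul_pow, mul_pow, sq_sqrt hz.le, ← exp_nat_mul]
      have : ((2 : ℕ) : ℝ) * (d.uS (Eo d.L X) / 2) = d.uS (Eo d.L X) := by
        push_cast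
        ring
      rw [this]
      ring
    rw [h9, sqrt_sq (by positivity)]
    have h10 : exp (-(d.uS (Eo d.L X)) / 2) * exp (d.uS (Eo d.L X) / 2) = 1 := by
      rw [← exp_add]
      have : -(d.uS (Eo d.L X)) / 2 + d.uS (Eo d.L X) / 2 = 0 := by ring
      rw [this, exp_zero]
    linear_combination (-(sqrt zeta0 * tanh (sqrt zeta0 * X))) * h10
  obtain ⟨G, hG, hGE, hGt⟩ := inv_gauge (d.N g) d.L d.l0 X0 1 hl0L (N_smooth hg hd)
    (fun l hl => N_pos hg hd hl) (fun l hl => N_le hg hd hl hl0L) (Eo d.L) hE hE0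
  set lX : ℝ → ℝ := fun X => if |X| < X0 then Eo d.L X else G |X| with hlX
  have hlXpos : ∀ X > 0, lX X = G X := by
    intro X hX
    rw [hlX]
    simp only
    split_ifs with h
    · rw [abs_of_pos hX] at h
      exact (hGE X ⟨hX, h.le⟩).symm
    · rw [abs_of_pos hX]
  have heven : ∀ X, lX (-X) = lX X := by
    intro X
    rw [hlX]
    simp only [abs_neg, Eo_even]
  refine ⟨lX, ?_, heven, ?_, ?_, ?_⟩
  · rw [contDiff_iff_contDiffAt]
    intro X
    rcases lt_trichotomy X 0 with h | h | h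
    · have h1 : ContDiffAt ℝ ∞ (fun Y => G (-Y)) X := by
        have h2 := (hG (-X) (by linarith only [h])).2.1
        exact h2.comp X contDiff_neg.contDiffAt
      refine h1.congr_of_eventuallyEq ?_
      filter_upwards [isOpen_Iio.mem_nhds h] with Y hY
      rw [← heven Y]
      exact hlXpos (-Y) (neg_pos.2 hY)
    · refine (Eo_smooth d.L).contDiffAt.congr_of_eventuallyEq ?_
      have h1 : ∀ᶠ Y in 𝓝 X, |Y| < X0 := by
        rw [h]
        have : Tendsto (fun Y : ℝ => |Y|) (𝓝 0) (𝓝 0) := by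
          simpa using (continuous_abs.tendsto (0:ℝ))
        exact this.eventually (gt_mem_nhds hX0p)
      filter_upwards [h1] with Y hY
      rw [hlX]
      simp only [if_pos hY]
    · refine (hG X h).2.1.congr_of_eventuallyEq ?_
      filter_upwards [isOpen_Ioi.mem_nhds h] with Y hY
      exact hlXpos Y hY
  · rw [hlX]
    simp only [abs_zero, if_pos hX0p]
    unfold Eo
    simp
  · intro X hX
    rw [hlXpos X hX]
    refine ⟨(hG X hX).1, ?_⟩
    refine (hG X hX).2.2.congr_of_eventuallyEq ?_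
    filter_upwards [isOpen_Ioi.mem_nhds hX] with Y hY
    exact hlXpos Y hY
  · refine hGt.congr' ?_
    filter_upwards [eventually_gt_atTop 0] with X hX
    exact (hlXpos X hX).symm

end Vale.Agent.P244.ST.BGauge
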