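import Mathlib

/-!
# P244-ST, block B4 : 2-jets of functions of `l = log r`, derivatives of the smooth step
-/

open Set Filter Topology Real
open scoped ContDiff

namespace Vale.Agent.P244.ST.BJ

/-- `f1`, `f2` are the first two derivatives of `f`. -/
structure J2 (f f1 f2 : ℝ → ℝ) : Prop where
  d1 : ∀ l, HasDerivAt f (f1 l) l
  d2 : ∀ l, HasDerivAt f1 (f2 l) l

namespace J2

variable {f f1 f2 h h1 h2 : ℝ → ℝ}

theorem of_contDiff (hf : ContDiff ℝ ∞ f) : J2 f (deriv f) (deriv (deriv f)) := by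
  refine ⟨fun l => (hf.differentiable (by simp) l).hasDerivAt, fun l => ?_⟩
  have h1 : ContDiff ℝ ∞ (deriv f) := (contDiff_infty_iff_deriv.1 hf).2
  exact (h1.differentiable (by simp) l).hasDerivAt

theorem const (c : ℝ) : J2 (fun _ => c) (fun _ => 0) (fun _ => 0) :=
  ⟨fun l => hasDerivAt_const l c, fun l => hasDerivAt_const l 0⟩

theorem add (hf : J2 f f1 f2) (hh : J2 h h1 h2) :
    J2 (fun l => f l + h l) (fun l => f1 l + h1 l) (fun l => f2 l + h2 l) :=
  ⟨fun l => (hf.d1 l).add (hh.d1 l), fun l => (hf.d2 l).add (hh.d2 l)⟩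

theorem sub (hf : J2 f f1 f2) (hh : J2 h h1 h2) :
    J2 (fun l => f l - h l) (fun l => f1 l - h1 l) (fun l => f2 l - h2 l) :=
  ⟨fun l => (hf.d1 l).sub (hh.d1 l), fun l => (hf.d2 l).sub (hh.d2 l)⟩

theorem const_mul (c : ℝ) (hf : J2 f f1 f2) :
    J2 (fun l => c * f l) (fun l => c * f1 l) (fun l => c * f2 l) :=
  ⟨fun l => (hf.d1 l).const_mul c, fun l => (hf.d2 l).const_mul c⟩

theorem mul (hf : J2 f f1 f2) (hh : J2 h h1 h2) :
    J2 (fun l => f l * h l) (fun l => f1 l * h l + f l * h1 l)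
      (fun l => f2 l * h l + 2 * (f1 l * h1 l) + f l * h2 l) := by
  refine ⟨fun l => (hf.d1 l).mul (hh.d1 l), fun l => ?_⟩
  refine (((hf.d2 l).mul (hh.d1 l)).add ((hf.d1 l).mul (hh.d2 l))).congr_deriv ?_
  ring

theorem sum {ι : Type*} (s : Finset ι) {F F1 F2 : ι → ℝ → ℝ}
    (hF : ∀ i ∈ s, J2 (F i) (F1 i) (F2 i)) :
    J2 (fun l => ∑ i ∈ s, F i l) (fun l => ∑ i ∈ s, F1 i l) (fun l => ∑ i ∈ s, F2 i l) :=
  ⟨fun l => HasDerivAt.fun_sum fun i hi => (hF i hi).d1 l,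
    fun l => HasDerivAt.fun_sum fun i hi => (hF i hi).d2 l⟩

theorem comp_affine (hf : J2 f f1 f2) (a c : ℝ) :
    J2 (fun l => f (a * l + c)) (fun l => a * f1 (a * l + c)) (fun l => a ^ 2 * f2 (a * l + c)) := by
  have h : ∀ l, HasDerivAt (fun l : ℝ => a * l + c) a l := fun l => by
    simpa using ((hasDerivAt_id l).const_mul a).add_const c
  refine ⟨fun l => ?_, fun l => ?_⟩
  · refine ((hf.d1 (a * l + c)).comp l (h l)).congr_deriv ?_
    ring
  · refine (((hf.d2 (a * l + c)).comp l (h l)).const_mul a).congr_deriv ?_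
    ring

theorem congr (hf : J2 f f1 f2) {F F1 F2 : ℝ → ℝ} (h0 : ∀ l, F l = f l) (h1' : ∀ l, F1 l = f1 l)
    (h2' : ∀ l, F2 l = f2 l) : J2 F F1 F2 := by
  have e0 : F = f := funext h0
  have e1 : F1 = f1 := funext h1'
  have e2 : F2 = f2 := funext h2'
  rw [e0, e1, e2]
  exact hf

theorem deriv_eq (hf : J2 f f1 f2) (l : ℝ) : deriv f l = f1 l := (hf.d1 l).deriv

theorem deriv_eq' (hf : J2 f f1 f2) : deriv f = f1 := funext hf.deriv_eq

theorem deriv2_eq (hf : J2 f f1 f2) (l : ℝ) : deriv (deriv f) l = f2 l := by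
  rw [hf.deriv_eq']
  exact (hf.d2 l).deriv

end J2

/-- The size of a 2-jet at a point. -/
def sz (f f1 f2 : ℝ → ℝ) (l : ℝ) : ℝ := |f l| + |f1 l| + |f2 l|

variable {f f1 f2 h h1 h2 : ℝ → ℝ}

theorem sz_nonneg (l : ℝ) : 0 ≤ sz f f1 f2 l := by
  unfold sz
  positivity

theorem abs0_le_sz (l : ℝ) : |f l| ≤ sz f f1 f2 l := by
  unfold sz
  linarith only [abs_nonneg (f1 l), abs_nonneg (f2 l)]

theorem abs1_le_sz (l : ℝ) : |f1 l| ≤ sz f f1 f2 l := by
  unfold sz
  linarith only [abs_nonneg (f l), abs_nonneg (f2 l)]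

theorem abs2_le_sz (l : ℝ) : |f2 l| ≤ sz f f1 f2 l := by
  unfold sz
  linarith only [abs_nonneg (f l), abs_nonneg (f1 l)]

theorem sz_add_le (l : ℝ) : sz (fun l => f l + h l) (fun l => f1 l + h1 l) (fun l => f2 l + h2 l) l
    ≤ sz f f1 f2 l + sz h h1 h2 l := by
  unfold sz
  have a1 := abs_add_le (f l) (h l)
  have a2 := abs_add_le (f1 l) (h1 l)
  have a3 := abs_add_le (f2 l) (h2 l)
  simp only
  linarith only [a1, a2, a3]

theorem sz_sub_le (l : ℝ) : sz (fun l => f l - h l) (fun l => f1 l - h1 l) (fun l => f2 l - h2 l) l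
    ≤ sz f f1 f2 l + sz h h1 h2 l := by
  unfold sz
  have a1 := abs_sub (f l) (h l)
  have a2 := abs_sub (f1 l) (h1 l)
  have a3 := abs_sub (f2 l) (h2 l)
  simp only
  linarith only [a1, a2, a3]

theorem sz_const_mul (c : ℝ) (l : ℝ) :
    sz (fun l => c * f l) (fun l => c * f1 l) (fun l => c * f2 l) l = |c| * sz f f1 f2 l := by
  unfold sz
  simp only [abs_mul]
  ring

theorem sz_mul_le (l : ℝ) : sz (fun l => f l * h l) (fun l => f1 l * h l + f l * h1 l)
      (fun l => f2 l * h l + 2 * (f1 l * h1 l) + f l * h2 l) l ≤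
    2 * (sz f f1 f2 l * sz h h1 h2 l) := by
  unfold sz
  have a1 : |f l * h l| = |f l| * |h l| := abs_mul _ _
  have a2 : |f1 l * h l + f l * h1 l| ≤ |f1 l| * |h l| + |f l| * |h1 l| := by
    refine (abs_add_le _ _).trans (le_of_eq ?_)
    rw [abs_mul, abs_mul]
  have a3 : |f2 l * h l + 2 * (f1 l * h1 l) + f l * h2 l| ≤
      |f2 l| * |h l| + 2 * (|f1 l| * |h1 l|) + |f l| * |h2 l| := by
    refine (abs_add_le _ _).trans (add_le_add ((abs_add_le _ _).trans (le_of_eq ?_)) (le_of_eq ?_))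
    · rw [abs_mul, abs_mul, abs_mul, abs_two]
    · rw [abs_mul]
  simp only
  rw [a1]
  have p1 := abs_nonneg (f l)
  have p2 := abs_nonneg (f1 l)
  have p3 := abs_nonneg (f2 l)
  have q1 := abs_nonneg (h l)
  have q2 := abs_nonneg (h1 l)
  have q3 := abs_nonneg (h2 l)
  nlinarith only [a2, a3, p1, p2, p3, q1, q2, q3, mul_nonneg p1 q1, mul_nonneg p1 q2, mul_nonneg p1 q3, mul_nonneg p2 q1,
    mul_nonneg p2 q2, mul_nonneg p2 q3, mul_nonneg p3 q1, mul_nonneg p3 q2, mul_nonneg p3 q3]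

theorem sz_sum_le {ι : Type*} (s : Finset ι) {F F1 F2 : ι → ℝ → ℝ} (l : ℝ) :
    sz (fun l => ∑ i ∈ s, F i l) (fun l => ∑ i ∈ s, F1 i l) (fun l => ∑ i ∈ s, F2 i l) l ≤
      ∑ i ∈ s, sz (F i) (F1 i) (F2 i) l := by
  unfold sz
  rw [Finset.sum_add_distrib, Finset.sum_add_distrib]
  exact add_le_add (add_le_add (Finset.abs_sum_le_sum_abs _ _) (Finset.abs_sum_le_sum_abs _ _))
    (Finset.abs_sum_le_sum_abs _ _)

/-! ### The smooth step -/

theorem hasDerivAt_glue {x : ℝ} (hx : 0 < x) :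
    HasDerivAt expNegInvGlue (exp (-x⁻¹) * (x ^ 2)⁻¹) x := by
  have h1 : HasDerivAt (fun x : ℝ => exp (-x⁻¹)) (exp (-x⁻¹) * (x ^ 2)⁻¹) x := by
    have h2 : HasDerivAt (fun x : ℝ => -x⁻¹) ((x ^ 2)⁻¹) x := by
      refine (hasDerivAt_inv hx.ne').neg.congr_deriv ?_
      ring
    exact h2.exp
  refine h1.congr_of_eventuallyEq ?_
  filter_upwards [lt_mem_nhds hx] with y hy
  unfold expNegInvGlue
  rw [if_neg (not_le.2 hy)]

theorem glue_eq {x : ℝ} (hx : 0 < x) : expNegInvGlue x = exp (-x⁻¹) := by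
  unfold expNegInvGlue
  rw [if_neg (not_le.2 hx)]

theorem step_deriv_aux {a c : ℝ} (hc2 : c ≤ 2) (hc0 : 0 ≤ c) (ha : 2 ≤ a) :
    exp (-a) * exp (-c) * (a ^ 2 + c ^ 2) ≤ 20 * (exp (-a) + exp (-c)) ^ 2 := by
  have h1 := exp_pos (-a)
  have h2 := exp_pos (-c)
  have h3 : (exp (-c)) ^ 2 ≤ (exp (-a) + exp (-c)) ^ 2 :=
    pow_le_pow_left₀ h2.le (by linarith only [h1]) 2
  have h4 : a ^ 2 ≤ 2 * exp a := by
    have := quadratic_le_exp_of_nonneg (by linarith only [ha] : 0 ≤ a)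
    nlinarith only [ha, this]
  have h5 : exp (-a) * exp a = 1 := by rw [← exp_add]; simp
  have e2 : exp (2 : ℝ) = exp 1 * exp 1 := by rw [← exp_add]; norm_num
  have h8 : exp 2 ≤ 7.4 := by
    rw [e2]
    have h9 := exp_one_lt_d9
    have h10 := exp_pos 1
    nlinarith only [h9, h10]
  have h9 : 7.38 ≤ exp 2 := by
    rw [e2]
    have h9 := exp_one_gt_d9
    nlinarith only [h9]
  have h10 : exp (-2 : ℝ) * exp 2 = 1 := by rw [← exp_add]; simp
  have h11 : exp (-a) * a ^ 2 ≤ 2 := by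
    calc exp (-a) * a ^ 2 ≤ exp (-a) * (2 * exp a) := mul_le_mul_of_nonneg_left h4 h1.le
      _ = 2 := by linarith only [h5]
  have h12 : exp (-a) ≤ exp (-2) := exp_le_exp.2 (by linarith only [ha])
  have h13 : exp (-2) ≤ exp (-c) := exp_le_exp.2 (by linarith only [hc2])
  have h14 : exp (-a) * c ^ 2 ≤ exp (-2) * 4 :=
    mul_le_mul h12 (by nlinarith only [hc2, hc0]) (sq_nonneg c) (exp_pos _).le
  have h15 : exp (-a) * (a ^ 2 + c ^ 2) ≤ 20 * exp (-c) := by nlinarith only [h1, h2, e2, h8, h10, h11, h12, h13, h14]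
  calc exp (-a) * exp (-c) * (a ^ 2 + c ^ 2) = exp (-c) * (exp (-a) * (a ^ 2 + c ^ 2)) := by ring
    _ ≤ exp (-c) * (20 * exp (-c)) := mul_le_mul_of_nonneg_left h15 h2.le
    _ = 20 * (exp (-c)) ^ 2 := by ring
    _ ≤ _ := mul_le_mul_of_nonneg_left h3 (by norm_num)

theorem step_hasDerivAt {x : ℝ} (h0 : 0 < x) (h1 : x < 1) :
    HasDerivAt smoothTransition (exp (-x⁻¹) * exp (-(1 - x)⁻¹) *
      (x⁻¹ ^ 2 + (1 - x)⁻¹ ^ 2) / (exp (-x⁻¹) + exp (-(1 - x)⁻¹)) ^ 2) x := by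
  have h1' : 0 < 1 - x := by linarith only [h1]
  have d1 := hasDerivAt_glue h0
  have d2 : HasDerivAt (fun x => expNegInvGlue (1 - x))
      (-(exp (-(1 - x)⁻¹) * ((1 - x) ^ 2)⁻¹)) x := by
    have d3 : HasDerivAt (fun x : ℝ => 1 - x) (-1) x := by
      simpa using (hasDerivAt_id x).const_sub 1
    refine ((hasDerivAt_glue h1').comp x d3).congr_deriv ?_
    ring
  have hd : expNegInvGlue x + expNegInvGlue (1 - x) ≠ 0 := (smoothTransition.pos_denom x).ne'
  have d4 := d1.div (d1.add d2) hd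
  refine d4.congr_deriv ?_
  simp only [Pi.add_apply]
  rw [glue_eq h0, glue_eq h1', inv_pow, inv_pow]
  have p1 := exp_pos (-x⁻¹)
  have p2 := exp_pos (-(1 - x)⁻¹)
  rw [div_left_inj' (by positivity)]
  ring

theorem step_deriv_nonneg (x : ℝ) : 0 ≤ deriv smoothTransition x :=
  smoothTransition.monotone.deriv_nonneg

theorem step_deriv_zero_left {x : ℝ} (hx : x ≤ 0) : deriv smoothTransition x = 0 := by
  refine IsLocalMin.deriv_eq_zero (Eventually.of_forall fun y => ?_)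
  rw [smoothTransition.zero_of_nonpos hx]
  exact smoothTransition.nonneg y

theorem step_deriv_zero_right {x : ℝ} (hx : 1 ≤ x) : deriv smoothTransition x = 0 := by
  refine IsLocalMax.deriv_eq_zero (Eventually.of_forall fun y => ?_)
  rw [smoothTransition.one_of_one_le hx]
  exact smoothTransition.le_one y

theorem step_deriv_le (x : ℝ) : deriv smoothTransition x ≤ 20 := by
  rcases le_or_gt x 0 with h0 | h0
  · rw [step_deriv_zero_left h0]
    norm_num
  rcases le_or_gt 1 x with h1 | h1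
  · rw [step_deriv_zero_right h1]
    norm_num
  rw [(step_hasDerivAt h0 h1).deriv]
  have p1 := exp_pos (-x⁻¹)
  have p2 := exp_pos (-(1 - x)⁻¹)
  have h1' : 0 < 1 - x := by linarith only [h1]
  rw [div_le_iff₀ (by positivity)]
  rcases le_total x (1 / 2) with hx | hx
  · have a1 : 2 ≤ x⁻¹ := by
      rw [le_inv_comm₀ two_pos h0]
      linarith only [hx]
    have a2 : (1 - x)⁻¹ ≤ 2 := by
      rw [inv_le_comm₀ h1' two_pos]
      linarith only [hx]
    exact step_deriv_aux a2 (by positivity) a1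
  · have a1 : 2 ≤ (1 - x)⁻¹ := by
      rw [le_inv_comm₀ two_pos h1']
      linarith only [hx]
    have a2 : x⁻¹ ≤ 2 := by
      rw [inv_le_comm₀ h0 two_pos]
      linarith only [hx]
    have := step_deriv_aux a2 (by positivity) a1
    calc exp (-x⁻¹) * exp (-(1 - x)⁻¹) * (x⁻¹ ^ 2 + (1 - x)⁻¹ ^ 2)
        = exp (-(1 - x)⁻¹) * exp (-x⁻¹) * ((1 - x)⁻¹ ^ 2 + x⁻¹ ^ 2) := by ring
      _ ≤ _ := this
      _ = _ := by ring

theorem exists_step_deriv2_bound : ∃ C : ℝ, 0 ≤ C ∧ ∀ x, |deriv (deriv smoothTransition) x| ≤ C := by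
  have hc : ContDiff ℝ ∞ smoothTransition := smoothTransition.contDiff
  have h1 : ContDiff ℝ ∞ (deriv smoothTransition) := (contDiff_infty_iff_deriv.1 hc).2
  have h2 : Continuous (deriv (deriv smoothTransition)) :=
    (contDiff_infty_iff_deriv.1 h1).2.continuous
  obtain ⟨C, hC⟩ := (isCompact_Icc (a := (0 : ℝ)) (b := 1)).exists_bound_of_continuousOn
    h2.continuousOn
  refine ⟨max C 0, le_max_right _ _, fun x => ?_⟩
  rcases lt_or_ge x 0 with h | h
  · have : deriv smoothTransition =ᶠ[𝓝 x] fun _ => 0 := by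
      filter_upwards [gt_mem_nhds h] with y hy using step_deriv_zero_left (le_of_lt hy)
    rw [this.deriv_eq, deriv_const, abs_zero]
    exact le_max_right _ _
  rcases lt_or_ge 1 x with h' | h'
  · have : deriv smoothTransition =ᶠ[𝓝 x] fun _ => 0 := by
      filter_upwards [lt_mem_nhds h'] with y hy using step_deriv_zero_right (le_of_lt hy)
    rw [this.deriv_eq, deriv_const, abs_zero]
    exact le_max_right _ _
  exact (hC x ⟨h, h'⟩).trans (le_max_left _ _)

/-- Cut-off as a function of `l`: `0` for `l ≤ a`, `1` for `l ≥ a + log 2`. -/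
noncomputable def ct (a l : ℝ) : ℝ := smoothTransition ((l - a) / log 2)

/-- first derivative of `ct` -/
noncomputable def ct1 (a l : ℝ) : ℝ := (log 2)⁻¹ * deriv smoothTransition ((l - a) / log 2)

/-- second derivative of `ct` -/
noncomputable def ct2 (a l : ℝ) : ℝ :=
  (log 2)⁻¹ ^ 2 * deriv (deriv smoothTransition) ((l - a) / log 2)

theorem ct_J2 (a : ℝ) : J2 (ct a) (ct1 a) (ct2 a) := by
  have h := (J2.of_contDiff (smoothTransition.contDiff (n := ⊤))).comp_affine (log 2)⁻¹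
    (-(a * (log 2)⁻¹))
  have e : ∀ l, (log 2)⁻¹ * l + -(a * (log 2)⁻¹) = (l - a) / log 2 := fun l => by
    rw [div_eq_mul_inv]
    ring
  refine h.congr (fun l => ?_) (fun l => ?_) (fun l => ?_)
  · rw [e l]
    rfl
  · rw [e l]
    rfl
  · rw [e l]
    rfl

theorem ct_nonneg (a l : ℝ) : 0 ≤ ct a l := smoothTransition.nonneg _

theorem ct_le_one (a l : ℝ) : ct a l ≤ 1 := smoothTransition.le_one _

theorem log_two_pos' : 0 < log 2 := log_pos one_lt_two

theorem ct_zero {a l : ℝ} (h : l ≤ a) : ct a l = 0 :=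
  smoothTransition.zero_of_nonpos (div_nonpos_of_nonpos_of_nonneg (by linarith only [h]) log_two_pos'.le)

theorem ct_one {a l : ℝ} (h : a + log 2 ≤ l) : ct a l = 1 := by
  refine smoothTransition.one_of_one_le ?_
  rw [one_le_div log_two_pos']
  linarith only [h]

theorem ct1_nonneg (a l : ℝ) : 0 ≤ ct1 a l :=
  mul_nonneg (inv_nonneg.2 log_two_pos'.le) (step_deriv_nonneg _)

theorem ct1_le (a l : ℝ) : ct1 a l ≤ 29 := by
  unfold ct1
  have h1 := step_deriv_le ((l - a) / log 2)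
  have h2 : (log 2)⁻¹ ≤ 29 / 20 := by
    rw [inv_le_comm₀ log_two_pos' (by norm_num)]
    have := log_two_gt_d9
    norm_num
    linarith only [this]
  have h3 := step_deriv_nonneg ((l - a) / log 2)
  calc (log 2)⁻¹ * deriv smoothTransition ((l - a) / log 2) ≤ 29 / 20 * 20 :=
        mul_le_mul h2 h1 h3 (by norm_num)
    _ = 29 := by norm_num

theorem ct1_zero_left {a l : ℝ} (h : l ≤ a) : ct1 a l = 0 := by
  unfold ct1
  rw [step_deriv_zero_left (div_nonpos_of_nonpos_of_nonneg (by linarith only [h]) log_two_pos'.le), mul_zero]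

theorem ct1_zero_right {a l : ℝ} (h : a + log 2 ≤ l) : ct1 a l = 0 := by
  unfold ct1
  rw [step_deriv_zero_right (by rw [one_le_div log_two_pos']; linarith only [h]), mul_zero]

theorem exists_ct_bound : ∃ C : ℝ, 1 ≤ C ∧ ∀ a l, sz (ct a) (ct1 a) (ct2 a) l ≤ C := by
  obtain ⟨C, hC0, hC⟩ := exists_step_deriv2_bound
  refine ⟨1 + 29 + (log 2)⁻¹ ^ 2 * C, ?_, fun a l => ?_⟩
  · have : 0 ≤ (log 2)⁻¹ ^ 2 * C := by positivity
    linarith only [this]
  · unfold sz
    rw [abs_of_nonneg (ct_nonneg a l), abs_of_nonneg (ct1_nonneg a l)]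
    have h3 : |ct2 a l| ≤ (log 2)⁻¹ ^ 2 * C := by
      unfold ct2
      rw [abs_mul, abs_of_nonneg (by positivity)]
      exact mul_le_mul_of_nonneg_left (hC _) (by positivity)
    have := ct_le_one a l
    have := ct1_le a l
    linarith

theorem ct2_zero_left {a l : ℝ} (h : l < a) : ct2 a l = 0 := by
  have h1 := (ct_J2 a).d2 l
  have h2 : ct1 a =ᶠ[𝓝 l] fun _ => 0 := by
    filter_upwards [gt_mem_nhds h] with y hy using ct1_zero_left (le_of_lt hy)
  rw [← h1.deriv, h2.deriv_eq, deriv_const]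

theorem ct2_zero_right {a l : ℝ} (h : a + log 2 < l) : ct2 a l = 0 := by
  have h1 := (ct_J2 a).d2 l
  have h2 : ct1 a =ᶠ[𝓝 l] fun _ => 0 := by
    filter_upwards [lt_mem_nhds h] with y hy using ct1_zero_right (le_of_lt hy)
  rw [← h1.deriv, h2.deriv_eq, deriv_const]

end Vale.Agent.P244.ST.BJ
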