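import Vale.Agent.P244.ST.Phi
import Vale.Agent.P244.ST.BJet

/-!
# P244-ST, block B4 : the functions `Φ_i(e^l, 1)` as functions of `l`
-/

open Set Filter Topology Real
open scoped ContDiff

namespace Vale.Agent.P244.ST.BJ

open Vale.Agent.P244.ST Vale.Agent.P244.ST.BD

/-- jets agree where the functions agree on an open set -/
theorem J2.eq_on {f f1 f2 h h1 h2 : ℝ → ℝ} (hf : J2 f f1 f2) (hh : J2 h h1 h2) {U : Set ℝ}
    (hU : IsOpen U) (he : ∀ l ∈ U, f l = h l) {l : ℝ} (hl : l ∈ U) : f1 l = h1 l ∧ f2 l = h2 l := by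
  have e1 : ∀ l ∈ U, f1 l = h1 l := fun l hl => by
    have : f =ᶠ[𝓝 l] h := by
      filter_upwards [hU.mem_nhds hl] with y hy using he y hy
    rw [← hf.deriv_eq l, ← hh.deriv_eq l, this.deriv_eq]
  refine ⟨e1 l hl, ?_⟩
  have : f1 =ᶠ[𝓝 l] h1 := by
    filter_upwards [hU.mem_nhds hl] with y hy using e1 y hy
  rw [← (hf.d2 l).deriv, ← (hh.d2 l).deriv, this.deriv_eq]

theorem ct2_zero_left' {a l : ℝ} (h : l ≤ a) : ct2 a l = 0 := by
  have h1 := ((ct_J2 a).d2 l).hasDerivWithinAt (s := Iic l)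
  have h2 : HasDerivWithinAt (ct1 a) 0 (Iic l) l := by
    refine (hasDerivWithinAt_const l (Iic l) (0 : ℝ)).congr (fun y hy => ?_) ?_
    · exact ct1_zero_left (le_trans hy h)
    · exact ct1_zero_left h
  exact (uniqueDiffWithinAt_Iic l).eq_deriv _ h1 h2

theorem ct2_zero_right' {a l : ℝ} (h : a + log 2 ≤ l) : ct2 a l = 0 := by
  have h1 := ((ct_J2 a).d2 l).hasDerivWithinAt (s := Ici l)
  have h2 : HasDerivWithinAt (ct1 a) 0 (Ici l) l := by
    refine (hasDerivWithinAt_const l (Ici l) (0 : ℝ)).congr (fun y hy => ?_) ?_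
    · exact ct1_zero_right (le_trans h hy)
    · exact ct1_zero_right h
  exact (uniqueDiffWithinAt_Ici l).eq_deriv _ h1 h2

/-- `e^{-κ l}` -/
noncomputable def EE (κ l : ℝ) : ℝ := exp (-κ * l)

theorem EE_pos (κ l : ℝ) : 0 < EE κ l := exp_pos _

theorem EE_J2 (κ : ℝ) : J2 (EE κ) (fun l => -κ * EE κ l) (fun l => κ ^ 2 * EE κ l) := by
  have h : ∀ l, HasDerivAt (EE κ) (-κ * EE κ l) l := fun l => by
    have h1 : HasDerivAt (fun l : ℝ => -κ * l) (-κ) l := by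
      simpa using (hasDerivAt_id l).const_mul (-κ)
    refine h1.exp.congr_deriv ?_
    unfold EE
    ring
  refine ⟨h, fun l => ?_⟩
  refine ((h l).const_mul (-κ)).congr_deriv ?_
  ring

/-- `(r ∂_r)^j Φ_i` at `r = e^l`, `τ = 1` -/
noncomputable def Pj (κ a : ℝ) (i j : ℕ) (l : ℝ) : ℝ := PhiD κ a i j (exp l) 1

theorem exp_rpow_neg (κ l : ℝ) : exp l ^ (-κ) = EE κ l := by
  rw [EE, ← exp_mul]
  ring_nf

theorem hasDerivAt_Pj (κ a : ℝ) (i j : ℕ) (l : ℝ) :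
    HasDerivAt (Pj κ a i j) (Pj κ a i (j + 1) l) l := by
  have h := (hasDerivAt_PhiD κ a i j (exp_pos l) 1).comp l (hasDerivAt_exp l)
  refine h.congr_deriv ?_
  unfold Pj
  have := (exp_pos l).ne'
  field_simp

theorem Pj_J2 (κ a : ℝ) (i : ℕ) : J2 (Pj κ a i 0) (Pj κ a i 1) (Pj κ a i 2) :=
  ⟨fun l => hasDerivAt_Pj κ a i 0 l, fun l => hasDerivAt_Pj κ a i 1 l⟩

theorem contDiff_Pj (κ a : ℝ) (i j : ℕ) : ContDiff ℝ ∞ (Pj κ a i j) := by
  have h : Pj κ a i j = fun l => EE κ l * ∑ k ∈ Finset.range (i + 1),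
    (2 * (k : ℝ) - κ) ^ j * Lag.cf a i k * (exp l ^ 2 / 4) ^ k * 1 ^ (i - k) := by
    funext l
    unfold Pj PhiD
    rw [exp_rpow_neg]
  rw [h]
  unfold EE
  refine ContDiff.mul (by fun_prop) (ContDiff.sum fun k _ => ?_)
  fun_prop

/-- Size of `Φ_i`. -/
theorem exists_Pj_bound (κ a : ℝ) (i j : ℕ) : ∃ C : ℝ, 0 ≤ C ∧ ∀ l : ℝ,
    |Pj κ a i j l| ≤ C * (EE κ l * (1 + exp (2 * l)) ^ i) := by
  obtain ⟨C, hC0, hC⟩ := exists_PhiD_bound κ a i j
  refine ⟨C, hC0, fun l => ?_⟩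
  have h := hC (exp l) 1 (exp_pos l) zero_le_one
  have e : exp l ^ 2 + 1 = 1 + exp (2 * l) := by
    rw [← exp_nat_mul]
    push_cast
    ring
  rw [exp_rpow_neg, e] at h
  exact h

/-- Expansion of `Φ_i` at `r = 0`. -/
theorem exists_Pj_near (κ a : ℝ) (i j : ℕ) : ∃ C : ℝ, 0 ≤ C ∧ ∀ l ≤ 0,
    |Pj κ a i j l - (-κ) ^ j * EE κ l| ≤ C * (EE κ l * exp (2 * l)) := by
  refine ⟨∑ k ∈ Finset.range i, |(2 * ((k + 1 : ℕ) : ℝ) - κ) ^ j * Lag.cf a i (k + 1)|,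
    Finset.sum_nonneg fun _ _ => abs_nonneg _, fun l hl => ?_⟩
  have h0 : Lag.cf a i 0 = 1 := by
    unfold Lag.cf
    simp
  have e1 : Pj κ a i j l - (-κ) ^ j * EE κ l = EE κ l * ∑ k ∈ Finset.range i,
      (2 * ((k + 1 : ℕ) : ℝ) - κ) ^ j * Lag.cf a i (k + 1) * (exp l ^ 2 / 4) ^ (k + 1) := by
    unfold Pj PhiD
    rw [exp_rpow_neg, Finset.sum_range_succ', h0]
    simp only [one_pow, mul_one, pow_zero, Nat.cast_zero, mul_zero, zero_sub]
    ring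
  have hE := EE_pos κ l
  rw [e1, abs_mul, abs_of_pos hE, mul_comm (EE κ l) (exp (2 * l)), ← mul_assoc,
    mul_comm _ (EE κ l)]
  refine mul_le_mul_of_nonneg_left ?_ hE.le
  rw [Finset.sum_mul]
  refine (Finset.abs_sum_le_sum_abs _ _).trans (Finset.sum_le_sum fun k _ => ?_)
  rw [abs_mul]
  refine mul_le_mul_of_nonneg_left ?_ (abs_nonneg _)
  have e2 : exp l ^ 2 = exp (2 * l) := by
    rw [← exp_nat_mul]
    push_cast
    ring
  rw [e2, abs_of_nonneg (by positivity)]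
  have e3 : exp (2 * l) ≤ 1 := exp_le_one_iff.2 (by linarith only [hl])
  have e4 := exp_pos (2 * l)
  calc (exp (2 * l) / 4) ^ (k + 1) = (exp (2 * l) / 4) ^ k * (exp (2 * l) / 4) := pow_succ _ _
    _ ≤ 1 * (exp (2 * l) / 4) := by
        refine mul_le_mul_of_nonneg_right ?_ (by positivity)
        exact pow_le_one₀ (by positivity) (by linarith only [e3])
    _ ≤ exp (2 * l) := by linarith only [e4]

/-- sizes of the 2-jets -/
theorem exists_Pj_sz (κ a : ℝ) : ∃ C : ℝ, 1 ≤ C ∧ ∀ i ≤ 3, ∀ l : ℝ,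
    sz (Pj κ a i 0) (Pj κ a i 1) (Pj κ a i 2) l ≤ C * (EE κ l * (1 + exp (2 * l)) ^ 3) := by
  choose C hC0 hC using fun i j => exists_Pj_bound κ a i j
  refine ⟨1 + ∑ i ∈ Finset.range 4, (C i 0 + C i 1 + C i 2), ?_, fun i hi l => ?_⟩
  · have : 0 ≤ ∑ i ∈ Finset.range 4, (C i 0 + C i 1 + C i 2) := Finset.sum_nonneg fun i _ =>
      add_nonneg (add_nonneg (hC0 i 0) (hC0 i 1)) (hC0 i 2)
    linarith only [this]
  · have h1 : sz (Pj κ a i 0) (Pj κ a i 1) (Pj κ a i 2) l ≤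
        (C i 0 + C i 1 + C i 2) * (EE κ l * (1 + exp (2 * l)) ^ i) := by
      unfold sz
      have := hC i 0 l
      have := hC i 1 l
      have := hC i 2 l
      linarith
    have h2 : C i 0 + C i 1 + C i 2 ≤ 1 + ∑ i ∈ Finset.range 4, (C i 0 + C i 1 + C i 2) := by
      have := Finset.single_le_sum (f := fun i => C i 0 + C i 1 + C i 2)
        (fun i _ => add_nonneg (add_nonneg (hC0 i 0) (hC0 i 1)) (hC0 i 2))
        (Finset.mem_range.2 (Nat.lt_succ_of_le hi))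
      linarith only [this]
    have h3 : (1 + exp (2 * l)) ^ i ≤ (1 + exp (2 * l)) ^ 3 :=
      pow_le_pow_right₀ (by linarith only [exp_pos (2 * l)]) hi
    have hE := EE_pos κ l
    have h4 : 0 ≤ C i 0 + C i 1 + C i 2 := add_nonneg (add_nonneg (hC0 i 0) (hC0 i 1)) (hC0 i 2)
    refine h1.trans (mul_le_mul h2 (mul_le_mul_of_nonneg_left h3 hE.le) ?_ (h4.trans h2))
    have := exp_pos (2 * l)
    positivity

theorem exists_P3_near_sz (κ a : ℝ) : ∃ C : ℝ, 1 ≤ C ∧ ∀ l ≤ 0,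
    sz (fun l => Pj κ a 3 0 l - EE κ l) (fun l => Pj κ a 3 1 l - -κ * EE κ l)
      (fun l => Pj κ a 3 2 l - κ ^ 2 * EE κ l) l ≤ C * (EE κ l * exp (2 * l)) := by
  obtain ⟨C0, h0, h0'⟩ := exists_Pj_near κ a 3 0
  obtain ⟨C1, h1, h1'⟩ := exists_Pj_near κ a 3 1
  obtain ⟨C2, h2, h2'⟩ := exists_Pj_near κ a 3 2
  refine ⟨1 + C0 + C1 + C2, by linarith only [h0, h1, h2], fun l hl => ?_⟩
  have a0 := h0' l hl
  have a1 := h1' l hl
  have a2 := h2' l hl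
  rw [pow_zero, one_mul] at a0
  rw [pow_one] at a1
  rw [neg_sq] at a2
  unfold sz
  have hE : 0 ≤ EE κ l * exp (2 * l) := mul_nonneg (EE_pos κ l).le (exp_pos _).le
  simp only
  linarith only [a0, a1, a2, hE]

end Vale.Agent.P244.ST.BJ
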