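import Vale.Agent.P244.ST.BInit
import Vale.Agent.P244.ST.BCurv
import Vale.Agent.P244.ST.BPh

/-!
# P244-ST, block B4 : pointwise estimates of the initial data, part 1 (2-jets of `u`)
-/

open Set Filter Topology Real
open scoped ContDiff

namespace Vale.Agent.P244.ST.BD

open Vale.Agent.P244.ST.BJ

/-- `a = D/2 - 1` -/
noncomputable def aL : ℝ := (39 - 2 * kap 40) / 2

theorem kap_lo : 2.1 < kap 40 := by
  unfold kap
  have h : sqrt ((40 - 1) * (40 - 9)) < 34.8 := by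
    rw [sqrt_lt' (by norm_num)]
    norm_num
  linarith only [h]

theorem kap_hi : kap 40 < 2.2 := by
  unfold kap
  have h : 34.7 < sqrt ((40 - 1) * (40 - 9)) := by
    rw [lt_sqrt (by norm_num)]
    norm_num
  linarith only [h]

theorem kap_eq : kap 40 ^ 2 - 39 * kap 40 + 78 = 0 := by
  unfold kap
  have h : sqrt ((40 - 1) * (40 - 9)) ^ 2 = (40 - 1) * (40 - 9) :=
    sq_sqrt (by norm_num)
  linear_combination h / 4

/-- the concrete parameters -/
noncomputable def ipar (Y : ℝ → ℝ) (ρ0 rb N ε : ℝ) : IPar where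
  l0 := log rb
  lb := log ρ0
  l1 := (log N / 2 + log 2)
  L := log N
  ε := ε
  Y := Y
  P3 := Pj (kap 40) aL 3 0
  Pb := fun i => Pj (kap 40) aL i 0

/-- absolute constants -/
structure Con (g Y : ℝ → ℝ) (K : ℝ) : Prop where
  hg : IsBub 40 g
  hY : IsProf 40 g Y
  one : 1 ≤ K
  ct : ∀ a l, sz (ct a) (ct1 a) (ct2 a) l ≤ K
  near : ∀ l ≤ 0, sz (fun l => Pj (kap 40) aL 3 0 l - EE (kap 40) l)
      (fun l => Pj (kap 40) aL 3 1 l - -(kap 40) * EE (kap 40) l)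
      (fun l => Pj (kap 40) aL 3 2 l - (kap 40) ^ 2 * EE (kap 40) l) l ≤
      K * (EE (kap 40) l * exp (2 * l))
  psz : ∀ i ≤ 3, ∀ l : ℝ, sz (Pj (kap 40) aL i 0) (Pj (kap 40) aL i 1) (Pj (kap 40) aL i 2) l ≤
      K * (EE (kap 40) l * (1 + exp (2 * l)) ^ 3)
  asym : ∀ l ≥ 0, ∀ j ≤ 4, |iteratedDeriv j Y l - (-(kap 40)) ^ j * exp (-(kap 40) * l)| ≤
      K * exp (-(3 * kap 40) * l)
  nz : ∀ u > 0, kap 40 - g u / tanh u ≤ K * tanh u ^ 2

theorem exists_con {g Y : ℝ → ℝ} (hg : IsBub 40 g) (hY : IsProf 40 g Y) : ∃ K, Con g Y K := by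
  obtain ⟨K1, h1, h1'⟩ := exists_ct_bound
  obtain ⟨K2, h2, h2'⟩ := exists_P3_near_sz (kap 40) aL
  obtain ⟨K3, h3, h3'⟩ := exists_Pj_sz (kap 40) aL
  obtain ⟨K4, h4'⟩ := hY.asym
  obtain ⟨K5, h5'⟩ := hg.near_zero
  have a4 : K4 ≤ |K4| := le_abs_self _
  have a5 : K5 ≤ |K5| := le_abs_self _
  have b4 := abs_nonneg K4
  have b5 := abs_nonneg K5
  refine ⟨K1 + K2 + K3 + |K4| + |K5|, hg, hY, by linarith only [h1, h2, h3, b4, b5], fun a l => ?_, fun l hl => ?_,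
    fun i hi l => ?_, fun l hl j hj => ?_, fun u hu => ?_⟩
  · exact (h1' a l).trans (by linarith only [h2, h3, b4, b5])
  · refine (h2' l hl).trans (mul_le_mul_of_nonneg_right (by linarith only [h1, h3, b4, b5]) ?_)
    exact mul_nonneg (EE_pos _ _).le (exp_pos _).le
  · refine (h3' i hi l).trans (mul_le_mul_of_nonneg_right (by linarith only [h1, h2, b4, b5]) ?_)
    have := EE_pos (kap 40) l
    have := exp_pos (2 * l)
    positivity
  · exact (h4' l hl j hj).trans (mul_le_mul_of_nonneg_right (by linarith only [h1, h2, h3, a4, b5]) (exp_pos _).le)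
  · exact (h5' u hu).trans (mul_le_mul_of_nonneg_right (by linarith only [h1, h2, h3, a5, b4]) (sq_nonneg _))

/-- smallness conditions -/
structure Sm (K ρ0 rb N ε : ℝ) : Prop where
  ρpos : 0 < ρ0
  ρsm : 1000 * K ^ 3 * ρ0 ^ 2 ≤ 1
  rbpos : 0 < rb
  rble : 64 * rb ≤ ρ0
  hN : 10 ^ 6 ≤ N
  εpos : 0 < ε
  small : 10 ^ 6 * K ^ 3 * ε * (EE (kap 40) (log rb - log 2) * (1 + exp (2 * ((log N / 2 + log 2) + log 2))) ^ 3) ≤
    exp (2 * (log rb - log 2 - log N))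

section

variable {g Y : ℝ → ℝ} {K ρ0 rb N ε : ℝ}

theorem Sm.logN (h : Sm K ρ0 rb N ε) : 12 ≤ log N := by
  have h1 : exp 12 ≤ N := by
    have h2 : exp (12 : ℝ) = exp 1 ^ 12 := by
      rw [← exp_nat_mul]
      norm_num
    have h3 := exp_one_lt_d9
    calc exp 12 = exp 1 ^ 12 := h2
      _ ≤ 2.7182818286 ^ 12 := pow_le_pow_left₀ (exp_pos 1).le h3.le 12
      _ ≤ 10 ^ 6 := by norm_num
      _ ≤ N := h.hN
  rw [le_log_iff_exp_le (lt_of_lt_of_le (by norm_num) h.hN)]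
  exact h1

theorem Sm.logρ (hK : 1 ≤ K) (h : Sm K ρ0 rb N ε) : log ρ0 ≤ 0 := by
  refine log_nonpos h.ρpos.le ?_
  have h1 := h.ρsm
  have h2 : 1 ≤ K ^ 3 := one_le_pow₀ hK
  by_contra hc
  push Not at hc
  nlinarith only [h1, h2, hc, h.ρpos]

theorem Sm.logrb (h : Sm K ρ0 rb N ε) : log rb + 6 * log 2 ≤ log ρ0 := by
  have h1 : log (64 * rb) ≤ log ρ0 := log_le_log (by linarith only [h, h.rbpos]) h.rble
  rw [log_mul (by norm_num) h.rbpos.ne'] at h1
  have h2 : log (64 : ℝ) = 6 * log 2 := by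
    have : (64 : ℝ) = 2 ^ 6 := by norm_num
    rw [this, log_pow]
    norm_num
  linarith only [h1, h2]

/-- `ε e^{-κ l}` is tiny for `l ≥ l0 - log 2`, up to `l1 + log 2` also times `(1+r²)³`. -/
theorem Sm.eps1 (h : Sm K ρ0 rb N ε) (hK : 1 ≤ K) {l : ℝ} (h0 : log rb - log 2 ≤ l)
    (h1 : l ≤ (log N / 2 + log 2) + log 2) :
    10 ^ 6 * K ^ 3 * (ε * (EE (kap 40) l * (1 + exp (2 * l)) ^ 3)) ≤
      exp (2 * (log rb - log 2 - log N)) := by
  refine le_trans ?_ h.small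
  rw [mul_assoc (10 ^ 6 * K ^ 3) ε]
  have hε := h.εpos
  have hk := kap_lo
  have e1 : EE (kap 40) l ≤ EE (kap 40) (log rb - log 2) := by
    unfold EE
    apply exp_le_exp.2
    nlinarith only [h0, hk]
  have e2 : (1 + exp (2 * l)) ^ 3 ≤ (1 + exp (2 * ((log N / 2 + log 2) + log 2))) ^ 3 := by
    have := exp_pos (2 * l)
    gcongr
  have e3 := EE_pos (kap 40) l
  have e4 := exp_pos (2 * l)
  refine mul_le_mul_of_nonneg_left (mul_le_mul_of_nonneg_left ?_ hε.le) (by positivity)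
  exact mul_le_mul e1 e2 (by positivity) (EE_pos _ _).le

theorem Sm.eps2 (h : Sm K ρ0 rb N ε) (hK : 1 ≤ K) {l : ℝ} (h0 : log rb - log 2 ≤ l) :
    10 ^ 6 * K ^ 3 * (ε * EE (kap 40) l) ≤ exp (2 * (log rb - log 2 - log N)) := by
  refine le_trans ?_ h.small
  rw [mul_assoc (10 ^ 6 * K ^ 3) ε]
  have hε := h.εpos
  have hk := kap_lo
  have e1 : EE (kap 40) l ≤ EE (kap 40) (log rb - log 2) := by
    unfold EE
    apply exp_le_exp.2
    nlinarith only [h0, hk]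
  have e3 := EE_pos (kap 40) (log rb - log 2)
  have e4 : 1 ≤ (1 + exp (2 * ((log N / 2 + log 2) + log 2))) ^ 3 :=
    one_le_pow₀ (by linarith only [exp_pos (2 * ((log N / 2 + log 2) + log 2))])
  refine mul_le_mul_of_nonneg_left (mul_le_mul_of_nonneg_left ?_ hε.le) (by positivity)
  nlinarith only [e1, e3, e4]

/-- in terms of `s = r²/N²` and `r²` -/
theorem Sm.s_le {l : ℝ} (h0 : log rb - log 2 ≤ l) :
    exp (2 * (log rb - log 2 - log N)) ≤ exp (2 * (l - log N)) := exp_le_exp.2 (by linarith only [h0])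

theorem Sm.s_le' (h : Sm K ρ0 rb N ε) (l : ℝ) : exp (2 * (l - log N)) ≤ exp (2 * l) :=
  exp_le_exp.2 (by linarith only [h, h.logN])

theorem Sm.lam_le (h : Sm K ρ0 rb N ε) (hK : 1 ≤ K) :
    (ipar Y ρ0 rb N ε).lam ≤ log rb - log 2 := by
  have h1 := h.eps2 hK (le_refl (log rb - log 2))
  have h2 := h.s_le' (log rb - log 2)
  have h3 : exp (2 * (log rb - log 2)) ≤ 1 := by
    refine exp_le_one_iff.2 ?_
    have := h.logrb
    have := h.logρ hK
    have := log_two_pos'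
    linarith
  have hK3 : 1 ≤ K ^ 3 := one_le_pow₀ hK
  have h4 : 0 < ε * EE (kap 40) (log rb - log 2) := mul_pos h.εpos (EE_pos _ _)
  have h5 : ε * EE (kap 40) (log rb - log 2) ≤ 1 := by nlinarith only [h1, h2, h3, hK3, h4]
  have h6 : log ε + -(kap 40) * (log rb - log 2) ≤ 0 := by
    have h7 := log_nonpos h4.le h5
    rw [log_mul h.εpos.ne' (EE_pos _ _).ne', EE, log_exp] at h7
    exact h7
  unfold IPar.lam
  have hk := kap_lo
  rw [div_le_iff₀ (by linarith only [hk])]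
  simp only [ipar]
  linarith only [h6]

end

end Vale.Agent.P244.ST.BD
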