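import Vale.Agent.P244.ST.BI1

/-!
# P244-ST, block B4 : pointwise estimates of the initial data, part 2 (bounds of `u`)
-/

open Set Filter Topology Real
open scoped ContDiff

namespace Vale.Agent.P244.ST.BD

open Vale.Agent.P244.ST.BJ

theorem contDiff_ct (a : ℝ) : ContDiff ℝ ∞ (ct a) := by
  unfold ct
  exact (smoothTransition.contDiff (n := ⊤)).comp (by fun_prop)

section

variable {g Y : ℝ → ℝ} {K ρ0 rb N ε : ℝ}

theorem contDiff_u (hY : ContDiff ℝ ∞ Y) (b : Fin 3 → ℝ) :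
    ContDiff ℝ ∞ ((ipar Y ρ0 rb N ε).u b) := by
  have e : (ipar Y ρ0 rb N ε).u b = fun l => ((1 - ct (log rb) l) *
      Y (l - (ipar Y ρ0 rb N ε).lam) + ct (log rb) l * (ε * (1 - ct ((log N / 2 + log 2)) l) *
      Pj (kap 40) aL 3 0 l)) + ε * ct (log ρ0) l * (1 - ct ((log N / 2 + log 2)) l) *
      ∑ i : Fin 3, b i * Pj (kap 40) aL i 0 l := by
    funext l
    rfl
  rw [e]
  have h1 : ContDiff ℝ ∞ fun l => Y (l - (ipar Y ρ0 rb N ε).lam) :=
    hY.comp (contDiff_id.sub contDiff_const)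
  have h2 := contDiff_ct (log rb)
  have h3 := contDiff_ct ((log N / 2 + log 2))
  have h4 := contDiff_ct (log ρ0)
  have h5 := contDiff_Pj (kap 40) aL 3 0
  have h6 : ContDiff ℝ ∞ fun l => ∑ i : Fin 3, b i * Pj (kap 40) aL i 0 l :=
    ContDiff.sum fun i _ => contDiff_const.mul (contDiff_Pj _ _ _ _)
  exact (((contDiff_const.sub h2).mul h1).add (h2.mul ((contDiff_const.mul
    (contDiff_const.sub h3)).mul h5))).add (((contDiff_const.mul h4).mul
    (contDiff_const.sub h3)).mul h6)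

/-- first derivative of `u` -/
noncomputable def u1 (Y : ℝ → ℝ) (ρ0 rb N ε : ℝ) (b : Fin 3 → ℝ) : ℝ → ℝ :=
  deriv ((ipar Y ρ0 rb N ε).u b)

/-- second derivative of `u` -/
noncomputable def u2 (Y : ℝ → ℝ) (ρ0 rb N ε : ℝ) (b : Fin 3 → ℝ) : ℝ → ℝ :=
  deriv (deriv ((ipar Y ρ0 rb N ε).u b))

theorem u_J2 (hY : ContDiff ℝ ∞ Y) (b : Fin 3 → ℝ) :
    J2 ((ipar Y ρ0 rb N ε).u b) (u1 Y ρ0 rb N ε b) (u2 Y ρ0 rb N ε b) :=
  J2.of_contDiff (contDiff_u hY b)

theorem Y_J2 (hY : ContDiff ℝ ∞ Y) (c : ℝ) :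
    J2 (fun l => Y (l - c)) (fun l => deriv Y (l - c)) (fun l => deriv (deriv Y) (l - c)) := by
  refine ((J2.of_contDiff hY).comp_affine 1 (-c)).congr (fun l => ?_) (fun l => ?_) fun l => ?_
  · rw [one_mul, sub_eq_add_neg]
  · rw [one_mul, one_mul, sub_eq_add_neg]
  · rw [one_pow, one_mul, one_mul, sub_eq_add_neg]

/-- `Y(l-lam)` is close to `ε e^{-κ l}`. -/
theorem Y_near (hc : Con g Y K) (h : Sm K ρ0 rb N ε) {l : ℝ} (hl : log rb - log 2 ≤ l) :
    |Y (l - (ipar Y ρ0 rb N ε).lam) - ε * EE (kap 40) l| +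
    |deriv Y (l - (ipar Y ρ0 rb N ε).lam) - ε * (-(kap 40) * EE (kap 40) l)| +
    |deriv (deriv Y) (l - (ipar Y ρ0 rb N ε).lam) - ε * ((kap 40) ^ 2 * EE (kap 40) l)| ≤
      3 * K * (ε * EE (kap 40) l) ^ 3 := by
  have hlam := h.lam_le (Y := Y) hc.one
  set c := (ipar Y ρ0 rb N ε).lam with hcdef
  have hκ : kap 40 * c = log ε := by
    have : c = log ε / kap 40 := rfl
    rw [this]
    have hk := kap_lo
    field_simp
  have h0 : l - c ≥ 0 := by linarith only [hl, hlam]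
  have e1 : exp (-(kap 40) * (l - c)) = ε * EE (kap 40) l := by
    have : -(kap 40) * (l - c) = log ε + -(kap 40) * l := by
      rw [← hκ]
      ring
    rw [this, exp_add, exp_log h.εpos]
    rfl
  have e3 : exp (-(3 * kap 40) * (l - c)) = (ε * EE (kap 40) l) ^ 3 := by
    rw [← e1, ← exp_nat_mul]
    congr 1
    push_cast
    ring
  have a0 := hc.asym (l - c) h0 0 (by norm_num)
  have a1 := hc.asym (l - c) h0 1 (by norm_num)
  have a2 := hc.asym (l - c) h0 2 (by norm_num)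
  rw [iteratedDeriv_zero, pow_zero, one_mul, e1, e3] at a0
  rw [iteratedDeriv_one, pow_one, e1, e3] at a1
  rw [iteratedDeriv_succ, iteratedDeriv_one, neg_sq, e1, e3] at a2
  have e4 : ε * (-(kap 40) * EE (kap 40) l) = -(kap 40) * (ε * EE (kap 40) l) := by ring
  have e5 : ε * ((kap 40) ^ 2 * EE (kap 40) l) = kap 40 ^ 2 * (ε * EE (kap 40) l) := by ring
  rw [e4, e5]
  linarith only [a0, a1, a2]

/-- the inner formula for the 2-jet -/
theorem u_inner (hc : Con g Y K) (h : Sm K ρ0 rb N ε) (b : Fin 3 → ℝ) {l : ℝ}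
    (hl : l ≤ log ρ0) :
    (ipar Y ρ0 rb N ε).u b l = Y (l - (ipar Y ρ0 rb N ε).lam) + ct (log rb) l *
      (ε * Pj (kap 40) aL 3 0 l - Y (l - (ipar Y ρ0 rb N ε).lam)) ∧
    u1 Y ρ0 rb N ε b l = deriv Y (l - (ipar Y ρ0 rb N ε).lam) + (ct1 (log rb) l *
      (ε * Pj (kap 40) aL 3 0 l - Y (l - (ipar Y ρ0 rb N ε).lam)) + ct (log rb) l *
      (ε * Pj (kap 40) aL 3 1 l - deriv Y (l - (ipar Y ρ0 rb N ε).lam))) ∧
    u2 Y ρ0 rb N ε b l = deriv (deriv Y) (l - (ipar Y ρ0 rb N ε).lam) +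
      (ct2 (log rb) l * (ε * Pj (kap 40) aL 3 0 l - Y (l - (ipar Y ρ0 rb N ε).lam)) +
      2 * (ct1 (log rb) l * (ε * Pj (kap 40) aL 3 1 l -
        deriv Y (l - (ipar Y ρ0 rb N ε).lam))) + ct (log rb) l *
      (ε * Pj (kap 40) aL 3 2 l - deriv (deriv Y) (l - (ipar Y ρ0 rb N ε).lam))) := by
  set c := (ipar Y ρ0 rb N ε).lam with hcdef
  have hl1 : l < (log N / 2 + log 2) := by
    have := h.logN
    have := h.logρ hc.one
    have := log_two_pos'
    linarith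
  have hYJ := Y_J2 hc.hY.smooth c
  have hPS : J2 (fun l => ∑ i : Fin 3, b i * Pj (kap 40) aL i 0 l)
      (fun l => ∑ i : Fin 3, b i * Pj (kap 40) aL i 1 l)
      (fun l => ∑ i : Fin 3, b i * Pj (kap 40) aL i 2 l) :=
    J2.sum _ fun i _ => (Pj_J2 (kap 40) aL i).const_mul _
  have hA := (hYJ.add ((ct_J2 (log rb)).mul (((Pj_J2 (kap 40) aL 3).const_mul ε).sub hYJ))).add
    (((ct_J2 (log ρ0)).mul hPS).const_mul ε)
  have hval : ∀ l ∈ Iio ((log N / 2 + log 2)), (ipar Y ρ0 rb N ε).u b l = Y (l - c) + ct (log rb) l *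
      (ε * Pj (kap 40) aL 3 0 l - Y (l - c)) + ε * (ct (log ρ0) l *
      ∑ i : Fin 3, b i * Pj (kap 40) aL i 0 l) := by
    intro l hl
    have e : (ipar Y ρ0 rb N ε).u b l = ((1 - ct (log rb) l) *
      Y (l - (ipar Y ρ0 rb N ε).lam) + ct (log rb) l * (ε * (1 - ct ((log N / 2 + log 2)) l) *
      Pj (kap 40) aL 3 0 l)) + ε * ct (log ρ0) l * (1 - ct ((log N / 2 + log 2)) l) *
      ∑ i : Fin 3, b i * Pj (kap 40) aL i 0 l := rfl
    have e2 : ∑ i : Fin 3, b i * Pj (kap 40) aL i 0 l =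
        ∑ i : Fin 3, b i * Pj (kap 40) aL i 0 l :=
      Finset.sum_congr rfl fun i _ => by ring
    rw [e, ct_zero (le_of_lt hl), e2]
    ring
  obtain ⟨h1, h2⟩ := (u_J2 hc.hY.smooth b).eq_on hA isOpen_Iio hval hl1
  have z0 := ct_zero hl
  have z1 := ct1_zero_left hl
  have z2 := ct2_zero_left' hl
  refine ⟨?_, ?_, ?_⟩
  · rw [hval l hl1, z0]
    ring
  · rw [h1, z0, z1]
    ring
  · rw [h2, z0, z1, z2]
    ring

/-- exact bubble for `r ≤ rb` -/
theorem u_bub (hc : Con g Y K) (h : Sm K ρ0 rb N ε) (b : Fin 3 → ℝ) {l : ℝ}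
    (hl : l ≤ log rb) :
    (ipar Y ρ0 rb N ε).u b l = Y (l - (ipar Y ρ0 rb N ε).lam) ∧
    u1 Y ρ0 rb N ε b l = deriv Y (l - (ipar Y ρ0 rb N ε).lam) ∧
    u2 Y ρ0 rb N ε b l = deriv (deriv Y) (l - (ipar Y ρ0 rb N ε).lam) := by
  have h1 := h.logrb
  have h2 := log_two_pos'
  obtain ⟨a1, a2, a3⟩ := u_inner hc h b (l := l) (by linarith only [hl, h1, h2])
  rw [ct_zero hl] at a1
  rw [ct_zero hl, ct1_zero_left hl] at a2
  rw [ct_zero hl, ct1_zero_left hl, ct2_zero_left' hl] at a3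
  refine ⟨?_, ?_, ?_⟩
  · rw [a1]; ring
  · rw [a2]; ring
  · rw [a3]; ring

/-- `u = ε e^{-κ l} (1 + O(r²))` in `C²` for `rb/2 ≤ r ≤ ρ0` -/
theorem u_near (hc : Con g Y K) (h : Sm K ρ0 rb N ε) (b : Fin 3 → ℝ) {l : ℝ}
    (hl0 : log rb - log 2 ≤ l) (hl : l ≤ log ρ0) :
    |(ipar Y ρ0 rb N ε).u b l - ε * EE (kap 40) l| +
    |u1 Y ρ0 rb N ε b l - ε * (-(kap 40) * EE (kap 40) l)| +
    |u2 Y ρ0 rb N ε b l - ε * ((kap 40) ^ 2 * EE (kap 40) l)| ≤
      3 * K ^ 2 * (ε * EE (kap 40) l * exp (2 * l)) := by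
  set c := (ipar Y ρ0 rb N ε).lam with hcdef
  obtain ⟨a1, a2, a3⟩ := u_inner hc h b hl
  have hY := Y_near hc h hl0
  rw [← hcdef] at a1 a2 a3 hY
  have hK := hc.one
  have hl00 : l ≤ 0 := hl.trans (h.logρ hK)
  have hP := hc.near l hl00
  have hct := hc.ct (log rb) l
  -- the 2-jet of `ε P3 - Y`
  have hD : sz (fun l => ε * Pj (kap 40) aL 3 0 l - Y (l - c))
      (fun l => ε * Pj (kap 40) aL 3 1 l - deriv Y (l - c))
      (fun l => ε * Pj (kap 40) aL 3 2 l - deriv (deriv Y) (l - c)) l ≤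
      ε * (K * (EE (kap 40) l * exp (2 * l))) + 3 * K * (ε * EE (kap 40) l) ^ 3 := by
    unfold sz at hP ⊢
    simp only at hP ⊢
    have t0 : |ε * Pj (kap 40) aL 3 0 l - Y (l - c)| ≤ ε * |Pj (kap 40) aL 3 0 l - EE (kap 40) l| +
        |Y (l - c) - ε * EE (kap 40) l| := by
      have : ε * Pj (kap 40) aL 3 0 l - Y (l - c) = ε * (Pj (kap 40) aL 3 0 l - EE (kap 40) l) -
        (Y (l - c) - ε * EE (kap 40) l) := by ring
      rw [this]
      refine (abs_sub _ _).trans (le_of_eq ?_)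
      rw [abs_mul, abs_of_pos h.εpos]
    have t1 : |ε * Pj (kap 40) aL 3 1 l - deriv Y (l - c)| ≤
        ε * |Pj (kap 40) aL 3 1 l - -(kap 40) * EE (kap 40) l| +
        |deriv Y (l - c) - ε * (-(kap 40) * EE (kap 40) l)| := by
      have : ε * Pj (kap 40) aL 3 1 l - deriv Y (l - c) =
        ε * (Pj (kap 40) aL 3 1 l - -(kap 40) * EE (kap 40) l) -
        (deriv Y (l - c) - ε * (-(kap 40) * EE (kap 40) l)) := by ring
      rw [this]
      refine (abs_sub _ _).trans (le_of_eq ?_)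
      rw [abs_mul, abs_of_pos h.εpos]
    have t2 : |ε * Pj (kap 40) aL 3 2 l - deriv (deriv Y) (l - c)| ≤
        ε * |Pj (kap 40) aL 3 2 l - (kap 40) ^ 2 * EE (kap 40) l| +
        |deriv (deriv Y) (l - c) - ε * ((kap 40) ^ 2 * EE (kap 40) l)| := by
      have : ε * Pj (kap 40) aL 3 2 l - deriv (deriv Y) (l - c) =
        ε * (Pj (kap 40) aL 3 2 l - (kap 40) ^ 2 * EE (kap 40) l) -
        (deriv (deriv Y) (l - c) - ε * ((kap 40) ^ 2 * EE (kap 40) l)) := by ring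
      rw [this]
      refine (abs_sub _ _).trans (le_of_eq ?_)
      rw [abs_mul, abs_of_pos h.εpos]
    have t3 := mul_le_mul_of_nonneg_left hP h.εpos.le
    linarith only [hY, t0, t1, t2, t3]
  have hM := sz_mul_le (f := ct (log rb)) (f1 := ct1 (log rb)) (f2 := ct2 (log rb))
    (h := fun l => ε * Pj (kap 40) aL 3 0 l - Y (l - c))
    (h1 := fun l => ε * Pj (kap 40) aL 3 1 l - deriv Y (l - c))
    (h2 := fun l => ε * Pj (kap 40) aL 3 2 l - deriv (deriv Y) (l - c)) l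
  have hM2 : 2 * (sz (ct (log rb)) (ct1 (log rb)) (ct2 (log rb)) l *
      sz (fun l => ε * Pj (kap 40) aL 3 0 l - Y (l - c))
      (fun l => ε * Pj (kap 40) aL 3 1 l - deriv Y (l - c))
      (fun l => ε * Pj (kap 40) aL 3 2 l - deriv (deriv Y) (l - c)) l) ≤
      2 * (K * (ε * (K * (EE (kap 40) l * exp (2 * l))) + 3 * K * (ε * EE (kap 40) l) ^ 3)) :=
    mul_le_mul_of_nonneg_left (mul_le_mul hct hD (sz_nonneg _) (by linarith only [hK])) zero_le_two
  have hM3 := hM.trans hM2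
  unfold sz at hM3
  simp only at hM3
  -- triangle inequalities
  have t0 : |(ipar Y ρ0 rb N ε).u b l - ε * EE (kap 40) l| ≤ |Y (l - c) - ε * EE (kap 40) l| +
      |ct (log rb) l * (ε * Pj (kap 40) aL 3 0 l - Y (l - c))| := by
    have : (ipar Y ρ0 rb N ε).u b l - ε * EE (kap 40) l = (Y (l - c) - ε * EE (kap 40) l) +
      ct (log rb) l * (ε * Pj (kap 40) aL 3 0 l - Y (l - c)) := by
      rw [a1]
      ring
    rw [this]
    exact abs_add_le _ _
  have t1 : |u1 Y ρ0 rb N ε b l - ε * (-(kap 40) * EE (kap 40) l)| ≤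
      |deriv Y (l - c) - ε * (-(kap 40) * EE (kap 40) l)| +
      |ct1 (log rb) l * (ε * Pj (kap 40) aL 3 0 l - Y (l - c)) + ct (log rb) l *
      (ε * Pj (kap 40) aL 3 1 l - deriv Y (l - c))| := by
    have : u1 Y ρ0 rb N ε b l - ε * (-(kap 40) * EE (kap 40) l) =
      (deriv Y (l - c) - ε * (-(kap 40) * EE (kap 40) l)) +
      (ct1 (log rb) l * (ε * Pj (kap 40) aL 3 0 l - Y (l - c)) + ct (log rb) l *
      (ε * Pj (kap 40) aL 3 1 l - deriv Y (l - c))) := by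
      rw [a2]
      ring
    rw [this]
    exact abs_add_le _ _
  have t2 : |u2 Y ρ0 rb N ε b l - ε * ((kap 40) ^ 2 * EE (kap 40) l)| ≤
      |deriv (deriv Y) (l - c) - ε * ((kap 40) ^ 2 * EE (kap 40) l)| +
      |ct2 (log rb) l * (ε * Pj (kap 40) aL 3 0 l - Y (l - c)) +
      2 * (ct1 (log rb) l * (ε * Pj (kap 40) aL 3 1 l - deriv Y (l - c))) + ct (log rb) l *
      (ε * Pj (kap 40) aL 3 2 l - deriv (deriv Y) (l - c))| := by
    have : u2 Y ρ0 rb N ε b l - ε * ((kap 40) ^ 2 * EE (kap 40) l) =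
      (deriv (deriv Y) (l - c) - ε * ((kap 40) ^ 2 * EE (kap 40) l)) +
      (ct2 (log rb) l * (ε * Pj (kap 40) aL 3 0 l - Y (l - c)) +
      2 * (ct1 (log rb) l * (ε * Pj (kap 40) aL 3 1 l - deriv Y (l - c))) + ct (log rb) l *
      (ε * Pj (kap 40) aL 3 2 l - deriv (deriv Y) (l - c))) := by
      rw [a3]
      ring
    rw [this]
    exact abs_add_le _ _
  -- `(ε E)^2` is small compared to `r²`
  have s1 := h.eps2 hK hl0
  have s2 := Sm.s_le (N := N) hl0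
  have s3 := h.s_le' l
  have hE : 0 < ε * EE (kap 40) l := mul_pos h.εpos (EE_pos _ _)
  have hK3 : 1 ≤ K ^ 3 := one_le_pow₀ hK
  have s4 : 10 ^ 6 * (ε * EE (kap 40) l) ≤ exp (2 * l) := by
    have : 10 ^ 6 * (ε * EE (kap 40) l) ≤ 10 ^ 6 * K ^ 3 * (ε * EE (kap 40) l) := by
      nlinarith only [hE, hK3]
    linarith only [s1, s2, s3, this]
  have s5 : exp (2 * l) ≤ 1 := exp_le_one_iff.2 (by linarith only [hl00])
  have s6 : (ε * EE (kap 40) l) ^ 3 ≤ (ε * EE (kap 40) l * exp (2 * l)) / 10 ^ 6 := by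
    have s7 : ε * EE (kap 40) l ≤ 1 := by linarith only [hE, s4, s5]
    have s8 : (ε * EE (kap 40) l) ^ 2 ≤ exp (2 * l) / 10 ^ 6 := by nlinarith only [s1, s2, s3, hE, hK3, s4, s5]
    calc (ε * EE (kap 40) l) ^ 3 = ε * EE (kap 40) l * (ε * EE (kap 40) l) ^ 2 := by ring
      _ ≤ ε * EE (kap 40) l * (exp (2 * l) / 10 ^ 6) := mul_le_mul_of_nonneg_left s8 hE.le
      _ = _ := by ring
  have hX : 0 ≤ ε * EE (kap 40) l * exp (2 * l) := by
    have := exp_pos (2 * l)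
    positivity
  have hK2 : K ≤ K ^ 2 := by nlinarith only [hK]
  have f1 : 3 * K * (ε * EE (kap 40) l) ^ 3 + 2 * (K * (ε * (K * (EE (kap 40) l * exp (2 * l))) +
      3 * K * (ε * EE (kap 40) l) ^ 3)) ≤ 3 * K ^ 2 * (ε * EE (kap 40) l * exp (2 * l)) := by
    have f2 : 3 * K * (ε * EE (kap 40) l) ^ 3 ≤
        3 * K ^ 2 * ((ε * EE (kap 40) l * exp (2 * l)) / 10 ^ 6) :=
      mul_le_mul (by linarith only [hK2]) s6 (by positivity) (by positivity)
    have f3 : 6 * K ^ 2 * (ε * EE (kap 40) l) ^ 3 ≤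
        6 * K ^ 2 * ((ε * EE (kap 40) l * exp (2 * l)) / 10 ^ 6) :=
      mul_le_mul_of_nonneg_left s6 (by positivity)
    have f4 : 0 ≤ K ^ 2 * (ε * EE (kap 40) l * exp (2 * l)) := by positivity
    have f5 : 2 * (K * (ε * (K * (EE (kap 40) l * exp (2 * l))) +
      3 * K * (ε * EE (kap 40) l) ^ 3)) = 2 * (K ^ 2 * (ε * EE (kap 40) l * exp (2 * l))) +
      6 * K ^ 2 * (ε * EE (kap 40) l) ^ 3 := by ring
    rw [f5]
    linarith only [f2, f3, f4]
  linarith only [hY, hM3, t0, t1, t2, f1]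

end

end Vale.Agent.P244.ST.BD
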