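import Vale.Agent.P244.ST.BI2

/-!
# P244-ST, block B4 : pointwise estimates of the initial data, part 3 (outer bounds of `u`)
-/

open Set Filter Topology Real
open scoped ContDiff

namespace Vale.Agent.P244.ST.BD

open Vale.Agent.P244.ST.BJ

section

variable {g Y : ℝ → ℝ} {K ρ0 rb N ε β : ℝ}

theorem b_sum_sz (hc : Con g Y K) (h : Sm K ρ0 rb N ε) {b : Fin 3 → ℝ} (hb : ∀ i, |b i| ≤ β)
    (l : ℝ) : sz (fun l => ∑ i : Fin 3, b i * Pj (kap 40) aL i 0 l)
      (fun l => ∑ i : Fin 3, b i * Pj (kap 40) aL i 1 l)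
      (fun l => ∑ i : Fin 3, b i * Pj (kap 40) aL i 2 l) l ≤
      3 * K * β * (EE (kap 40) l * (1 + exp (2 * l)) ^ 3) := by
  refine (sz_sum_le (Finset.univ : Finset (Fin 3))
    (F := fun (i : Fin 3) l => b i * Pj (kap 40) aL i 0 l)
    (F1 := fun (i : Fin 3) l => b i * Pj (kap 40) aL i 1 l)
    (F2 := fun (i : Fin 3) l => b i * Pj (kap 40) aL i 2 l) l).trans ?_
  have h1 : ∀ i ∈ (Finset.univ : Finset (Fin 3)),
      sz (fun l => b i * Pj (kap 40) aL i 0 l) (fun l => b i * Pj (kap 40) aL i 1 l)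
        (fun l => b i * Pj (kap 40) aL i 2 l) l ≤
      β * (K * (EE (kap 40) l * (1 + exp (2 * l)) ^ 3)) := by
    intro i _
    rw [sz_const_mul]
    have h2 := hc.psz i (by have := i.2; omega) l
    have hE := EE_pos (kap 40) l
    have he := exp_pos (2 * l)
    have hK := hc.one
    exact mul_le_mul (hb i) h2 (sz_nonneg _) ((abs_nonneg _).trans (hb i))
  refine (Finset.sum_le_sum h1).trans (le_of_eq ?_)
  rw [Finset.sum_const, Finset.card_univ, Fintype.card_fin]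
  simp only [nsmul_eq_mul]
  push_cast
  ring

theorem ct_b_sz (hc : Con g Y K) (h : Sm K ρ0 rb N ε) {b : Fin 3 → ℝ} (hb : ∀ i, |b i| ≤ β)
    (l : ℝ) : sz (fun l => ct (log ρ0) l * ∑ i : Fin 3, b i * Pj (kap 40) aL i 0 l)
      (fun l => ct1 (log ρ0) l * (∑ i : Fin 3, b i * Pj (kap 40) aL i 0 l) +
        ct (log ρ0) l * ∑ i : Fin 3, b i * Pj (kap 40) aL i 1 l)
      (fun l => ct2 (log ρ0) l * (∑ i : Fin 3, b i * Pj (kap 40) aL i 0 l) +
        2 * (ct1 (log ρ0) l * ∑ i : Fin 3, b i * Pj (kap 40) aL i 1 l) +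
        ct (log ρ0) l * ∑ i : Fin 3, b i * Pj (kap 40) aL i 2 l) l ≤
      6 * K ^ 2 * β * (EE (kap 40) l * (1 + exp (2 * l)) ^ 3) := by
  refine (sz_mul_le (f := ct (log ρ0)) (f1 := ct1 (log ρ0)) (f2 := ct2 (log ρ0)) l).trans ?_
  have h1 := hc.ct (log ρ0) l
  have h2 := b_sum_sz hc h hb l
  have hK := hc.one
  calc _ ≤ 2 * (K * (3 * K * β * (EE (kap 40) l * (1 + exp (2 * l)) ^ 3))) :=
        mul_le_mul_of_nonneg_left (mul_le_mul h1 h2 (sz_nonneg _) (by linarith only [hK])) zero_le_two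
    _ = _ := by ring

/-- the 2-jet of `u - ε Φ_3` for `2 rb < r < √N` -/
theorem u_close (hc : Con g Y K) (h : Sm K ρ0 rb N ε) {b : Fin 3 → ℝ} (hb : ∀ i, |b i| ≤ β)
    {l : ℝ} (h0 : log rb + log 2 < l) (h1 : l < (log N / 2 + log 2)) :
    |(ipar Y ρ0 rb N ε).u b l - ε * Pj (kap 40) aL 3 0 l| +
    |u1 Y ρ0 rb N ε b l - ε * Pj (kap 40) aL 3 1 l| +
    |u2 Y ρ0 rb N ε b l - ε * Pj (kap 40) aL 3 2 l| ≤
      6 * K ^ 2 * β * (ε * (EE (kap 40) l * (1 + exp (2 * l)) ^ 3)) := by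
  have hPS : J2 (fun l => ∑ i : Fin 3, b i * Pj (kap 40) aL i 0 l)
      (fun l => ∑ i : Fin 3, b i * Pj (kap 40) aL i 1 l)
      (fun l => ∑ i : Fin 3, b i * Pj (kap 40) aL i 2 l) :=
    J2.sum _ fun i _ => (Pj_J2 (kap 40) aL i).const_mul _
  have hA := ((Pj_J2 (kap 40) aL 3).const_mul ε).add (((ct_J2 (log ρ0)).mul hPS).const_mul ε)
  have hval : ∀ l ∈ Ioo (log rb + log 2) ((log N / 2 + log 2)), (ipar Y ρ0 rb N ε).u b l =
      ε * Pj (kap 40) aL 3 0 l + ε * (ct (log ρ0) l *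
      ∑ i : Fin 3, b i * Pj (kap 40) aL i 0 l) := by
    intro l hl
    have e : (ipar Y ρ0 rb N ε).u b l = ((1 - ct (log rb) l) *
      Y (l - (ipar Y ρ0 rb N ε).lam) + ct (log rb) l * (ε * (1 - ct ((log N / 2 + log 2)) l) *
      Pj (kap 40) aL 3 0 l)) + ε * ct (log ρ0) l * (1 - ct ((log N / 2 + log 2)) l) *
      ∑ i : Fin 3, b i * Pj (kap 40) aL i 0 l := rfl
    have e2 : ∑ i : Fin 3, b i * Pj (kap 40) aL i 0 l =
        ∑ i : Fin 3, b i * Pj (kap 40) aL i 0 l :=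
      Finset.sum_congr rfl fun i _ => by ring
    rw [e, ct_zero hl.2.le, ct_one hl.1.le, e2]
    ring
  obtain ⟨e1, e2⟩ := (u_J2 hc.hY.smooth b).eq_on hA isOpen_Ioo hval ⟨h0, h1⟩
  rw [hval l ⟨h0, h1⟩, e1, e2, add_sub_cancel_left, add_sub_cancel_left, add_sub_cancel_left]
  have hs := ct_b_sz hc h hb l
  unfold sz at hs
  simp only at hs
  have em : ∀ t : ℝ, |ε * t| = ε * |t| := fun t => by rw [abs_mul, abs_of_pos h.εpos]
  rw [em, em, em]
  have := mul_le_mul_of_nonneg_left hs h.εpos.le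
  linarith only [this]

/-- outer bound for `r > 2 rb` -/
theorem u_far (hc : Con g Y K) (h : Sm K ρ0 rb N ε) (hβ : β ≤ 1) {b : Fin 3 → ℝ}
    (hb : ∀ i, |b i| ≤ β)
    {l : ℝ} (h0 : log rb + log 2 < l) :
    |(ipar Y ρ0 rb N ε).u b l| + |u1 Y ρ0 rb N ε b l| + |u2 Y ρ0 rb N ε b l| ≤
      28 * K ^ 3 * (ε * (EE (kap 40) l * (1 + exp (2 * l)) ^ 3)) := by
  have hPS : J2 (fun l => ∑ i : Fin 3, b i * Pj (kap 40) aL i 0 l)
      (fun l => ∑ i : Fin 3, b i * Pj (kap 40) aL i 1 l)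
      (fun l => ∑ i : Fin 3, b i * Pj (kap 40) aL i 2 l) :=
    J2.sum _ fun i _ => (Pj_J2 (kap 40) aL i).const_mul _
  have hB := (Pj_J2 (kap 40) aL 3).add ((ct_J2 (log ρ0)).mul hPS)
  have hO := (J2.const 1).sub (ct_J2 ((log N / 2 + log 2)))
  have hA := (hO.mul hB).const_mul ε
  have hval : ∀ l ∈ Ioi (log rb + log 2), (ipar Y ρ0 rb N ε).u b l =
      ε * ((1 - ct ((log N / 2 + log 2)) l) * (Pj (kap 40) aL 3 0 l + ct (log ρ0) l *
      ∑ i : Fin 3, b i * Pj (kap 40) aL i 0 l)) := by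
    intro l hl
    have e : (ipar Y ρ0 rb N ε).u b l = ((1 - ct (log rb) l) *
      Y (l - (ipar Y ρ0 rb N ε).lam) + ct (log rb) l * (ε * (1 - ct ((log N / 2 + log 2)) l) *
      Pj (kap 40) aL 3 0 l)) + ε * ct (log ρ0) l * (1 - ct ((log N / 2 + log 2)) l) *
      ∑ i : Fin 3, b i * Pj (kap 40) aL i 0 l := rfl
    have e2 : ∑ i : Fin 3, b i * Pj (kap 40) aL i 0 l =
        ∑ i : Fin 3, b i * Pj (kap 40) aL i 0 l :=
      Finset.sum_congr rfl fun i _ => by ring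
    rw [e, ct_one (le_of_lt hl), e2]
    ring
  obtain ⟨e1, e2⟩ := (u_J2 hc.hY.smooth b).eq_on hA isOpen_Ioi hval h0
  have hK := hc.one
  have hs := sz_mul_le (f := fun l => 1 - ct ((log N / 2 + log 2)) l) (f1 := fun l => 0 - ct1 ((log N / 2 + log 2)) l)
    (f2 := fun l => 0 - ct2 ((log N / 2 + log 2)) l)
    (h := fun l => Pj (kap 40) aL 3 0 l + ct (log ρ0) l *
      ∑ i : Fin 3, b i * Pj (kap 40) aL i 0 l)
    (h1 := fun l => Pj (kap 40) aL 3 1 l +
      (ct1 (log ρ0) l * (∑ i : Fin 3, b i * Pj (kap 40) aL i 0 l) +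
        ct (log ρ0) l * ∑ i : Fin 3, b i * Pj (kap 40) aL i 1 l))
    (h2 := fun l => Pj (kap 40) aL 3 2 l +
      (ct2 (log ρ0) l * (∑ i : Fin 3, b i * Pj (kap 40) aL i 0 l) +
        2 * (ct1 (log ρ0) l * ∑ i : Fin 3, b i * Pj (kap 40) aL i 1 l) +
        ct (log ρ0) l * ∑ i : Fin 3, b i * Pj (kap 40) aL i 2 l)) l
  have hs1 : sz (fun l => 1 - ct ((log N / 2 + log 2)) l) (fun l => 0 - ct1 ((log N / 2 + log 2)) l)
      (fun l => 0 - ct2 ((log N / 2 + log 2)) l) l ≤ 2 * K := by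
    refine (sz_sub_le (f := fun _ => 1) (f1 := fun _ => 0) (f2 := fun _ => 0) l).trans ?_
    have := hc.ct ((log N / 2 + log 2)) l
    have e3 : sz (fun _ : ℝ => (1 : ℝ)) (fun _ => 0) (fun _ => 0) l = 1 := by
      unfold sz
      norm_num
    linarith only [hK, this, e3]
  have hX : 0 ≤ EE (kap 40) l * (1 + exp (2 * l)) ^ 3 := by
    have := EE_pos (kap 40) l
    have := exp_pos (2 * l)
    positivity
  have hs2 : sz (fun l => Pj (kap 40) aL 3 0 l + ct (log ρ0) l *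
      ∑ i : Fin 3, b i * Pj (kap 40) aL i 0 l)
    (fun l => Pj (kap 40) aL 3 1 l +
      (ct1 (log ρ0) l * (∑ i : Fin 3, b i * Pj (kap 40) aL i 0 l) +
        ct (log ρ0) l * ∑ i : Fin 3, b i * Pj (kap 40) aL i 1 l))
    (fun l => Pj (kap 40) aL 3 2 l +
      (ct2 (log ρ0) l * (∑ i : Fin 3, b i * Pj (kap 40) aL i 0 l) +
        2 * (ct1 (log ρ0) l * ∑ i : Fin 3, b i * Pj (kap 40) aL i 1 l) +
        ct (log ρ0) l * ∑ i : Fin 3, b i * Pj (kap 40) aL i 2 l)) l ≤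
      7 * K ^ 2 * (EE (kap 40) l * (1 + exp (2 * l)) ^ 3) := by
    refine (sz_add_le (f := Pj (kap 40) aL 3 0) (f1 := Pj (kap 40) aL 3 1)
      (f2 := Pj (kap 40) aL 3 2) l).trans ?_
    have a1 := hc.psz 3 le_rfl l
    have a2 := ct_b_sz hc h hb l
    have a3 : 6 * K ^ 2 * β * (EE (kap 40) l * (1 + exp (2 * l)) ^ 3) ≤
        6 * K ^ 2 * (EE (kap 40) l * (1 + exp (2 * l)) ^ 3) := by
      refine mul_le_mul_of_nonneg_right ?_ hX
      nlinarith only [hβ, hβ, sq_nonneg K]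
    have a4 : K * (EE (kap 40) l * (1 + exp (2 * l)) ^ 3) ≤
        K ^ 2 * (EE (kap 40) l * (1 + exp (2 * l)) ^ 3) :=
      mul_le_mul_of_nonneg_right (by nlinarith only [hK]) hX
    linarith only [a1, a2, a3, a4]
  have hs3 := hs.trans (mul_le_mul_of_nonneg_left (mul_le_mul hs1 hs2 (sz_nonneg _)
    (by linarith only [hK])) zero_le_two)
  unfold sz at hs3
  simp only at hs3
  have em : ∀ t : ℝ, |ε * t| = ε * |t| := fun t => by rw [abs_mul, abs_of_pos h.εpos]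
  rw [hval l h0, e1, e2, em, em, em]
  have h9 := mul_le_mul_of_nonneg_left hs3 h.εpos.le
  have e9 : ε * (2 * (2 * K * (7 * K ^ 2 * (EE (kap 40) l * (1 + exp (2 * l)) ^ 3)))) =
      28 * K ^ 3 * (ε * (EE (kap 40) l * (1 + exp (2 * l)) ^ 3)) := by ring
  rw [e9] at h9
  linarith only [h9]

/-- nothing beyond `2 √N` -/
theorem u_zero (hc : Con g Y K) (h : Sm K ρ0 rb N ε) (b : Fin 3 → ℝ)
    {l : ℝ} (h0 : (log N / 2 + log 2) + log 2 ≤ l) :
    (ipar Y ρ0 rb N ε).u b l = 0 ∧ u1 Y ρ0 rb N ε b l = 0 ∧ u2 Y ρ0 rb N ε b l = 0 := by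
  have hK := hc.one
  have q1 := h.logN
  have q2 := h.logρ hK
  have q3 := h.logrb
  have q4 := log_two_pos'
  have hPS : J2 (fun l => ∑ i : Fin 3, b i * Pj (kap 40) aL i 0 l)
      (fun l => ∑ i : Fin 3, b i * Pj (kap 40) aL i 1 l)
      (fun l => ∑ i : Fin 3, b i * Pj (kap 40) aL i 2 l) :=
    J2.sum _ fun i _ => (Pj_J2 (kap 40) aL i).const_mul _
  have hB := (Pj_J2 (kap 40) aL 3).add ((ct_J2 (log ρ0)).mul hPS)
  have hO := (J2.const 1).sub (ct_J2 ((log N / 2 + log 2)))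
  have hA := (hO.mul hB).const_mul ε
  have hval : ∀ l ∈ Ioi (log rb + log 2), (ipar Y ρ0 rb N ε).u b l =
      ε * ((1 - ct ((log N / 2 + log 2)) l) * (Pj (kap 40) aL 3 0 l + ct (log ρ0) l *
      ∑ i : Fin 3, b i * Pj (kap 40) aL i 0 l)) := by
    intro l hl
    have e : (ipar Y ρ0 rb N ε).u b l = ((1 - ct (log rb) l) *
      Y (l - (ipar Y ρ0 rb N ε).lam) + ct (log rb) l * (ε * (1 - ct ((log N / 2 + log 2)) l) *
      Pj (kap 40) aL 3 0 l)) + ε * ct (log ρ0) l * (1 - ct ((log N / 2 + log 2)) l) *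
      ∑ i : Fin 3, b i * Pj (kap 40) aL i 0 l := rfl
    have e2 : ∑ i : Fin 3, b i * Pj (kap 40) aL i 0 l =
        ∑ i : Fin 3, b i * Pj (kap 40) aL i 0 l :=
      Finset.sum_congr rfl fun i _ => by ring
    rw [e, ct_one (le_of_lt hl), e2]
    ring
  have hl' : l ∈ Ioi (log rb + log 2) := by
    show log rb + log 2 < l
    linarith only [h0, q1, q2, q3, q4]
  obtain ⟨e1, e2⟩ := (u_J2 hc.hY.smooth b).eq_on hA isOpen_Ioi hval hl'
  refine ⟨?_, ?_, ?_⟩
  · rw [hval l hl', ct_one h0]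
    ring
  · rw [e1, ct_one h0, ct1_zero_right h0]
    ring
  · rw [e2, ct_one h0, ct1_zero_right h0, ct2_zero_right' h0]
    ring

/-- for `r ≥ rb/2` the 2-jet of `u` is tiny compared to `s = r²/N²` -/
theorem u_tiny (hc : Con g Y K) (h : Sm K ρ0 rb N ε) (hβ : β ≤ 1) {b : Fin 3 → ℝ}
    (hb : ∀ i, |b i| ≤ β)
    {l : ℝ} (h0 : log rb - log 2 ≤ l) :
    |(ipar Y ρ0 rb N ε).u b l| + |u1 Y ρ0 rb N ε b l| + |u2 Y ρ0 rb N ε b l| ≤
      exp (2 * (l - log N)) / 10 ^ 4 := by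
  have hK := hc.one
  have hK3 : 1 ≤ K ^ 3 := one_le_pow₀ hK
  have q4 := log_two_pos'
  have s2 := Sm.s_le (N := N) h0
  rcases le_or_gt l (log rb + log 2) with hl | hl
  · have q3 := h.logrb
    have hl' : l ≤ log ρ0 := by linarith only [q4, hl, q3]
    have hn := u_near hc h b h0 hl'
    have s1 := h.eps2 hK h0
    have hE : 0 < ε * EE (kap 40) l := mul_pos h.εpos (EE_pos _ _)
    have s5 : exp (2 * l) ≤ ρ0 ^ 2 := by
      have : exp (2 * l) ≤ exp (2 * log ρ0) := exp_le_exp.2 (by linarith only [q4, hl, q3])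
      refine this.trans (le_of_eq ?_)
      rw [two_mul, exp_add, exp_log h.ρpos]
      ring
    have s6 : 3 * K ^ 2 * (ε * EE (kap 40) l * exp (2 * l)) ≤ ε * EE (kap 40) l := by
      have e1 : 3 * K ^ 2 * exp (2 * l) ≤ 1 := by
        have e2 : K ^ 2 ≤ K ^ 3 := pow_le_pow_right₀ hK (by norm_num)
        have e3 : K ^ 2 * exp (2 * l) ≤ K ^ 3 * ρ0 ^ 2 :=
          mul_le_mul e2 s5 (exp_pos _).le (by positivity)
        have := h.ρsm
        nlinarith only [e3, this]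
      nlinarith only [hE, e1]
    have k1 := kap_lo
    have k2 := kap_hi
    have t0 : |(ipar Y ρ0 rb N ε).u b l| ≤ |(ipar Y ρ0 rb N ε).u b l -
        ε * EE (kap 40) l| + ε * EE (kap 40) l := by
      have := abs_add_le ((ipar Y ρ0 rb N ε).u b l - ε * EE (kap 40) l) (ε * EE (kap 40) l)
      rw [sub_add_cancel, abs_of_pos hE] at this
      exact this
    have t1 : |u1 Y ρ0 rb N ε b l| ≤ |u1 Y ρ0 rb N ε b l -
        ε * (-(kap 40) * EE (kap 40) l)| + 2.2 * (ε * EE (kap 40) l) := by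
      have := abs_add_le (u1 Y ρ0 rb N ε b l - ε * (-(kap 40) * EE (kap 40) l))
        (ε * (-(kap 40) * EE (kap 40) l))
      rw [sub_add_cancel] at this
      have e1 : |ε * (-(kap 40) * EE (kap 40) l)| = kap 40 * (ε * EE (kap 40) l) := by
        have : ε * (-(kap 40) * EE (kap 40) l) = -(kap 40 * (ε * EE (kap 40) l)) := by ring
        rw [this, abs_neg, abs_of_pos (by positivity)]
      rw [e1] at this
      nlinarith only [hE, k2, this]
    have t2 : |u2 Y ρ0 rb N ε b l| ≤ |u2 Y ρ0 rb N ε b l -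
        ε * ((kap 40) ^ 2 * EE (kap 40) l)| + 5 * (ε * EE (kap 40) l) := by
      have := abs_add_le (u2 Y ρ0 rb N ε b l - ε * ((kap 40) ^ 2 * EE (kap 40) l))
        (ε * ((kap 40) ^ 2 * EE (kap 40) l))
      rw [sub_add_cancel] at this
      have e1 : |ε * ((kap 40) ^ 2 * EE (kap 40) l)| = kap 40 ^ 2 * (ε * EE (kap 40) l) := by
        have : ε * ((kap 40) ^ 2 * EE (kap 40) l) = kap 40 ^ 2 * (ε * EE (kap 40) l) := by ring
        rw [this, abs_of_pos (by positivity)]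
      rw [e1] at this
      have : kap 40 ^ 2 ≤ 5 := by nlinarith only [k1, k2]
      nlinarith
    have f1 : 10 ^ 6 * (ε * EE (kap 40) l) ≤ exp (2 * (l - log N)) := by
      have : 10 ^ 6 * (ε * EE (kap 40) l) ≤ 10 ^ 6 * K ^ 3 * (ε * EE (kap 40) l) := by nlinarith only [hK3, hE]
      linarith only [s2, s1, this]
    linarith only [hn, hE, s6, t0, t1, t2, f1]
  · rcases le_or_gt ((log N / 2 + log 2) + log 2) l with hl2 | hl2
    · obtain ⟨a1, a2, a3⟩ := u_zero hc h b hl2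
      rw [a1, a2, a3, abs_zero]
      have := exp_pos (2 * (l - log N))
      linarith only [this]
    · have h1 := u_far hc h hβ hb hl
      have h2 := h.eps1 hK h0 hl2.le
      have h3 : 28 * K ^ 3 * (ε * (EE (kap 40) l * (1 + exp (2 * l)) ^ 3)) * 10 ^ 4 ≤
          exp (2 * (l - log N)) := by
        refine le_trans ?_ (h2.trans s2)
        have hX : 0 ≤ K ^ 3 * (ε * (EE (kap 40) l * (1 + exp (2 * l)) ^ 3)) := by
          have := EE_pos (kap 40) l
          have := exp_pos (2 * l)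
          have := h.εpos
          positivity
        nlinarith only [hX]
      linarith only [h1, h3]

end

end Vale.Agent.P244.ST.BD
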