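import Vale.Agent.P244.ST.BInit

/-!
# P244-ST, block B4 : the inequalities satisfied by the initial data (in the variable `l = log r`)

`u, Z : ℝ → ℝ` functions of `l`; `'` is `d/dl = r d/dr`.
-/

open Set Filter Topology Real
open scoped ContDiff

namespace Vale.Agent.P244.ST.BD


/-- `r² R` (scalar curvature) from `u, Z`. -/
noncomputable def r2R (u Z : ℝ → ℝ) (l : ℝ) : ℝ :=
  40 * (39 * (cosh (u l) - Z l) - deriv Z l - Z l * (deriv u l) ^ 2 / 4)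

/-- `r² V` from `u, Z`. -/
noncomputable def r2V (u Z : ℝ → ℝ) (l : ℝ) : ℝ :=
  Z l * deriv (deriv u) l + (deriv Z l / 2 + 39 * Z l) * deriv u l + 78 * sinh (u l)

/-- `f = e/r²`, `e = 1 - G/g(u)`, `G = -u'`. -/
noncomputable def fq (g u : ℝ → ℝ) (l : ℝ) : ℝ :=
  (1 - (-(deriv u l)) / g (u l)) * exp (-2 * l)

/-- The exponent `b = 6 - κ`. -/
noncomputable def bex : ℝ := 6 - kap 40

/-- All strict bootstrap inequalities at `t = 0` (`τ = 1`, `a = 1/20`, `K = 25`, `c2 = 300`).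
`Φ` is `Φ_3`, `β` is a bound of `b`. -/
structure Boot0 (g Φ : ℝ → ℝ) (B BV M β ρ0 N ε L : ℝ) (u Z : ℝ → ℝ) : Prop where
  Zpos : ∀ l < L, 0 < Z l
  Gle : ∀ l < L, |deriv u l| < 2
  Rnn : ∀ l < L, 0 ≤ r2R u Z l
  b3 : ∀ l < L, r2R u Z l * exp (-2 * l) < 5 * 10 ^ 3 / N ^ 2
  b1u : ∀ l ≤ log ρ0, 0 < u l
  b1f : ∀ l ≤ log ρ0, |fq g u l| <
    B * (tanh (u l) / (ε * ρ0 ^ (-(kap 40)))) ^ (1 / 20 : ℝ) * cosh (u l) ^ (-(19 / 20) : ℝ)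
  b2 : ∀ l ≤ log ρ0, |r2V u Z l| * exp (-2 * l) <
    BV * (tanh (u l) / (ε * ρ0 ^ (-(kap 40)))) ^ (1 / 20 : ℝ) * tanh (u l) *
      cosh (u l) ^ (1 / 20 : ℝ)
  b4u : ∀ l ∈ Icc (log (ρ0 / 16)) (log 400), |u l| < M * ε
  b4P : ∀ l ∈ Icc (log (ρ0 / 16)) (log 400), |sqrt (Z l) * deriv u l| * exp (-l) < M * ε
  b4V : ∀ l ∈ Icc (log (ρ0 / 16)) (log 400), |r2V u Z l| * exp (-2 * l) < M * ε
  b4v : ∀ l ∈ Icc (log (ρ0 / 16)) (log 400), |u l - ε * Φ l| ≤ M * β * ε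
  b4v1 : ∀ l ∈ Icc (log (ρ0 / 16)) (log 400), |deriv u l - ε * deriv Φ l| ≤ M * β * ε
  b5u : ∀ l, log 25 ≤ l → l ≤ L →
    |u l| < M * ε * (exp (bex * l) - 300 * exp ((bex - 2) * l))
  b5P : ∀ l, log 25 ≤ l → l < L → |sqrt (Z l) * deriv u l| * exp (-l) <
    M * ε * (exp ((bex - 1) * l) - 300 * exp ((bex - 3) * l))
  b5V : ∀ l, log 25 ≤ l → l < L → |r2V u Z l| * exp (-2 * l) <
    M * ε * (exp ((bex - 2) * l) - 300 * exp ((bex - 4) * l))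

/-- coefficients `c i k` of the polynomial `l_i` (`k ≤ i ≤ 3`), `l_i(0) = 1`. -/
structure IsLagCf (c : ℕ → ℕ → ℝ) : Prop where
  zero : ∀ i : ℕ, i ≤ 3 → c i 0 = 1
  step : ∀ i : ℕ, i ≤ 3 → ∀ k : ℕ, k < i → ((k : ℝ) + 1) * ((k : ℝ) + (41 - 2 * kap 40) / 2) * c i (k + 1)
    = -((i : ℝ) - k) * c i k

/-- `Φ_i(r,1)`, `r = e^l`. -/
noncomputable def Pcf (c : ℕ → ℕ → ℝ) (i : ℕ) (l : ℝ) : ℝ :=
  exp (-(kap 40) * l) * ∑ k ∈ Finset.range (i + 1), c i k * (exp (2 * l) / 4) ^ k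

/-- The standard parameters: gluing radius `rb`, `ρ₀`, `N = Rc`, `r1 = 2 √N`. -/
noncomputable def stdPar (c : ℕ → ℕ → ℝ) (Y : ℝ → ℝ) (rb ρ0 N ε : ℝ) : IPar where
  l0 := log rb
  lb := log ρ0
  l1 := log N / 2 + log 2
  L := log N
  ε := ε
  Y := Y
  P3 := Pcf c 3
  Pb := fun i => Pcf c i.val

/-- INTERFACE B4. -/
def IneqStatement : Prop :=
  ∀ g, IsBub 40 g → ∀ Y, IsProf 40 g Y → ∀ c, IsLagCf c →
  ∃ C0 : ℝ, 1 ≤ C0 ∧ ∃ ρs > 0, ∀ ρ0 ∈ Ioc 0 ρs, ∃ M0 : ℝ, ∀ rb ∈ Ioc 0 (ρ0 / 64),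
    ∃ N0 : ℝ, ∀ N ≥ N0, ∃ ε0 > 0, ∀ ε ∈ Ioo 0 ε0,
      (stdPar c Y rb ρ0 N ε).Ok g ∧
      ∀ B ≥ C0, ∀ BV ≥ C0, ∀ M ≥ M0, ∀ b : Fin 3 → ℝ, ∀ β ≤ 1, (∀ i, |b i| ≤ β) →
        Boot0 g (Pcf c 3) B BV M β ρ0 N ε (log N) ((stdPar c Y rb ρ0 N ε).u b)
          ((stdPar c Y rb ρ0 N ε).Z g b)

end Vale.Agent.P244.ST.BD
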