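import Vale.Agent.P244.ST.BI3
import Vale.Agent.P244.ST.BIneq

/-!
# P244-ST, block B4 : pointwise estimates of the initial data, part 4 (outer metric)
-/

open Set Filter Topology Real
open scoped ContDiff

namespace Vale.Agent.P244.ST.BD

open Vale.Agent.P244.ST.BJ

theorem r2V_eq (u Z : ℝ → ℝ) (l : ℝ) :
    r2V u Z l = rVq (u l) (deriv u l) (deriv (deriv u) l) (Z l) (deriv Z l) := rfl

theorem r2R_eq (u Z : ℝ → ℝ) (l : ℝ) :
    r2R u Z l = 40 * rRq (u l) (deriv u l) (Z l) (deriv Z l) := rfl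

section

variable {g Y : ℝ → ℝ} {K ρ0 rb N ε β : ℝ}

theorem hasDerivAt_out (hY : ContDiff ℝ ∞ Y) (b : Fin 3 → ℝ) (l : ℝ) :
    HasDerivAt (fun l => exp ((ipar Y ρ0 rb N ε).u b l) * (1 - exp (2 * (l - log N))))
      (exp ((ipar Y ρ0 rb N ε).u b l) * (u1 Y ρ0 rb N ε b l * (1 - exp (2 * (l - log N))) -
        2 * exp (2 * (l - log N)))) l := by
  have h1 := (u_J2 (ρ0 := ρ0) (rb := rb) (N := N) (ε := ε) hY b).d1 l
  have h2 : HasDerivAt (fun l : ℝ => 1 - exp (2 * (l - log N))) (-(2 * exp (2 * (l - log N)))) l := by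
    have h3 : HasDerivAt (fun l : ℝ => 2 * (l - log N)) 2 l := by
      simpa using ((hasDerivAt_id l).sub_const (log N)).const_mul 2
    refine (h3.exp.const_sub 1).congr_deriv ?_
    ring
  refine (h1.exp.mul h2).congr_deriv ?_
  ring

theorem Z_out (b : Fin 3 → ℝ) {l : ℝ} (hl : log rb ≤ l) :
    (ipar Y ρ0 rb N ε).Z g b l =
      exp ((ipar Y ρ0 rb N ε).u b l) * (1 - exp (2 * (l - log N))) := by
  have e : (ipar Y ρ0 rb N ε).Z g b l = (1 - ct (log rb - log 2) l) *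
    Zs 40 g ((ipar Y ρ0 rb N ε).u b l) + ct (log rb - log 2) l *
    (exp ((ipar Y ρ0 rb N ε).u b l) * (1 - exp (2 * (l - log N)))) := rfl
  rw [e, ct_one (by linarith only [hl])]
  ring

theorem dZ_out (hc : Con g Y K) (b : Fin 3 → ℝ) {l : ℝ} (hl : log rb < l) :
    HasDerivAt ((ipar Y ρ0 rb N ε).Z g b)
      (exp ((ipar Y ρ0 rb N ε).u b l) * (u1 Y ρ0 rb N ε b l * (1 - exp (2 * (l - log N))) -
        2 * exp (2 * (l - log N)))) l := by
  refine (hasDerivAt_out hc.hY.smooth b l).congr_of_eventuallyEq ?_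
  filter_upwards [lt_mem_nhds hl] with y hy using Z_out b (le_of_lt hy)

theorem s_pos (l : ℝ) : 0 ≤ exp (2 * (l - log N)) := (exp_pos _).le

theorem s_le_one {l : ℝ} (hl : l ≤ log N) : exp (2 * (l - log N)) ≤ 1 :=
  exp_le_one_iff.2 (by linarith only [hl])

theorem deriv_u (b : Fin 3 → ℝ) (l : ℝ) :
    deriv ((ipar Y ρ0 rb N ε).u b) l = u1 Y ρ0 rb N ε b l := rfl

theorem deriv2_u (b : Fin 3 → ℝ) (l : ℝ) :
    deriv (deriv ((ipar Y ρ0 rb N ε).u b)) l = u2 Y ρ0 rb N ε b l := rfl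

/-- general bound of `r² V` for `r > rb` -/
theorem V_out (hc : Con g Y K) (h : Sm K ρ0 rb N ε) (hβ : β ≤ 1) {b : Fin 3 → ℝ}
    (hb : ∀ i, |b i| ≤ β) {l : ℝ} (hl : log rb < l) (hL : l ≤ log N) :
    |r2V ((ipar Y ρ0 rb N ε).u b) ((ipar Y ρ0 rb N ε).Z g b) l| ≤
      700 * (|(ipar Y ρ0 rb N ε).u b l| + |u1 Y ρ0 rb N ε b l| + |u2 Y ρ0 rb N ε b l|) := by
  have hq := log_two_pos'
  have ht := u_tiny hc h hβ hb (l := l) (by linarith only [hl, hq])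
  have hs := s_le_one hL
  have hs0 := s_pos (N := N) l
  have a0 := abs_nonneg ((ipar Y ρ0 rb N ε).u b l)
  have a1 := abs_nonneg (u1 Y ρ0 rb N ε b l)
  have a2 := abs_nonneg (u2 Y ρ0 rb N ε b l)
  have hbd := rVq_out_bound (u := (ipar Y ρ0 rb N ε).u b l) (u1 := u1 Y ρ0 rb N ε b l)
    (u2 := u2 Y ρ0 rb N ε b l) (s := exp (2 * (l - log N))) (δ := 1) (by linarith only [ht, hs, a1, a2]) (by linarith only [ht, hs, a0, a2])
    le_rfl hs0 hs
  rw [r2V_eq, (dZ_out hc b hl).deriv, Z_out b hl.le, deriv_u, deriv2_u]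
  have h1 : |u2 Y ρ0 rb N ε b l + 39 * u1 Y ρ0 rb N ε b l + 78 * (ipar Y ρ0 rb N ε).u b l| ≤
      78 * (|(ipar Y ρ0 rb N ε).u b l| + |u1 Y ρ0 rb N ε b l| + |u2 Y ρ0 rb N ε b l|) := by
    refine (abs_add_le _ _).trans ((add_le_add (abs_add_le _ _) le_rfl).trans ?_)
    rw [abs_mul, abs_mul, abs_of_pos (by norm_num : (0 : ℝ) < 39),
      abs_of_pos (by norm_num : (0 : ℝ) < 78)]
    linarith only [a1, a2]
  have h2 := abs_sub_abs_le_abs_sub (rVq ((ipar Y ρ0 rb N ε).u b l) (u1 Y ρ0 rb N ε b l)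
    (u2 Y ρ0 rb N ε b l) (exp ((ipar Y ρ0 rb N ε).u b l) * (1 - exp (2 * (l - log N))))
    (exp ((ipar Y ρ0 rb N ε).u b l) * (u1 Y ρ0 rb N ε b l * (1 - exp (2 * (l - log N))) -
        2 * exp (2 * (l - log N)))))
    (u2 Y ρ0 rb N ε b l + 39 * u1 Y ρ0 rb N ε b l + 78 * (ipar Y ρ0 rb N ε).u b l)
  nlinarith only [hs, a0, a1, a2, hbd, h1, h2]

/-- `0 < Z ≤ 2` for `r ≥ rb` -/
theorem Z_out_bound (hc : Con g Y K) (h : Sm K ρ0 rb N ε) (hβ : β ≤ 1) {b : Fin 3 → ℝ}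
    (hb : ∀ i, |b i| ≤ β) {l : ℝ} (hl : log rb ≤ l) (hL : l < log N) :
    0 < (ipar Y ρ0 rb N ε).Z g b l ∧ (ipar Y ρ0 rb N ε).Z g b l ≤ 2 := by
  have hq := log_two_pos'
  have ht := u_tiny hc h hβ hb (l := l) (by linarith only [hl, hq])
  have hs := s_le_one hL.le
  have hs0 := exp_pos (2 * (l - log N))
  have hs1 : exp (2 * (l - log N)) < 1 := exp_lt_one_iff.2 (by linarith only [hL])
  have a0 := abs_nonneg ((ipar Y ρ0 rb N ε).u b l)
  have a1 := abs_nonneg (u1 Y ρ0 rb N ε b l)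
  have a2 := abs_nonneg (u2 Y ρ0 rb N ε b l)
  rw [Z_out b hl]
  have h1 : |(ipar Y ρ0 rb N ε).u b l| ≤ 1 / 10 ^ 4 := by linarith only [ht, hs1, a1, a2]
  have h2 := abs_exp_sub_one_le' (h1.trans (by norm_num))
  have h3 := exp_pos ((ipar Y ρ0 rb N ε).u b l)
  have h4 : exp ((ipar Y ρ0 rb N ε).u b l) ≤ 2 := by
    have := le_of_abs_le h2
    linarith only [ht, hs0, hs1, a1, a2, this]
  refine ⟨mul_pos h3 (by linarith only [hs1]), ?_⟩
  nlinarith only [hs, hs0, h4]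

end

end Vale.Agent.P244.ST.BD
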