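import Vale.Agent.P244.ST.BI4

/-!
# P244-ST, block B4 : pointwise estimates of the initial data, part 5 (inner region)
-/

open Set Filter Topology Real
open scoped ContDiff

namespace Vale.Agent.P244.ST.BD

open Vale.Agent.P244.ST.BJ

section elementary

theorem cosh_le_one_add {u : ℝ} (h0 : 0 ≤ u) (h1 : u ≤ 1) : cosh u ≤ 1 + u ^ 2 := by
  have h := cosh_le_exp_half_sq u
  have h2 : |u ^ 2 / 2| ≤ 1 := by
    rw [abs_of_nonneg (by positivity)]
    nlinarith only [h0, h1]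
  have h3 := abs_exp_sub_one_le' h2
  rw [abs_of_nonneg (by positivity : 0 ≤ u ^ 2 / 2)] at h3
  have h4 := le_of_abs_le h3
  linarith only [h, h4]

theorem tanh_pos' {u : ℝ} (h0 : 0 < u) : 0 < tanh u := by
  rw [tanh_eq_sinh_div_cosh]
  exact div_pos (sinh_pos_iff.2 h0) (cosh_pos u)

theorem tanh_ge {u : ℝ} (h0 : 0 ≤ u) (h1 : u ≤ 1) : u - u ^ 3 ≤ tanh u := by
  rw [tanh_eq_sinh_div_cosh, le_div_iff₀ (cosh_pos u)]
  have h2 := cosh_le_one_add h0 h1
  have h3 : u ≤ sinh u := self_le_sinh_iff.2 h0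
  have h4 : 0 ≤ u - u ^ 3 := by nlinarith only [h0, h1, mul_nonneg h0 h0]
  calc (u - u ^ 3) * cosh u ≤ (u - u ^ 3) * (1 + u ^ 2) := mul_le_mul_of_nonneg_left h2 h4
    _ ≤ u := by nlinarith only [h0, pow_nonneg h0 5]
    _ ≤ sinh u := h3

theorem tanh_le_self' {u : ℝ} (h0 : 0 ≤ u) : tanh u ≤ u := by
  have h1 : ∀ x ∈ Ici (0 : ℝ), HasDerivAt (fun x => x - tanh x) (1 - (1 - tanh x ^ 2)) x := by
    intro x _
    have h2 : HasDerivAt tanh (1 - tanh x ^ 2) x := by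
      have h3 : HasDerivAt (fun x => sinh x / cosh x) ((cosh x * cosh x - sinh x * sinh x) /
        cosh x ^ 2) x := (hasDerivAt_sinh x).div (hasDerivAt_cosh x) (cosh_pos x).ne'
      have h4 : (fun x => sinh x / cosh x) = tanh := by
        funext y
        rw [tanh_eq_sinh_div_cosh]
      rw [h4] at h3
      refine h3.congr_deriv ?_
      rw [tanh_eq_sinh_div_cosh]
      have := (cosh_pos x).ne'
      field_simp
    exact (hasDerivAt_id x).sub h2
  have hm : MonotoneOn (fun x => x - tanh x) (Ici (0 : ℝ)) := by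
    refine monotoneOn_of_deriv_nonneg (convex_Ici 0)
      (fun x hx => (h1 x hx).continuousAt.continuousWithinAt)
      (fun x hx => (h1 x (interior_subset hx)).differentiableAt.differentiableWithinAt)
      fun x hx => ?_
    rw [(h1 x (interior_subset hx)).deriv]
    nlinarith only [sq_nonneg (tanh x)]
  have h5 := hm (mem_Ici.2 le_rfl) (mem_Ici.2 h0) h0
  simp only [tanh_zero] at h5
  linarith only [h5]

end elementary

section

variable {g Y : ℝ → ℝ} {K ρ0 rb N ε β : ℝ}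

/-- in the inner region `u` is close to `ε e^{-κ l}` -/
theorem u_ratio (hc : Con g Y K) (h : Sm K ρ0 rb N ε) (b : Fin 3 → ℝ) {l : ℝ}
    (hl0 : log rb - log 2 ≤ l) (hl : l ≤ log ρ0) :
    |(ipar Y ρ0 rb N ε).u b l - ε * EE (kap 40) l| ≤ ε * EE (kap 40) l / 300 ∧
    3 * K ^ 2 * exp (2 * l) ≤ 1 / 300 := by
  have hK := hc.one
  have hn := u_near hc h b hl0 hl
  have a1 := abs_nonneg (u1 Y ρ0 rb N ε b l - ε * (-(kap 40) * EE (kap 40) l))
  have a2 := abs_nonneg (u2 Y ρ0 rb N ε b l - ε * ((kap 40) ^ 2 * EE (kap 40) l))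
  have hE : 0 < ε * EE (kap 40) l := mul_pos h.εpos (EE_pos _ _)
  have s5 : exp (2 * l) ≤ ρ0 ^ 2 := by
    have : exp (2 * l) ≤ exp (2 * log ρ0) := exp_le_exp.2 (by linarith only [hl])
    refine this.trans (le_of_eq ?_)
    rw [two_mul, exp_add, exp_log h.ρpos]
    ring
  have e1 : 3 * K ^ 2 * exp (2 * l) ≤ 1 / 300 := by
    have e2 : K ^ 2 ≤ K ^ 3 := pow_le_pow_right₀ hK (by norm_num)
    have e3 : K ^ 2 * exp (2 * l) ≤ K ^ 3 * ρ0 ^ 2 :=
      mul_le_mul e2 s5 (exp_pos _).le (by positivity)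
    have := h.ρsm
    linarith only [e3, this]
  refine ⟨?_, e1⟩
  have e4 : 3 * K ^ 2 * (ε * EE (kap 40) l * exp (2 * l)) ≤ ε * EE (kap 40) l / 300 := by
    calc 3 * K ^ 2 * (ε * EE (kap 40) l * exp (2 * l)) =
        ε * EE (kap 40) l * (3 * K ^ 2 * exp (2 * l)) := by ring
      _ ≤ ε * EE (kap 40) l * (1 / 300) := mul_le_mul_of_nonneg_left e1 hE.le
      _ = _ := by ring
  linarith only [hn, a1, a2, e4]

theorem εE_small (hc : Con g Y K) (h : Sm K ρ0 rb N ε) {l : ℝ} (hl0 : log rb - log 2 ≤ l) :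
    10 ^ 6 * (ε * EE (kap 40) l) ≤ exp (2 * (l - log N)) := by
  have hK3 : 1 ≤ K ^ 3 := one_le_pow₀ hc.one
  have s1 := h.eps2 hc.one hl0
  have s2 := Sm.s_le (N := N) hl0
  have hE : 0 < ε * EE (kap 40) l := mul_pos h.εpos (EE_pos _ _)
  nlinarith only [hK3, s1, s2, hE]

theorem u_pos_in (hc : Con g Y K) (h : Sm K ρ0 rb N ε) (b : Fin 3 → ℝ) {l : ℝ}
    (hl : l ≤ log ρ0) : 0 < (ipar Y ρ0 rb N ε).u b l := by
  rcases le_or_gt l (log rb - log 2) with h0 | h0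
  · have := log_two_pos'
    rw [(u_bub hc h b (l := l) (by linarith only [h0, this])).1]
    exact hc.hY.pos _
  · obtain ⟨h1, -⟩ := u_ratio hc h b h0.le hl
    have hE : 0 < ε * EE (kap 40) l := mul_pos h.εpos (EE_pos _ _)
    have := neg_le_of_abs_le h1
    linarith only [hE, this]

theorem u_bub' (hc : Con g Y K) (h : Sm K ρ0 rb N ε) (b : Fin 3 → ℝ) {l : ℝ}
    (hl : l ≤ log rb) :
    u1 Y ρ0 rb N ε b l = -(g ((ipar Y ρ0 rb N ε).u b l)) ∧
    u2 Y ρ0 rb N ε b l = g ((ipar Y ρ0 rb N ε).u b l) * gRhs 40 ((ipar Y ρ0 rb N ε).u b l)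
      (g ((ipar Y ρ0 rb N ε).u b l)) := by
  obtain ⟨a0, a1, a2⟩ := u_bub hc h b hl
  rw [a1, a2, a0]
  have hd : deriv Y = fun l => -(g (Y l)) := funext fun l => (hc.hY.deriv l).deriv
  have hp := hc.hY.pos (l - (ipar Y ρ0 rb N ε).lam)
  refine ⟨by rw [hd], ?_⟩
  rw [hd]
  have h3 : HasDerivAt (fun l => -(g (Y l))) (-(gRhs 40 (Y (l - (ipar Y ρ0 rb N ε).lam))
      (g (Y (l - (ipar Y ρ0 rb N ε).lam))) * -(g (Y (l - (ipar Y ρ0 rb N ε).lam)))))
      (l - (ipar Y ρ0 rb N ε).lam) := ((hc.hg.deriv _ hp).comp _ (hc.hY.deriv _)).neg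
  rw [h3.deriv]
  ring

/-- derivative of `Z` in the inner region -/
theorem dZ_in (hc : Con g Y K) (h : Sm K ρ0 rb N ε) (b : Fin 3 → ℝ) {l : ℝ}
    (hl : l ≤ log ρ0) :
    HasDerivAt ((ipar Y ρ0 rb N ε).Z g b)
      ((1 - ct (log rb - log 2) l) * (g ((ipar Y ρ0 rb N ε).u b l) *
        Zs 40 g ((ipar Y ρ0 rb N ε).u b l) / 2 * u1 Y ρ0 rb N ε b l) +
      ct (log rb - log 2) l * (exp ((ipar Y ρ0 rb N ε).u b l) *
        (u1 Y ρ0 rb N ε b l * (1 - exp (2 * (l - log N))) - 2 * exp (2 * (l - log N)))) +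
      ct1 (log rb - log 2) l * (exp ((ipar Y ρ0 rb N ε).u b l) * (1 - exp (2 * (l - log N))) -
        Zs 40 g ((ipar Y ρ0 rb N ε).u b l))) l := by
  have hp := u_pos_in hc h b hl
  have h1 := (ct_J2 (log rb - log 2)).d1 l
  have h2 := (hc.hg.hasDerivAt_Zs hp).comp l ((u_J2 (ρ0 := ρ0) (rb := rb) (N := N) (ε := ε)
    hc.hY.smooth b).d1 l)
  have h3 := hasDerivAt_out (ρ0 := ρ0) (rb := rb) (N := N) (ε := ε) hc.hY.smooth b l
  have h4 := ((h1.const_sub 1).mul h2).add (h1.mul h3)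
  have e : (ipar Y ρ0 rb N ε).Z g b = fun l => (1 - ct (log rb - log 2) l) *
    Zs 40 g ((ipar Y ρ0 rb N ε).u b l) + ct (log rb - log 2) l *
    (exp ((ipar Y ρ0 rb N ε).u b l) * (1 - exp (2 * (l - log N)))) := rfl
  rw [e]
  refine h4.congr_deriv ?_
  simp only [Function.comp]
  ring

theorem Z_val (b : Fin 3 → ℝ) (l : ℝ) :
    (ipar Y ρ0 rb N ε).Z g b l = (1 - ct (log rb - log 2) l) *
    Zs 40 g ((ipar Y ρ0 rb N ε).u b l) + ct (log rb - log 2) l *
    (exp ((ipar Y ρ0 rb N ε).u b l) * (1 - exp (2 * (l - log N)))) := rfl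

/-- `Zs - 1` is small for small `u` -/
theorem Zs_near (hc : Con g Y K) {u : ℝ} (h0 : 0 < u) (h1 : u ≤ 1) : Zs 40 g u ≤ 1 + 2 * u := by
  have hq := hc.hg.qf_gt h0
  have hgp := hc.hg.g_pos h0
  have hgu : g u ≤ 2.2 * u := by
    have h2 := hc.hg.upper u h0
    have h3 := tanh_le_self' h0.le
    have h4 := kap_hi
    have h5 := tanh_pos' h0
    nlinarith only [h2, h3, h4, h5]
  unfold Zs
  rw [div_le_iff₀ (by linarith only [hq])]
  have h2 := cosh_le_one_add h0.le h1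
  have h3 : qf 40 (g u) = 39 - g u ^ 2 / 4 := by
    unfold qf
    ring
  rw [h3]
  have h4 : g u ^ 2 ≤ (2.2 * u) ^ 2 := pow_le_pow_left₀ hgp.le hgu 2
  nlinarith only [h0, h1, h2, h4, mul_nonneg h0.le h0.le, mul_nonneg (mul_nonneg h0.le h0.le) h0.le]

/-- for `rb/2 ≤ r ≤ rb`: `0 ≤ Zs - Z_out ≤ 1.001 s` -/
theorem Zs_sub_out (hc : Con g Y K) (h : Sm K ρ0 rb N ε) (b : Fin 3 → ℝ) {l : ℝ}
    (hl0 : log rb - log 2 ≤ l) (hl : l ≤ log ρ0) :
    0 ≤ Zs 40 g ((ipar Y ρ0 rb N ε).u b l) -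
      exp ((ipar Y ρ0 rb N ε).u b l) * (1 - exp (2 * (l - log N))) ∧
    Zs 40 g ((ipar Y ρ0 rb N ε).u b l) -
      exp ((ipar Y ρ0 rb N ε).u b l) * (1 - exp (2 * (l - log N))) ≤
      1.001 * exp (2 * (l - log N)) := by
  have hp := u_pos_in hc h b hl
  obtain ⟨h1, -⟩ := u_ratio hc h b hl0 hl
  have h2 := εE_small hc h hl0
  have hE : 0 < ε * EE (kap 40) l := mul_pos h.εpos (EE_pos _ _)
  have hu : 10 ^ 5 * (ipar Y ρ0 rb N ε).u b l ≤ exp (2 * (l - log N)) := by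
    have := le_of_abs_le h1
    linarith only [h2, hE, this]
  have hs0 := exp_pos (2 * (l - log N))
  have hs1 : exp (2 * (l - log N)) ≤ 1 := by
    apply s_le_one
    have := h.logN
    have := h.logρ hc.one
    linarith
  set s := exp (2 * (l - log N)) with hs
  set u := (ipar Y ρ0 rb N ε).u b l with hudef
  have hZ1 : 1 ≤ Zs 40 g u := (one_le_cosh u).trans (hc.hg.Zs_ge hp)
  have hZ2 := Zs_near hc hp (by linarith only [hE, h2, hs1, hu])
  constructor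
  · have h3 : 1 - s ≤ exp (-s) := by
      have := add_one_le_exp (-s)
      linarith only [this]
    have h4 : exp u * (1 - s) ≤ exp u * exp (-s) := mul_le_mul_of_nonneg_left h3 (exp_pos _).le
    have h5 : exp u * exp (-s) ≤ 1 := by
      rw [← exp_add]
      exact exp_le_one_iff.2 (by linarith only [hE, h2, hu])
    linarith only [hZ1, h4, h5]
  · have h3 : 1 - s ≤ exp u * (1 - s) := by
      have : 1 ≤ exp u := one_le_exp hp.le
      nlinarith only [hs1, this]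
    linarith only [hE, h2, hu, hZ2, h3]

end

end Vale.Agent.P244.ST.BD
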