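import Vale.Agent.P244.ST.BI5

/-!
# P244-ST, block B4 : pointwise estimates of the initial data, part 6 (`Z`, `R`)
-/

open Set Filter Topology Real
open scoped ContDiff

namespace Vale.Agent.P244.ST.BD

open Vale.Agent.P244.ST.BJ

section

variable {g Y : ℝ → ℝ} {K ρ0 rb N ε β : ℝ}

theorem boot_Zpos (hc : Con g Y K) (h : Sm K ρ0 rb N ε) (hβ : β ≤ 1) {b : Fin 3 → ℝ}
    (hb : ∀ i, |b i| ≤ β) {l : ℝ} (hL : l < log N) : 0 < (ipar Y ρ0 rb N ε).Z g b l := by
  rcases le_or_gt (log rb) l with hl | hl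
  · exact (Z_out_bound hc h hβ hb hl hL).1
  · have hq := h.logrb
    have hq2 := log_two_pos'
    have hp := u_pos_in hc h b (l := l) (by linarith only [hl, hq, hq2])
    rw [Z_val]
    have c0 := ct_nonneg (log rb - log 2) l
    have c1 := ct_le_one (log rb - log 2) l
    have hZ : 1 ≤ Zs 40 g ((ipar Y ρ0 rb N ε).u b l) :=
      (one_le_cosh _).trans (hc.hg.Zs_ge hp)
    have hs : exp (2 * (l - log N)) < 1 := exp_lt_one_iff.2 (by linarith only [hL])
    have hO : 0 < exp ((ipar Y ρ0 rb N ε).u b l) * (1 - exp (2 * (l - log N))) :=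
      mul_pos (exp_pos _) (by linarith only [hs])
    rcases eq_or_lt_of_le c0 with hz | hz
    · rw [← hz]
      linarith only [hZ]
    · have := mul_pos hz hO
      have := mul_nonneg (sub_nonneg.2 c1) (by linarith only [hZ] : 0 ≤ Zs 40 g ((ipar Y ρ0 rb N ε).u b l))
      linarith

theorem boot_Gle (hc : Con g Y K) (h : Sm K ρ0 rb N ε) (hβ : β ≤ 1) {b : Fin 3 → ℝ}
    (hb : ∀ i, |b i| ≤ β) {l : ℝ} (hL : l < log N) :
    |deriv ((ipar Y ρ0 rb N ε).u b) l| < 2 := by
  rw [deriv_u]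
  rcases le_or_gt l (log rb) with hl | hl
  · have hq := h.logrb
    have hq2 := log_two_pos'
    have hp := u_pos_in hc h b (l := l) (by linarith only [hl, hq, hq2])
    rw [(u_bub' hc h b hl).1, abs_neg, abs_of_pos (hc.hg.g_pos hp)]
    exact hc.hg.lt_two _ hp
  · have hq2 := log_two_pos'
    have h1 := u_tiny hc h hβ hb (l := l) (by linarith only [hl, hq2])
    have h2 := s_le_one hL.le
    have a0 := abs_nonneg ((ipar Y ρ0 rb N ε).u b l)
    have a2 := abs_nonneg (u2 Y ρ0 rb N ε b l)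
    linarith only [h1, h2, a0, a2]

/-- `41 s` up to `1/400` for the outer metric -/
theorem R_out (hc : Con g Y K) (h : Sm K ρ0 rb N ε) (hβ : β ≤ 1) {b : Fin 3 → ℝ}
    (hb : ∀ i, |b i| ≤ β) {l : ℝ} (hl : log rb - log 2 ≤ l) (hL : l ≤ log N) :
    |rRq ((ipar Y ρ0 rb N ε).u b l) (u1 Y ρ0 rb N ε b l)
      (exp ((ipar Y ρ0 rb N ε).u b l) * (1 - exp (2 * (l - log N))))
      (exp ((ipar Y ρ0 rb N ε).u b l) * (u1 Y ρ0 rb N ε b l * (1 - exp (2 * (l - log N))) -
        2 * exp (2 * (l - log N)))) - 41 * exp (2 * (l - log N))| ≤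
      exp (2 * (l - log N)) / 40 := by
  have ht := u_tiny hc h hβ hb hl
  have hs := s_le_one hL
  have hs0 := exp_pos (2 * (l - log N))
  have a0 := abs_nonneg ((ipar Y ρ0 rb N ε).u b l)
  have a1 := abs_nonneg (u1 Y ρ0 rb N ε b l)
  have a2 := abs_nonneg (u2 Y ρ0 rb N ε b l)
  have hbd := rRq_out_bound (u := (ipar Y ρ0 rb N ε).u b l) (u1 := u1 Y ρ0 rb N ε b l)
    (s := exp (2 * (l - log N))) (δ := exp (2 * (l - log N)) / 10 ^ 4) (by linarith only [ht, a1, a2])
    (by linarith only [ht, a0, a2]) (by linarith only [hs]) hs0.le hs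
  linarith only [hbd]

theorem boot_R (hc : Con g Y K) (h : Sm K ρ0 rb N ε) (hβ : β ≤ 1) {b : Fin 3 → ℝ}
    (hb : ∀ i, |b i| ≤ β) {l : ℝ} (hL : l < log N) :
    0 ≤ r2R ((ipar Y ρ0 rb N ε).u b) ((ipar Y ρ0 rb N ε).Z g b) l ∧
    r2R ((ipar Y ρ0 rb N ε).u b) ((ipar Y ρ0 rb N ε).Z g b) l ≤
      3000 * exp (2 * (l - log N)) := by
  have hs0 := exp_pos (2 * (l - log N))
  have hq := h.logrb
  have hq2 := log_two_pos'
  rw [r2R_eq, deriv_u]
  rcases lt_or_ge (log rb) l with hl | hl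
  · rw [(dZ_out hc b hl).deriv, Z_out b hl.le]
    have h1 := R_out hc h hβ hb (l := l) (by linarith only [hq2, hl]) hL.le
    have h2 := le_of_abs_le h1
    have h3 := neg_le_of_abs_le h1
    constructor <;> linarith only [hs0, h3, h2]
  · have hl' : l ≤ log ρ0 := by linarith only [hq, hq2, hl]
    have hp := u_pos_in hc h b hl'
    rw [(dZ_in hc h b hl').deriv, Z_val]
    have hbub := (u_bub' hc h b hl).1
    have h0 := hc.hg.rRq_eq_zero hp
    rw [rRq_affine, hbub, h0, mul_zero, zero_add, ← hbub]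
    rcases le_or_gt l (log rb - log 2) with hl2 | hl2
    · rw [ct_zero hl2, ct1_zero_left hl2]
      constructor
      · simp
      · simp only [zero_mul, add_zero, mul_zero]
        positivity
    · have h1 := R_out hc h hβ hb hl2.le hL.le
      have h2 := le_of_abs_le h1
      have h3 := neg_le_of_abs_le h1
      obtain ⟨h4, h5⟩ := Zs_sub_out hc h b hl2.le hl'
      have c0 := ct_nonneg (log rb - log 2) l
      have c1 := ct_le_one (log rb - log 2) l
      have d0 := ct1_nonneg (log rb - log 2) l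
      have d1 := ct1_le (log rb - log 2) l
      have e1 := mul_nonneg d0 h4
      have e2 := mul_le_mul d1 h5 h4 (by norm_num)
      set X := rRq ((ipar Y ρ0 rb N ε).u b l) (u1 Y ρ0 rb N ε b l)
        (exp ((ipar Y ρ0 rb N ε).u b l) * (1 - exp (2 * (l - log N))))
        (exp ((ipar Y ρ0 rb N ε).u b l) * (u1 Y ρ0 rb N ε b l * (1 - exp (2 * (l - log N))) -
        2 * exp (2 * (l - log N)))) with hX
      have hX0 : 0 ≤ X := by linarith only [hs0, h3]
      have hX1 : X ≤ 42 * exp (2 * (l - log N)) := by linarith only [hs0, h2]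
      have e3 := mul_nonneg c0 hX0
      have e4 : ct (log rb - log 2) l * X ≤ 1 * (42 * exp (2 * (l - log N))) :=
        mul_le_mul c1 hX1 hX0 zero_le_one
      constructor <;> linarith only [e1, e3, hs0, e2, e4]

theorem boot_b3 (hc : Con g Y K) (h : Sm K ρ0 rb N ε) (hβ : β ≤ 1) {b : Fin 3 → ℝ}
    (hb : ∀ i, |b i| ≤ β) {l : ℝ} (hL : l < log N) :
    r2R ((ipar Y ρ0 rb N ε).u b) ((ipar Y ρ0 rb N ε).Z g b) l * exp (-2 * l) <
      5 * 10 ^ 3 / N ^ 2 := by
  obtain ⟨-, h2⟩ := boot_R hc h hβ hb hL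
  have hN : 0 < N := lt_of_lt_of_le (by norm_num) h.hN
  have h3 : exp (2 * (l - log N)) * exp (-2 * l) = (N ^ 2)⁻¹ := by
    rw [← exp_add]
    have : 2 * (l - log N) + -2 * l = -(log N + log N) := by ring
    rw [this, exp_neg, exp_add, exp_log hN, pow_two]
  have h4 := mul_le_mul_of_nonneg_right h2 (exp_pos (-2 * l)).le
  have h5 : 3000 * exp (2 * (l - log N)) * exp (-2 * l) = 3000 * (N ^ 2)⁻¹ := by
    rw [mul_assoc, h3]
  rw [h5] at h4
  refine lt_of_le_of_lt h4 ?_
  rw [div_eq_mul_inv]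
  have : 0 < (N ^ 2)⁻¹ := by positivity
  nlinarith only [this]

end

end Vale.Agent.P244.ST.BD
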