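import Vale.Agent.P244.ST.BI6

/-!
# P244-ST, block B4 : pointwise estimates of the initial data, part 7 (`f`, `V` in region I)
-/

open Set Filter Topology Real
open scoped ContDiff

namespace Vale.Agent.P244.ST.BD

open Vale.Agent.P244.ST.BJ

section

variable {g Y : ℝ → ℝ} {K ρ0 rb N ε β : ℝ}

/-- sizes in the inner region -/
theorem u_in_size (hc : Con g Y K) (h : Sm K ρ0 rb N ε) (b : Fin 3 → ℝ) {l : ℝ}
    (hl0 : log rb - log 2 ≤ l) (hl : l ≤ log ρ0) :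
    |(ipar Y ρ0 rb N ε).u b l| + |u1 Y ρ0 rb N ε b l| + |u2 Y ρ0 rb N ε b l| ≤
      9 * (ε * EE (kap 40) l) ∧ |u1 Y ρ0 rb N ε b l| ≤ 3 * (ε * EE (kap 40) l) := by
  obtain ⟨-, h1⟩ := u_ratio hc h b hl0 hl
  have hn := u_near hc h b hl0 hl
  have hE : 0 < ε * EE (kap 40) l := mul_pos h.εpos (EE_pos _ _)
  have k1 := kap_lo
  have k2 := kap_hi
  have s6 : 3 * K ^ 2 * (ε * EE (kap 40) l * exp (2 * l)) ≤ ε * EE (kap 40) l / 300 := by
    calc 3 * K ^ 2 * (ε * EE (kap 40) l * exp (2 * l)) =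
        ε * EE (kap 40) l * (3 * K ^ 2 * exp (2 * l)) := by ring
      _ ≤ ε * EE (kap 40) l * (1 / 300) := mul_le_mul_of_nonneg_left h1 hE.le
      _ = _ := by ring
  have t0 : |(ipar Y ρ0 rb N ε).u b l| ≤ |(ipar Y ρ0 rb N ε).u b l -
      ε * EE (kap 40) l| + ε * EE (kap 40) l := by
    have := abs_add_le ((ipar Y ρ0 rb N ε).u b l - ε * EE (kap 40) l) (ε * EE (kap 40) l)
    rw [sub_add_cancel, abs_of_pos hE] at this
    exact this
  have t1 : |u1 Y ρ0 rb N ε b l| ≤ |u1 Y ρ0 rb N ε b l -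
      ε * (-(kap 40) * EE (kap 40) l)| + 2.2 * (ε * EE (kap 40) l) := by
    have := abs_add_le (u1 Y ρ0 rb N ε b l - ε * (-(kap 40) * EE (kap 40) l))
      (ε * (-(kap 40) * EE (kap 40) l))
    rw [sub_add_cancel] at this
    have e1 : |ε * (-(kap 40) * EE (kap 40) l)| = kap 40 * (ε * EE (kap 40) l) := by
      have : ε * (-(kap 40) * EE (kap 40) l) = -(kap 40 * (ε * EE (kap 40) l)) := by ring
      rw [this, abs_neg, abs_of_pos (by positivity)]
    rw [e1] at this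
    nlinarith only [hE, k2, this]
  have t2 : |u2 Y ρ0 rb N ε b l| ≤ |u2 Y ρ0 rb N ε b l -
      ε * ((kap 40) ^ 2 * EE (kap 40) l)| + 5 * (ε * EE (kap 40) l) := by
    have := abs_add_le (u2 Y ρ0 rb N ε b l - ε * ((kap 40) ^ 2 * EE (kap 40) l))
      (ε * ((kap 40) ^ 2 * EE (kap 40) l))
    rw [sub_add_cancel] at this
    have e1 : |ε * ((kap 40) ^ 2 * EE (kap 40) l)| = kap 40 ^ 2 * (ε * EE (kap 40) l) := by
      have : ε * ((kap 40) ^ 2 * EE (kap 40) l) = kap 40 ^ 2 * (ε * EE (kap 40) l) := by ring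
      rw [this, abs_of_pos (by positivity)]
    rw [e1] at this
    have : kap 40 ^ 2 ≤ 5 := by nlinarith only [k1, k2]
    nlinarith
  have n0 := abs_nonneg ((ipar Y ρ0 rb N ε).u b l - ε * EE (kap 40) l)
  have n1 := abs_nonneg (u1 Y ρ0 rb N ε b l - ε * (-(kap 40) * EE (kap 40) l))
  have n2 := abs_nonneg (u2 Y ρ0 rb N ε b l - ε * ((kap 40) ^ 2 * EE (kap 40) l))
  constructor <;> linarith only [hn, hE, s6, t0, t1, t2, n0, n2]

/-- linear part -/
theorem lin_in (hc : Con g Y K) (h : Sm K ρ0 rb N ε) (b : Fin 3 → ℝ) {l : ℝ}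
    (hl0 : log rb - log 2 ≤ l) (hl : l ≤ log ρ0) :
    |u2 Y ρ0 rb N ε b l + 39 * u1 Y ρ0 rb N ε b l + 78 * (ipar Y ρ0 rb N ε).u b l| ≤
      240 * K ^ 2 * (ε * EE (kap 40) l * exp (2 * l)) := by
  have hn := u_near hc h b hl0 hl
  have hk := kap_eq
  have e : u2 Y ρ0 rb N ε b l + 39 * u1 Y ρ0 rb N ε b l + 78 * (ipar Y ρ0 rb N ε).u b l =
      (u2 Y ρ0 rb N ε b l - ε * ((kap 40) ^ 2 * EE (kap 40) l)) +
      39 * (u1 Y ρ0 rb N ε b l - ε * (-(kap 40) * EE (kap 40) l)) +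
      78 * ((ipar Y ρ0 rb N ε).u b l - ε * EE (kap 40) l) := by
    linear_combination (ε * EE (kap 40) l) * hk
  rw [e]
  have n0 := abs_nonneg ((ipar Y ρ0 rb N ε).u b l - ε * EE (kap 40) l)
  have n1 := abs_nonneg (u1 Y ρ0 rb N ε b l - ε * (-(kap 40) * EE (kap 40) l))
  have n2 := abs_nonneg (u2 Y ρ0 rb N ε b l - ε * ((kap 40) ^ 2 * EE (kap 40) l))
  refine (abs_add_le _ _).trans ((add_le_add (abs_add_le _ _) le_rfl).trans ?_)
  rw [abs_mul (39 : ℝ), abs_mul (78 : ℝ), abs_of_pos (by norm_num : (0 : ℝ) < 39),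
    abs_of_pos (by norm_num : (0 : ℝ) < 78)]
  linarith only [hn, n0, n1, n2]

/-- `V` of the outer metric in the inner region -/
theorem V_in_out (hc : Con g Y K) (h : Sm K ρ0 rb N ε) (b : Fin 3 → ℝ) {l : ℝ}
    (hl0 : log rb - log 2 ≤ l) (hl : l ≤ log ρ0) :
    |rVq ((ipar Y ρ0 rb N ε).u b l) (u1 Y ρ0 rb N ε b l) (u2 Y ρ0 rb N ε b l)
      (exp ((ipar Y ρ0 rb N ε).u b l) * (1 - exp (2 * (l - log N))))
      (exp ((ipar Y ρ0 rb N ε).u b l) * (u1 Y ρ0 rb N ε b l * (1 - exp (2 * (l - log N))) -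
        2 * exp (2 * (l - log N))))| ≤ 2800 * K ^ 2 * (ε * EE (kap 40) l * exp (2 * l)) := by
  have hK := hc.one
  have hK2 : 1 ≤ K ^ 2 := one_le_pow₀ hK
  have hE : 0 < ε * EE (kap 40) l := mul_pos h.εpos (EE_pos _ _)
  have hE2 := exp_pos (2 * l)
  have hε := εE_small hc h hl0
  have hs' := h.s_le' l
  have hs0 := exp_pos (2 * (l - log N))
  have hs1 : exp (2 * (l - log N)) ≤ 1 := by
    apply s_le_one
    have := h.logN
    have := h.logρ hc.one
    linarith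
  obtain ⟨z1, z2⟩ := u_in_size hc h b hl0 hl
  have a0 := abs_nonneg ((ipar Y ρ0 rb N ε).u b l)
  have a1 := abs_nonneg (u1 Y ρ0 rb N ε b l)
  have a2 := abs_nonneg (u2 Y ρ0 rb N ε b l)
  have hbd := rVq_out_bound (u := (ipar Y ρ0 rb N ε).u b l) (u1 := u1 Y ρ0 rb N ε b l)
    (u2 := u2 Y ρ0 rb N ε b l) (s := exp (2 * (l - log N)))
    (δ := exp (2 * (l - log N)) / 10 ^ 4) (by linarith only [hE, hε, z1, a1, a2]) (by linarith only [hE, hε, z2]) (by linarith only [hE, hε, hs1]) hs0.le hs1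
  have hlin := lin_in hc h b hl0 hl
  set X := rVq ((ipar Y ρ0 rb N ε).u b l) (u1 Y ρ0 rb N ε b l) (u2 Y ρ0 rb N ε b l)
      (exp ((ipar Y ρ0 rb N ε).u b l) * (1 - exp (2 * (l - log N))))
      (exp ((ipar Y ρ0 rb N ε).u b l) * (u1 Y ρ0 rb N ε b l * (1 - exp (2 * (l - log N))) -
        2 * exp (2 * (l - log N)))) with hX
  have h1 := abs_sub_abs_le_abs_sub X
    (u2 Y ρ0 rb N ε b l + 39 * u1 Y ρ0 rb N ε b l + 78 * (ipar Y ρ0 rb N ε).u b l)
  have h2 : 250 * (exp (2 * (l - log N)) / 10 ^ 4 + exp (2 * (l - log N))) *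
      (|(ipar Y ρ0 rb N ε).u b l| + |u1 Y ρ0 rb N ε b l| + |u2 Y ρ0 rb N ε b l|) ≤
      251 * exp (2 * l) * (9 * (ε * EE (kap 40) l)) :=
    mul_le_mul (by linarith only [hE, hε, hs']) z1 (by positivity) (by positivity)
  have h3 : 251 * exp (2 * l) * (9 * (ε * EE (kap 40) l)) ≤
      2259 * K ^ 2 * (ε * EE (kap 40) l * exp (2 * l)) := by
    have : 251 * exp (2 * l) * (9 * (ε * EE (kap 40) l)) =
      2259 * 1 * (ε * EE (kap 40) l * exp (2 * l)) := by ring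
    rw [this]
    gcongr
  have h4 : 0 ≤ K ^ 2 * (ε * EE (kap 40) l * exp (2 * l)) := by positivity
  linarith only [hlin, hbd, h1, h2, h3, h4]

theorem V_in (hc : Con g Y K) (h : Sm K ρ0 rb N ε) (b : Fin 3 → ℝ) {l : ℝ}
    (hl0 : log rb - log 2 ≤ l) (hl : l ≤ log ρ0) :
    |r2V ((ipar Y ρ0 rb N ε).u b) ((ipar Y ρ0 rb N ε).Z g b) l| ≤
      2850 * K ^ 2 * (ε * EE (kap 40) l * exp (2 * l)) := by
  have hK := hc.one
  have hK2 : 1 ≤ K ^ 2 := one_le_pow₀ hK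
  have hE : 0 < ε * EE (kap 40) l := mul_pos h.εpos (EE_pos _ _)
  have hE2 := exp_pos (2 * l)
  have h4 : 0 ≤ K ^ 2 * (ε * EE (kap 40) l * exp (2 * l)) := by positivity
  have hO := V_in_out hc h b hl0 hl
  rw [r2V_eq, deriv_u, deriv2_u]
  rcases lt_or_ge (log rb) l with hl' | hl'
  · rw [(dZ_out hc b hl').deriv, Z_out b hl'.le]
    linarith only [h4, hO]
  · have hp := u_pos_in hc h b hl
    rw [(dZ_in hc h b hl).deriv, Z_val, rVq_affine]
    obtain ⟨hb1, hb2⟩ := u_bub' hc h b hl'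
    have h0 : rVq ((ipar Y ρ0 rb N ε).u b l) (u1 Y ρ0 rb N ε b l) (u2 Y ρ0 rb N ε b l)
        (Zs 40 g ((ipar Y ρ0 rb N ε).u b l)) (g ((ipar Y ρ0 rb N ε).u b l) *
        Zs 40 g ((ipar Y ρ0 rb N ε).u b l) / 2 * u1 Y ρ0 rb N ε b l) = 0 := by
      rw [hb1, hb2]
      exact hc.hg.rVq_eq_zero hp
    rw [h0, mul_zero, zero_add]
    obtain ⟨z1, z2⟩ := u_in_size hc h b hl0 hl
    obtain ⟨d1, d2⟩ := Zs_sub_out hc h b hl0 hl
    have hs' := h.s_le' l
    have c0 := ct_nonneg (log rb - log 2) l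
    have c1 := ct_le_one (log rb - log 2) l
    have e0 := ct1_nonneg (log rb - log 2) l
    have e1 := ct1_le (log rb - log 2) l
    refine (abs_add_le _ _).trans ?_
    have f1 : |ct (log rb - log 2) l * rVq ((ipar Y ρ0 rb N ε).u b l) (u1 Y ρ0 rb N ε b l)
        (u2 Y ρ0 rb N ε b l)
        (exp ((ipar Y ρ0 rb N ε).u b l) * (1 - exp (2 * (l - log N))))
        (exp ((ipar Y ρ0 rb N ε).u b l) * (u1 Y ρ0 rb N ε b l * (1 - exp (2 * (l - log N))) -
        2 * exp (2 * (l - log N))))| ≤ 1 * (2800 * K ^ 2 * (ε * EE (kap 40) l * exp (2 * l))) := by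
      rw [abs_mul, abs_of_nonneg c0]
      exact mul_le_mul c1 hO (abs_nonneg _) zero_le_one
    have f2 : |ct1 (log rb - log 2) l * (exp ((ipar Y ρ0 rb N ε).u b l) *
        (1 - exp (2 * (l - log N))) - Zs 40 g ((ipar Y ρ0 rb N ε).u b l)) *
        u1 Y ρ0 rb N ε b l / 2| ≤ 45 * (ε * EE (kap 40) l * exp (2 * l)) := by
      rw [abs_div, abs_mul, abs_mul, abs_of_nonneg e0, abs_of_pos (two_pos : (0 : ℝ) < 2)]
      have f3 : |exp ((ipar Y ρ0 rb N ε).u b l) * (1 - exp (2 * (l - log N))) -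
          Zs 40 g ((ipar Y ρ0 rb N ε).u b l)| ≤ 1.001 * exp (2 * l) := by
        rw [abs_sub_comm, abs_of_nonneg d1]
        linarith only [d2, hs']
      have f4 : ct1 (log rb - log 2) l * |exp ((ipar Y ρ0 rb N ε).u b l) *
          (1 - exp (2 * (l - log N))) - Zs 40 g ((ipar Y ρ0 rb N ε).u b l)| *
          |u1 Y ρ0 rb N ε b l| ≤ 29 * (1.001 * exp (2 * l)) * (3 * (ε * EE (kap 40) l)) :=
        mul_le_mul (mul_le_mul e1 f3 (abs_nonneg _) (by norm_num)) z2 (abs_nonneg _)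
          (by positivity)
      have f5 : 0 ≤ ε * EE (kap 40) l * exp (2 * l) := by positivity
      linarith only [f4, f5]
    have f6 : ε * EE (kap 40) l * exp (2 * l) ≤ K ^ 2 * (ε * EE (kap 40) l * exp (2 * l)) := by
      have : 0 ≤ ε * EE (kap 40) l * exp (2 * l) := by positivity
      nlinarith only [hK2, this]
    linarith only [h4, f1, f2, f6]

theorem V_bub (hc : Con g Y K) (h : Sm K ρ0 rb N ε) (b : Fin 3 → ℝ) {l : ℝ}
    (hl : l ≤ log rb - log 2) :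
    r2V ((ipar Y ρ0 rb N ε).u b) ((ipar Y ρ0 rb N ε).Z g b) l = 0 := by
  have hq := h.logrb
  have hq2 := log_two_pos'
  have hl' : l ≤ log ρ0 := by linarith only [hl, hq, hq2]
  have hp := u_pos_in hc h b hl'
  rw [r2V_eq, deriv_u, deriv2_u, (dZ_in hc h b hl').deriv, Z_val, rVq_affine]
  obtain ⟨hb1, hb2⟩ := u_bub' hc h b (l := l) (by linarith only [hl, hq2])
  have h0 : rVq ((ipar Y ρ0 rb N ε).u b l) (u1 Y ρ0 rb N ε b l) (u2 Y ρ0 rb N ε b l)
      (Zs 40 g ((ipar Y ρ0 rb N ε).u b l)) (g ((ipar Y ρ0 rb N ε).u b l) *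
      Zs 40 g ((ipar Y ρ0 rb N ε).u b l) / 2 * u1 Y ρ0 rb N ε b l) = 0 := by
    rw [hb1, hb2]
    exact hc.hg.rVq_eq_zero hp
  rw [h0, ct_zero hl, ct1_zero_left hl]
  ring

/-- `g(u) = κ u + O(u³)` -/
theorem g_near (hc : Con g Y K) {u : ℝ} (h0 : 0 < u) (h1 : u ≤ 1) :
    |g u - kap 40 * u| ≤ 4 * K * u ^ 3 := by
  have hK := hc.one
  have h2 := hc.hg.upper u h0
  have h3 := tanh_le_self' h0.le
  have h4 := tanh_ge h0.le h1
  have h5 := tanh_pos' h0
  have k1 := kap_lo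
  have k2 := kap_hi
  have h6 := hc.nz u h0
  have h7 : kap 40 * tanh u - g u ≤ K * tanh u ^ 3 := by
    have h8 := mul_le_mul_of_nonneg_right h6 h5.le
    have h9 : (kap 40 - g u / tanh u) * tanh u = kap 40 * tanh u - g u := by
      field_simp
    rw [h9] at h8
    linarith only [h8, pow_succ (tanh u) 2]
  have h8 : tanh u ^ 3 ≤ u ^ 3 := pow_le_pow_left₀ h5.le h3 3
  have h9 : 0 < u ^ 3 := by positivity
  rw [abs_le]
  constructor
  · have e1 : kap 40 * (u - u ^ 3) ≤ kap 40 * tanh u :=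
      mul_le_mul_of_nonneg_left h4 (by linarith only [k1, k2])
    have e2 : K * tanh u ^ 3 ≤ K * u ^ 3 := mul_le_mul_of_nonneg_left h8 (by linarith only [hK, k1, k2])
    nlinarith only [hK, h2, h3, h4, k1, k2, h7, h8]
  · nlinarith only [hK, h2, h3, k1, k2, h7, h8]

/-- `|e| ≤ 12 K² r²` -/
theorem e_in (hc : Con g Y K) (h : Sm K ρ0 rb N ε) (b : Fin 3 → ℝ) {l : ℝ}
    (hl0 : log rb - log 2 ≤ l) (hl : l ≤ log ρ0) :
    |1 - (-(u1 Y ρ0 rb N ε b l)) / g ((ipar Y ρ0 rb N ε).u b l)| ≤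
      12 * K ^ 2 * exp (2 * l) := by
  have hK := hc.one
  have hK2 : 1 ≤ K ^ 2 := one_le_pow₀ hK
  have hE : 0 < ε * EE (kap 40) l := mul_pos h.εpos (EE_pos _ _)
  have hE2 := exp_pos (2 * l)
  obtain ⟨r1, r2⟩ := u_ratio hc h b hl0 hl
  have hn := u_near hc h b hl0 hl
  have hε := εE_small hc h hl0
  have hs' := h.s_le' l
  have hl00 : l ≤ 0 := hl.trans (h.logρ hK)
  have s5 : exp (2 * l) ≤ 1 := exp_le_one_iff.2 (by linarith only [hl00])
  have k1 := kap_lo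
  have k2 := kap_hi
  have hp := u_pos_in hc h b hl
  set u := (ipar Y ρ0 rb N ε).u b l with hu
  set E := ε * EE (kap 40) l with hEdef
  have hu1 : u ≤ 1.01 * E := by
    have := le_of_abs_le r1
    linarith only [hE, this]
  have hu2 : 0.99 * E ≤ u := by
    have := neg_le_of_abs_le r1
    linarith only [hp, this]
  have hu3 : u ≤ 1 := by linarith only [hs', s5, hE, hε, hu1]
  have hg1 := g_near hc hp hu3
  have hg2 := hc.hg.lower u hp
  have hg3 := tanh_ge hp.le hu3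
  have hg4 : 1.5 * E ≤ g u := by
    have : u ^ 3 ≤ u / 10 := by
      have h9 : u ^ 2 ≤ 1 / 10 := by nlinarith only [hK2, hE2, r2, hs', s5, k1, k2, hp, hε, hu1]
      nlinarith
    linarith only [hp, hu2, hg2, hg3, this]
  have hgp : 0 < g u := by linarith only [hE, hg4]
  have e1 : 1 - (-(u1 Y ρ0 rb N ε b l)) / g u = (g u + u1 Y ρ0 rb N ε b l) / g u := by
    field_simp
    ring
  rw [e1, abs_div, abs_of_pos hgp, div_le_iff₀ hgp]
  have n2 := abs_nonneg (u2 Y ρ0 rb N ε b l - ε * ((kap 40) ^ 2 * EE (kap 40) l))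
  have e2 : g u + u1 Y ρ0 rb N ε b l = (g u - kap 40 * u) + kap 40 * (u - E) +
      (u1 Y ρ0 rb N ε b l - ε * (-(kap 40) * EE (kap 40) l)) := by
    rw [hEdef]
    ring
  have e3 : |g u + u1 Y ρ0 rb N ε b l| ≤ |g u - kap 40 * u| + kap 40 * |u - E| +
      |u1 Y ρ0 rb N ε b l - ε * (-(kap 40) * EE (kap 40) l)| := by
    rw [e2]
    refine (abs_add_le _ _).trans (add_le_add ((abs_add_le _ _).trans (le_of_eq ?_)) le_rfl)
    rw [abs_mul, abs_of_pos (by linarith only [hs', s5, k1, hE, hε] : 0 < kap 40)]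
  have n0 := abs_nonneg (u - E)
  have n1 := abs_nonneg (u1 Y ρ0 rb N ε b l - ε * (-(kap 40) * EE (kap 40) l))
  have e4 : 4 * K * u ^ 3 ≤ K ^ 2 * (E * exp (2 * l)) := by
    have e5 : u ^ 3 ≤ 1.1 * E ^ 3 := by
      have := pow_le_pow_left₀ hp.le hu1 3
      have e6 : (1.01 * E) ^ 3 = 1.030301 * E ^ 3 := by ring
      rw [e6] at this
      have : 0 < E ^ 3 := by positivity
      linarith
    have e7 : E ^ 2 ≤ exp (2 * l) / 10 ^ 6 := by nlinarith only [hE2, hs', s5, hE, hε]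
    have e8 : E ^ 3 ≤ E * exp (2 * l) / 10 ^ 6 := by
      calc E ^ 3 = E * E ^ 2 := by ring
        _ ≤ E * (exp (2 * l) / 10 ^ 6) := mul_le_mul_of_nonneg_left e7 hE.le
        _ = _ := by ring
    have e9 : u ^ 3 ≤ E * exp (2 * l) / 10 := by
      have : 0 < E * exp (2 * l) := by positivity
      linarith only [e5, e8, this]
    have e10 : K ≤ K ^ 2 := by nlinarith only [hK, hK2]
    calc 4 * K * u ^ 3 ≤ 4 * K ^ 2 * (E * exp (2 * l) / 10) :=
          mul_le_mul (by linarith only [e10]) e9 (by positivity) (by positivity)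
      _ ≤ K ^ 2 * (E * exp (2 * l)) := by
          have : 0 < K ^ 2 * (E * exp (2 * l)) := by positivity
          linarith only [this]
  have e5 : kap 40 * |u - E| ≤ 2.2 * |u - E| := mul_le_mul_of_nonneg_right k2.le n0
  have e6 : 12 * K ^ 2 * exp (2 * l) * (1.5 * E) ≤ 12 * K ^ 2 * exp (2 * l) * g u :=
    mul_le_mul_of_nonneg_left hg4 (by positivity)
  have e7 : 12 * K ^ 2 * exp (2 * l) * (1.5 * E) = 18 * (K ^ 2 * (E * exp (2 * l))) := by ring
  have e8 : 3 * K ^ 2 * (E * exp (2 * l)) = 3 * (K ^ 2 * (E * exp (2 * l))) := by ring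
  have e9 : 0 < K ^ 2 * (E * exp (2 * l)) := by positivity
  rw [e8] at hn
  linarith only [hn, hg1, n2, e3, n1, e4, e5, e6, e9]

end

end Vale.Agent.P244.ST.BD
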