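import Vale.Agent.P244.ST.BIneqO
import Vale.Agent.P244.ST.BI4

/-!
# P244-ST, block B4 : the fields `b4*`, `b5*` of `Boot0` for the initial data
-/

open Set Filter Topology Real
open scoped ContDiff

namespace Vale.Agent.P244.ST.BD.BIneqO

open Vale.Agent.P244.ST.BJ

variable {g Y : ℝ → ℝ} {K ρ0 rb N ε β : ℝ}

theorem log400 (h : Sm K ρ0 rb N ε) : log 400 < log N / 2 + log 2 := by
  have h1 : log (10 ^ 6 : ℝ) ≤ log N := log_le_log (by norm_num) h.hN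
  have h2 : log (10 ^ 6 : ℝ) = 2 * log 1000 := by
    have : (10 ^ 6 : ℝ) = 1000 ^ 2 := by norm_num
    rw [this, log_pow]
    norm_num
  have h3 : log (400 : ℝ) < log 1000 := log_lt_log (by norm_num) (by norm_num)
  have h4 := log_two_pos'
  linarith only [h1, h2, h3, h4]

theorem log400' (h : Sm K ρ0 rb N ε) : log 400 < log N :=
  log_lt_log (by norm_num) (lt_of_lt_of_le (by norm_num) h.hN)

theorem lower (h : Sm K ρ0 rb N ε) {l : ℝ} (hl : log (ρ0 / 16) ≤ l) : log rb + log 2 < l := by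
  have h1 := h.logrb
  have h2 := log_two_pos'
  have h3 : log (ρ0 / 16) = log ρ0 - 4 * log 2 := by
    rw [log_div h.ρpos.ne' (by norm_num)]
    have : (16 : ℝ) = 2 ^ 4 := by norm_num
    rw [this, log_pow]
    norm_num
  linarith only [hl, h1, h2, h3]

theorem outHyp (hc : Con g Y K) (h : Sm K ρ0 rb N ε) (hβ : β ≤ 1) {b : Fin 3 → ℝ}
    (hb : ∀ i, |b i| ≤ β) :
    OutHyp (28 * K ^ 3) (6 * K ^ 2) ρ0 ε β (log N) (Pj (kap 40) aL 3 0)
      ((ipar Y ρ0 rb N ε).u b) ((ipar Y ρ0 rb N ε).Z g b) := by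
  have q := log_two_pos'
  refine ⟨fun l hl _ => ?_, fun l hl hL => ?_, fun l hl hL => ?_, fun l hl => ?_, fun l hl => ?_⟩
  · have h1 := u_far hc h hβ hb (lower h hl)
    rw [deriv_u, deriv2_u]
    unfold W3
    linarith only [h1]
  · have h1 := lower h hl
    have h2 := Z_out_bound hc h hβ hb (l := l) (by linarith only [q, h1]) hL
    exact ⟨h2.1.le, h2.2⟩
  · have h1 := lower h hl
    rw [deriv_u, deriv2_u]
    exact V_out hc h hβ hb (by linarith only [q, h1]) hL.le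
  · have h1 := u_close hc h hb (lower h hl.1) (lt_of_le_of_lt hl.2 (log400 h))
    have a1 := abs_nonneg (u1 Y ρ0 rb N ε b l - ε * Pj (kap 40) aL 3 1 l)
    have a2 := abs_nonneg (u2 Y ρ0 rb N ε b l - ε * Pj (kap 40) aL 3 2 l)
    unfold W3
    linarith only [h1, a1, a2]
  · have h1 := u_close hc h hb (lower h hl.1) (lt_of_le_of_lt hl.2 (log400 h))
    have a1 := abs_nonneg ((ipar Y ρ0 rb N ε).u b l - ε * Pj (kap 40) aL 3 0 l)
    have a2 := abs_nonneg (u2 Y ρ0 rb N ε b l - ε * Pj (kap 40) aL 3 2 l)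
    rw [deriv_u, (Pj_J2 (kap 40) aL 3).deriv_eq]
    unfold W3
    linarith only [h1, a1, a2]

/-- `M₀(ρ₀, K)`. -/
noncomputable def MK (K ρ0 : ℝ) : ℝ := M0 (28 * K ^ 3) (6 * K ^ 2) ρ0

/-- All the fields `b4*`, `b5*` of `Boot0` (`Φ = Pj (kap 40) aL 3 0`). -/
theorem fields_b45 (hc : Con g Y K) (h : Sm K ρ0 rb N ε) (hβ : β ≤ 1) {b : Fin 3 → ℝ}
    (hb : ∀ i, |b i| ≤ β) {M : ℝ} (hM : MK K ρ0 ≤ M) :
    (∀ l ∈ Icc (log (ρ0 / 16)) (log 400), |(ipar Y ρ0 rb N ε).u b l| < M * ε) ∧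
    (∀ l ∈ Icc (log (ρ0 / 16)) (log 400), |sqrt ((ipar Y ρ0 rb N ε).Z g b l) *
      deriv ((ipar Y ρ0 rb N ε).u b) l| * exp (-l) < M * ε) ∧
    (∀ l ∈ Icc (log (ρ0 / 16)) (log 400),
      |r2V ((ipar Y ρ0 rb N ε).u b) ((ipar Y ρ0 rb N ε).Z g b) l| * exp (-2 * l) < M * ε) ∧
    (∀ l ∈ Icc (log (ρ0 / 16)) (log 400),
      |(ipar Y ρ0 rb N ε).u b l - ε * Pj (kap 40) aL 3 0 l| ≤ M * β * ε) ∧
    (∀ l ∈ Icc (log (ρ0 / 16)) (log 400),
      |deriv ((ipar Y ρ0 rb N ε).u b) l - ε * deriv (Pj (kap 40) aL 3 0) l| ≤ M * β * ε) ∧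
    (∀ l, log 25 ≤ l → l ≤ log N →
      |(ipar Y ρ0 rb N ε).u b l| < M * ε * (exp (bex * l) - 300 * exp ((bex - 2) * l))) ∧
    (∀ l, log 25 ≤ l → l < log N →
      |sqrt ((ipar Y ρ0 rb N ε).Z g b l) * deriv ((ipar Y ρ0 rb N ε).u b) l| * exp (-l) <
      M * ε * (exp ((bex - 1) * l) - 300 * exp ((bex - 3) * l))) ∧
    (∀ l, log 25 ≤ l → l < log N →
      |r2V ((ipar Y ρ0 rb N ε).u b) ((ipar Y ρ0 rb N ε).Z g b) l| * exp (-2 * l) <
      M * ε * (exp ((bex - 2) * l) - 300 * exp ((bex - 4) * l))) := by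
  have hK := hc.one
  have hρ : ρ0 ≤ 16 := by
    have h1 := h.logρ hK
    by_contra hcon
    push Not at hcon
    have : 0 < log ρ0 := log_pos (by linarith only [hcon])
    linarith only [h1, this]
  exact b45 (outHyp hc h hβ hb) (by positivity) (by positivity) h.ρpos hρ h.εpos
    ((abs_nonneg _).trans (hb 0)) (log400' h) hM

end Vale.Agent.P244.ST.BD.BIneqO
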