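import Vale.Agent.P244.ST.BI7
import Vale.Agent.P244.ST.BIneqP

/-!
# P244-ST, block B4 : the inequalities of the initial data (`IneqStatement`)
-/

open Set Filter Topology Real
open scoped ContDiff

namespace Vale.Agent.P244.ST.BD

open Vale.Agent.P244.ST.BJ

section

variable {g Y : ℝ → ℝ} {K ρ0 rb N ε β : ℝ}

theorem rpow_eq_EE (hρ : 0 < ρ0) : ρ0 ^ (-(kap 40)) = EE (kap 40) (log ρ0) := by
  rw [EE, rpow_def_of_pos hρ]
  ring_nf

/-- the ratio `T/T₀` is at least `0.98` for `rb/2 ≤ r ≤ ρ0` -/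
theorem ratio_ge (hc : Con g Y K) (h : Sm K ρ0 rb N ε) (b : Fin 3 → ℝ) {l : ℝ}
    (hl0 : log rb - log 2 ≤ l) (hl : l ≤ log ρ0) :
    0.98 * (ε * EE (kap 40) l) ≤ tanh ((ipar Y ρ0 rb N ε).u b l) ∧
    0.98 ≤ tanh ((ipar Y ρ0 rb N ε).u b l) / (ε * ρ0 ^ (-(kap 40))) ∧
    (ipar Y ρ0 rb N ε).u b l ≤ 1 / 100 := by
  have hK := hc.one
  obtain ⟨r1, r2⟩ := u_ratio hc h b hl0 hl
  have hE : 0 < ε * EE (kap 40) l := mul_pos h.εpos (EE_pos _ _)
  have hε := εE_small hc h hl0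
  have hs' := h.s_le' l
  have hl00 : l ≤ 0 := hl.trans (h.logρ hK)
  have s5 : exp (2 * l) ≤ 1 := exp_le_one_iff.2 (by linarith only [hl00])
  have hp := u_pos_in hc h b hl
  set u := (ipar Y ρ0 rb N ε).u b l with hu
  have hu1 : u ≤ 1.01 * (ε * EE (kap 40) l) := by
    have := le_of_abs_le r1
    linarith only [hE, this]
  have hu2 : 0.99 * (ε * EE (kap 40) l) ≤ u := by
    have := neg_le_of_abs_le r1
    linarith only [hp, this]
  have hu3 : u ≤ 1 / 100 := by linarith only [hE, hε, hs', s5, hu1]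
  have h1 : 0.98 * (ε * EE (kap 40) l) ≤ tanh u := by
    have h2 := tanh_ge hp.le (by linarith only [hE, hε, hs', s5, hu1])
    have h3 : u ^ 3 ≤ u / 1000 := by
      have h9 : u ^ 2 ≤ 1 / 1000 := by nlinarith only [hE, hε, hs', s5, hp, hu1]
      nlinarith only [hE, hε, hs', s5, hp, hu1, hu2, h9]
    linarith only [hp, hu2, h2, h3]
  refine ⟨h1, ?_, hu3⟩
  rw [rpow_eq_EE h.ρpos, le_div_iff₀ (mul_pos h.εpos (EE_pos _ _))]
  refine le_trans ?_ h1
  have h4 : EE (kap 40) (log ρ0) ≤ EE (kap 40) l := by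
    unfold EE
    apply exp_le_exp.2
    have := kap_lo
    nlinarith only [hl, this]
  have := mul_le_mul_of_nonneg_left h4 h.εpos.le
  linarith only [this]

theorem rpow_ratio {x : ℝ} (hx : 0.98 ≤ x) : 0.98 ≤ x ^ (1 / 20 : ℝ) := by
  have h1 : (0.98 : ℝ) ^ (1 : ℝ) ≤ (0.98 : ℝ) ^ (1 / 20 : ℝ) :=
    rpow_le_rpow_of_exponent_ge (by norm_num) (by norm_num) (by norm_num)
  rw [rpow_one] at h1
  exact h1.trans (rpow_le_rpow (by norm_num) hx (by norm_num))

theorem boot_b1f (hc : Con g Y K) (h : Sm K ρ0 rb N ε) (b : Fin 3 → ℝ) {B : ℝ}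
    (hB : 4000 * K ^ 2 ≤ B) {l : ℝ} (hl : l ≤ log ρ0) :
    |fq g ((ipar Y ρ0 rb N ε).u b) l| <
    B * (tanh ((ipar Y ρ0 rb N ε).u b l) / (ε * ρ0 ^ (-(kap 40)))) ^ (1 / 20 : ℝ) *
      cosh ((ipar Y ρ0 rb N ε).u b l) ^ (-(19 / 20) : ℝ) := by
  have hK := hc.one
  have hK2 : 1 ≤ K ^ 2 := one_le_pow₀ hK
  have hp := u_pos_in hc h b hl
  have hBp : 0 < B := by linarith only [hB, hK2]
  unfold fq
  rw [deriv_u]
  rcases le_or_gt l (log rb - log 2) with h0 | h0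
  · have hq := log_two_pos'
    rw [(u_bub' hc h b (l := l) (by linarith only [h0, hq])).1, neg_neg, div_self (hc.hg.g_pos hp).ne', sub_self,
      zero_mul, abs_zero]
    have h1 := tanh_pos' hp
    have h2 := cosh_pos ((ipar Y ρ0 rb N ε).u b l)
    have h3 := rpow_pos_of_pos h.ρpos (-(kap 40))
    have h4 := h.εpos
    positivity
  · obtain ⟨-, r2, r3⟩ := ratio_ge hc h b h0.le hl
    have h1 := e_in hc h b h0.le hl
    have h2 : |(1 - (-(u1 Y ρ0 rb N ε b l)) / g ((ipar Y ρ0 rb N ε).u b l)) * exp (-2 * l)| ≤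
        12 * K ^ 2 := by
      rw [abs_mul, abs_of_pos (exp_pos (-2 * l))]
      have h3 := mul_le_mul_of_nonneg_right h1 (exp_pos (-2 * l)).le
      have h4 : 12 * K ^ 2 * exp (2 * l) * exp (-2 * l) = 12 * K ^ 2 := by
        rw [mul_assoc, ← exp_add]
        have : 2 * l + -2 * l = 0 := by ring
        rw [this, exp_zero, mul_one]
      linarith only [h3, h4]
    refine lt_of_le_of_lt h2 ?_
    have h3 := rpow_ratio r2
    have hc1 : 1 ≤ cosh ((ipar Y ρ0 rb N ε).u b l) := one_le_cosh _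
    have hc2 : cosh ((ipar Y ρ0 rb N ε).u b l) ≤ 1.1 := by
      have := cosh_le_one_add hp.le (by linarith only [hp, r3])
      nlinarith only [hp, r3, this]
    have h4 : 0.9 ≤ cosh ((ipar Y ρ0 rb N ε).u b l) ^ (-(19 / 20) : ℝ) := by
      have h5 : cosh ((ipar Y ρ0 rb N ε).u b l) ^ (-1 : ℝ) ≤
          cosh ((ipar Y ρ0 rb N ε).u b l) ^ (-(19 / 20) : ℝ) :=
        rpow_le_rpow_of_exponent_le hc1 (by norm_num)
      rw [rpow_neg_one] at h5
      refine le_trans ?_ h5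
      rw [le_inv_comm₀ (by norm_num) (by linarith only [hp, r3, hc1])]
      refine hc2.trans ?_
      norm_num
    have h5 : B * 0.98 * 0.9 ≤ B * (tanh ((ipar Y ρ0 rb N ε).u b l) /
        (ε * ρ0 ^ (-(kap 40)))) ^ (1 / 20 : ℝ) *
        cosh ((ipar Y ρ0 rb N ε).u b l) ^ (-(19 / 20) : ℝ) :=
      mul_le_mul (mul_le_mul_of_nonneg_left h3 hBp.le) h4 (by norm_num)
        (mul_nonneg hBp.le (by linarith only [hp, r3, h3]))
    linarith only [hB, hK2, hp, r3, h5]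

theorem boot_b2 (hc : Con g Y K) (h : Sm K ρ0 rb N ε) (b : Fin 3 → ℝ) {BV : ℝ}
    (hBV : 4000 * K ^ 2 ≤ BV) {l : ℝ} (hl : l ≤ log ρ0) :
    |r2V ((ipar Y ρ0 rb N ε).u b) ((ipar Y ρ0 rb N ε).Z g b) l| * exp (-2 * l) <
    BV * (tanh ((ipar Y ρ0 rb N ε).u b l) / (ε * ρ0 ^ (-(kap 40)))) ^ (1 / 20 : ℝ) *
      tanh ((ipar Y ρ0 rb N ε).u b l) * cosh ((ipar Y ρ0 rb N ε).u b l) ^ (1 / 20 : ℝ) := by
  have hK := hc.one
  have hK2 : 1 ≤ K ^ 2 := one_le_pow₀ hK
  have hp := u_pos_in hc h b hl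
  have hBp : 0 < BV := by linarith only [hBV, hK2]
  rcases le_or_gt l (log rb - log 2) with h0 | h0
  · rw [V_bub hc h b h0, abs_zero, zero_mul]
    have h1 := tanh_pos' hp
    have h2 := cosh_pos ((ipar Y ρ0 rb N ε).u b l)
    have h3 := rpow_pos_of_pos h.ρpos (-(kap 40))
    have h4 := h.εpos
    positivity
  · obtain ⟨r1, r2, r3⟩ := ratio_ge hc h b h0.le hl
    have hE : 0 < ε * EE (kap 40) l := mul_pos h.εpos (EE_pos _ _)
    have h1 := V_in hc h b h0.le hl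
    have h2 : |r2V ((ipar Y ρ0 rb N ε).u b) ((ipar Y ρ0 rb N ε).Z g b) l| * exp (-2 * l) ≤
        2850 * K ^ 2 * (ε * EE (kap 40) l) := by
      have h3 := mul_le_mul_of_nonneg_right h1 (exp_pos (-2 * l)).le
      have h4 : 2850 * K ^ 2 * (ε * EE (kap 40) l * exp (2 * l)) * exp (-2 * l) =
          2850 * K ^ 2 * (ε * EE (kap 40) l) := by
        have h5 : exp (2 * l) * exp (-2 * l) = 1 := by
          rw [← exp_add]
          have : 2 * l + -2 * l = 0 := by ring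
          rw [this, exp_zero]
        calc 2850 * K ^ 2 * (ε * EE (kap 40) l * exp (2 * l)) * exp (-2 * l) =
            2850 * K ^ 2 * (ε * EE (kap 40) l) * (exp (2 * l) * exp (-2 * l)) := by ring
          _ = _ := by rw [h5, mul_one]
      linarith only [h3, h4]
    refine lt_of_le_of_lt h2 ?_
    have h3 := rpow_ratio r2
    have hc1 : 1 ≤ cosh ((ipar Y ρ0 rb N ε).u b l) := one_le_cosh _
    have h4 : 1 ≤ cosh ((ipar Y ρ0 rb N ε).u b l) ^ (1 / 20 : ℝ) :=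
      one_le_rpow hc1 (by norm_num)
    have h5 : BV * 0.98 * (0.98 * (ε * EE (kap 40) l)) * 1 ≤
        BV * (tanh ((ipar Y ρ0 rb N ε).u b l) /
        (ε * ρ0 ^ (-(kap 40)))) ^ (1 / 20 : ℝ) *
        tanh ((ipar Y ρ0 rb N ε).u b l) * cosh ((ipar Y ρ0 rb N ε).u b l) ^ (1 / 20 : ℝ) := by
      have p1 : 0 ≤ (tanh ((ipar Y ρ0 rb N ε).u b l) / (ε * ρ0 ^ (-(kap 40)))) ^ (1 / 20 : ℝ) := by
        linarith only [hp, r3, h3]
      have p2 : 0 ≤ tanh ((ipar Y ρ0 rb N ε).u b l) := (tanh_pos' hp).le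
      exact mul_le_mul (mul_le_mul (mul_le_mul_of_nonneg_left h3 hBp.le) r1 (by positivity)
        (mul_nonneg hBp.le p1)) h4 zero_le_one (mul_nonneg (mul_nonneg hBp.le p1) p2)
    have h6 : 4000 * K ^ 2 * (ε * EE (kap 40) l) ≤ BV * (ε * EE (kap 40) l) :=
      mul_le_mul_of_nonneg_right hBV hE.le
    have h7 : 0 < K ^ 2 * (ε * EE (kap 40) l) := by positivity
    nlinarith only [h5, h6, h7]

theorem cf_eq {c : ℕ → ℕ → ℝ} (hc : IsLagCf c) {i : ℕ} (hi : i ≤ 3) :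
    ∀ k ≤ i, c i k = Lag.cf aL i k := by
  have ha : -1 < aL := by
    unfold aL
    have := kap_hi
    linarith only [this]
  intro k
  induction k with
  | zero =>
    intro _
    rw [hc.zero i hi]
    unfold Lag.cf
    simp
  | succ k ih =>
    intro hk
    have h1 := hc.step i hi k (by omega)
    have h2 := Lag.cf_succ ha i k
    rw [ih (by omega)] at h1
    have h3 : (k : ℝ) + (41 - 2 * kap 40) / 2 = aL + k + 1 := by
      unfold aL
      ring
    rw [h3, ← h2] at h1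
    have h4 : ((k : ℝ) + 1) * (aL + k + 1) ≠ 0 := by
      have : (0 : ℝ) ≤ k := Nat.cast_nonneg k
      have h5 : 0 < aL + k + 1 := by linarith only [ha]
      positivity
    exact mul_left_cancel₀ h4 h1

theorem Pcf_eq {c : ℕ → ℕ → ℝ} (hc : IsLagCf c) {i : ℕ} (hi : i ≤ 3) :
    Pcf c i = Pj (kap 40) aL i 0 := by
  funext l
  unfold Pcf Pj PhiD
  rw [exp_rpow_neg, EE]
  congr 1
  refine Finset.sum_congr rfl fun k hk => ?_
  rw [cf_eq hc hi k (by rw [Finset.mem_range] at hk; omega), pow_zero, one_mul, one_pow, mul_one]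
  congr 3
  rw [← exp_nat_mul]
  push_cast
  rfl

theorem stdPar_eq {c : ℕ → ℕ → ℝ} (hc : IsLagCf c) :
    stdPar c Y rb ρ0 N ε = ipar Y ρ0 rb N ε := by
  unfold stdPar ipar
  rw [Pcf_eq hc le_rfl]
  congr 1
  funext i
  exact Pcf_eq hc (by have := i.2; omega)

end

theorem ineqStatement : IneqStatement := by
  intro g hg Y hY c hcf
  obtain ⟨K, hc⟩ := exists_con hg hY
  have hK := hc.one
  have hK2 : 1 ≤ K ^ 2 := one_le_pow₀ hK
  refine ⟨4000 * K ^ 2, by linarith only [hK2], 1 / (100 * K ^ 2), by positivity, ?_⟩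
  intro ρ0 hρ
  refine ⟨BIneqO.MK K ρ0, ?_⟩
  intro rb hrb
  refine ⟨10 ^ 6, ?_⟩
  intro N hN
  have hX : 0 < 10 ^ 6 * K ^ 3 * (EE (kap 40) (log rb - log 2) *
      (1 + exp (2 * (log N / 2 + log 2 + log 2))) ^ 3) := by
    have := EE_pos (kap 40) (log rb - log 2)
    have := exp_pos (2 * (log N / 2 + log 2 + log 2))
    positivity
  refine ⟨exp (2 * (log rb - log 2 - log N)) / (10 ^ 6 * K ^ 3 *
    (EE (kap 40) (log rb - log 2) * (1 + exp (2 * (log N / 2 + log 2 + log 2))) ^ 3)),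
    div_pos (exp_pos _) hX, ?_⟩
  intro ε hε
  have h : Sm K ρ0 rb N ε := by
    refine ⟨hρ.1, ?_, hrb.1, ?_, hN, hε.1, ?_⟩
    · have h1 : ρ0 ^ 2 ≤ (1 / (100 * K ^ 2)) ^ 2 := pow_le_pow_left₀ hρ.1.le hρ.2 2
      have h2 : 1000 * K ^ 3 * ρ0 ^ 2 ≤ 1000 * K ^ 3 * (1 / (100 * K ^ 2)) ^ 2 :=
        mul_le_mul_of_nonneg_left h1 (by positivity)
      have h3 : 1000 * K ^ 3 * (1 / (100 * K ^ 2)) ^ 2 = 1 / (10 * K) := by
        field_simp
        norm_num
      rw [h3] at h2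
      refine h2.trans ?_
      rw [div_le_one (by positivity)]
      linarith only [hK]
    · have := hrb.2
      linarith only [this]
    · have h1 := hε.2.le
      rw [le_div_iff₀ hX] at h1
      linarith only [h1]
  have hN0 := h.logN
  have hl2 := log_two_lt_d9
  have hq := h.logrb
  have hρl := h.logρ hK
  have hq2 := log_two_pos'
  rw [stdPar_eq hcf, Pcf_eq hcf le_rfl]
  refine ⟨⟨h.εpos, ?_, ?_, ?_, hY, contDiff_Pj _ _ _ _, fun i => contDiff_Pj _ _ _ _⟩, ?_⟩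
  · show log rb + log 2 ≤ log ρ0
    linarith only [hq, hq2]
  · show log ρ0 + log 2 ≤ log N / 2 + log 2
    linarith only [hN0, hl2, hρl, hq2]
  · show log N / 2 + log 2 + log 2 < log N
    linarith only [hN0, hl2, hq2]
  intro B hB BV hBV M hM b β hβ hb
  obtain ⟨f1, f2, f3, f4, f5, f6, f7, f8⟩ := BIneqO.fields_b45 hc h hβ hb hM
  exact ⟨fun l hl => boot_Zpos hc h hβ hb hl, fun l hl => boot_Gle hc h hβ hb hl,
    fun l hl => (boot_R hc h hβ hb hl).1, fun l hl => boot_b3 hc h hβ hb hl,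
    fun l hl => u_pos_in hc h b hl, fun l hl => boot_b1f hc h b hB hl,
    fun l hl => boot_b2 hc h b hBV hl, f1, f2, f3, f4, f5, f6, f7, f8⟩

end Vale.Agent.P244.ST.BD
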