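import Vale.Agent.P244.ST.BIneq
import Vale.Agent.P244.ST.BPh

/-!
# P244-ST, block B4 : the fields `b4*`, `b5*` of `Boot0` from the size of the 2-jet of `u`
-/

open Set Filter Topology Real
open scoped ContDiff

namespace Vale.Agent.P244.ST.BD.BIneqO

open Vale.Agent.P244.ST.BJ

/-- Size of the outer profile. -/
noncomputable def W3 (l : ℝ) : ℝ := EE (kap 40) l * (1 + exp (2 * l)) ^ 3

theorem W3_pos (l : ℝ) : 0 < W3 l := by
  unfold W3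
  have := EE_pos (kap 40) l
  have := exp_pos (2 * l)
  positivity

/-- The input. -/
structure OutHyp (C1 C2 ρ0 ε β L : ℝ) (Φ u Z : ℝ → ℝ) : Prop where
  h1 : ∀ l, log (ρ0 / 16) ≤ l → l ≤ L → |u l| + |deriv u l| + |deriv (deriv u) l| ≤ C1 * ε * W3 l
  h2 : ∀ l, log (ρ0 / 16) ≤ l → l < L → 0 ≤ Z l ∧ Z l ≤ 2
  h3 : ∀ l, log (ρ0 / 16) ≤ l → l < L →
    |r2V u Z l| ≤ 700 * (|u l| + |deriv u l| + |deriv (deriv u) l|)
  h4 : ∀ l ∈ Icc (log (ρ0 / 16)) (log 400), |u l - ε * Φ l| ≤ C2 * β * ε * W3 l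
  h4' : ∀ l ∈ Icc (log (ρ0 / 16)) (log 400), |deriv u l - ε * deriv Φ l| ≤ C2 * β * ε * W3 l

theorem kap_pos : 0 < kap 40 := by
  have h : sqrt 1209 < 39 := by
    rw [show (39 : ℝ) = sqrt (39 ^ 2) by rw [sqrt_sq (by norm_num)]]
    exact sqrt_lt_sqrt (by norm_num) (by norm_num)
  have h2 : kap 40 = (39 - sqrt 1209) / 2 := by
    unfold kap
    norm_num
  rw [h2]
  linarith only [h]

/-- bound of `W3` on the compact part. -/
theorem W3_le {ρ0 l : ℝ} (hl : l ∈ Icc (log (ρ0 / 16)) (log 400)) :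
    W3 l ≤ EE (kap 40) (log (ρ0 / 16)) * 160001 ^ 3 := by
  unfold W3
  have hk := kap_pos
  have h1 : EE (kap 40) l ≤ EE (kap 40) (log (ρ0 / 16)) := by
    unfold EE
    refine exp_le_exp.2 ?_
    nlinarith only [hl, hk, hl.1]
  have h2 : exp (2 * l) ≤ 160000 := by
    have h3 : exp l ≤ 400 := by
      have := exp_le_exp.2 hl.2
      rwa [exp_log (by norm_num)] at this
    have h4 : exp (2 * l) = exp l ^ 2 := by
      rw [← exp_nat_mul]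
      push_cast
      ring_nf
    rw [h4]
    have := exp_pos l
    nlinarith only [h3, this]
  have h5 := exp_pos (2 * l)
  have h6 : (1 + exp (2 * l)) ^ 3 ≤ 160001 ^ 3 :=
    pow_le_pow_left₀ (by positivity) (by linarith only [h2]) 3
  exact mul_le_mul h1 h6 (by positivity) (EE_pos _ _).le

theorem exp_neg_le {ρ0 l : ℝ} (h0 : 0 < ρ0) (hl : log (ρ0 / 16) ≤ l) :
    exp (-l) ≤ 16 / ρ0 := by
  have h1 : exp (log (ρ0 / 16)) = ρ0 / 16 := exp_log (by positivity)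
  have h2 := exp_le_exp.2 hl
  rw [h1] at h2
  rw [exp_neg, inv_le_comm₀ (exp_pos _) (by positivity)]
  rw [inv_div]
  exact h2

theorem exp_neg2_le {ρ0 l : ℝ} (h0 : 0 < ρ0) (hl : log (ρ0 / 16) ≤ l) :
    exp (-2 * l) ≤ (16 / ρ0) ^ 2 := by
  have h1 := exp_neg_le h0 hl
  have h2 : exp (-2 * l) = exp (-l) ^ 2 := by
    rw [← exp_nat_mul]
    push_cast
    ring_nf
  rw [h2]
  exact pow_le_pow_left₀ (exp_pos _).le h1 2

/-- The constant of the compact part. -/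
noncomputable def A0 (ρ0 : ℝ) : ℝ := EE (kap 40) (log (ρ0 / 16)) * 160001 ^ 3

theorem A0_pos (ρ0 : ℝ) : 0 < A0 ρ0 := by
  unfold A0
  have := EE_pos (kap 40) (log (ρ0 / 16))
  positivity

/-- The constant `M₀`. -/
noncomputable def M0 (C1 C2 ρ0 : ℝ) : ℝ :=
  (1 + C1 + C2) * (3000 + 1401 * A0 ρ0 * (1 + (16 / ρ0) ^ 2))

theorem W3_le_out {l : ℝ} (hl : log 25 ≤ l) : W3 l ≤ 2 * exp (bex * l) := by
  have h0 : (25 : ℝ) ≤ exp l := by
    have := exp_le_exp.2 hl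
    rwa [exp_log (by norm_num)] at this
  have h1 : (625 : ℝ) ≤ exp (2 * l) := by
    have h4 : exp (2 * l) = exp l ^ 2 := by
      rw [← exp_nat_mul]
      push_cast
      ring_nf
    rw [h4]
    nlinarith only [h0]
  have h2 : 1 + exp (2 * l) ≤ 626 / 625 * exp (2 * l) := by linarith only [h1]
  have h3 : (1 + exp (2 * l)) ^ 3 ≤ (626 / 625 * exp (2 * l)) ^ 3 :=
    pow_le_pow_left₀ (by positivity) h2 3
  have h4 : exp (bex * l) = EE (kap 40) l * exp (2 * l) ^ 3 := by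
    unfold EE bex
    rw [← exp_nat_mul, ← exp_add]
    push_cast
    ring_nf
  unfold W3
  rw [h4]
  have h5 := EE_pos (kap 40) l
  have h6 : 0 < exp (2 * l) ^ 3 := by positivity
  calc EE (kap 40) l * (1 + exp (2 * l)) ^ 3
      ≤ EE (kap 40) l * (626 / 625 * exp (2 * l)) ^ 3 := mul_le_mul_of_nonneg_left h3 h5.le
    _ = (626 / 625) ^ 3 * (EE (kap 40) l * exp (2 * l) ^ 3) := by ring
    _ ≤ 2 * (EE (kap 40) l * exp (2 * l) ^ 3) :=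
        mul_le_mul_of_nonneg_right (by norm_num) (by positivity)

theorem barrier_ge {l : ℝ} (hl : log 25 ≤ l) (a : ℝ) :
    1 / 2 * exp (a * l) < exp (a * l) - 300 * exp ((a - 2) * l) := by
  have h0 : (25 : ℝ) ≤ exp l := by
    have := exp_le_exp.2 hl
    rwa [exp_log (by norm_num)] at this
  have h1 : exp (a * l) = exp ((a - 2) * l) * exp l ^ 2 := by
    rw [← exp_nat_mul, ← exp_add]
    push_cast
    ring_nf
  have h2 := exp_pos ((a - 2) * l)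
  rw [h1]
  nlinarith [mul_pos h2 (by nlinarith : (0 : ℝ) < exp l ^ 2 / 2 - 300)]

theorem sqrt_le' {z : ℝ} (h : z ≤ 2) : sqrt z ≤ 3 / 2 := by
  rw [show (3 / 2 : ℝ) = sqrt ((3 / 2) ^ 2) by rw [sqrt_sq (by norm_num)]]
  exact sqrt_le_sqrt (by linarith only [h])

section main

variable {C1 C2 ρ0 ε β L : ℝ} {Φ u Z : ℝ → ℝ}

theorem OutHyp.compact (h : OutHyp C1 C2 ρ0 ε β L Φ u Z) (hC1 : 0 ≤ C1)
    (hε : 0 < ε) (hL : log 400 < L) {l : ℝ} (hl : l ∈ Icc (log (ρ0 / 16)) (log 400)) :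
    |u l| + |deriv u l| + |deriv (deriv u) l| ≤ C1 * ε * A0 ρ0 := by
  refine (h.h1 l hl.1 (hl.2.trans hL.le)).trans ?_
  exact mul_le_mul_of_nonneg_left (W3_le hl) (by positivity)

theorem M0_ge1 (hC1 : 0 ≤ C1) (hC2 : 0 ≤ C2) : 3000 * (1 + C1) ≤ M0 C1 C2 ρ0 := by
  unfold M0
  have hA := A0_pos ρ0
  have h1 : 0 ≤ 1401 * A0 ρ0 * (1 + (16 / ρ0) ^ 2) := by positivity
  nlinarith only [hC1, hC2, h1, mul_nonneg hC1 h1, mul_nonneg hC2 h1]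

theorem M0_ge2 (hC1 : 0 ≤ C1) (hC2 : 0 ≤ C2) : 1400 * C1 * A0 ρ0 * (1 + (16 / ρ0) ^ 2) <
    M0 C1 C2 ρ0 := by
  unfold M0
  have hA := A0_pos ρ0
  have h2 : 0 < A0 ρ0 * (1 + (16 / ρ0) ^ 2) := by positivity
  nlinarith only [hC1, hC2, h2, mul_nonneg hC1 h2.le, mul_nonneg hC2 h2.le]

theorem M0_ge3 (hC1 : 0 ≤ C1) (hC2 : 0 ≤ C2) : C2 * A0 ρ0 ≤ M0 C1 C2 ρ0 := by
  unfold M0
  have hA := A0_pos ρ0
  have h2 : 0 ≤ A0 ρ0 * (16 / ρ0) ^ 2 := by positivity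
  nlinarith only [hC1, hC2, hA, h2, mul_nonneg hC1 h2, mul_nonneg hC2 h2, mul_nonneg hC1 hA.le, mul_nonneg hC2 hA.le]

theorem pos_sq (ρ0 : ℝ) : 16 / ρ0 ≤ 1 + (16 / ρ0) ^ 2 := by
  nlinarith only [sq_nonneg (16 / ρ0 - 1), sq_nonneg (16 / ρ0)]

theorem b4u (h : OutHyp C1 C2 ρ0 ε β L Φ u Z) (hC1 : 0 ≤ C1) (hC2 : 0 ≤ C2) (h0 : 0 < ρ0)
    (hε : 0 < ε) (hL : log 400 < L) {M : ℝ} (hM : M0 C1 C2 ρ0 ≤ M) :
    ∀ l ∈ Icc (log (ρ0 / 16)) (log 400), |u l| < M * ε := by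
  intro l hl
  have h1 := h.compact hC1 hε hL hl
  have h2 := M0_ge2 (ρ0 := ρ0) hC1 hC2
  have h3 : |u l| ≤ C1 * ε * A0 ρ0 := by
    have := abs_nonneg (deriv u l)
    have := abs_nonneg (deriv (deriv u) l)
    linarith
  have hA := A0_pos ρ0
  have h4 : C1 * A0 ρ0 ≤ 1400 * C1 * A0 ρ0 * (1 + (16 / ρ0) ^ 2) := by
    have h5 : 0 ≤ C1 * A0 ρ0 := by positivity
    have h6 : 0 ≤ (16 / ρ0) ^ 2 := by positivity
    nlinarith only [h5, h6, mul_nonneg h5 h6]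
  calc |u l| ≤ C1 * A0 ρ0 * ε := by linarith only [h3]
    _ < M * ε := mul_lt_mul_of_pos_right (by linarith only [hM, h2, h4]) hε

theorem b4P (h : OutHyp C1 C2 ρ0 ε β L Φ u Z) (hC1 : 0 ≤ C1) (hC2 : 0 ≤ C2) (h0 : 0 < ρ0)
    (hε : 0 < ε) (hL : log 400 < L) {M : ℝ} (hM : M0 C1 C2 ρ0 ≤ M) :
    ∀ l ∈ Icc (log (ρ0 / 16)) (log 400), |sqrt (Z l) * deriv u l| * exp (-l) < M * ε := by
  intro l hl
  have h1 := h.compact hC1 hε hL hl
  have h2 := M0_ge2 (ρ0 := ρ0) hC1 hC2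
  have h3 : |deriv u l| ≤ C1 * ε * A0 ρ0 := by
    have := abs_nonneg (u l)
    have := abs_nonneg (deriv (deriv u) l)
    linarith
  have hA := A0_pos ρ0
  have h4 := sqrt_le' (h.h2 l hl.1 (hl.2.trans_lt hL)).2
  have h5 := sqrt_nonneg (Z l)
  have h6 : |sqrt (Z l) * deriv u l| ≤ 3 / 2 * (C1 * ε * A0 ρ0) := by
    rw [abs_mul, abs_of_nonneg h5]
    exact mul_le_mul h4 h3 (abs_nonneg _) (by norm_num)
  have h7 : exp (-l) ≤ 1 + (16 / ρ0) ^ 2 := (exp_neg_le h0 hl.1).trans (pos_sq ρ0)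
  have h8 : |sqrt (Z l) * deriv u l| * exp (-l) ≤
      3 / 2 * (C1 * ε * A0 ρ0) * (1 + (16 / ρ0) ^ 2) :=
    mul_le_mul h6 h7 (exp_pos _).le (by positivity)
  have h9 : 0 ≤ C1 * A0 ρ0 * (1 + (16 / ρ0) ^ 2) := by positivity
  calc |sqrt (Z l) * deriv u l| * exp (-l)
      ≤ 3 / 2 * (C1 * ε * A0 ρ0) * (1 + (16 / ρ0) ^ 2) := h8
    _ = 3 / 2 * (C1 * A0 ρ0 * (1 + (16 / ρ0) ^ 2)) * ε := by ring
    _ < M * ε := mul_lt_mul_of_pos_right (by linarith only [hM, h2, h9]) hε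

theorem b4V (h : OutHyp C1 C2 ρ0 ε β L Φ u Z) (hC1 : 0 ≤ C1) (hC2 : 0 ≤ C2) (h0 : 0 < ρ0)
    (hε : 0 < ε) (hL : log 400 < L) {M : ℝ} (hM : M0 C1 C2 ρ0 ≤ M) :
    ∀ l ∈ Icc (log (ρ0 / 16)) (log 400), |r2V u Z l| * exp (-2 * l) < M * ε := by
  intro l hl
  have h1 := h.compact hC1 hε hL hl
  have h2 := M0_ge2 (ρ0 := ρ0) hC1 hC2
  have hA := A0_pos ρ0
  have h3 := h.h3 l hl.1 (hl.2.trans_lt hL)
  have h6 : |r2V u Z l| ≤ 700 * (C1 * ε * A0 ρ0) := by linarith only [h1, h3]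
  have h7 : exp (-2 * l) ≤ 1 + (16 / ρ0) ^ 2 := (exp_neg2_le h0 hl.1).trans (by linarith only [])
  have h8 : |r2V u Z l| * exp (-2 * l) ≤ 700 * (C1 * ε * A0 ρ0) * (1 + (16 / ρ0) ^ 2) :=
    mul_le_mul h6 h7 (exp_pos _).le (by positivity)
  have h9 : 0 ≤ C1 * A0 ρ0 * (1 + (16 / ρ0) ^ 2) := by positivity
  calc |r2V u Z l| * exp (-2 * l) ≤ 700 * (C1 * ε * A0 ρ0) * (1 + (16 / ρ0) ^ 2) := h8
    _ = 700 * (C1 * A0 ρ0 * (1 + (16 / ρ0) ^ 2)) * ε := by ring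
    _ < M * ε := mul_lt_mul_of_pos_right (by linarith only [hM, h2, h9]) hε

theorem b4v_aux (hC1 : 0 ≤ C1) (hC2 : 0 ≤ C2)
    (hε : 0 < ε) (hβ : 0 ≤ β) {M : ℝ} (hM : M0 C1 C2 ρ0 ≤ M) {l : ℝ}
    (hl : l ∈ Icc (log (ρ0 / 16)) (log 400)) : C2 * β * ε * W3 l ≤ M * β * ε := by
  have h1 := W3_le hl
  have h3 := M0_ge3 (ρ0 := ρ0) hC1 hC2
  calc C2 * β * ε * W3 l ≤ C2 * β * ε * A0 ρ0 := mul_le_mul_of_nonneg_left h1 (by positivity)
    _ = (C2 * A0 ρ0) * (β * ε) := by ring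
    _ ≤ M * (β * ε) := mul_le_mul_of_nonneg_right (h3.trans hM) (by positivity)
    _ = M * β * ε := by ring

theorem b5u (h : OutHyp C1 C2 ρ0 ε β L Φ u Z) (hC1 : 0 ≤ C1) (hC2 : 0 ≤ C2) (h0 : 0 < ρ0)
    (hρ : ρ0 ≤ 16) (hε : 0 < ε) {M : ℝ} (hM : M0 C1 C2 ρ0 ≤ M) :
    ∀ l, log 25 ≤ l → l ≤ L → |u l| < M * ε * (exp (bex * l) - 300 * exp ((bex - 2) * l)) := by
  intro l hl hlL
  have h00 : log (ρ0 / 16) ≤ l := by
    have : log (ρ0 / 16) ≤ 0 := log_nonpos (by positivity) (by linarith only [hρ])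
    have : 0 ≤ log (25 : ℝ) := log_nonneg (by norm_num)
    linarith
  have h1 := h.h1 l h00 hlL
  have h2 := W3_le_out hl
  have h3 := barrier_ge hl bex
  have h4 := M0_ge1 (ρ0 := ρ0) hC1 hC2
  have h5 := exp_pos (bex * l)
  have h6 : |u l| ≤ C1 * ε * (2 * exp (bex * l)) := by
    have := abs_nonneg (deriv u l)
    have := abs_nonneg (deriv (deriv u) l)
    have := mul_le_mul_of_nonneg_left h2 (by positivity : 0 ≤ C1 * ε)
    linarith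
  have h7 : 0 < M * ε := mul_pos (by linarith only [hC1, hM, h4]) hε
  have h8 := mul_lt_mul_of_pos_left h3 h7
  have h9 : C1 * ε * (2 * exp (bex * l)) ≤ M * ε * (1 / 2 * exp (bex * l)) := by
    have : 0 ≤ ε * exp (bex * l) := by positivity
    nlinarith only [hC1, hε, hM, h4, h5, this]
  linarith only [h6, h8, h9]

theorem b5P (h : OutHyp C1 C2 ρ0 ε β L Φ u Z) (hC1 : 0 ≤ C1) (hC2 : 0 ≤ C2) (h0 : 0 < ρ0)
    (hρ : ρ0 ≤ 16) (hε : 0 < ε) {M : ℝ} (hM : M0 C1 C2 ρ0 ≤ M) :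
    ∀ l, log 25 ≤ l → l < L → |sqrt (Z l) * deriv u l| * exp (-l) <
      M * ε * (exp ((bex - 1) * l) - 300 * exp ((bex - 3) * l)) := by
  intro l hl hlL
  have h00 : log (ρ0 / 16) ≤ l := by
    have : log (ρ0 / 16) ≤ 0 := log_nonpos (by positivity) (by linarith only [hρ])
    have : 0 ≤ log (25 : ℝ) := log_nonneg (by norm_num)
    linarith
  have h1 := h.h1 l h00 hlL.le
  have h2 := W3_le_out hl
  have h3 := barrier_ge hl (bex - 1)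
  have e1 : bex - 1 - 2 = bex - 3 := by ring
  rw [e1] at h3
  have h4 := M0_ge1 (ρ0 := ρ0) hC1 hC2
  have h5 := exp_pos ((bex - 1) * l)
  have h6 : |deriv u l| ≤ C1 * ε * (2 * exp (bex * l)) := by
    have := abs_nonneg (u l)
    have := abs_nonneg (deriv (deriv u) l)
    have := mul_le_mul_of_nonneg_left h2 (by positivity : 0 ≤ C1 * ε)
    linarith
  have h10 := sqrt_le' (h.h2 l h00 hlL).2
  have h11 := sqrt_nonneg (Z l)
  have h12 : |sqrt (Z l) * deriv u l| ≤ 3 / 2 * (C1 * ε * (2 * exp (bex * l))) := by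
    rw [abs_mul, abs_of_nonneg h11]
    exact mul_le_mul h10 h6 (abs_nonneg _) (by norm_num)
  have e2 : exp (bex * l) * exp (-l) = exp ((bex - 1) * l) := by
    rw [← exp_add]
    ring_nf
  have h13 : |sqrt (Z l) * deriv u l| * exp (-l) ≤ 3 * (C1 * ε) * exp ((bex - 1) * l) := by
    have := mul_le_mul_of_nonneg_right h12 (exp_pos (-l)).le
    rw [← e2]
    linarith only [this]
  have h7 : 0 < M * ε := mul_pos (by linarith only [hC1, hM, h4]) hε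
  have h8 := mul_lt_mul_of_pos_left h3 h7
  have h9 : 3 * (C1 * ε) * exp ((bex - 1) * l) ≤ M * ε * (1 / 2 * exp ((bex - 1) * l)) := by
    have : 0 ≤ ε * exp ((bex - 1) * l) := by positivity
    nlinarith only [hC1, hε, hM, h4, h5, this]
  linarith only [h13, h8, h9]

theorem b5V (h : OutHyp C1 C2 ρ0 ε β L Φ u Z) (hC1 : 0 ≤ C1) (hC2 : 0 ≤ C2) (h0 : 0 < ρ0)
    (hρ : ρ0 ≤ 16) (hε : 0 < ε) {M : ℝ} (hM : M0 C1 C2 ρ0 ≤ M) :
    ∀ l, log 25 ≤ l → l < L → |r2V u Z l| * exp (-2 * l) <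
      M * ε * (exp ((bex - 2) * l) - 300 * exp ((bex - 4) * l)) := by
  intro l hl hlL
  have h00 : log (ρ0 / 16) ≤ l := by
    have : log (ρ0 / 16) ≤ 0 := log_nonpos (by positivity) (by linarith only [hρ])
    have : 0 ≤ log (25 : ℝ) := log_nonneg (by norm_num)
    linarith
  have h1 := h.h1 l h00 hlL.le
  have h2 := W3_le_out hl
  have h3 := barrier_ge hl (bex - 2)
  have e1 : bex - 2 - 2 = bex - 4 := by ring
  rw [e1] at h3
  have h4 := M0_ge1 (ρ0 := ρ0) hC1 hC2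
  have h5 := exp_pos ((bex - 2) * l)
  have h6 : |r2V u Z l| ≤ 700 * (C1 * ε * (2 * exp (bex * l))) := by
    have := h.h3 l h00 hlL
    have := mul_le_mul_of_nonneg_left h2 (by positivity : 0 ≤ C1 * ε)
    linarith
  have e2 : exp (bex * l) * exp (-2 * l) = exp ((bex - 2) * l) := by
    rw [← exp_add]
    ring_nf
  have h13 : |r2V u Z l| * exp (-2 * l) ≤ 1400 * (C1 * ε) * exp ((bex - 2) * l) := by
    have := mul_le_mul_of_nonneg_right h6 (exp_pos (-2 * l)).le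
    rw [← e2]
    linarith only [this]
  have h7 : 0 < M * ε := mul_pos (by linarith only [hC1, hM, h4]) hε
  have h8 := mul_lt_mul_of_pos_left h3 h7
  have h9 : 1400 * (C1 * ε) * exp ((bex - 2) * l) ≤ M * ε * (1 / 2 * exp ((bex - 2) * l)) := by
    have : 0 ≤ ε * exp ((bex - 2) * l) := by positivity
    nlinarith only [hC1, hε, hM, h4, h5, this]
  linarith only [h13, h8, h9]

/-- All the fields `b4*`, `b5*`. -/
theorem b45 (h : OutHyp C1 C2 ρ0 ε β L Φ u Z) (hC1 : 0 ≤ C1) (hC2 : 0 ≤ C2) (h0 : 0 < ρ0)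
    (hρ : ρ0 ≤ 16) (hε : 0 < ε) (hβ : 0 ≤ β) (hL : log 400 < L) {M : ℝ}
    (hM : M0 C1 C2 ρ0 ≤ M) :
    (∀ l ∈ Icc (log (ρ0 / 16)) (log 400), |u l| < M * ε) ∧
    (∀ l ∈ Icc (log (ρ0 / 16)) (log 400), |sqrt (Z l) * deriv u l| * exp (-l) < M * ε) ∧
    (∀ l ∈ Icc (log (ρ0 / 16)) (log 400), |r2V u Z l| * exp (-2 * l) < M * ε) ∧
    (∀ l ∈ Icc (log (ρ0 / 16)) (log 400), |u l - ε * Φ l| ≤ M * β * ε) ∧
    (∀ l ∈ Icc (log (ρ0 / 16)) (log 400), |deriv u l - ε * deriv Φ l| ≤ M * β * ε) ∧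
    (∀ l, log 25 ≤ l → l ≤ L →
      |u l| < M * ε * (exp (bex * l) - 300 * exp ((bex - 2) * l))) ∧
    (∀ l, log 25 ≤ l → l < L → |sqrt (Z l) * deriv u l| * exp (-l) <
      M * ε * (exp ((bex - 1) * l) - 300 * exp ((bex - 3) * l))) ∧
    (∀ l, log 25 ≤ l → l < L → |r2V u Z l| * exp (-2 * l) <
      M * ε * (exp ((bex - 2) * l) - 300 * exp ((bex - 4) * l))) :=
  ⟨b4u h hC1 hC2 h0 hε hL hM, b4P h hC1 hC2 h0 hε hL hM, b4V h hC1 hC2 h0 hε hL hM,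
    fun l hl => (h.h4 l hl).trans (b4v_aux hC1 hC2 hε hβ hM hl),
    fun l hl => (h.h4' l hl).trans (b4v_aux hC1 hC2 hε hβ hM hl),
    b5u h hC1 hC2 h0 hρ hε hM, b5P h hC1 hC2 h0 hρ hε hM, b5V h hC1 hC2 h0 hρ hε hM⟩

end main

end Vale.Agent.P244.ST.BD.BIneqO
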