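import Vale.Agent.P244.ST.BDefs
import Vale.Agent.P244.ST.Conf

/-!
# P244-ST, block B : the initial data (definitions and interface)

`l = log r`.  `l0 = log rb` (bubble gluing radius), `lb = log ρ₀` (start of the `b`-part),
`l1 = log r1` (`r1 = √N`), `L = log Rc` (`Rc = N`), `lam = log λ` with `λ^κ = ε`.
For `l ≥ l0` the radial function is exactly `r = Rc sech (√ζ₀ X)`, `X = artanh x`.
-/

open Set Filter Topology Real
open scoped ContDiff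

namespace Vale.Agent.P244.ST.BD


/-- `ζ₀ = (p-1)/(m-1)` for `p = 20`, `m = 40`. -/
noncomputable def zeta0 : ℝ := 19 / 39

/-- `0` for `l ≤ a`, `1` for `l ≥ a + log 2`, nondecreasing. -/
noncomputable def cut (a l : ℝ) : ℝ := smoothTransition ((l - a) / log 2)

/-- the outer cut-off (`1` up to `r1`, `0` from `2 r1` on). -/
noncomputable def cutO (l1 l : ℝ) : ℝ := 1 - cut l1 l

/-- Parameters of the initial data. -/
structure IPar where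
  (l0 lb l1 L ε : ℝ)
  (Y : ℝ → ℝ)
  (P3 : ℝ → ℝ)
  (Pb : Fin 3 → ℝ → ℝ)

namespace IPar

variable (d : IPar)

/-- `log λ`. -/
noncomputable def lam : ℝ := log d.ε / kap 40

/-- The unperturbed `u` as a function of `l = log r`. -/
noncomputable def uS (l : ℝ) : ℝ :=
  (1 - cut d.l0 l) * d.Y (l - d.lam) + cut d.l0 l * (d.ε * cutO d.l1 l * d.P3 l)

/-- The `b`-part of `u` (supported in `[lb, l1 + log 2]`, i.e. `r ∈ [ρ₀, 2 r₁]`). -/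
noncomputable def uB (b : Fin 3 → ℝ) (l : ℝ) : ℝ :=
  d.ε * cut d.lb l * cutO d.l1 l * ∑ i, b i * d.Pb i l

/-- `u(l;b)`. -/
noncomputable def u (b : Fin 3 → ℝ) (l : ℝ) : ℝ := d.uS l + d.uB b l

/-- `Z(l;b) = r_s²`. -/
noncomputable def Z (g : ℝ → ℝ) (b : Fin 3 → ℝ) (l : ℝ) : ℝ :=
  (1 - cut (d.l0 - log 2) l) * Zs 40 g (d.u b l)
    + cut (d.l0 - log 2) l * (exp (d.u b l) * (1 - exp (2 * (l - d.L))))

/-- `N = - dl/dX` (independent of `b`). -/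
noncomputable def N (g : ℝ → ℝ) (l : ℝ) : ℝ :=
  exp (-(d.uS l) / 2) * sqrt (zeta0 * d.Z g 0 l)

/-- Admissible parameters (no smallness). -/
structure Ok (g : ℝ → ℝ) : Prop where
  eps : 0 < d.ε
  l0b : d.l0 + log 2 ≤ d.lb
  lb1 : d.lb + log 2 ≤ d.l1
  l1L : d.l1 + log 2 < d.L
  prof : IsProf 40 g d.Y
  P3s : ContDiff ℝ ∞ d.P3
  Pbs : ∀ i, ContDiff ℝ ∞ (d.Pb i)

/-- What block B delivers: the data in the conformal gauge; `lx x = log r` as a function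
of `x`. -/
structure IsInit (g : ℝ → ℝ) (w0 f0 : (Fin 3 → ℝ) → ℝ → ℝ) (lx : ℝ → ℝ) : Prop where
  smooth_w : ContDiffOn ℝ ∞ (fun z : (Fin 3 → ℝ) × ℝ => w0 z.1 z.2) (univ ×ˢ Icc (-1) 1)
  smooth_f : ContDiffOn ℝ ∞ (fun z : (Fin 3 → ℝ) × ℝ => f0 z.1 z.2) (univ ×ˢ Icc (-1) 1)
  data : ∀ b, ConfData (w0 b) (f0 b)
  lx_smooth : ContDiffOn ℝ ∞ lx (Ioo (-1) 1)
  lx_even : ∀ x, lx (-x) = lx x
  lx_zero : lx 0 = d.L
  lx_deriv : ∀ x ∈ Ioo (0 : ℝ) 1, HasDerivAt lx (-(d.N g (lx x)) / (1 - x ^ 2)) x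
  lx_lt : ∀ x ∈ Ioo (0 : ℝ) 1, lx x < d.L
  lx_top : Tendsto lx (𝓝[<] 1) atBot
  rel_f : ∀ b, ∀ x ∈ Ioo (-1 : ℝ) 1, f0 b x = log zeta0 / 2 + lx x + d.u b (lx x) / 2
  rel_w : ∀ b, ∀ x ∈ Ioo (-1 : ℝ) 1,
    w0 b x = log zeta0 / 2 + lx x - d.u b (lx x) / 2 - log (1 - x ^ 2) / 2

end IPar

/-- INTERFACE B3. -/
def InitStatement : Prop :=
  ∀ g, IsBub 40 g → ∀ d : IPar, d.Ok g → ∃ w0 f0 lx, d.IsInit g w0 f0 lx

end Vale.Agent.P244.ST.BD
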