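import Vale.Agent.P244.ST.BSub2
import Vale.Agent.P244.ST.S.LagDefs

/-! # P244-ST, block B5-MODE : the modes of the initial data -/

open Set Filter Topology Real MeasureTheory
open scoped ContDiff

namespace Vale.Agent.P244.ST.BD.BMode

noncomputable section

/-- the Laguerre exponent -/
def aL : ℝ := 39 / 2 - ST.kap

theorem kap_le : ST.kap ≤ 39 / 2 := by
  unfold ST.kap
  have := Real.sqrt_nonneg 1209
  linarith only [this]

theorem aL_gt : -1 < aL := by
  have := kap_le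
  unfold aL
  linarith only [this]

theorem DD_eq : ST.DD / 2 = aL + 1 := by
  unfold ST.DD aL
  ring

theorem ll_eq (i : ℕ) (z : ℝ) : ST.ll i z = (Lag.ell aL i).eval z := by
  unfold ST.ll Lag.ell
  rw [Polynomial.eval_finsetSum]
  refine Finset.sum_congr rfl fun k _ => ?_
  rw [Polynomial.eval_monomial, DD_eq]
  rfl

/-! ### the measure -/

theorem Wt_nonneg (y : ℝ) : 0 ≤ ST.Wt y := by
  unfold ST.Wt
  positivity

theorem Wt_cont : Continuous ST.Wt := by
  unfold ST.Wt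
  fun_prop

/-- the measure `W(y) dy` on `(0,∞)` -/
def nu : Measure ℝ :=
  (volume.restrict (Ioi 0)).withDensity (fun y => ENNReal.ofReal (ST.Wt y))

theorem integral_nu (f : ℝ → ℝ) : ∫ y, f y ∂nu = ∫ y in Ioi 0, f y * ST.Wt y := by
  unfold nu
  rw [integral_withDensity_eq_integral_toReal_smul
    (Wt_cont.measurable.ennreal_ofReal) (Eventually.of_forall fun _ => ENNReal.ofReal_lt_top)]
  refine setIntegral_congr_fun measurableSet_Ioi fun y _ => ?_
  rw [ENNReal.toReal_ofReal (Wt_nonneg y), smul_eq_mul, mul_comm]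

theorem integrable_nu (f : ℝ → ℝ) :
    Integrable f nu ↔ IntegrableOn (fun y => f y * ST.Wt y) (Ioi 0) := by
  unfold nu
  rw [integrable_withDensity_iff_integrable_smul'
    (Wt_cont.measurable.ennreal_ofReal) (Eventually.of_forall fun _ => ENNReal.ofReal_lt_top)]
  unfold IntegrableOn
  refine integrable_congr (Eventually.of_forall fun y => ?_)
  dsimp only
  rw [ENNReal.toReal_ofReal (Wt_nonneg y), smul_eq_mul, mul_comm]

/-! ### change of variables `z = y²/4` -/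

theorem chg_integral (g : ℝ → ℝ) :
    ∫ y in Ioi (0 : ℝ), (y / 2) * g (y ^ 2 / 4) = ∫ z in Ioi (0 : ℝ), g z := by
  have h1 := integral_comp_rpow_Ioi_of_pos (g := fun u : ℝ => (1 / 4 : ℝ) * g (u / 4))
    (p := 2) (by norm_num)
  have h2 : ∫ y in Ioi (0 : ℝ), (1 / 4 : ℝ) * g (y / 4) = ∫ z in Ioi (0 : ℝ), g z := by
    rw [integral_const_mul]
    have h3 := integral_comp_mul_left_Ioi g 0 (b := 1 / 4) (by norm_num)
    rw [mul_zero] at h3
    have h4 : ∫ y in Ioi (0 : ℝ), g (y / 4) = ∫ y in Ioi (0 : ℝ), g (1 / 4 * y) := by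
      refine setIntegral_congr_fun measurableSet_Ioi fun y _ => ?_
      congr 1
      ring
    rw [h4, h3, smul_eq_mul]
    ring
  rw [← h2, ← h1]
  refine setIntegral_congr_fun measurableSet_Ioi fun y hy => ?_
  rw [smul_eq_mul, show (2 : ℝ) - 1 = 1 by norm_num, Real.rpow_one, Real.rpow_two]
  ring

theorem chg_integrable {g : ℝ → ℝ} (hg : IntegrableOn g (Ioi 0)) :
    IntegrableOn (fun y => (y / 2) * g (y ^ 2 / 4)) (Ioi (0 : ℝ)) := by
  have h3 : IntegrableOn (fun u : ℝ => (1 / 4 : ℝ) * g (1 / 4 * u)) (Ioi 0) := by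
    refine Integrable.const_mul ?_ _
    rw [← IntegrableOn, integrableOn_Ioi_comp_mul_left_iff g 0 (by norm_num : (0:ℝ) < 1 / 4),
      mul_zero]
    exact hg
  have h1 := (integrableOn_Ioi_comp_rpow_iff (fun u : ℝ => (1 / 4 : ℝ) * g (1 / 4 * u))
    (p := 2) (by norm_num)).2 h3
  refine h1.congr_fun (fun y hy => ?_) measurableSet_Ioi
  dsimp only
  rw [smul_eq_mul, show (2 : ℝ) - 1 = 1 by norm_num, Real.rpow_one, Real.rpow_two, abs_two,
    show 1 / 4 * y ^ 2 = y ^ 2 / 4 by ring]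
  ring

/-- the constant of the change of variables -/
def KK : ℝ := 2 * 4 ^ aL

theorem KK_pos : 0 < KK := by
  unfold KK
  positivity

theorem wt_id {y : ℝ} (hy : 0 < y) (i j : ℕ) :
    ST.ph i y * ST.ph j y * ST.Wt y = KK * ((y / 2) *
      ((Lag.ell aL i).eval (y ^ 2 / 4) * (Lag.ell aL j).eval (y ^ 2 / 4) *
        ((y ^ 2 / 4) ^ aL * exp (-(y ^ 2 / 4))))) := by
  have h1 : (y ^ 2 / 4) ^ aL = y ^ (39 : ℕ) * y ^ (-ST.kap) * y ^ (-ST.kap) / 4 ^ aL := by
    rw [Real.div_rpow (by positivity) (by norm_num)]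
    congr 1
    rw [← Real.rpow_natCast y 2, ← Real.rpow_mul hy.le, ← Real.rpow_natCast y 39,
      ← Real.rpow_add hy, ← Real.rpow_add hy]
    congr 1
    unfold aL
    push_cast
    ring
  have h4 : (4 : ℝ) ^ aL ≠ 0 := by positivity
  unfold ST.ph ST.Wt KK
  rw [ll_eq, ll_eq, h1, show -y ^ 2 / 4 = -(y ^ 2 / 4) by ring]
  field_simp

theorem phph_integrable (i j : ℕ) : Integrable (fun y => ST.ph i y * ST.ph j y) nu := by
  rw [integrable_nu]
  have h1 := Lag.poly_integrable aL_gt (Lag.ell aL i * Lag.ell aL j)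
  simp only [Polynomial.eval_mul] at h1
  rw [Lag.integrable_mu] at h1
  refine IntegrableOn.congr_fun (f := fun y => KK * ((y / 2) *
      ((Lag.ell aL i).eval (y ^ 2 / 4) * (Lag.ell aL j).eval (y ^ 2 / 4) *
        ((y ^ 2 / 4) ^ aL * exp (-(y ^ 2 / 4)))))) ((chg_integrable h1).const_mul KK)
    (fun y hy => (wt_id hy i j).symm) measurableSet_Ioi

theorem phph_integral (i j : ℕ) : ∫ y, ST.ph i y * ST.ph j y ∂nu =
    KK * ∫ z, (Lag.ell aL i).eval z * (Lag.ell aL j).eval z ∂(Lag.mu aL) := by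
  rw [integral_nu, Lag.integral_mu, ← chg_integral fun z => (Lag.ell aL i).eval z *
    (Lag.ell aL j).eval z * (z ^ aL * exp (-z)), ← integral_const_mul]
  exact setIntegral_congr_fun measurableSet_Ioi fun y hy => wt_id hy i j

theorem ph_orth {i j : ℕ} (hij : i ≠ j) : ∫ y, ST.ph i y * ST.ph j y ∂nu = 0 := by
  rw [phph_integral, Lag.orth aL_gt hij, mul_zero]

theorem nph_eq (i : ℕ) : ST.nph i = ∫ y, ST.ph i y ^ 2 ∂nu := by
  rw [integral_nu]
  rfl

theorem nph_pos (i : ℕ) : 0 < ST.nph i := by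
  rw [nph_eq]
  simp only [sq]
  rw [phph_integral]
  have := Lag.nrm_pos aL_gt i
  unfold Lag.nrm at this
  simp only [sq] at this
  exact mul_pos KK_pos this

theorem ph_meas (i : ℕ) : Measurable (ST.ph i) := by
  unfold ST.ph ST.ll
  fun_prop

theorem ph_memLp (i : ℕ) : MemLp (ST.ph i) 2 nu := by
  rw [memLp_two_iff_integrable_sq (ph_meas i).aestronglyMeasurable]
  simp only [sq]
  exact phph_integrable i i

/-! ### projection on four orthogonal functions -/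

theorem hil {ν : Measure ℝ} {e : ℕ → ℝ → ℝ} (he : ∀ i, MemLp (e i) 2 ν)
    (ho : ∀ i j, i ≠ j → ∫ y, e i y * e j y ∂ν = 0) {n : ℕ → ℝ}
    (hn : ∀ i, n i = ∫ y, e i y ^ 2 ∂ν) (hn0 : ∀ i, 0 < n i) {V : ℝ → ℝ} (hV : MemLp V 2 ν)
    (a : ℕ → ℝ) (k : ℕ) :
    ∫ y, (V y - ∑ j ∈ Finset.range k, a j * e j y) ^ 2 ∂ν =
      (∫ y, V y ^ 2 ∂ν - ∑ i ∈ Finset.range k, ((∫ y, V y * e i y ∂ν) / n i) ^ 2 * n i) +
        ∑ i ∈ Finset.range k, (a i - (∫ y, V y * e i y ∂ν) / n i) ^ 2 * n i := by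
  have hVe : ∀ j, Integrable (fun y => V y * e j y) ν := fun j => hV.integrable_mul (he j)
  have hee : ∀ i j, Integrable (fun y => e i y * e j y) ν := fun i j =>
    (he i).integrable_mul (he j)
  have hoo : ∀ i j, ∫ y, e i y * e j y ∂ν = if i = j then n i else 0 := by
    intro i j
    split_ifs with h
    · subst h
      rw [hn i]
      simp only [sq]
    · exact ho i j h
  have e1 : ∀ y, (V y - ∑ j ∈ Finset.range k, a j * e j y) ^ 2 =
      (V y ^ 2 - ∑ j ∈ Finset.range k, 2 * a j * (V y * e j y)) +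
        ∑ i ∈ Finset.range k, ∑ j ∈ Finset.range k, (a i * a j) * (e i y * e j y) := by
    intro y
    rw [sub_sq, sq (∑ j ∈ Finset.range k, a j * e j y), Finset.sum_mul_sum, Finset.mul_sum]
    congr 1
    · congr 1
      exact Finset.sum_congr rfl fun j _ => by ring
    · exact Finset.sum_congr rfl fun i _ => Finset.sum_congr rfl fun j _ => by ring
  simp_rw [e1]
  rw [integral_add, integral_sub, integral_finsetSum, integral_finsetSum]
  · have e2 : ∀ i ∈ Finset.range k, ∫ y, ∑ j ∈ Finset.range k, (a i * a j) * (e i y * e j y) ∂ν =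
        a i ^ 2 * n i := by
      intro i hi
      rw [integral_finsetSum]
      · simp_rw [integral_const_mul, hoo]
        rw [Finset.sum_eq_single i]
        · rw [if_pos rfl]
          ring
        · intro j _ hj
          rw [if_neg (Ne.symm hj), mul_zero]
        · exact fun h => absurd hi h
      · exact fun j _ => (hee i j).const_mul _
    rw [Finset.sum_congr rfl e2]
    simp_rw [integral_const_mul]
    have e3 : ∀ i ∈ Finset.range k, (a i - (∫ y, V y * e i y ∂ν) / n i) ^ 2 * n i =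
        a i ^ 2 * n i - 2 * a i * (∫ y, V y * e i y ∂ν) +
          ((∫ y, V y * e i y ∂ν) / n i) ^ 2 * n i := by
      intro i _
      have := (hn0 i).ne'
      field_simp
      ring
    rw [Finset.sum_congr rfl e3, Finset.sum_add_distrib, Finset.sum_sub_distrib]
    ring
  · exact fun i _ => integrable_finsetSum _ fun j _ => (hee i j).const_mul _
  · exact fun j _ => (hVe j).const_mul _
  · exact hV.integrable_sq
  · exact integrable_finsetSum _ fun j _ => (hVe j).const_mul _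
  · exact hV.integrable_sq.sub (integrable_finsetSum _ fun j _ => (hVe j).const_mul _)
  · exact integrable_finsetSum _ fun i _ => integrable_finsetSum _ fun j _ =>
      (hee i j).const_mul _

/-- consequences for the coefficients -/
theorem hil_le {ν : Measure ℝ} {e : ℕ → ℝ → ℝ} (he : ∀ i, MemLp (e i) 2 ν)
    (ho : ∀ i j, i ≠ j → ∫ y, e i y * e j y ∂ν = 0) {n : ℕ → ℝ}
    (hn : ∀ i, n i = ∫ y, e i y ^ 2 ∂ν) (hn0 : ∀ i, 0 < n i) {V : ℝ → ℝ} (hV : MemLp V 2 ν)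
    (a : ℕ → ℝ) (k : ℕ) {q : ℝ}
    (hq : ∫ y, (V y - ∑ j ∈ Finset.range k, a j * e j y) ^ 2 ∂ν ≤ q) :
    (∫ y, V y ^ 2 ∂ν - ∑ i ∈ Finset.range k, ((∫ y, V y * e i y ∂ν) / n i) ^ 2 * n i ≤ q) ∧
      ∀ i < k, ((∫ y, V y * e i y ∂ν) / n i - a i) ^ 2 * n i ≤ q := by
  have h1 := hil he ho hn hn0 hV a k
  have h2 := hil he ho hn hn0 hV (fun i => (∫ y, V y * e i y ∂ν) / n i) k
  simp only [sub_self, ne_eq, OfNat.ofNat_ne_zero, not_false_eq_true, zero_pow, zero_mul,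
    Finset.sum_const_zero, add_zero] at h2
  have h3 : 0 ≤ ∫ y, V y ^ 2 ∂ν -
      ∑ i ∈ Finset.range k, ((∫ y, V y * e i y ∂ν) / n i) ^ 2 * n i := by
    rw [← h2]
    exact integral_nonneg fun y => sq_nonneg _
  have h4 : ∀ i ∈ Finset.range k, 0 ≤ (a i - (∫ y, V y * e i y ∂ν) / n i) ^ 2 * n i :=
    fun i _ => mul_nonneg (sq_nonneg _) (hn0 i).le
  rw [h1] at hq
  refine ⟨by linarith only [hq, h4, Finset.sum_nonneg h4], fun i hi => ?_⟩
  have h5 := Finset.single_le_sum h4 (Finset.mem_range.2 hi)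
  rw [sub_sq_comm]
  linarith only [hq, h3, h5]

/-! ### the tails -/

/-- the dominating function -/
def Ph0 (y : ℝ) : ℝ := ∑ j ∈ Finset.range 4, |ST.ph j y|

theorem Ph0_nonneg (y : ℝ) : 0 ≤ Ph0 y := Finset.sum_nonneg fun _ _ => abs_nonneg _

theorem ph_le {j : ℕ} (hj : j < 4) (y : ℝ) : |ST.ph j y| ≤ Ph0 y :=
  Finset.single_le_sum (f := fun j => |ST.ph j y|) (fun _ _ => abs_nonneg _)
    (Finset.mem_range.2 hj)

theorem Ph0_meas : Measurable Ph0 :=
  Finset.measurable_sum _ fun j _ => (ph_meas j).abs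

theorem Ph0_memLp : MemLp Ph0 2 nu :=
  memLp_finset_sum _ fun j _ => (ph_memLp j).abs

theorem Ph0_sq_int : Integrable (fun y => Ph0 y ^ 2) nu := Ph0_memLp.integrable_sq

theorem nu_Iic : nu (Iic 0) = 0 := by
  refine withDensity_absolutelyContinuous _ _ ?_
  rw [Measure.restrict_apply measurableSet_Iic,
    show Iic (0 : ℝ) ∩ Ioi 0 = ∅ from by
      ext y
      simp only [mem_inter_iff, mem_Iic, mem_Ioi, mem_empty_iff_false, iff_false, not_and,
        not_lt, imp_self],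
    measure_empty]

theorem mono_set {A B : Set ℝ} (h : A ⊆ B) :
    ∫ y in A, Ph0 y ^ 2 ∂nu ≤ ∫ y in B, Ph0 y ^ 2 ∂nu :=
  setIntegral_mono_set Ph0_sq_int.integrableOn
    (Eventually.of_forall fun _ => sq_nonneg _) h.eventuallyLE

theorem tail_left {θ : ℝ} (hθ : 0 < θ) : ∃ δ₀ > (0 : ℝ), ∀ δ ≤ δ₀,
    ∫ y in Iio δ, Ph0 y ^ 2 ∂nu ≤ θ := by
  have h1 := tendsto_setIntegral_of_antitone (μ := nu) (f := fun y => Ph0 y ^ 2)
    (s := fun n : ℕ => Iio (1 / ((n : ℝ) + 1))) (fun _ => measurableSet_Iio)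
    (fun m n hmn => Iio_subset_Iio (one_div_le_one_div_of_le (by positivity)
      (by have := Nat.cast_le (α := ℝ).2 hmn; linarith only [this]))) ⟨0, Ph0_sq_int.integrableOn⟩
  have h2 : (⋂ n : ℕ, Iio (1 / ((n : ℝ) + 1))) ⊆ Iic 0 := by
    intro y hy
    rw [mem_iInter] at hy
    by_contra hc
    rw [mem_Iic, not_le] at hc
    obtain ⟨n, hn⟩ := exists_nat_one_div_lt hc
    exact absurd (hy n) (not_lt.2 hn.le)
  rw [setIntegral_measure_zero _ (measure_mono_null h2 nu_Iic)] at h1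
  obtain ⟨n, hn⟩ := (h1.eventually (eventually_le_nhds hθ)).exists
  exact ⟨1 / ((n : ℝ) + 1), by positivity, fun δ hδ => (mono_set (Iio_subset_Iio hδ)).trans hn⟩

theorem tail_right {θ : ℝ} (hθ : 0 < θ) : ∃ M₀ : ℝ, ∀ M ≥ M₀,
    ∫ y in Ioi M, Ph0 y ^ 2 ∂nu ≤ θ := by
  have h1 := tendsto_setIntegral_of_antitone (μ := nu) (f := fun y => Ph0 y ^ 2)
    (s := fun n : ℕ => Ioi (n : ℝ)) (fun _ => measurableSet_Ioi)
    (fun m n hmn => Ioi_subset_Ioi (Nat.cast_le.2 hmn)) ⟨0, Ph0_sq_int.integrableOn⟩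
  have h2 : (⋂ n : ℕ, Ioi (n : ℝ)) = ∅ := by
    refine eq_empty_of_forall_notMem fun y hy => ?_
    rw [mem_iInter] at hy
    obtain ⟨n, hn⟩ := exists_nat_gt y
    exact absurd (hy n) (not_lt.2 hn.le)
  rw [h2, setIntegral_empty] at h1
  obtain ⟨n, hn⟩ := (h1.eventually (eventually_le_nhds hθ)).exists
  exact ⟨n, fun M hM => (mono_set (Ioi_subset_Ioi hM)).trans hn⟩

/-! ### the pointwise estimate -/

theorem stp_le_one (z : ℝ) : ST.stp z ≤ 1 := smoothTransition.le_one _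
theorem stp_nonneg (z : ℝ) : 0 ≤ ST.stp z := smoothTransition.nonneg _

theorem ch0_nonneg (d0 N y : ℝ) : 0 ≤ ch0 d0 N y :=
  mul_nonneg (stp_nonneg _) (sub_nonneg.2 (stp_le_one _))

theorem ch0_le (d0 N y : ℝ) : ch0 d0 N y ≤ 1 :=
  mul_le_one₀ (stp_le_one _) (sub_nonneg.2 (stp_le_one _)) (sub_le_self _ (stp_nonneg _))

theorem ch0_one {d0 N y : ℝ} (hd : 0 < d0) (h1 : 2 * d0 ≤ y) (h2 : y ≤ sqrt N) (hN : 0 < sqrt N) :
    ch0 d0 N y = 1 := by
  have e1 : ST.stp (y / d0) = 1 := by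
    refine smoothTransition.one_of_one_le ?_
    rw [le_sub_iff_add_le, le_div_iff₀ hd]
    linarith only [h1]
  have e2 : ST.stp (y / sqrt N) = 0 := by
    refine smoothTransition.zero_of_nonpos ?_
    rw [sub_nonpos, div_le_one hN]
    exact h2
  unfold ch0
  rw [e1, e2]
  norm_num

/-- the inner transition function -/
def st0 (ρ0 y : ℝ) : ℝ := smoothTransition (log (y / ρ0) / log 2)

theorem st0_nonneg (ρ0 y : ℝ) : 0 ≤ st0 ρ0 y := smoothTransition.nonneg _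
theorem st0_le (ρ0 y : ℝ) : st0 ρ0 y ≤ 1 := smoothTransition.le_one _

theorem st0_one {ρ0 y : ℝ} (hρ : 0 < ρ0) (h : 2 * ρ0 ≤ y) : st0 ρ0 y = 1 := by
  refine smoothTransition.one_of_one_le ?_
  have hl : 0 < log 2 := log_pos (by norm_num)
  rw [le_div_iff₀ hl, one_mul]
  refine log_le_log (by norm_num) ?_
  rw [le_div_iff₀ hρ]
  exact h

/-- the coefficients of the model -/
def ca (sg : ℝ) (b : Fin 3 → ℝ) (j : ℕ) : ℝ := if h : j < 3 then sg * b ⟨j, h⟩ else 1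

theorem ca_sum (sg : ℝ) (b : Fin 3 → ℝ) (y : ℝ) :
    ∑ j ∈ Finset.range 4, ca sg b j * ST.ph j y =
      ST.ph 3 y + sg * ∑ j : Fin 3, b j * ST.ph j y := by
  rw [Finset.sum_range_succ, Finset.mul_sum, ← Fin.sum_univ_eq_sum_range
    (fun j => ca sg b j * ST.ph j y)]
  have e1 : ∀ j : Fin 3, ca sg b j = sg * b j := fun j => by
    unfold ca
    rw [dif_pos j.2]
  have e2 : ca sg b 3 = 1 := by
    unfold ca
    rw [dif_neg (by norm_num)]
  simp_rw [e1]
  rw [e2, one_mul, add_comm]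
  congr 1
  exact Finset.sum_congr rfl fun j _ => by ring

theorem sum_b_le {b : Fin 3 → ℝ} (hb : b ∈ ST.Bx) (y : ℝ) :
    |∑ j : Fin 3, b j * ST.ph j y| ≤ 2 * Ph0 y := by
  refine (Finset.abs_sum_le_sum_abs _ _).trans ?_
  have h1 : ∀ j : Fin 3, |b j * ST.ph j y| ≤ 2 * |ST.ph j y| := fun j => by
    rw [abs_mul]
    refine mul_le_mul_of_nonneg_right ?_ (abs_nonneg _)
    exact abs_le.2 ⟨hb.1 j, hb.2 j⟩
  refine (Finset.sum_le_sum fun j _ => h1 j).trans ?_
  rw [← Finset.mul_sum, Fin.sum_univ_eq_sum_range (fun j => |ST.ph j y|)]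
  refine mul_le_mul_of_nonneg_left ?_ (by norm_num)
  unfold Ph0
  rw [Finset.sum_range_succ _ 3]
  exact le_add_of_nonneg_right (abs_nonneg _)

/-- the profile cut off -/
def VV0 (ρ0 sg d0 N : ℝ) (b : Fin 3 → ℝ) (y : ℝ) : ℝ := ch0 d0 N y * vb ρ0 sg b y

theorem vb_eq (ρ0 sg : ℝ) (b : Fin 3 → ℝ) (y : ℝ) :
    vb ρ0 sg b y = ST.ph 3 y + sg * (st0 ρ0 y * ∑ j : Fin 3, b j * ST.ph j y) := rfl

theorem VV0_abs {ρ0 sg d0 N : ℝ} (hsg : 0 < sg) (hsg1 : sg ≤ 1) {b : Fin 3 → ℝ}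
    (hb : b ∈ ST.Bx) (y : ℝ) : |VV0 ρ0 sg d0 N b y| ≤ 3 * Ph0 y := by
  unfold VV0
  rw [abs_mul, abs_of_nonneg (ch0_nonneg _ _ _), vb_eq]
  have h1 : |ST.ph 3 y + sg * (st0 ρ0 y * ∑ j : Fin 3, b j * ST.ph j y)| ≤ 3 * Ph0 y := by
    refine (abs_add_le _ _).trans ?_
    rw [abs_mul, abs_mul, abs_of_nonneg hsg.le, abs_of_nonneg (st0_nonneg _ _)]
    have h2 := ph_le (j := 3) (by norm_num) y
    have h3 : sg * (st0 ρ0 y * |∑ j : Fin 3, b j * ST.ph j y|) ≤ 1 * (1 * (2 * Ph0 y)) :=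
      mul_le_mul hsg1 (mul_le_mul (st0_le _ _) (sum_b_le hb y) (abs_nonneg _) zero_le_one)
        (mul_nonneg (st0_nonneg _ _) (abs_nonneg _)) zero_le_one
    linarith only [h2, h3]
  calc ch0 d0 N y * |ST.ph 3 y + sg * (st0 ρ0 y * ∑ j : Fin 3, b j * ST.ph j y)|
      ≤ 1 * (3 * Ph0 y) := mul_le_mul (ch0_le _ _ _) h1 (abs_nonneg _) zero_le_one
    _ = 3 * Ph0 y := one_mul _

theorem pt_est {ρ0 sg d0 N : ℝ} (hρ : 0 < ρ0) (hsg : 0 < sg) (hsg1 : sg ≤ 1) (hd : 0 < d0)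
    (hN : 0 < sqrt N) {b : Fin 3 → ℝ} (hb : b ∈ ST.Bx) (y : ℝ) :
    (VV0 ρ0 sg d0 N b y - ∑ j ∈ Finset.range 4, ca sg b j * ST.ph j y) ^ 2 ≤
      16 * (Iio (2 * d0)).indicator (fun y => Ph0 y ^ 2) y +
        16 * (Ioi (sqrt N)).indicator (fun y => Ph0 y ^ 2) y +
          4 * sg ^ 2 * (Iio (2 * ρ0)).indicator (fun y => Ph0 y ^ 2) y := by
  have hi1 : ∀ A : Set ℝ, 0 ≤ A.indicator (fun y => Ph0 y ^ 2) y := fun A =>
    indicator_nonneg (fun _ _ => sq_nonneg _) _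
  have hΦ := Ph0_nonneg y
  rw [ca_sum]
  by_cases h1 : y < 2 * d0 ∨ sqrt N < y
  · -- crude bound
    have h2 : |VV0 ρ0 sg d0 N b y - (ST.ph 3 y + sg * ∑ j : Fin 3, b j * ST.ph j y)| ≤
        4 * Ph0 y := by
      unfold VV0
      rw [vb_eq]
      have e : ch0 d0 N y * (ST.ph 3 y + sg * (st0 ρ0 y * ∑ j : Fin 3, b j * ST.ph j y)) -
          (ST.ph 3 y + sg * ∑ j : Fin 3, b j * ST.ph j y) =
          (ch0 d0 N y - 1) * ST.ph 3 y +
            sg * ((ch0 d0 N y * st0 ρ0 y - 1) * ∑ j : Fin 3, b j * ST.ph j y) := by ring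
      rw [e]
      refine (abs_add_le _ _).trans ?_
      rw [abs_mul, abs_mul, abs_mul, abs_of_nonneg hsg.le]
      have g0 := ch0_nonneg d0 N y
      have g1 := ch0_le d0 N y
      have g2 : 0 ≤ ch0 d0 N y * st0 ρ0 y := mul_nonneg g0 (st0_nonneg _ _)
      have g3 : ch0 d0 N y * st0 ρ0 y ≤ 1 := mul_le_one₀ g1 (st0_nonneg _ _) (st0_le _ _)
      have h3 : |ch0 d0 N y - 1| ≤ 1 := abs_le.2 ⟨by linarith only [g0], by linarith only [g1]⟩
      have h4 : |ch0 d0 N y * st0 ρ0 y - 1| ≤ 1 := abs_le.2 ⟨by linarith only [g2], by linarith only [g3]⟩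
      have h5 : |ch0 d0 N y - 1| * |ST.ph 3 y| ≤ 1 * Ph0 y :=
        mul_le_mul h3 (ph_le (by norm_num) y) (abs_nonneg _) zero_le_one
      have h6 : sg * (|ch0 d0 N y * st0 ρ0 y - 1| * |∑ j : Fin 3, b j * ST.ph j y|) ≤
          1 * (1 * (2 * Ph0 y)) :=
        mul_le_mul hsg1 (mul_le_mul h4 (sum_b_le hb y) (abs_nonneg _) zero_le_one)
          (mul_nonneg (abs_nonneg _) (abs_nonneg _)) zero_le_one
      linarith only [hΦ, h5, h6]
    have h3 : (VV0 ρ0 sg d0 N b y - (ST.ph 3 y + sg * ∑ j : Fin 3, b j * ST.ph j y)) ^ 2 ≤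
        16 * Ph0 y ^ 2 := by
      rw [← sq_abs]
      calc |VV0 ρ0 sg d0 N b y - (ST.ph 3 y + sg * ∑ j : Fin 3, b j * ST.ph j y)| ^ 2
          ≤ (4 * Ph0 y) ^ 2 := pow_le_pow_left₀ (abs_nonneg _) h2 2
        _ = 16 * Ph0 y ^ 2 := by ring
    have h5 : 0 ≤ 4 * sg ^ 2 * (Iio (2 * ρ0)).indicator (fun y => Ph0 y ^ 2) y :=
      mul_nonneg (by positivity) (hi1 _)
    rcases h1 with h1 | h1
    · have h4 : (Iio (2 * d0)).indicator (fun y => Ph0 y ^ 2) y = Ph0 y ^ 2 :=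
        indicator_of_mem (mem_Iio.2 h1) _
      have h6 := hi1 (Ioi (sqrt N))
      rw [h4]
      linarith only [h3, h5, h6]
    · have h4 : (Ioi (sqrt N)).indicator (fun y => Ph0 y ^ 2) y = Ph0 y ^ 2 :=
        indicator_of_mem (mem_Ioi.2 h1) _
      have h6 := hi1 (Iio (2 * d0))
      rw [h4]
      linarith only [h3, h5, h6]
  · push Not at h1
    have e : VV0 ρ0 sg d0 N b y - (ST.ph 3 y + sg * ∑ j : Fin 3, b j * ST.ph j y) =
        sg * ((st0 ρ0 y - 1) * ∑ j : Fin 3, b j * ST.ph j y) := by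
      unfold VV0
      rw [vb_eq, ch0_one hd h1.1 h1.2 hN]
      ring
    rw [e]
    have h6 := hi1 (Iio (2 * d0))
    have h7 := hi1 (Ioi (sqrt N))
    by_cases h2 : y < 2 * ρ0
    · have h4 : (Iio (2 * ρ0)).indicator (fun y => Ph0 y ^ 2) y = Ph0 y ^ 2 :=
        indicator_of_mem (mem_Iio.2 h2) _
      have g0 := st0_nonneg ρ0 y
      have g1 := st0_le ρ0 y
      have h3 : |(st0 ρ0 y - 1) * ∑ j : Fin 3, b j * ST.ph j y| ≤ 2 * Ph0 y := by
        rw [abs_mul]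
        have h5 : |st0 ρ0 y - 1| ≤ 1 := abs_le.2 ⟨by linarith only [g0], by linarith only [g1]⟩
        calc |st0 ρ0 y - 1| * |∑ j : Fin 3, b j * ST.ph j y| ≤ 1 * (2 * Ph0 y) :=
              mul_le_mul h5 (sum_b_le hb y) (abs_nonneg _) zero_le_one
          _ = 2 * Ph0 y := one_mul _
      have h8 : ((st0 ρ0 y - 1) * ∑ j : Fin 3, b j * ST.ph j y) ^ 2 ≤ 4 * Ph0 y ^ 2 := by
        rw [← sq_abs]
        calc |(st0 ρ0 y - 1) * ∑ j : Fin 3, b j * ST.ph j y| ^ 2 ≤ (2 * Ph0 y) ^ 2 :=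
              pow_le_pow_left₀ (abs_nonneg _) h3 2
          _ = 4 * Ph0 y ^ 2 := by ring
      rw [h4, mul_pow]
      have h9 := mul_le_mul_of_nonneg_left h8 (sq_nonneg sg)
      linarith only [h6, h7, h9]
    · rw [st0_one hρ (not_lt.1 h2), sub_self, zero_mul, mul_zero, sq, zero_mul]
      have h5 : 0 ≤ 4 * sg ^ 2 * (Iio (2 * ρ0)).indicator (fun y => Ph0 y ^ 2) y :=
        mul_nonneg (by positivity) (hi1 _)
      linarith only [h6, h7, h5]

theorem VV0_meas (ρ0 sg d0 N : ℝ) (b : Fin 3 → ℝ) : Measurable (VV0 ρ0 sg d0 N b) := by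
  have h1 : Measurable (fun y => ch0 d0 N y) := by
    unfold ch0 ST.stp
    exact (smoothTransition.continuous.measurable.comp (by fun_prop)).mul
      (measurable_const.sub (smoothTransition.continuous.measurable.comp (by fun_prop)))
  have h2 : Measurable (fun y => vb ρ0 sg b y) := by
    unfold vb
    exact (ph_meas 3).add (measurable_const.mul
      ((smoothTransition.continuous.measurable.comp (by fun_prop)).mul
        (Finset.measurable_sum _ fun j _ => measurable_const.mul (ph_meas j))))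
  exact h1.mul h2

theorem VV0_memLp {ρ0 sg d0 N : ℝ} (hsg : 0 < sg) (hsg1 : sg ≤ 1) {b : Fin 3 → ℝ}
    (hb : b ∈ ST.Bx) : MemLp (VV0 ρ0 sg d0 N b) 2 nu := by
  refine (Ph0_memLp.const_mul 3).mono' (VV0_meas _ _ _ _ _).aestronglyMeasurable
    (Eventually.of_forall fun y => ?_)
  rw [Real.norm_eq_abs]
  exact VV0_abs hsg hsg1 hb y

theorem mode : ModeStatement := by
  obtain ⟨m0, hm0, hm⟩ : ∃ m0 > (0 : ℝ), m0 ≤ 1 ∧ ∀ i < 4, m0 ≤ ST.nph i := by
    refine ⟨min 1 (min (min (ST.nph 0) (ST.nph 1)) (min (ST.nph 2) (ST.nph 3))),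
      lt_min one_pos (lt_min (lt_min (nph_pos 0) (nph_pos 1)) (lt_min (nph_pos 2) (nph_pos 3))),
      min_le_left _ _, fun i hi => (min_le_right _ _).trans ?_⟩
    interval_cases i
    · exact (min_le_left _ _).trans (min_le_left _ _)
    · exact (min_le_left _ _).trans (min_le_right _ _)
    · exact (min_le_right _ _).trans (min_le_left _ _)
    · exact (min_le_right _ _).trans (min_le_right _ _)
  set θ : ℝ := m0 / 3600 with hθ
  have hθ0 : 0 < θ := by positivity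
  obtain ⟨r1, hr1, hr⟩ := tail_left hθ0
  refine ⟨r1 / 2, by positivity, fun ρ0 hρ0 sg hsg => ?_⟩
  have hs2 : 0 < sg ^ 2 := pow_pos hsg.1 2
  obtain ⟨r2, hr2, hd⟩ := tail_left (mul_pos hθ0 hs2)
  refine ⟨r2 / 2, by positivity, fun d0 hd0 => ?_⟩
  obtain ⟨M0, hM⟩ := tail_right (mul_pos hθ0 hs2)
  refine ⟨(max M0 1) ^ 2, fun N hN b hb => ?_⟩
  have hsN : max M0 1 ≤ sqrt N := by
    rw [← Real.sqrt_sq (le_trans zero_le_one (le_max_right M0 1))]
    exact Real.sqrt_le_sqrt hN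
  have hsN0 : 0 < sqrt N := lt_of_lt_of_le one_pos ((le_max_right _ _).trans hsN)
  have hV := VV0_memLp (ρ0 := ρ0) (d0 := d0) (N := N) hsg.1 hsg.2 hb
  have hq : ∫ y, (VV0 ρ0 sg d0 N b y - ∑ j ∈ Finset.range 4, ca sg b j * ST.ph j y) ^ 2 ∂nu ≤
      (sg / 10) ^ 2 * m0 := by
    have hi : ∀ A : Set ℝ, MeasurableSet A →
        Integrable (A.indicator fun y => Ph0 y ^ 2) nu := fun A hA => Ph0_sq_int.indicator hA
    have h1 := integral_mono_of_nonneg (μ := nu) (Eventually.of_forall fun y => sq_nonneg _)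
      ((((hi _ measurableSet_Iio).const_mul 16).add ((hi _ measurableSet_Ioi).const_mul 16)).add
        ((hi _ measurableSet_Iio).const_mul (4 * sg ^ 2)))
      (Eventually.of_forall fun y => pt_est hρ0.1 hsg.1 hsg.2 hd0.1 hsN0 hb y)
    refine h1.trans ?_
    simp only [Pi.add_apply]
    rw [integral_add, integral_add, integral_const_mul, integral_const_mul, integral_const_mul,
      integral_indicator measurableSet_Iio, integral_indicator measurableSet_Ioi,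
      integral_indicator measurableSet_Iio]
    · have h2 := hr (2 * ρ0) (by linarith only [hρ0, hρ0.2])
      have h3 := hd (2 * d0) (by linarith only [hd0, hd0.2])
      have h4 := hM (sqrt N) ((le_max_left _ _).trans hsN)
      have h5 := mul_le_mul_of_nonneg_left h2 (by positivity : (0:ℝ) ≤ 4 * sg ^ 2)
      rw [hθ] at h3 h4 h5
      nlinarith only [h3, h4, h5]
    · exact (hi _ measurableSet_Iio).const_mul 16
    · exact (hi _ measurableSet_Ioi).const_mul 16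
    · exact ((hi _ measurableSet_Iio).const_mul 16).add ((hi _ measurableSet_Ioi).const_mul 16)
    · exact (hi _ measurableSet_Iio).const_mul _
  obtain ⟨h1, h2⟩ := hil_le (e := ST.ph) ph_memLp (fun i j => ph_orth) nph_eq nph_pos hV
    (ca sg b) 4 hq
  have e1 : ∀ i, ∫ y, VV0 ρ0 sg d0 N b y * ST.ph i y ∂nu =
      ∫ y in Ioi (0 : ℝ), ch0 d0 N y * vb ρ0 sg b y * ST.ph i y * ST.Wt y := fun i =>
    integral_nu _
  have e2 : ∫ y, VV0 ρ0 sg d0 N b y ^ 2 ∂nu =
      ∫ y in Ioi (0 : ℝ), (ch0 d0 N y * vb ρ0 sg b y) ^ 2 * ST.Wt y := integral_nu _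
  simp only [e1] at h1 h2
  rw [e2] at h1
  have h3 : ∀ i < 4, |(∫ y in Ioi (0 : ℝ), ch0 d0 N y * vb ρ0 sg b y * ST.ph i y * ST.Wt y) /
      ST.nph i - ca sg b i| ≤ sg / 10 := by
    intro i hi
    have h4 : 0 < ST.nph i := nph_pos i
    have h5 := (h2 i hi).trans (mul_le_mul_of_nonneg_left (hm.2 i hi) (sq_nonneg _))
    exact abs_le_of_sq_le_sq (le_of_mul_le_mul_right h5 h4) (div_nonneg hsg.1.le (by norm_num))
  refine ⟨?_, fun i => ?_, ?_⟩
  · have := h3 3 (by norm_num)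
    unfold ca at this
    rwa [dif_neg (by norm_num)] at this
  · have := h3 i (by omega)
    unfold ca at this
    rwa [dif_pos i.2] at this
  · refine h1.trans ?_
    exact mul_le_of_le_one_right (sq_nonneg _) hm.1

end

end Vale.Agent.P244.ST.BD.BMode
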