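import Vale.Agent.P244.ST.BSub2
import Vale.Agent.P244.ST.BConf
import Vale.Agent.P244.ST.BDict
import Vale.Agent.P244.ST.BBridge

/-! # P244-ST, block B5 : preparations for `B2Statement` -/

open Set Filter Topology Real MeasureTheory
open scoped ContDiff

namespace Vale.Agent.P244.ST.BD.BPre

open BD.BubG

theorem kap_eq : BD.kap 40 = ST.kap := BBridge.kap_eq

/-- The structure of block B from the interface structure. -/
theorem isBub_odd {g : ℝ → ℝ} (hg : ST.IsBub g) : BD.IsBub 40 (oddExt g) := by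
  have hev : ∀ u : ℝ, 0 < u → oddExt g =ᶠ[𝓝 u] g := by
    intro u hu
    filter_upwards [Ioi_mem_nhds hu] with v hv
    exact oddExt_pos hv
  have hder : ∀ u > 0, deriv g u = BD.gRhs 40 u (g u) := fun u hu => by
    rw [(hg.ode u hu).deriv, BBridge.gRhs_eq]
  refine ⟨by simp [oddExt], oddExt_odd g, ?_, ?_, ?_, ?_, ?_, ?_, ?_, ?_, ?_⟩
  · intro u hu
    rw [oddExt_pos hu, BBridge.gRhs_eq]
    exact (hg.ode u hu).congr_of_eventuallyEq (hev u hu)
  · intro u hu
    rw [oddExt_pos hu]
    exact hg.lower u hu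
  · intro u hu
    rw [oddExt_pos hu, kap_eq]
    exact hg.upper u hu
  · intro u hu
    rw [oddExt_pos hu]
    exact hg.lt_two u hu
  · intro u hu
    rw [oddExt_pos hu, ← hder u hu]
    exact hg.deriv_pos u hu
  · intro u hu
    rw [oddExt_pos hu, ← hder u hu]
    exact hg.ratio u hu
  · obtain ⟨C, hC⟩ := hg.at_zero
    refine ⟨C, fun u hu => ?_⟩
    have hT := BubG.tanh_pos hu
    rw [oddExt_pos hu, kap_eq]
    have h1 := hC u hu
    have h2 : ST.kap - g u / tanh u = (ST.kap * tanh u - g u) / tanh u := by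
      field_simp
    rw [h2, div_le_iff₀ hT]
    calc _ ≤ _ := h1
      _ = _ := by ring
  · obtain ⟨C, hC⟩ := hg.at_tip
    refine ⟨2 * |C| + 1, fun u hu => ?_⟩
    have hT := BubG.tanh_pos hu
    have hT1 := Real.tanh_lt_one u
    rw [oddExt_pos hu]
    have h1 := hC u hu
    have h2 := hg.upper u hu
    have hk : ST.kap < 2.15 := by
      rw [← kap_eq]
      have := bubPar_forty.2.2
      have h5 := bubPar_forty.1
      unfold BD.kap at *
      have h4 : (34.77 : ℝ) < Real.sqrt ((40 - 1) * (40 - 9)) := by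
        rw [Real.lt_sqrt (by norm_num)]
        norm_num
      linarith
    rcases le_or_gt (1 / 2) (tanh u) with hc | hc
    · rw [sub_le_iff_le_add, div_le_iff₀ hT]
      have h3 : C * (1 - tanh u ^ 2) ≤ |C| * (1 - tanh u ^ 2) :=
        mul_le_mul_of_nonneg_right (le_abs_self C) (by nlinarith)
      have h4 : |C| * (1 - tanh u ^ 2) ≤ 2 * |C| * (1 - tanh u ^ 2) * tanh u := by
        have : 0 ≤ |C| * (1 - tanh u ^ 2) := mul_nonneg (abs_nonneg _) (by nlinarith)
        nlinarith
      nlinarith [mul_nonneg (show (0:ℝ) ≤ 1 - tanh u ^ 2 by nlinarith) hT.le]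
    · rw [sub_le_iff_le_add, div_le_iff₀ hT]
      have h3 : 0 ≤ 2 * |C| * (1 - tanh u ^ 2) * tanh u := by
        have : (0:ℝ) ≤ 1 - tanh u ^ 2 := by nlinarith only [hT, hT1, hc]
        positivity
      nlinarith only [hT, hT1, h2, hk, hc, h3]
  · obtain ⟨h, hs, hh⟩ := hg.tip_smooth
    refine ⟨h, 1, one_pos, hs, ?_, ?_⟩
    · have hc : ContinuousAt h 0 :=
        (hs.continuousOn).continuousAt (Ioo_mem_nhds (by norm_num) (by norm_num))
      have h1 : Tendsto (fun u : ℝ => exp (-2 * u)) atTop (𝓝 0) := by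
        have : Tendsto (fun u : ℝ => -2 * u) atTop atBot :=
          tendsto_id.const_mul_atTop_of_neg (by norm_num)
        exact tendsto_exp_atBot.comp this
      have h2 : Tendsto g atTop (𝓝 (h 0)) := by
        refine (hc.tendsto.comp h1).congr' ?_
        filter_upwards [eventually_gt_atTop 0] with u hu
        exact (hh u hu).symm
      have h3 : Tendsto g atTop (𝓝 2) := by
        have hlow : Tendsto (fun u : ℝ => 2 * tanh u) atTop (𝓝 2) := by
          have ht : Tendsto (fun u : ℝ => 1 - 2 * (exp (-2 * u)) / (1 + exp (-2 * u))) atTop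
              (𝓝 1) := by
            have h4 := ((h1.const_mul 2).div (h1.const_add 1) (by norm_num)).const_sub 1
            simpa using h4
          have h5 : ∀ u : ℝ, tanh u = 1 - 2 * (exp (-2 * u)) / (1 + exp (-2 * u)) := by
            intro u
            rw [Real.tanh_eq_sinh_div_cosh, Real.sinh_eq, Real.cosh_eq]
            have h6 : exp (-2 * u) = exp (-u) / exp u := by
              rw [← Real.exp_sub]; ring_nf
            rw [h6]
            have h7 := Real.exp_pos u
            have h8 := Real.exp_pos (-u)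
            field_simp
            ring
          have h6 := ht.const_mul 2
          simp only [mul_one] at h6
          refine h6.congr fun u => ?_
          rw [h5 u]
        refine tendsto_of_tendsto_of_tendsto_of_le_of_le' hlow tendsto_const_nhds ?_ ?_
        · filter_upwards [eventually_gt_atTop 0] with u hu
          exact (hg.lower u hu).le
        · filter_upwards [eventually_gt_atTop 0] with u hu
          exact (hg.lt_two u hu).le
      exact tendsto_nhds_unique h2 h3
    · intro u hu
      have hu0 : 0 < u := by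
        by_contra hcon
        have : (1 : ℝ) ≤ exp (-2 * u) := Real.one_le_exp (by linarith only [hcon])
        linarith
      rw [oddExt_pos hu0]
      exact hh u hu0

/-- The Laguerre coefficients of `Geo.ll`. -/
noncomputable def cfL (i k : ℕ) : ℝ :=
  (-1) ^ k * (i.choose k : ℝ) / (∏ l ∈ Finset.range k, (ST.DD / 2 + l))

theorem DD_pos : 36 < ST.DD := by
  unfold ST.DD
  rw [← kap_eq]
  have h4 : (34.77 : ℝ) < Real.sqrt ((40 - 1) * (40 - 9)) := by
    rw [Real.lt_sqrt (by norm_num)]
    norm_num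
  unfold BD.kap
  linarith only [h4]

theorem cfL_isLag : IsLagCf cfL := by
  refine ⟨fun i _ => by simp [cfL], ?_⟩
  intro i _ k hk
  unfold cfL
  have hD := DD_pos
  have h1 : (41 - 2 * BD.kap 40) / 2 = ST.DD / 2 := by
    rw [kap_eq]; rfl
  have h2 : (∏ l ∈ Finset.range k, (ST.DD / 2 + (l : ℝ))) ≠ 0 := by
    refine (Finset.prod_pos fun l _ => ?_).ne'
    have : (0 : ℝ) ≤ l := Nat.cast_nonneg l
    linarith only [hD]
  have h3 : (ST.DD / 2 + (k : ℝ)) ≠ 0 := by
    have : (0 : ℝ) ≤ k := Nat.cast_nonneg k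
    linarith only [hD]
  have h4 : ((k : ℝ) + 1) * (i.choose (k + 1) : ℝ) = ((i : ℝ) - k) * (i.choose k : ℝ) := by
    have h5 := Nat.choose_succ_right_eq i k
    have h6 : ((i.choose (k + 1) * (k + 1) : ℕ) : ℝ) = ((i.choose k * (i - k) : ℕ) : ℝ) := by
      rw [h5]
    push_cast [Nat.cast_sub hk.le] at h6
    linarith only [h6]
  rw [h1, Finset.prod_range_succ, pow_succ]
  field_simp
  linear_combination (-(2 * (k : ℝ) + ST.DD)) * h4

theorem Pcf_eq (i : ℕ) (l : ℝ) : Pcf cfL i l = ST.ph i (exp l) := by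
  unfold Pcf ST.ph ST.ll cfL
  rw [kap_eq]
  have h1 : exp l ^ (-ST.kap) = exp (-ST.kap * l) := by
    rw [← Real.exp_mul]; ring_nf
  rw [h1]
  have h2 : exp l ^ 2 = exp (2 * l) := by
    rw [← Real.exp_nat_mul]; push_cast; rfl
  rw [h2]

theorem Ph_zero (i : ℕ) (r : ℝ) : ST.Ph i 0 r = ST.ph i r := by
  unfold ST.Ph ST.tau
  simp

end Vale.Agent.P244.ST.BD.BPre
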