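import Vale.Agent.P244.ST.BAux

/-!
# P244-ST, block B : existence of the bubble profile in the variable `l = log r`
-/

open Set Filter Topology Real MeasureTheory
open scoped ContDiff

namespace Vale.Agent.P244.ST.BD.BP

open Vale.Agent.P244.ST.BD Vale.Agent.P244.ST.BD.BT Vale.Agent.P244.ST.BD.BA

variable {g : ℝ → ℝ}

/-! ### the arrival time `L(u) = -(1/κ) log u + ∫_0^u (g - κ v)/(κ v g)` -/

/-- the integrand -/
noncomputable def bp_k (g : ℝ → ℝ) (v : ℝ) : ℝ := (g v - kap 40 * v) / (kap 40 * v * g v)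

/-- the regular part -/
noncomputable def bp_K (g : ℝ → ℝ) (u : ℝ) : ℝ := ∫ v in (0 : ℝ)..u, bp_k g v

/-- the arrival time -/
noncomputable def bp_L (g : ℝ → ℝ) (u : ℝ) : ℝ := -(log u) / kap 40 + bp_K g u

theorem bp_k_eq (hg : IsBub 40 g) {v : ℝ} (hv : 0 < v) :
    bp_k g v = 1 / (kap 40 * v) - 1 / g v := by
  have h1 := (ba_g_pos hg hv).ne'
  have h2 := ba_kap_pos.ne'
  unfold bp_k
  field_simp

theorem bp_k_zero : bp_k g 0 = 0 := by simp [bp_k]

theorem bp_k_bound (hg : IsBub 40 g) : ∃ C, 0 ≤ C ∧ ∀ v > 0, |bp_k g v| ≤ C * v * (1 + v) := by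
  obtain ⟨C, hC0, hC⟩ := ba_g_cubic hg
  have hk := ba_kap_pos
  refine ⟨C / kap 40, by positivity, fun v hv => ?_⟩
  have hgp := ba_g_pos hg hv
  have h1 := ba_g_lt hg hv
  have h2 := hC v hv
  have h3 : v ≤ (1 + v) * g v := by
    have a1 := hg.lower v hv
    have a2 := ba_tanh_lower v
    have a3 := ba_tanh_pos hv
    nlinarith only [hv, hgp, a1, a2, a3]
  have h4 : |bp_k g v| = (kap 40 * v - g v) / (kap 40 * v * g v) := by
    unfold bp_k
    rw [abs_div, abs_of_pos (by positivity : 0 < kap 40 * v * g v), abs_sub_comm,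
      abs_of_pos (by linarith only [h1])]
  rw [h4, div_le_iff₀ (by positivity)]
  calc kap 40 * v - g v ≤ C * v ^ 3 := h2
    _ = C * v ^ 2 * v := by ring
    _ ≤ C * v ^ 2 * ((1 + v) * g v) := mul_le_mul_of_nonneg_left h3 (by positivity)
    _ = C / kap 40 * v * (1 + v) * (kap 40 * v * g v) := by
      field_simp

theorem bp_k_contAt (hg : IsBub 40 g) {v : ℝ} (hv : 0 < v) : ContinuousAt (bp_k g) v := by
  have h1 : ContinuousAt g v := (hg.deriv v hv).continuousAt
  have h2 := (ba_g_pos hg hv).ne'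
  have h3 := ba_kap_pos.ne'
  unfold bp_k
  refine (h1.sub (continuousAt_const.mul continuousAt_id)).div
    ((continuousAt_const.mul continuousAt_id).mul h1) ?_
  have := hv.ne'
  positivity

theorem bp_k_contOn (hg : IsBub 40 g) : ContinuousOn (bp_k g) (Ici 0) := by
  intro v hv
  rcases eq_or_lt_of_le (mem_Ici.1 hv) with h | h
  · subst h
    obtain ⟨C, hC0, hC⟩ := bp_k_bound hg
    have h1 : Tendsto (fun v : ℝ => C * v * (1 + v)) (𝓝[Ici 0] 0) (𝓝 0) := by
      have : Continuous (fun v : ℝ => C * v * (1 + v)) := by fun_prop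
      have h2 := (this.tendsto 0).mono_left (nhdsWithin_le_nhds (s := Ici (0 : ℝ)))
      simpa using h2
    have h2 : Tendsto (bp_k g) (𝓝[Ici 0] 0) (𝓝 0) := by
      refine tendsto_zero_iff_norm_tendsto_zero.2 (squeeze_zero' (Eventually.of_forall fun _ =>
        norm_nonneg _) ?_ h1)
      filter_upwards [self_mem_nhdsWithin] with x hx
      rcases eq_or_lt_of_le (mem_Ici.1 hx) with h' | h'
      · subst h'; simp [bp_k_zero]
      · exact hC x h'
    unfold ContinuousWithinAt
    rw [bp_k_zero]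
    exact h2
  · exact (bp_k_contAt hg h).continuousWithinAt

theorem bp_K_bound (hg : IsBub 40 g) :
    ∃ C, 0 ≤ C ∧ ∀ u > 0, |bp_K g u| ≤ C * u ^ 2 * (1 + u) := by
  obtain ⟨C, hC0, hC⟩ := bp_k_bound hg
  refine ⟨C, hC0, fun u hu => ?_⟩
  have h1 : ∀ v ∈ uIoc 0 u, ‖bp_k g v‖ ≤ C * u * (1 + u) := by
    intro v hv
    rw [uIoc_of_le hu.le] at hv
    refine (hC v hv.1).trans ?_
    have := hv.1
    have := hv.2
    gcongr
  have h2 := intervalIntegral.norm_integral_le_of_norm_le_const h1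
  rw [Real.norm_eq_abs] at h2
  unfold bp_K
  refine h2.trans (le_of_eq ?_)
  rw [sub_zero, abs_of_pos hu]
  ring

theorem bp_K_deriv (hg : IsBub 40 g) {u : ℝ} (hu : 0 < u) :
    HasDerivAt (bp_K g) (bp_k g u) u := by
  unfold bp_K
  refine intervalIntegral.integral_hasDerivAt_right ?_ ?_ (bp_k_contAt hg hu)
  · refine ContinuousOn.intervalIntegrable ?_
    rw [uIcc_of_le hu.le]
    exact (bp_k_contOn hg).mono Icc_subset_Ici_self
  · have : ContinuousOn (bp_k g) (Ioi 0) := (bp_k_contOn hg).mono Ioi_subset_Ici_self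
    exact this.stronglyMeasurableAtFilter isOpen_Ioi u hu

theorem bp_L_deriv (hg : IsBub 40 g) {u : ℝ} (hu : 0 < u) :
    HasDerivAt (bp_L g) (-(1 / g u)) u := by
  have h1 := ((hasDerivAt_log hu.ne').neg.div_const (kap 40)).add (bp_K_deriv hg hu)
  refine h1.congr_deriv ?_
  rw [bp_k_eq hg hu]
  have := ba_kap_pos.ne'
  field_simp
  ring

/-- `φ(x) = - L(e^x)` -/
noncomputable def bp_phi (g : ℝ → ℝ) (x : ℝ) : ℝ := -(bp_L g (exp x))

theorem bp_phi_deriv (hg : IsBub 40 g) (x : ℝ) :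
    HasDerivAt (bp_phi g) (exp x / g (exp x)) x := by
  have h1 := ((bp_L_deriv hg (exp_pos x)).comp x (hasDerivAt_exp x)).neg
  refine h1.congr_deriv ?_
  ring

theorem bp_phi_slope (hg : IsBub 40 g) (x : ℝ) : 1 / kap 40 < exp x / g (exp x) := by
  have h1 := ba_g_lt hg (exp_pos x)
  have h2 := ba_g_pos hg (exp_pos x)
  rw [div_lt_div_iff₀ ba_kap_pos h2]
  linarith only [h1]

theorem bp_phi_mono (hg : IsBub 40 g) : Monotone (fun x => bp_phi g x - x / kap 40) := by
  have hd : ∀ x, HasDerivAt (fun x => bp_phi g x - x / kap 40)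
      (exp x / g (exp x) - 1 / kap 40) x := fun x =>
    (bp_phi_deriv hg x).sub ((hasDerivAt_id x).div_const _)
  refine monotone_of_deriv_nonneg (fun x => (hd x).differentiableAt) fun x => ?_
  rw [(hd x).deriv]
  linarith only [hg, bp_phi_slope hg x]

theorem bp_phi_strict (hg : IsBub 40 g) : StrictMono (bp_phi g) := by
  intro x y hxy
  have h1 := bp_phi_mono hg hxy.le
  have h2 : x / kap 40 < y / kap 40 := div_lt_div_of_pos_right hxy ba_kap_pos
  simp only at h1
  linarith only [h1, h2]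

theorem bp_phi_cont (hg : IsBub 40 g) : Continuous (bp_phi g) :=
  continuous_iff_continuousAt.2 fun x => (bp_phi_deriv hg x).continuousAt

theorem bp_phi_surj (hg : IsBub 40 g) : Function.Surjective (bp_phi g) := by
  have hk := ba_kap_pos
  refine (bp_phi_cont hg).surjective ?_ ?_
  · have h1 : Tendsto (fun x : ℝ => bp_phi g 0 + x / kap 40) atTop atTop :=
      tendsto_atTop_add_const_left _ _ (tendsto_id.atTop_div_const hk)
    refine tendsto_atTop_mono' _ ?_ h1
    filter_upwards [eventually_ge_atTop 0] with x hx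
    have := bp_phi_mono hg hx
    simp only [zero_div, sub_zero] at this
    linarith only [this]
  · have h1 : Tendsto (fun x : ℝ => bp_phi g 0 + x / kap 40) atBot atBot :=
      tendsto_atBot_add_const_left _ _ (tendsto_id.atBot_div_const hk)
    refine tendsto_atBot_mono' _ ?_ h1
    filter_upwards [eventually_le_atBot 0] with x hx
    have := bp_phi_mono hg hx
    simp only [zero_div, sub_zero] at this
    linarith only [this]

/-- the order isomorphism `φ` -/
noncomputable def bp_iso (hg : IsBub 40 g) : ℝ ≃o ℝ :=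
  (bp_phi_strict hg).orderIsoOfSurjective _ (bp_phi_surj hg)

theorem bp_iso_apply (hg : IsBub 40 g) (x : ℝ) : bp_iso hg x = bp_phi g x := rfl

/-- the profile -/
noncomputable def bp_Y (hg : IsBub 40 g) (l : ℝ) : ℝ := exp ((bp_iso hg).symm (-l))

theorem bp_Y_pos (hg : IsBub 40 g) (l : ℝ) : 0 < bp_Y hg l := exp_pos _

theorem bp_L_Y (hg : IsBub 40 g) (l : ℝ) : bp_L g (bp_Y hg l) = l := by
  have h1 : bp_phi g ((bp_iso hg).symm (-l)) = -l := by
    rw [← bp_iso_apply hg]
    exact (bp_iso hg).apply_symm_apply (-l)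
  unfold bp_phi at h1
  unfold bp_Y
  linarith only [hg, h1]

theorem bp_Y_deriv (hg : IsBub 40 g) (l : ℝ) :
    HasDerivAt (bp_Y hg) (-(g (bp_Y hg l))) l := by
  have hc : ContinuousAt (bp_iso hg).symm (-l) := (bp_iso hg).symm.continuous.continuousAt
  have h1 := bp_phi_deriv hg ((bp_iso hg).symm (-l))
  have hne : exp ((bp_iso hg).symm (-l)) / g (exp ((bp_iso hg).symm (-l))) ≠ 0 :=
    (div_pos (exp_pos _) (ba_g_pos hg (exp_pos _))).ne'
  have h2 : HasDerivAt (bp_iso hg).symm
      (exp ((bp_iso hg).symm (-l)) / g (exp ((bp_iso hg).symm (-l))))⁻¹ (-l) :=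
    h1.of_local_left_inverse hc hne
      (Eventually.of_forall fun y => by
        rw [← bp_iso_apply hg]; exact (bp_iso hg).apply_symm_apply y)
  have h3 : HasDerivAt (fun l : ℝ => (bp_iso hg).symm (-l))
      ((exp ((bp_iso hg).symm (-l)) / g (exp ((bp_iso hg).symm (-l))))⁻¹ * (-1)) l :=
    h2.comp l (hasDerivAt_neg l)
  have h4 := h3.exp
  refine h4.congr_deriv ?_
  have h5 := (ba_g_pos hg (exp_pos ((bp_iso hg).symm (-l)))).ne'
  unfold bp_Y
  field_simp

theorem bp_Y_anti (hg : IsBub 40 g) : StrictAnti (bp_Y hg) := by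
  intro a b hab
  unfold bp_Y
  exact exp_lt_exp.2 ((bp_iso hg).symm.strictMono (neg_lt_neg hab))

theorem bp_Y_top (hg : IsBub 40 g) : Tendsto (bp_Y hg) atBot atTop := by
  unfold bp_Y
  exact tendsto_exp_atTop.comp ((bp_iso hg).symm.tendsto_atTop.comp tendsto_neg_atBot_atTop)

end Vale.Agent.P244.ST.BD.BP
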