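import Vale.Agent.P244.ST.BProf

/-!
# P244-ST, block B : smoothness and asymptotics of the bubble profile
-/

open Set Filter Topology Real MeasureTheory
open scoped ContDiff

namespace Vale.Agent.P244.ST.BD.BP

open Vale.Agent.P244.ST.BD Vale.Agent.P244.ST.BD.BT Vale.Agent.P244.ST.BD.BA

variable {g : ℝ → ℝ}

/-! ### classes of functions with a quadratic relative error at `0` -/

/-- bounded on `(0, M]` -/
def bp_Bd (M : ℝ) (φ : ℝ → ℝ) : Prop := ∃ C, ∀ u, 0 < u → u ≤ M → |φ u| ≤ C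

/-- `f = (c + O(u²)) u^k` on `(0, M]` -/
def bp_A (M : ℝ) (k : ℕ) (c : ℝ) (f : ℝ → ℝ) : Prop :=
  ∃ φ, bp_Bd M φ ∧ ∀ u, 0 < u → u ≤ M → f u = (c + φ u * u ^ 2) * u ^ k

variable {M : ℝ}

theorem bp_Bd.add {φ ψ : ℝ → ℝ} (h1 : bp_Bd M φ) (h2 : bp_Bd M ψ) :
    bp_Bd M (fun u => φ u + ψ u) := by
  obtain ⟨C, hC⟩ := h1
  obtain ⟨D, hD⟩ := h2
  exact ⟨C + D, fun u hu hM => (abs_add_le _ _).trans (add_le_add (hC u hu hM) (hD u hu hM))⟩

theorem bp_Bd.mul {φ ψ : ℝ → ℝ} (h1 : bp_Bd M φ) (h2 : bp_Bd M ψ) :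
    bp_Bd M (fun u => φ u * ψ u) := by
  obtain ⟨C, hC⟩ := h1
  obtain ⟨D, hD⟩ := h2
  refine ⟨C * D, fun u hu hM => ?_⟩
  rw [abs_mul]
  exact mul_le_mul (hC u hu hM) (hD u hu hM) (abs_nonneg _) ((abs_nonneg _).trans (hC u hu hM))

theorem bp_Bd.const (c : ℝ) : bp_Bd M (fun _ => c) := ⟨|c|, fun _ _ _ => le_rfl⟩

theorem bp_Bd.pow (k : ℕ) : bp_Bd M (fun u => u ^ k) := by
  refine ⟨M ^ k, fun u hu hM => ?_⟩
  rw [abs_of_pos (pow_pos hu k)]
  exact pow_le_pow_left₀ hu.le hM k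

theorem bp_A.add {k : ℕ} {c d : ℝ} {f h : ℝ → ℝ} (h1 : bp_A M k c f) (h2 : bp_A M k d h) :
    bp_A M k (c + d) (fun u => f u + h u) := by
  obtain ⟨φ, hφ, h1⟩ := h1
  obtain ⟨ψ, hψ, h2⟩ := h2
  refine ⟨_, hφ.add hψ, fun u hu hM => ?_⟩
  simp only
  rw [h1 u hu hM, h2 u hu hM]
  ring

theorem bp_A.mul {k j : ℕ} {c d : ℝ} {f h : ℝ → ℝ} (h1 : bp_A M k c f) (h2 : bp_A M j d h) :
    bp_A M (k + j) (c * d) (fun u => f u * h u) := by
  obtain ⟨φ, hφ, h1⟩ := h1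
  obtain ⟨ψ, hψ, h2⟩ := h2
  refine ⟨_, (((bp_Bd.const c).mul hψ).add ((bp_Bd.const d).mul hφ)).add
    ((hφ.mul hψ).mul (bp_Bd.pow 2)), fun u hu hM => ?_⟩
  simp only
  rw [h1 u hu hM, h2 u hu hM, pow_add]
  ring

theorem bp_A.const (c : ℝ) : bp_A M 0 c (fun _ => c) :=
  ⟨fun _ => 0, bp_Bd.const 0, fun u _ _ => by simp⟩

theorem bp_A.smul {k : ℕ} {c : ℝ} {f : ℝ → ℝ} (a : ℝ) (h1 : bp_A M k c f) :
    bp_A M k (a * c) (fun u => a * f u) := by
  obtain ⟨φ, hφ, h1⟩ := h1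
  refine ⟨_, (bp_Bd.const a).mul hφ, fun u hu hM => ?_⟩
  simp only
  rw [h1 u hu hM]
  ring

theorem bp_A.raise {k : ℕ} {c : ℝ} {f : ℝ → ℝ} (h1 : bp_A M (k + 2) c f) :
    bp_A M k 0 f := by
  obtain ⟨φ, hφ, h1⟩ := h1
  refine ⟨_, (bp_Bd.const c).add (hφ.mul (bp_Bd.pow 2)), fun u hu hM => ?_⟩
  rw [h1 u hu hM, pow_add]
  ring

theorem bp_A.congr {k : ℕ} {c d : ℝ} {f h : ℝ → ℝ} (h1 : bp_A M k c f) (hc : c = d)
    (hf : ∀ u, 0 < u → u ≤ M → f u = h u) : bp_A M k d h := by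
  subst hc
  obtain ⟨φ, hφ, h1⟩ := h1
  exact ⟨φ, hφ, fun u hu hM => (hf u hu hM) ▸ h1 u hu hM⟩

theorem bp_A.bound {c : ℝ} {f : ℝ → ℝ} (h1 : bp_A M 1 c f) :
    ∃ C, ∀ u, 0 < u → u ≤ M → |f u - c * u| ≤ C * u ^ 3 := by
  obtain ⟨φ, ⟨C, hC⟩, h1⟩ := h1
  refine ⟨C, fun u hu hM => ?_⟩
  have e : f u - c * u = φ u * u ^ 3 := by rw [h1 u hu hM]; ring
  rw [e, abs_mul, abs_of_pos (pow_pos hu 3)]
  exact mul_le_mul_of_nonneg_right (hC u hu hM) (pow_pos hu 3).le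

theorem bp_A.of_bound {c C : ℝ} {f : ℝ → ℝ}
    (h : ∀ u, 0 < u → u ≤ M → |f u - c * u| ≤ C * u ^ 3) : bp_A M 1 c f := by
  refine ⟨fun u => (f u - c * u) / u ^ 3, ⟨C, fun u hu hM => ?_⟩, fun u hu hM => ?_⟩
  · rw [abs_div, abs_of_pos (pow_pos hu 3), div_le_iff₀ (pow_pos hu 3)]
    exact h u hu hM
  · have := hu.ne'
    field_simp
    ring

theorem bp_A_g (hg : IsBub 40 g) : bp_A M 1 (kap 40) g := by
  obtain ⟨C, hC0, hC⟩ := ba_g_cubic hg
  refine bp_A.of_bound (C := C) fun u hu hM => ?_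
  rw [abs_sub_comm, abs_of_pos (by linarith only [hg, hu, ba_g_lt hg hu])]
  exact hC u hu

theorem bp_A_tanh : bp_A M 1 1 tanh := by
  refine bp_A.of_bound (C := 1 / 3) fun u hu hM => ?_
  rw [abs_sub_comm, abs_of_nonneg (by linarith only [hu, ba_tanh_le hu.le])]
  linarith only [hu, ba_tanh_ge hu.le]

/-! ### the derivatives of the profile as polynomials in `(g, tanh)` -/

/-- `q` -/
noncomputable def bp_q (y : ℝ) : ℝ := 39 - y ^ 2 / 4

/-- `Y''` -/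
noncomputable def bp_P2 (y t : ℝ) : ℝ := bp_q y * (y - 2 * t)

/-- `Y'''` -/
noncomputable def bp_P3 (y t : ℝ) : ℝ :=
  y / 2 * (bp_q y * (y - 2 * t) ^ 2) - bp_q y * (bp_q y * (y - 2 * t) - 2 * y * (1 - t ^ 2))

/-- derivative of `P3` along the flow `D y = q d`, `D t = y e` -/
noncomputable def bp_DP3 (y t : ℝ) : ℝ :=
  (bp_q y * (y - 2 * t) / 2) * (bp_q y * (y - 2 * t) ^ 2) +
  y / 2 * ((-(y / 2) * (bp_q y * (y - 2 * t))) * (y - 2 * t) ^ 2 +
    bp_q y * (2 * (y - 2 * t) * (bp_q y * (y - 2 * t) - 2 * (y * (1 - t ^ 2))))) -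
  ((-(y / 2) * (bp_q y * (y - 2 * t))) * (bp_q y * (y - 2 * t) - 2 * y * (1 - t ^ 2)) +
    bp_q y * ((-(y / 2) * (bp_q y * (y - 2 * t))) * (y - 2 * t) +
      bp_q y * (bp_q y * (y - 2 * t) - 2 * (y * (1 - t ^ 2))) -
      (2 * (bp_q y * (y - 2 * t)) * (1 - t ^ 2) + 2 * y * (-(2 * t * (y * (1 - t ^ 2)))))))

section flow

variable {Y : ℝ → ℝ}

theorem bp_flow_t (hY : ∀ l, HasDerivAt Y (-(g (Y l))) l) (l : ℝ) :
    HasDerivAt (fun l => tanh (Y l)) (-(g (Y l) * (1 - tanh (Y l) ^ 2))) l := by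
  have := (bt_tanh_deriv (Y l)).comp l (hY l)
  refine this.congr_deriv ?_
  ring

theorem bp_flow_y (hg : IsBub 40 g) (hpos : ∀ l, 0 < Y l)
    (hY : ∀ l, HasDerivAt Y (-(g (Y l))) l) (l : ℝ) :
    HasDerivAt (fun l => g (Y l)) (-(bp_q (g (Y l)) * (g (Y l) - 2 * tanh (Y l)))) l := by
  have h1 := (hg.deriv (Y l) (hpos l)).comp l (hY l)
  refine h1.congr_deriv ?_
  have h2 := ba_gRhs hg (hpos l)
  have h3 : qf 40 (g (Y l)) = bp_q (g (Y l)) := by unfold qf bp_q; norm_num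
  rw [h3] at h2
  linear_combination (-1) * h2

theorem bp_flow_q (hg : IsBub 40 g) (hpos : ∀ l, 0 < Y l)
    (hY : ∀ l, HasDerivAt Y (-(g (Y l))) l) (l : ℝ) :
    HasDerivAt (fun l => bp_q (g (Y l)))
      (-(-(g (Y l) / 2) * (bp_q (g (Y l)) * (g (Y l) - 2 * tanh (Y l))))) l := by
  have h1 := (((bp_flow_y hg hpos hY l).pow 2).div_const 4).const_sub 39
  refine h1.congr_deriv ?_
  push_cast
  ring

theorem bp_flow_d (hg : IsBub 40 g) (hpos : ∀ l, 0 < Y l)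
    (hY : ∀ l, HasDerivAt Y (-(g (Y l))) l) (l : ℝ) :
    HasDerivAt (fun l => g (Y l) - 2 * tanh (Y l))
      (-(bp_q (g (Y l)) * (g (Y l) - 2 * tanh (Y l)) -
        2 * (g (Y l) * (1 - tanh (Y l) ^ 2)))) l := by
  have h1 := (bp_flow_y hg hpos hY l).sub ((bp_flow_t hY l).const_mul 2)
  refine h1.congr_deriv ?_
  ring

theorem bp_flow_e (hY : ∀ l, HasDerivAt Y (-(g (Y l))) l) (l : ℝ) :
    HasDerivAt (fun l => 1 - tanh (Y l) ^ 2)
      (-(-(2 * tanh (Y l) * (g (Y l) * (1 - tanh (Y l) ^ 2))))) l := by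
  have h1 := ((bp_flow_t hY l).pow 2).const_sub 1
  refine h1.congr_deriv ?_
  push_cast
  ring

theorem bp_flow_P2 (hg : IsBub 40 g) (hpos : ∀ l, 0 < Y l)
    (hY : ∀ l, HasDerivAt Y (-(g (Y l))) l) (l : ℝ) :
    HasDerivAt (fun l => bp_P2 (g (Y l)) (tanh (Y l))) (bp_P3 (g (Y l)) (tanh (Y l))) l := by
  have h1 := (bp_flow_q hg hpos hY l).mul (bp_flow_d hg hpos hY l)
  unfold bp_P2
  refine h1.congr_deriv ?_
  unfold bp_P3
  ring

theorem bp_flow_P3 (hg : IsBub 40 g) (hpos : ∀ l, 0 < Y l)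
    (hY : ∀ l, HasDerivAt Y (-(g (Y l))) l) (l : ℝ) :
    HasDerivAt (fun l => bp_P3 (g (Y l)) (tanh (Y l))) (-(bp_DP3 (g (Y l)) (tanh (Y l)))) l := by
  have hy := bp_flow_y hg hpos hY l
  have hq := bp_flow_q hg hpos hY l
  have hd := bp_flow_d hg hpos hY l
  have he := bp_flow_e hY l
  have h1 := ((hy.div_const 2).mul (hq.mul (hd.pow 2))).sub
    (hq.mul ((hq.mul hd).sub ((hy.const_mul 2).mul he)))
  unfold bp_P3
  refine h1.congr_deriv ?_
  unfold bp_DP3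
  simp only [Pi.mul_apply, Pi.sub_apply, Pi.pow_apply]
  push_cast
  ring

theorem bp_iter1 (hY : ∀ l, HasDerivAt Y (-(g (Y l))) l) :
    iteratedDeriv 1 Y = fun l => -(g (Y l)) := by
  rw [iteratedDeriv_one]
  funext l
  exact (hY l).deriv

theorem bp_iter2 (hg : IsBub 40 g) (hpos : ∀ l, 0 < Y l)
    (hY : ∀ l, HasDerivAt Y (-(g (Y l))) l) :
    iteratedDeriv 2 Y = fun l => bp_P2 (g (Y l)) (tanh (Y l)) := by
  rw [iteratedDeriv_succ, bp_iter1 hY]
  funext l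
  have := (bp_flow_y hg hpos hY l).neg
  refine this.deriv.trans ?_
  rw [neg_neg]
  rfl

theorem bp_iter3 (hg : IsBub 40 g) (hpos : ∀ l, 0 < Y l)
    (hY : ∀ l, HasDerivAt Y (-(g (Y l))) l) :
    iteratedDeriv 3 Y = fun l => bp_P3 (g (Y l)) (tanh (Y l)) := by
  rw [iteratedDeriv_succ, bp_iter2 hg hpos hY]
  funext l
  exact (bp_flow_P2 hg hpos hY l).deriv

theorem bp_iter4 (hg : IsBub 40 g) (hpos : ∀ l, 0 < Y l)
    (hY : ∀ l, HasDerivAt Y (-(g (Y l))) l) :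
    iteratedDeriv 4 Y = fun l => -(bp_DP3 (g (Y l)) (tanh (Y l))) := by
  rw [iteratedDeriv_succ, bp_iter3 hg hpos hY]
  funext l
  exact (bp_flow_P3 hg hpos hY l).deriv

/-- smoothness of the profile by bootstrapping the polynomial system -/
theorem bp_smooth (hg : IsBub 40 g) (hpos : ∀ l, 0 < Y l)
    (hY : ∀ l, HasDerivAt Y (-(g (Y l))) l) : ContDiff ℝ ∞ Y := by
  have key : ∀ N : ℕ, ContDiff ℝ (N : WithTop ℕ∞) Y ∧
      ContDiff ℝ (N : WithTop ℕ∞) (fun l => g (Y l)) ∧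
      ContDiff ℝ (N : WithTop ℕ∞) (fun l => tanh (Y l)) := by
    intro N
    induction N with
    | zero =>
      refine ⟨?_, ?_, ?_⟩
      · simpa using (contDiff_zero (𝕜 := ℝ)).2
          (continuous_iff_continuousAt.2 fun l => (hY l).continuousAt)
      · simpa using (contDiff_zero (𝕜 := ℝ)).2
          (continuous_iff_continuousAt.2 fun l => (bp_flow_y hg hpos hY l).continuousAt)
      · simpa using (contDiff_zero (𝕜 := ℝ)).2
          (continuous_iff_continuousAt.2 fun l => (bp_flow_t hY l).continuousAt)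
    | succ N ih =>
      obtain ⟨h1, h2, h3⟩ := ih
      have e : ((N + 1 : ℕ) : WithTop ℕ∞) = (N : WithTop ℕ∞) + 1 := by push_cast; rfl
      have up : ∀ f f' : ℝ → ℝ, (∀ l, HasDerivAt f (f' l) l) → ContDiff ℝ (N : WithTop ℕ∞) f' →
          ContDiff ℝ ((N + 1 : ℕ) : WithTop ℕ∞) f := by
        intro f f' hf hf'
        rw [e, contDiff_succ_iff_deriv]
        refine ⟨fun l => (hf l).differentiableAt, ?_, ?_⟩
        · intro h0
          exact absurd h0 (by exact_mod_cast (WithTop.coe_ne_top (a := (N : ℕ∞))))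
        · have : deriv f = f' := funext fun l => (hf l).deriv
          rw [this]; exact hf'
      refine ⟨up _ _ hY h2.neg, up _ _ (bp_flow_y hg hpos hY) ?_, up _ _ (bp_flow_t hY) ?_⟩
      · unfold bp_q
        exact ((contDiff_const.sub ((h2.pow 2).div_const 4)).mul
          (h2.sub (contDiff_const.mul h3))).neg
      · exact (h2.mul (contDiff_const.sub (h3.pow 2))).neg
  exact contDiff_infty.2 fun n => (key n).1

end flow

/-! ### cubic asymptotics of the derivatives as functions of `u = Y` -/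

theorem bp_A_q (hg : IsBub 40 g) : bp_A M 0 39 (fun u => bp_q (g u)) := by
  have h1 := (bp_A_g (M := M) hg).mul (bp_A_g hg)
  have h2 : bp_A M 0 0 (fun u => g u * g u) := bp_A.raise (k := 0) h1
  refine ((bp_A.const 39).add (h2.smul (-(1 / 4)))).congr (by norm_num) fun u _ _ => ?_
  unfold bp_q
  ring

theorem bp_A_d (hg : IsBub 40 g) : bp_A M 1 (kap 40 - 2) (fun u => g u - 2 * tanh u) := by
  refine ((bp_A_g (M := M) hg).add (bp_A_tanh.smul (-2))).congr (by ring) fun u _ _ => ?_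
  ring

theorem bp_A_e : bp_A M 0 1 (fun u => 1 - tanh u ^ 2) := by
  have h1 := (bp_A_tanh (M := M)).mul bp_A_tanh
  have h2 : bp_A M 0 0 (fun u => tanh u * tanh u) := bp_A.raise (k := 0) h1
  refine ((bp_A.const 1).add (h2.smul (-1))).congr (by norm_num) fun u _ _ => ?_
  ring

theorem bp_A_P2 (hg : IsBub 40 g) : bp_A M 1 (kap 40 ^ 2) (fun u => bp_P2 (g u) (tanh u)) := by
  refine ((bp_A_q (M := M) hg).mul (bp_A_d hg)).congr ?_ fun u _ _ => rfl
  rw [ba_kap_sq]; ring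

theorem bp_A_P3 (hg : IsBub 40 g) :
    bp_A M 1 (-(kap 40 ^ 3)) (fun u => bp_P3 (g u) (tanh u)) := by
  have q := bp_A_q (M := M) hg
  have d := bp_A_d (M := M) hg
  have y := bp_A_g (M := M) hg
  have e := bp_A_e (M := M)
  have h1 : bp_A M 1 0 (fun u => g u * (bp_q (g u) *
      ((g u - 2 * tanh u) * (g u - 2 * tanh u)))) :=
    bp_A.raise (k := 1) (y.mul (q.mul (d.mul d)))
  have h2 := q.mul (q.mul d)
  have h3 := y.mul (q.mul e)
  refine ((h1.smul (1 / 2)).add ((h2.smul (-1)).add (h3.smul 2))).congr ?_ fun u _ _ => ?_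
  · have h := ba_kap_sq
    have : kap 40 ^ 3 = kap 40 * (39 * kap 40 - 78) := by rw [← h]; ring
    rw [this]
    linear_combination (39 * 1) * h
  · unfold bp_P3
    ring

theorem bp_A_P4 (hg : IsBub 40 g) :
    bp_A M 1 (kap 40 ^ 4) (fun u => -(bp_DP3 (g u) (tanh u))) := by
  have q := bp_A_q (M := M) hg
  have d := bp_A_d (M := M) hg
  have y := bp_A_g (M := M) hg
  have t := bp_A_tanh (M := M)
  have e := bp_A_e (M := M)
  have l1 := q.mul (q.mul (q.mul d))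
  have l2 := q.mul (q.mul (y.mul e))
  have l3 := q.mul (q.mul (d.mul e))
  have c1 : bp_A M 1 0 _ := bp_A.raise (k := 1) (q.mul (q.mul (d.mul (d.mul d))))
  have c2 : bp_A M 1 0 _ := bp_A.raise (k := 1)
    (bp_A.raise (k := 3) (y.mul (y.mul (q.mul (d.mul (d.mul d))))))
  have c3 : bp_A M 1 0 _ := bp_A.raise (k := 1) (y.mul (q.mul (q.mul (d.mul d))))
  have c4 : bp_A M 1 0 _ := bp_A.raise (k := 1) (y.mul (y.mul (q.mul (d.mul e))))
  have c5 : bp_A M 1 0 _ := bp_A.raise (k := 1) (q.mul (t.mul (y.mul (y.mul e))))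
  refine ((l1.add ((l2.smul (-2)).add (l3.smul (-2)))).add
    ((c1.smul (-(1 / 2))).add ((c2.smul (1 / 4)).add ((c3.smul (-2)).add
      ((c4.smul 3).add (c5.smul 4)))))).congr ?_ fun u _ _ => ?_
  · have h := ba_kap_sq
    have e4 : kap 40 ^ 4 = (39 * kap 40 - 78) ^ 2 := by rw [← h]; ring
    rw [e4]
    linear_combination (-(39 ^ 2 : ℝ)) * h
  · unfold bp_DP3
    ring

/-! ### asymptotics in `l` -/

theorem bp_log_Y (hg : IsBub 40 g) (l : ℝ) :
    bp_Y hg l = exp (-(kap 40) * l) * exp (kap 40 * bp_K g (bp_Y hg l)) := by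
  have h1 := bp_L_Y hg l
  unfold bp_L at h1
  have hk := ba_kap_pos.ne'
  have h2 : log (bp_Y hg l) = -(kap 40) * l + kap 40 * bp_K g (bp_Y hg l) := by
    have h3 : kap 40 * (-(log (bp_Y hg l)) / kap 40 + bp_K g (bp_Y hg l)) = kap 40 * l := by
      rw [h1]
    have h4 : kap 40 * (-(log (bp_Y hg l)) / kap 40) = -(log (bp_Y hg l)) := by
      field_simp
    rw [mul_add, h4] at h3
    linarith only [hg, h3]
  rw [← exp_add, ← h2, exp_log (bp_Y_pos hg l)]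

/-- `|Y - e^{-κ l}| ≤ C e^{-3κ l}` and `Y ≤ C e^{-κ l}` for `l ≥ 0` -/
theorem bp_Y_asym (hg : IsBub 40 g) : ∃ C, 0 ≤ C ∧ ∀ l ≥ 0,
    bp_Y hg l ≤ C * exp (-(kap 40) * l) ∧
    |bp_Y hg l - exp (-(kap 40) * l)| ≤ C * exp (-(3 * kap 40) * l) := by
  obtain ⟨C, hC0, hC⟩ := bp_K_bound hg
  have hk := ba_kap_pos
  set M := bp_Y hg 0 with hM
  have hMpos : 0 < M := bp_Y_pos hg 0
  set B := kap 40 * (C * M ^ 2 * (1 + M)) with hB
  have hB0 : 0 ≤ B := by positivity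
  have hYM : ∀ l ≥ 0, bp_Y hg l ≤ M := fun l hl => (bp_Y_anti hg).antitone hl
  have hKB : ∀ l ≥ 0, |kap 40 * bp_K g (bp_Y hg l)| ≤ B := by
    intro l hl
    rw [abs_mul, abs_of_pos hk]
    have h1 := hC _ (bp_Y_pos hg l)
    have h2 := hYM l hl
    have h3 := bp_Y_pos hg l
    rw [hB]
    refine mul_le_mul_of_nonneg_left (h1.trans ?_) hk.le
    gcongr
  have h1 : ∀ l ≥ 0, bp_Y hg l ≤ exp B * exp (-(kap 40) * l) := by
    intro l hl
    rw [bp_log_Y hg l, mul_comm]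
    exact mul_le_mul_of_nonneg_right (exp_le_exp.2 ((le_abs_self _).trans (hKB l hl)))
      (exp_pos _).le
  refine ⟨exp B + kap 40 * (C * (1 + M)) * exp B * exp B ^ 2, by positivity, fun l hl => ⟨?_, ?_⟩⟩
  · refine (h1 l hl).trans (mul_le_mul_of_nonneg_right ?_ (exp_pos _).le)
    have : 0 ≤ kap 40 * (C * (1 + M)) * exp B * exp B ^ 2 := by positivity
    linarith only [this]
  · set E := exp (-(kap 40) * l) with hE
    have hEpos : 0 < E := exp_pos _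
    have hE3 : exp (-(3 * kap 40) * l) = E ^ 3 := by
      rw [hE, ← exp_nat_mul]; congr 1; push_cast; ring
    set x := kap 40 * bp_K g (bp_Y hg l) with hx
    have e1 : bp_Y hg l - E = E * (exp x - 1) := by
      rw [mul_sub, mul_one, hE, hx, ← bp_log_Y hg l]
    have h2 : |exp x - 1| ≤ |x| * exp |x| := by
      have a1 := add_one_le_exp x
      have a2 := add_one_le_exp (-x)
      have a3 : exp x * exp (-x) = 1 := by rw [← exp_add]; simp
      have a4 : x ≤ |x| := le_abs_self x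
      have a5 : -x ≤ |x| := neg_le_abs x
      have a6 : exp x ≤ exp |x| := exp_le_exp.2 a4
      have a7 : 1 ≤ exp |x| := one_le_exp (abs_nonneg x)
      have a8 : 0 < exp x := exp_pos x
      rw [abs_le]
      constructor
      · have : |x| * 1 ≤ |x| * exp |x| := mul_le_mul_of_nonneg_left a7 (abs_nonneg x)
        linarith only [hg, a1, a5, this]
      · have b1 : exp x - 1 ≤ x * exp x := by
          have := mul_le_mul_of_nonneg_left a2 a8.le
          rw [a3] at this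
          linarith only [hg, this]
        have b2 : x * exp x ≤ |x| * exp x := mul_le_mul_of_nonneg_right a4 a8.le
        have b3 : |x| * exp x ≤ |x| * exp |x| := mul_le_mul_of_nonneg_left a6 (abs_nonneg x)
        linarith only [hg, b1, b2, b3]
    have h3 : |x| ≤ kap 40 * (C * (1 + M)) * bp_Y hg l ^ 2 := by
      rw [hx, abs_mul, abs_of_pos hk]
      have b1 := hC _ (bp_Y_pos hg l)
      have b2 := hYM l hl
      have b3 := bp_Y_pos hg l
      calc kap 40 * |bp_K g (bp_Y hg l)| ≤ kap 40 * (C * bp_Y hg l ^ 2 * (1 + bp_Y hg l)) :=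
            mul_le_mul_of_nonneg_left b1 hk.le
        _ ≤ kap 40 * (C * bp_Y hg l ^ 2 * (1 + M)) := by gcongr
        _ = kap 40 * (C * (1 + M)) * bp_Y hg l ^ 2 := by ring
    have h4 : exp |x| ≤ exp B := exp_le_exp.2 (hKB l hl)
    have h5 : bp_Y hg l ^ 2 ≤ (exp B * E) ^ 2 :=
      pow_le_pow_left₀ (bp_Y_pos hg l).le (h1 l hl) 2
    rw [e1, abs_mul, abs_of_pos hEpos, hE3]
    have h6 : |x| * exp |x| ≤ kap 40 * (C * (1 + M)) * (exp B * E) ^ 2 * exp B := by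
      have h7 : |x| ≤ kap 40 * (C * (1 + M)) * (exp B * E) ^ 2 :=
        h3.trans (mul_le_mul_of_nonneg_left h5 (by positivity))
      exact mul_le_mul h7 h4 (exp_pos _).le (by positivity)
    calc E * |exp x - 1| ≤ E * (kap 40 * (C * (1 + M)) * (exp B * E) ^ 2 * exp B) :=
          mul_le_mul_of_nonneg_left (h2.trans h6) hEpos.le
      _ = (kap 40 * (C * (1 + M)) * exp B * exp B ^ 2) * E ^ 3 := by ring
      _ ≤ _ := by
        refine mul_le_mul_of_nonneg_right ?_ (by positivity)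
        linarith only [exp_pos B]

/-- from the class `bp_A` to exponential asymptotics -/
theorem bp_asym_of_A (hg : IsBub 40 g) {c : ℝ} {f : ℝ → ℝ} (hf : bp_A (bp_Y hg 0) 1 c f) :
    ∃ C, ∀ l ≥ 0, |f (bp_Y hg l) - c * exp (-(kap 40) * l)| ≤ C * exp (-(3 * kap 40) * l) := by
  obtain ⟨C, hC⟩ := hf.bound
  obtain ⟨D, hD0, hD⟩ := bp_Y_asym hg
  refine ⟨|C| * D ^ 3 + |c| * D, fun l hl => ?_⟩
  obtain ⟨h1, h2⟩ := hD l hl
  have h3 := hC _ (bp_Y_pos hg l) ((bp_Y_anti hg).antitone hl)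
  set E := exp (-(kap 40) * l) with hE
  have hEpos : 0 < E := exp_pos _
  have hE3 : exp (-(3 * kap 40) * l) = E ^ 3 := by
    rw [hE, ← exp_nat_mul]; congr 1; push_cast; ring
  rw [hE3] at h2 ⊢
  have h4 : bp_Y hg l ^ 3 ≤ (D * E) ^ 3 := pow_le_pow_left₀ (bp_Y_pos hg l).le h1 3
  have h5 : C * bp_Y hg l ^ 3 ≤ |C| * (D * E) ^ 3 :=
    mul_le_mul (le_abs_self C) h4 (pow_pos (bp_Y_pos hg l) 3).le (abs_nonneg _)
  have h6 : |c * (bp_Y hg l - E)| ≤ |c| * (D * E ^ 3) := by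
    rw [abs_mul]; exact mul_le_mul_of_nonneg_left h2 (abs_nonneg _)
  have e : f (bp_Y hg l) - c * E = (f (bp_Y hg l) - c * bp_Y hg l) + c * (bp_Y hg l - E) := by
    ring
  rw [e]
  refine (abs_add_le _ _).trans ?_
  calc _ ≤ |C| * (D * E) ^ 3 + |c| * (D * E ^ 3) := add_le_add (h3.trans h5) h6
    _ = (|C| * D ^ 3 + |c| * D) * E ^ 3 := by ring

theorem bp_asym (hg : IsBub 40 g) : ∃ C, ∀ l ≥ 0, ∀ j ≤ 4,
    |iteratedDeriv j (bp_Y hg) l - (-(kap 40)) ^ j * exp (-(kap 40) * l)| ≤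
      C * exp (-(3 * kap 40) * l) := by
  have hY := bp_Y_deriv hg
  have hpos := bp_Y_pos hg
  have h : ∀ j ≤ 4, ∃ C, ∀ l ≥ 0,
      |iteratedDeriv j (bp_Y hg) l - (-(kap 40)) ^ j * exp (-(kap 40) * l)| ≤
        C * exp (-(3 * kap 40) * l) := by
    intro j hj
    interval_cases j
    · obtain ⟨C, _, hC⟩ := bp_Y_asym hg
      refine ⟨C, fun l hl => ?_⟩
      simpa using (hC l hl).2
    · obtain ⟨C, hC⟩ := bp_asym_of_A hg ((bp_A_g hg).smul (-1))
      refine ⟨C, fun l hl => ?_⟩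
      rw [bp_iter1 hY]
      simpa using hC l hl
    · obtain ⟨C, hC⟩ := bp_asym_of_A hg (bp_A_P2 hg)
      refine ⟨C, fun l hl => ?_⟩
      rw [bp_iter2 hg hpos hY, neg_sq]
      exact hC l hl
    · obtain ⟨C, hC⟩ := bp_asym_of_A hg (bp_A_P3 hg)
      refine ⟨C, fun l hl => ?_⟩
      rw [bp_iter3 hg hpos hY, Odd.neg_pow (by decide)]
      exact hC l hl
    · obtain ⟨C, hC⟩ := bp_asym_of_A hg (bp_A_P4 hg)
      refine ⟨C, fun l hl => ?_⟩
      rw [bp_iter4 hg hpos hY, Even.neg_pow (by decide)]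
      exact hC l hl
  choose! C hC using h
  refine ⟨∑ j ∈ Finset.range 5, |C j|, fun l hl j hj => (hC j hj l hl).trans ?_⟩
  refine mul_le_mul_of_nonneg_right ((le_abs_self _).trans ?_) (exp_pos _).le
  exact Finset.single_le_sum (f := fun j => |C j|) (fun _ _ => abs_nonneg _)
    (Finset.mem_range.2 (by omega))

end Vale.Agent.P244.ST.BD.BP
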