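import Vale.Agent.P244.ST.BProf2

/-!
# P244-ST, block B : the profile at the tip, and `ProfStatement`
-/

open Set Filter Topology Real MeasureTheory
open scoped ContDiff

namespace Vale.Agent.P244.ST.BD.BP

open Vale.Agent.P244.ST.BD Vale.Agent.P244.ST.BD.BT Vale.Agent.P244.ST.BD.BA

variable {g : ℝ → ℝ}

/-- Smooth primitive of a smooth function on a symmetric interval. -/
theorem bp_primitive {ε : ℝ} {H : ℝ → ℝ} (hε : 0 < ε) (hH : ContDiffOn ℝ ∞ H (Ioo (-ε) ε)) :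
    (∀ x ∈ Ioo (-ε) ε, HasDerivAt (fun x => ∫ t in (0 : ℝ)..x, H t) (H x) x) ∧
      ContDiffOn ℝ ∞ (fun x => ∫ t in (0 : ℝ)..x, H t) (Ioo (-ε) ε) := by
  have hc : ContinuousOn H (Ioo (-ε) ε) := hH.continuousOn
  have h0 : (0 : ℝ) ∈ Ioo (-ε) ε := ⟨by linarith only [hε], hε⟩
  have hd : ∀ x ∈ Ioo (-ε) ε, HasDerivAt (fun x => ∫ t in (0 : ℝ)..x, H t) (H x) x := by
    intro x hx
    refine intervalIntegral.integral_hasDerivAt_right ?_ ?_ (hc.continuousAt
      (isOpen_Ioo.mem_nhds hx))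
    · exact (hc.mono ((ordConnected_Ioo).uIcc_subset h0 hx)).intervalIntegrable
    · exact hc.stronglyMeasurableAtFilter isOpen_Ioo x hx
  refine ⟨hd, ?_⟩
  rw [contDiffOn_infty_iff_deriv_of_isOpen isOpen_Ioo]
  exact ⟨fun x hx => (hd x hx).differentiableAt.differentiableWithinAt,
    hH.congr fun x hx => (hd x hx).deriv⟩

theorem bp_tip (hg : IsBub 40 g) :
    ∃ S : ℝ → ℝ, ∃ ε > 0, ContDiffOn ℝ ∞ S (Ioo (-ε) ε) ∧ (∀ E ∈ Ioo (-ε) ε, 0 < S E) ∧
    ∀ l, exp (-2 * bp_Y hg l) < ε →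
      exp (4 * l) = exp (-2 * bp_Y hg l) * S (exp (-2 * bp_Y hg l)) := by
  obtain ⟨h, ε0, hε0, hh, h2, hgh⟩ := hg.tip
  have hc0 : ContinuousAt h 0 := (hh.continuousOn).continuousAt
    (isOpen_Ioo.mem_nhds ⟨by linarith only [hε0], hε0⟩)
  obtain ⟨ε1, hε1, hε1'⟩ : ∃ ε1 > 0, ∀ x, |x| < ε1 → 1 < h x := by
    have : ∀ᶠ x in 𝓝 (0 : ℝ), 1 < h x := by
      apply hc0.eventually
      rw [h2]
      exact lt_mem_nhds (by norm_num)
    obtain ⟨ε1, hε1, hb⟩ := Metric.eventually_nhds_iff.1 this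
    refine ⟨ε1, hε1, fun x hx => hb ?_⟩
    rwa [Real.dist_eq, sub_zero]
  set ε := min ε0 ε1 with hεdef
  have hε : 0 < ε := lt_min hε0 hε1
  have hsub : Ioo (-ε) ε ⊆ Ioo (-ε0) ε0 := fun x hx =>
    ⟨by linarith only [hx, hx.1, min_le_left ε0 ε1], hx.2.trans_le (min_le_left _ _)⟩
  have hpos : ∀ x ∈ Ioo (-ε) ε, 1 < h x := fun x hx =>
    hε1' x ((abs_lt.2 hx).trans_le (min_le_right _ _))
  have hh' : ContDiffOn ℝ ∞ h (Ioo (-ε) ε) := hh.mono hsub
  obtain ⟨k, hk, hk'⟩ := bt_hadamard hh'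
  have hH : ContDiffOn ℝ ∞ (fun x => -(k x) / h x) (Ioo (-ε) ε) :=
    hk.neg.div hh' fun x hx => (lt_trans zero_lt_one (hpos x hx)).ne'
  obtain ⟨hΛd, hΛ⟩ := bp_primitive hε hH
  set Λ : ℝ → ℝ := fun x => ∫ t in (0 : ℝ)..x, -(k t) / h t with hΛdef
  set J : Set ℝ := {l | exp (-2 * bp_Y hg l) < ε} with hJ
  have hmem : ∀ l ∈ J, exp (-2 * bp_Y hg l) ∈ Ioo (-ε) ε := fun l hl =>
    ⟨by have := exp_pos (-2 * bp_Y hg l); linarith only [hg, hε, this], hl⟩
  have hYc : Continuous (bp_Y hg) :=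
    continuous_iff_continuousAt.2 fun l => (bp_Y_deriv hg l).continuousAt
  have hJopen : IsOpen J := isOpen_lt (continuous_exp.comp (continuous_const.mul hYc))
    continuous_const
  have hJlow : IsLowerSet J := by
    intro a b hba ha
    have h1 := (bp_Y_anti hg).antitone hba
    have h3 : exp (-2 * bp_Y hg b) ≤ exp (-2 * bp_Y hg a) := exp_le_exp.2 (by linarith only [hg, h1])
    exact lt_of_le_of_lt h3 ha
  have hJc : IsPreconnected J := hJlow.ordConnected.isPreconnected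
  have hder : ∀ l ∈ J, HasDerivAt (fun l => 4 * l + 2 * bp_Y hg l - Λ (exp (-2 * bp_Y hg l)))
      0 l := by
    intro l hl
    have hE := hmem l hl
    have a1 := bp_Y_deriv hg l
    have a2 : HasDerivAt (fun l => exp (-2 * bp_Y hg l))
        (exp (-2 * bp_Y hg l) * (-2 * (-(g (bp_Y hg l))))) l := (a1.const_mul (-2)).exp
    have a3 := (hΛd _ hE).comp l a2
    have a4 := (((hasDerivAt_id l).const_mul 4).add (a1.const_mul 2)).sub a3
    refine a4.congr_deriv ?_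
    have a5 : g (bp_Y hg l) = h (exp (-2 * bp_Y hg l)) :=
      hgh _ (lt_of_lt_of_le hl (min_le_left _ _))
    have a6 := hk' _ hE
    have a7 := hpos _ hE
    rw [h2] at a6
    rw [a5]
    set E := exp (-2 * bp_Y hg l) with hEdef
    have a8 : h E ≠ 0 := (lt_trans zero_lt_one a7).ne'
    have a9 : E * k E = h E - 2 := by linarith only [a6]
    have b1 : -(k E) / h E * (E * (-2 * -(h E))) = -2 * (E * k E) := by
      field_simp
    rw [b1, a9]
    ring
  obtain ⟨c, hc⟩ : ∃ c, ∀ l ∈ J, 4 * l + 2 * bp_Y hg l - Λ (exp (-2 * bp_Y hg l)) = c := by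
    rcases J.eq_empty_or_nonempty with he | ⟨l0, hl0⟩
    · exact ⟨0, fun l hl => by rw [he] at hl; exact absurd hl (by simp)⟩
    · refine ⟨4 * l0 + 2 * bp_Y hg l0 - Λ (exp (-2 * bp_Y hg l0)), fun l hl => ?_⟩
      exact hJopen.is_const_of_deriv_eq_zero hJc
        (fun x hx => (hder x hx).differentiableAt.differentiableWithinAt)
        (fun x hx => (hder x hx).deriv) hl hl0
  refine ⟨fun x => exp (c + Λ x), ε, hε, (contDiffOn_const.add hΛ).exp,
    fun E _ => exp_pos _, fun l hl => ?_⟩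
  have h3 := hc l hl
  rw [← exp_add]
  congr 1
  linarith only [hg, h3]

/-- B1b : the bubble in the variable `l = log r`. -/
theorem bprof : ProfStatement := fun _ hg =>
  ⟨bp_Y hg, { pos := bp_Y_pos hg
              deriv := bp_Y_deriv hg
              top := bp_Y_top hg
              smooth := bp_smooth hg (bp_Y_pos hg) (bp_Y_deriv hg)
              asym := bp_asym hg
              tip := bp_tip hg }⟩

end Vale.Agent.P244.ST.BD.BP
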