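import Vale.Agent.P244.ST.BInit

/-! # P244-ST, block B3 : sub-statements -/

open Set Filter Topology Real
open scoped ContDiff

namespace Vale.Agent.P244.ST.BD


/-- B3a (tip): in the conformal coordinate `X` the bubble satisfies `u' = H(e^{-2u})` and
`e^{-2u}` is a smooth function of `ξ = e^{-2X}` with a simple zero. -/
def TipXStatement : Prop :=
  ∀ g, IsBub 40 g → ∀ (U : ℝ → ℝ) (X1 : ℝ),
    (∀ X > X1, HasDerivAt U (g (U X) * exp (-(U X) / 2) * sqrt (zeta0 * Zs 40 g (U X))) X) →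
    Tendsto U atTop atTop →
    ∃ Q : ℝ → ℝ, ∃ δ > 0, ContDiffOn ℝ ∞ Q (Ioo (-δ) δ) ∧ (∀ ξ ∈ Ioo (-δ) δ, 0 < Q ξ) ∧
      ∀ X > X1, exp (-2 * X) < δ → exp (-2 * U X) = exp (-2 * X) * Q (exp (-2 * X))

/-- B3b (gauge): `l = log r` as a function of `X = artanh x`. -/
def GaugeStatement : Prop :=
  ∀ g, IsBub 40 g → ∀ d : IPar, d.Ok g → ∃ lX : ℝ → ℝ, ContDiff ℝ ∞ lX ∧
    (∀ X, lX (-X) = lX X) ∧ lX 0 = d.L ∧
    (∀ X > 0, lX X < d.L ∧ HasDerivAt lX (-(d.N g (lX X))) X) ∧ Tendsto lX atTop atBot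

/-- B3c (assembly). -/
def B3cStatement : Prop := TipXStatement → GaugeStatement → InitStatement

end Vale.Agent.P244.ST.BD
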