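import Vale.Agent.P244.ST.Iface
import Vale.Agent.P244.ST.BIneq

/-! # P244-ST, block B5 : sub-statements for `B2Statement` -/

open Set Filter Topology Real MeasureTheory
open scoped ContDiff

namespace Vale.Agent.P244.ST.BD

noncomputable section

/-- the profile of `u/ε` at `t = 0` as a function of `y = r` (for `y ≥ 2 rb`). -/
def vb (ρ0 sg : ℝ) (b : Fin 3 → ℝ) (y : ℝ) : ℝ :=
  ST.ph 3 y + sg * (smoothTransition (log (y / ρ0) / log 2) * ∑ j : Fin 3, b j * ST.ph j y)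

/-- the cut-off `χ(0,y)`. -/
def ch0 (d0 N y : ℝ) : ℝ := ST.stp (y / d0) * (1 - ST.stp (y / sqrt N))

/-- B5-MODE: the modes of the initial data. -/
def ModeStatement : Prop :=
  ∃ ρs > (0 : ℝ), ∀ ρ0 ∈ Ioc 0 ρs, ∀ sg ∈ Ioc (0 : ℝ) 1, ∃ d1 > (0 : ℝ), ∀ d0 ∈ Ioc 0 d1,
    ∃ N0 : ℝ, ∀ N ≥ N0, ∀ b ∈ ST.Bx,
      |(∫ y in Ioi (0 : ℝ), ch0 d0 N y * vb ρ0 sg b y * ST.ph 3 y * ST.Wt y) / ST.nph 3 - 1|
        ≤ sg / 10 ∧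
      (∀ i : Fin 3, |(∫ y in Ioi (0 : ℝ), ch0 d0 N y * vb ρ0 sg b y * ST.ph i y * ST.Wt y)
        / ST.nph i - sg * b i| ≤ sg / 10) ∧
      (∫ y in Ioi (0 : ℝ), (ch0 d0 N y * vb ρ0 sg b y) ^ 2 * ST.Wt y) -
        ∑ i ∈ Finset.range 4, ((∫ y in Ioi (0 : ℝ), ch0 d0 N y * vb ρ0 sg b y * ST.ph i y *
          ST.Wt y) / ST.nph i) ^ 2 * ST.nph i ≤ (sg / 10) ^ 2

/-- B5-CHG: change of variables `y = r(x)` in the integrals defining the modes. -/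
def ChgStatement : Prop :=
  ∀ (lx : ℝ → ℝ) (L : ℝ), (∀ x ∈ Ioo (0 : ℝ) 1, DifferentiableAt ℝ lx x) →
    ContinuousOn lx (Ico 0 1) → lx 0 = L → StrictAntiOn lx (Ico 0 1) →
    Tendsto lx (𝓝[<] 1) atBot →
    ∀ (F : ℝ → ℝ) (a : ℝ), 0 < a → ContinuousOn F (Ioi 0) → (∀ y ≤ a, F y = 0) →
      (∀ y ≥ exp L, F y = 0) → ContinuousOn (deriv lx) (Ioo 0 1) →
      ∫ x in (0 : ℝ)..1, F (exp (lx x)) * (-(deriv (fun x => exp (lx x)) x)) =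
        ∫ y in Ioi (0 : ℝ), F y

/-- B5-EQ: `ρ_s ≥ δ x`. -/
def RsStatement : Prop :=
  ∀ g, IsBub 40 g → ∀ d : IPar, d.Ok g → ∀ w0 f0 lx, d.IsInit g w0 f0 lx → ∀ b,
    ∃ δ > 0, ∀ x ∈ Ioo (0 : ℝ) 1, δ * x ≤ ST.rs (fun _ => w0 b) (fun _ => f0 b) 0 x

end

end Vale.Agent.P244.ST.BD
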