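import Mathlib
import Vale.Agent.P244.ST.BubTip
import Vale.Agent.P244.ST.BSub

/-!
# P244-ST, block B3a: the tip in the conformal coordinate
-/

open Set Filter Topology Real
open scoped ContDiff

namespace Vale.Agent.P244.ST.BD.BTipX


theorem analytic_dslope {K : ℝ → ℝ} {ε : ℝ} (hK : AnalyticOnNhd ℝ K (Ioo (-ε) ε)) :
    AnalyticOnNhd ℝ (dslope K 0) (Ioo (-ε) ε) := by
  intro z hz
  by_cases h0 : z = 0
  · subst h0
    obtain ⟨p, hp⟩ := hK 0 hz
    exact ⟨p.fslope, hp.has_fpower_series_dslope_fslope⟩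
  · have h1 : AnalyticAt ℝ (fun z => z⁻¹ * (K z - K 0)) z :=
      (analyticAt_id.inv h0).mul ((hK z hz).sub analyticAt_const)
    refine h1.congr ?_
    filter_upwards [isOpen_ne.mem_nhds h0] with w hw
    rw [dslope_of_ne _ hw, slope_def_field, sub_zero, div_eq_inv_mul]

/-- Straightening of `E_X = -2 E / K(E)`. -/
theorem straighten (K : ℝ → ℝ) (ε : ℝ) (hε : 0 < ε) (hK : AnalyticOnNhd ℝ K (Ioo (-ε) ε))
    (hK0 : K 0 = 1) :
    ∃ P Ei : ℝ → ℝ, ∃ δ > 0, ∃ ε' > 0, ε' ≤ ε ∧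
      (∀ E ∈ Ioo (-ε) ε, HasDerivAt P (dslope K 0 E) E) ∧
      ContDiffOn ℝ ∞ (fun z => P (Ei z)) (Ioo (-δ) δ) ∧
      ∀ E ∈ Ioo (-ε') ε', |E * exp (P E)| < δ → Ei (E * exp (P E)) = E := by
  set J := Ioo (-ε) ε with hJ
  have hJo : IsOpen J := isOpen_Ioo
  have h0J : (0:ℝ) ∈ J := ⟨by linarith only [hε], hε⟩
  have hD := analytic_dslope hK
  have hDc : ContinuousOn (dslope K 0) J := hD.continuousOn
  set P : ℝ → ℝ := fun E => ∫ s in (0:ℝ)..E, dslope K 0 s with hP
  have hPd : ∀ E ∈ J, HasDerivAt P (dslope K 0 E) E := by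
    intro E hE
    apply intervalIntegral.integral_hasDerivAt_right
    · apply ContinuousOn.intervalIntegrable
      apply hDc.mono
      have h1 : J.OrdConnected := ordConnected_Ioo
      exact h1.uIcc_subset h0J hE
    · exact hDc.stronglyMeasurableAtFilter hJo E hE
    · exact hDc.continuousAt (hJo.mem_nhds hE)
  have hPs : ContDiffOn ℝ ∞ P J := by
    rw [contDiffOn_infty_iff_deriv_of_isOpen hJo]
    refine ⟨fun E hE => (hPd E hE).differentiableAt.differentiableWithinAt, ?_⟩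
    have h1 : ContDiffOn ℝ ∞ (dslope K 0) J := hD.contDiffOn hJo.uniqueDiffOn
    exact h1.congr (fun E hE => (hPd E hE).deriv)
  have hP0 : P 0 = 0 := by rw [hP]; simp
  set Θ : ℝ → ℝ := fun E => E * exp (P E) with hΘ
  have hΘs : ∀ E ∈ J, ContDiffAt ℝ ∞ Θ E := by
    intro E hE
    exact contDiffAt_id.mul ((hPs.contDiffAt (hJo.mem_nhds hE)).exp)
  have hΘd : ∀ E ∈ J, HasDerivAt Θ (exp (P E) * K E) E := by
    intro E hE
    have h1 := (hasDerivAt_id E).mul (hPd E hE).exp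
    refine h1.congr_deriv ?_
    have h2 := sub_smul_dslope K 0 E
    rw [sub_zero, smul_eq_mul, hK0] at h2
    simp only [id]
    have h3 : K E = 1 + E * dslope K 0 E := by linarith only [h2]
    rw [h3]
    ring
  have hΘ0 : HasDerivAt Θ 1 0 := by
    have := hΘd 0 h0J
    rw [hP0, hK0, exp_zero, mul_one] at this
    exact this
  have hne : (1:ℝ) ≠ 0 := one_ne_zero
  set e := ContDiffAt.toOpenPartialHomeomorph Θ (hΘs 0 h0J)
    (hΘ0.hasFDerivAt_equiv hne) (by simp) with he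
  have hecoe : (e : ℝ → ℝ) = Θ := ContDiffAt.toOpenPartialHomeomorph_coe _ _ _
  have h0s : (0:ℝ) ∈ e.source := ContDiffAt.mem_toOpenPartialHomeomorph_source _ _ _
  have hΘ00 : Θ 0 = 0 := by rw [hΘ]; simp
  have h0t : (0:ℝ) ∈ e.target := by
    have := e.map_source h0s
    rwa [hecoe, hΘ00] at this
  have hs0 : e.symm 0 = 0 := by
    have := e.left_inv h0s
    rwa [hecoe, hΘ00] at this
  have hKc : ContinuousAt K 0 := (hK 0 h0J).continuousAt
  have hsc : ContinuousAt e.symm 0 := e.continuousAt_symm h0t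
  have hKpos : ∀ᶠ z in 𝓝 (0:ℝ), 0 < K (e.symm z) := by
    have h1 : Tendsto (fun z => K (e.symm z)) (𝓝 0) (𝓝 (K 0)) := by
      have h2 : ContinuousAt K (e.symm 0) := by rw [hs0]; exact hKc
      have h3 := h2.tendsto.comp hsc.tendsto
      rwa [hs0] at h3
    apply h1.eventually
    rw [hK0]
    exact lt_mem_nhds one_pos
  have hJev : ∀ᶠ z in 𝓝 (0:ℝ), e.symm z ∈ J := by
    have h1 := hsc.tendsto
    rw [hs0] at h1
    exact h1.eventually (hJo.mem_nhds h0J)
  have hall : ∀ᶠ z in 𝓝 (0:ℝ), 0 < K (e.symm z) ∧ e.symm z ∈ J ∧ z ∈ e.target :=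
    hKpos.and (hJev.and (e.open_target.mem_nhds h0t))
  obtain ⟨δ, hδ, hδ'⟩ := Metric.eventually_nhds_iff.1 hall
  have hsrc : ∀ᶠ E in 𝓝 (0:ℝ), E ∈ e.source := e.open_source.mem_nhds h0s
  obtain ⟨ε₁, hε₁, hε₁'⟩ := Metric.eventually_nhds_iff.1 hsrc
  refine ⟨P, e.symm, δ, hδ, min ε ε₁, lt_min hε hε₁, min_le_left _ _, hPd, ?_, ?_⟩
  · intro z hz
    have hz' : dist z 0 < δ := by
      rw [Real.dist_eq, sub_zero]; exact abs_lt.2 hz
    obtain ⟨h1, h2, h3⟩ := hδ' hz'
    have h4 : ContDiffAt ℝ ∞ e.symm z := by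
      have hd := hΘd _ h2
      rw [← hecoe] at hd
      refine e.contDiffAt_symm_deriv (f₀' := exp (P (e.symm z)) * K (e.symm z)) ?_ h3 hd ?_
      · positivity
      · rw [hecoe]; exact hΘs _ h2
    have h5 : ContDiffAt ℝ ∞ P (e.symm z) := hPs.contDiffAt (hJo.mem_nhds h2)
    exact (h5.comp z h4).contDiffWithinAt
  · intro E hE _
    have h1 : E ∈ e.source := by
      apply hε₁'
      rw [Real.dist_eq, sub_zero]
      exact lt_of_lt_of_le (abs_lt.2 hE) (min_le_right _ _)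
    have := e.left_inv h1
    rwa [hecoe] at this

theorem exp_cosh (u : ℝ) : exp (-u) * cosh u = (1 + exp (-2 * u)) / 2 := by
  rw [cosh_eq]
  have h1 : exp (-2 * u) = exp (-u) * exp (-u) := by
    rw [← exp_add]; congr 1; ring
  have h2 : exp (-u) * exp u = 1 := by
    rw [← exp_add]; simp
  rw [h1]
  linear_combination (1 / 2) * h2

theorem rate_eq (g : ℝ → ℝ) (u y : ℝ) (hy : g u = y) (hq : 0 < 39 - y ^ 2 / 4) :
    g u * exp (-u / 2) * sqrt (zeta0 * Zs 40 g u) =
      y * sqrt (19 * (1 + exp (-2 * u)) / (2 * (39 - y ^ 2 / 4))) := by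
  have h1 : exp (-u / 2) = sqrt (exp (-u)) := by
    rw [← sqrt_sq (exp_pos (-u / 2)).le]
    congr 1
    rw [pow_two, ← exp_add]
    congr 1
    ring
  rw [hy, mul_assoc, h1, ← sqrt_mul (exp_pos _).le]
  congr 2
  unfold Zs zeta0 qf
  rw [hy]
  have h2 := exp_cosh u
  have h3 : (40 - 1 - y ^ 2 / 4 : ℝ) = 39 - y ^ 2 / 4 := by norm_num
  rw [h3]
  have h4 : (39 - y ^ 2 / 4) ≠ 0 := hq.ne'
  have h5 : 1 + exp (-2 * u) = 2 * (exp (-u) * cosh u) := by rw [h2]; ring
  rw [h5]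
  field_simp
  norm_num

theorem bub_tendsto {g : ℝ → ℝ} (hg : IsBub 40 g) : Tendsto g atTop (𝓝 2) := by
  have h0 : Tendsto (fun u : ℝ => exp (-2 * u)) atTop (𝓝 0) := by
    apply tendsto_exp_atBot.comp
    exact tendsto_id.const_mul_atTop_of_neg (by norm_num)
  have h1 : Tendsto (fun u : ℝ => 2 * ((1 - exp (-2 * u)) / (1 + exp (-2 * u)))) atTop
      (𝓝 (2 * ((1 - 0) / (1 + 0)))) :=
    ((tendsto_const_nhds.sub h0).div (tendsto_const_nhds.add h0) (by norm_num)).const_mul 2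
  simp only [sub_zero, add_zero, div_one, mul_one] at h1
  refine tendsto_of_tendsto_of_tendsto_of_le_of_le' h1 tendsto_const_nhds ?_ ?_
  · filter_upwards [eventually_gt_atTop 0] with u hu
    rw [← BubTip.tanh_eq]
    exact (hg.lower u hu).le
  · filter_upwards [eventually_gt_atTop 0] with u hu
    exact (hg.lt_two u hu).le

theorem tipX : TipXStatement := by
  intro g hg U X1 hU hUt
  obtain ⟨h, ε₀, hε₀, han, h0, hb, heq⟩ := BubTip.tip_analytic 40 (by norm_num) g 0 hg.deriv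
    (bub_tendsto hg)
  set ε := min ε₀ (1 / 2) with hε
  have hεp : 0 < ε := lt_min hε₀ (by norm_num)
  have hsub : Ioo (-ε) ε ⊆ Ioo (-ε₀) ε₀ := by
    intro z hz
    exact ⟨lt_of_le_of_lt (neg_le_neg (min_le_left _ _)) hz.1,
      lt_of_lt_of_le hz.2 (min_le_left _ _)⟩
  have hhalf : ε ≤ 1 / 2 := min_le_right _ _
  set R : ℝ → ℝ := fun E => 19 * (1 + E) / (2 * (39 - h E ^ 2 / 4)) with hR
  set H : ℝ → ℝ := fun E => h E * sqrt (R E) with hH
  set K : ℝ → ℝ := fun E => (H E)⁻¹ with hK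
  have hq : ∀ E ∈ Ioo (-ε) ε, 0 < 39 - h E ^ 2 / 4 := by
    intro E hE
    obtain ⟨h1, h2⟩ := hb E (hsub hE)
    nlinarith only [hεp, hhalf, h1, h2]
  have hRpos : ∀ E ∈ Ioo (-ε) ε, 0 < R E := by
    intro E hE
    have h1 := hq E hE
    have h2 : 0 < 1 + E := by linarith only [hεp, hhalf, hE, hE.1]
    rw [hR]
    positivity
  have hHpos : ∀ E ∈ Ioo (-ε) ε, 0 < H E := by
    intro E hE
    have h1 := (hb E (hsub hE)).1
    have h2 := sqrt_pos.2 (hRpos E hE)
    have h3 : 0 < h E := by linarith only [hεp, hhalf, h1]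
    exact mul_pos h3 h2
  have hHan : AnalyticOnNhd ℝ H (Ioo (-ε) ε) := by
    intro E hE
    have h1 : AnalyticAt ℝ h E := han E (hsub hE)
    have h2 : AnalyticAt ℝ R E := by
      have h3 : AnalyticAt ℝ (fun E => 19 * (1 + E)) E :=
        analyticAt_const.mul (analyticAt_const.add analyticAt_id)
      have h4 : AnalyticAt ℝ (fun E => 2 * (39 - h E ^ 2 / 4)) E := by
        have h5 : AnalyticAt ℝ (fun E => h E ^ 2 / 4) E := by
          have h6 : AnalyticAt ℝ (fun E => h E ^ 2 * (1 / 4)) E :=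
            (h1.pow 2).mul analyticAt_const
          refine h6.congr (Eventually.of_forall fun z => ?_)
          ring
        exact analyticAt_const.mul (analyticAt_const.sub h5)
      have h7 := hq E hE
      exact h3.div h4 (by positivity)
    have h3 : AnalyticAt ℝ (fun E => sqrt (R E)) E := by
      have h4 : ContDiffAt ℝ ω (fun E => sqrt (R E)) E :=
        (h2.contDiffAt (n := ω)).sqrt (hRpos E hE).ne'
      exact h4.analyticAt
    exact h1.mul h3
  have hKan : AnalyticOnNhd ℝ K (Ioo (-ε) ε) := fun E hE => (hHan E hE).inv (hHpos E hE).ne'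
  have hK0 : K 0 = 1 := by
    rw [hK, hH, hR]
    simp only
    rw [h0]
    have e1 : (19 * (1 + 0) / (2 * (39 - 2 ^ 2 / 4)) : ℝ) = (1 / 2) ^ 2 := by norm_num
    rw [e1, sqrt_sq (by norm_num)]
    norm_num
  obtain ⟨P, Ei, δ, hδ, ε', hε', hε'ε, hPd, hsm, hinv⟩ := straighten K ε hεp hKan hK0
  -- large X
  have hElim : Tendsto (fun X => exp (-2 * U X)) atTop (𝓝 0) := by
    apply tendsto_exp_atBot.comp
    exact hUt.const_mul_atTop_of_neg (by norm_num)
  obtain ⟨X2, hX2⟩ := eventually_atTop.1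
    ((hElim.eventually (gt_mem_nhds hε')).and (eventually_gt_atTop X1))
  have hEmem : ∀ X ≥ X2, exp (-2 * U X) ∈ Ioo (-ε') ε' := fun X hX =>
    ⟨by linarith only [hε', exp_pos (-2 * U X)], (hX2 X hX).1⟩
  have hEmem' : ∀ X ≥ X2, exp (-2 * U X) ∈ Ioo (-ε) ε := fun X hX =>
    ⟨by linarith only [hεp, exp_pos (-2 * U X)], lt_of_lt_of_le (hX2 X hX).1 hε'ε⟩
  have hUd : ∀ X ≥ X2, HasDerivAt U (H (exp (-2 * U X))) X := by
    intro X hX
    have h1 := hU X (hX2 X hX).2
    have h2 := hEmem' X hX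
    have h3 := (heq (U X) (lt_of_lt_of_le h2.2 (min_le_left _ _))).2
    refine h1.congr_deriv ?_
    rw [rate_eq g (U X) (h (exp (-2 * U X))) h3 (hq _ h2)]
  set L : ℝ → ℝ := fun X => -2 * U X + P (exp (-2 * U X)) + 2 * X with hL
  have hLd : ∀ X ≥ X2, HasDerivAt L 0 X := by
    intro X hX
    have h1 := hUd X hX
    have h2 := hEmem' X hX
    have h3 : HasDerivAt (fun X => -2 * U X) (-2 * H (exp (-2 * U X))) X := h1.const_mul (-2)
    have h4 := (hPd _ h2).comp X h3.exp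
    have h5 : HasDerivAt (fun X : ℝ => 2 * X) 2 X := by
      simpa using (hasDerivAt_id X).const_mul 2
    have h6 := (h3.add h4).add h5
    refine h6.congr_deriv ?_
    have h7 := sub_smul_dslope K 0 (exp (-2 * U X))
    rw [sub_zero, smul_eq_mul, hK0] at h7
    have h8 : H (exp (-2 * U X)) * K (exp (-2 * U X)) = 1 :=
      mul_inv_cancel₀ (hHpos _ h2).ne'
    linear_combination (-2) * h8 - 2 * H (exp (-2 * U X)) * h7
  have hLc : ∀ X ≥ X2, L X = L X2 := by
    intro X hX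
    have h1 := constant_of_has_deriv_right_zero (f := L) (a := X2) (b := X)
      (fun x hx => (hLd x hx.1).continuousAt.continuousWithinAt)
      (fun x hx => (hLd x hx.1).hasDerivWithinAt)
    exact h1 X ⟨hX, le_rfl⟩
  set c := exp (L X2) with hc
  have hcp : 0 < c := exp_pos _
  have hkey : ∀ X ≥ X2, exp (-2 * U X) * exp (P (exp (-2 * U X))) = c * exp (-2 * X) := by
    intro X hX
    rw [← exp_add, hc, ← exp_add]
    congr 1
    have := hLc X hX
    rw [← this]
    rw [hL]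
    ring
  refine ⟨fun ξ => c * exp (-(P (Ei (c * ξ)))), min (δ / c) (exp (-2 * X2)),
    lt_min (by positivity) (exp_pos _), ?_, ?_, ?_⟩
  · have h1 : ContDiffOn ℝ ∞ (fun ξ : ℝ => P (Ei (c * ξ)))
        (Ioo (-(min (δ / c) (exp (-2 * X2)))) (min (δ / c) (exp (-2 * X2)))) := by
      have h2 : ContDiffOn ℝ ∞ (fun ξ : ℝ => c * ξ)
          (Ioo (-(min (δ / c) (exp (-2 * X2)))) (min (δ / c) (exp (-2 * X2)))) :=
        (contDiff_const.mul contDiff_id).contDiffOn
      refine hsm.comp h2 ?_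
      intro ξ hξ
      have h3 : |ξ| < δ / c := lt_of_lt_of_le (abs_lt.2 hξ) (min_le_left _ _)
      have h4 : |c * ξ| < δ := by
        rw [abs_mul, abs_of_pos hcp, mul_comm]
        exact (lt_div_iff₀ hcp).1 h3
      exact abs_lt.1 h4
    exact contDiffOn_const.mul h1.neg.exp
  · intro ξ _
    positivity
  · intro X hX1 hX
    have h1 : exp (-2 * X) < exp (-2 * X2) := lt_of_lt_of_le hX (min_le_right _ _)
    have h2 : X2 ≤ X := by
      have := exp_lt_exp.1 h1
      linarith only [this]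
    have h3 := hkey X h2
    have h4 : |exp (-2 * U X) * exp (P (exp (-2 * U X)))| < δ := by
      rw [h3, abs_of_pos (by positivity), mul_comm]
      exact (lt_div_iff₀ hcp).1 (lt_of_lt_of_le hX (min_le_left _ _))
    have h5 := hinv _ (hEmem X h2) h4
    rw [h3] at h5
    change exp (-2 * U X) = exp (-2 * X) * (c * exp (-(P (Ei (c * exp (-2 * X))))))
    rw [h5, exp_neg]
    have h6 := (exp_pos (P (exp (-2 * U X)))).ne'
    rw [← mul_assoc, mul_comm (exp (-2 * X)) c, ← h3]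
    field_simp

end Vale.Agent.P244.ST.BD.BTipX
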