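import Vale.Agent.P244.ST.Inst

/-!
# P244-ST : dictionary `Frame` <-> Geo.lean, pointwise identities (F1)-(F7) for Geo.lean functions

All theorems at `(t,x)` with `0 < t < T`, `|x| < 1`.
-/

open Set Filter TopologicalSpace
open scoped ContDiff Topology

namespace Vale.Agent.P244.ST

set_option linter.unusedSimpArgs false

noncomputable section

variable {w f : Fn} {T : ℝ}

section Smooth

variable {Ω : Opens (ℝ × ℝ)} (hs : ConfSol 20 w f T) (hΩ : Ω ≤ Dom T) {H : Fn}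

include hs hΩ

lemma sm_Ds (hH : Sm (Ω : Set (ℝ × ℝ)) H) : Sm (Ω : Set (ℝ × ℝ)) (Ds w H) :=
  (((sm_sx.le hΩ).mul (hs.sm_ew.le hΩ)).neg).mul (hH.dx Ω.isOpen)

lemma sm_Xg : Sm (Ω : Set (ℝ × ℝ)) (Xg w f) := by
  have h1 : Sm (Ω : Set (ℝ × ℝ)) (fun t x => Real.exp (-2 * w t x)) :=
    ((Sm.const (-2)).mul (hs.sm_w.le hΩ)).exp
  exact ((h1.mul (((Sm.const 19).mul ((hs.sm_w.le hΩ).dx Ω.isOpen)).add
    ((Sm.const 20).mul ((hs.sm_f.le hΩ).dx Ω.isOpen)))).neg).sub (hs.sm_J.le hΩ)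

lemma sm_DT (hH : Sm (Ω : Set (ℝ × ℝ)) H) : Sm (Ω : Set (ℝ × ℝ)) (DT w f H) :=
  (hH.dt Ω.isOpen).sub ((((Sm.const 1).sub (Sm.xvar.pow 2)).mul (sm_Xg hs hΩ)).mul
    (hH.dx Ω.isOpen))

lemma sm_PP : Sm (Ω : Set (ℝ × ℝ)) (PP w f) := sm_Ds hs hΩ (hs.sm_uu.le hΩ)

lemma sm_rs : Sm (Ω : Set (ℝ × ℝ)) (rs w f) := sm_Ds hs hΩ (hs.sm_rho.le hΩ)

lemma sm_Lp (hH : Sm (Ω : Set (ℝ × ℝ)) H) : Sm (Ω : Set (ℝ × ℝ)) (Lp w f H) :=
  (sm_Ds hs hΩ (sm_Ds hs hΩ hH)).add (((Sm.const 40).mul (sm_rs hs hΩ)).mul (sm_Ds hs hΩ hH))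

lemma sm_VV : Sm (Ω : Set (ℝ × ℝ)) (VV w f) :=
  (sm_Lp hs hΩ (hs.sm_uu.le hΩ)).add (((Sm.const 78).mul (hs.sm_uu.le hΩ).sinh).div
    ((hs.sm_rr.le hΩ).pow 2) fun z _ => (pow_pos (rr_pos w f z.1 z.2) 2).ne')

lemma sm_yy : Sm (Ω : Set (ℝ × ℝ)) (yy w f) :=
  (sm_Lp hs hΩ (hs.sm_rho.le hΩ)).sub (((Sm.const 39).mul (hs.sm_uu.le hΩ).cosh).div
    ((hs.sm_rr.le hΩ).pow 2) fun z _ => (pow_pos (rr_pos w f z.1 z.2) 2).ne')

lemma sm_E0 : Sm (Ω : Set (ℝ × ℝ)) (E0 w f) :=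
  ((((Sm.const 40).mul (sm_Ds hs hΩ (sm_rs hs hΩ))).neg).sub
    ((Sm.const 40).mul ((sm_rs hs hΩ).pow 2))).sub ((Sm.const 10).mul ((sm_PP hs hΩ).pow 2))

lemma sm_RR : Sm (Ω : Set (ℝ × ℝ)) (RR w f) :=
  (sm_E0 hs hΩ).sub ((Sm.const 40).mul (sm_yy hs hΩ))

lemma sm_ZZ : Sm (Ω : Set (ℝ × ℝ)) (ZZ w f) :=
  ((hs.sm_rr.le hΩ).pow 2).mul ((sm_rs hs hΩ).pow 2)

/-! ### the frame -/

end Smooth

section Dict

variable {Ω : Opens (ℝ × ℝ)} (hs : ConfSol 20 w f T) (hΩ : Ω ≤ Dom T)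

/-- the frame of a solution on `Ω` -/
def fr : Frame (sO Ω) := (conf0 hs hΩ).frame

lemma fr_Ds {H : Fn} (hH : Sm (Ω : Set (ℝ × ℝ)) H) :
    (fr hs hΩ).Ds (mk H hH) = mk (Ds w H) (sm_Ds hs hΩ hH) := by
  have h1 : (fr hs hΩ).Ds (mk H hH) = -((conf0 hs hΩ).s * (conf0 hs hΩ).e) * dX (mk H hH) := rfl
  rw [h1, dX_mk hH]
  rfl

lemma fr_Dt {H : Fn} (hH : Sm (Ω : Set (ℝ × ℝ)) H) :
    (fr hs hΩ).Dt (mk H hH) = mk (DT w f H) (sm_DT hs hΩ hH) := by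
  have h1 : (fr hs hΩ).Dt (mk H hH) = dT (mk H hH) + (conf0 hs hΩ).s ^ 2 *
      ((conf0 hs hΩ).e ^ 2 * (conf0 hs hΩ).a + (conf0 hs hΩ).J) * dX (mk H hH) := rfl
  have h2 : (conf0 hs hΩ).a = 19 * mk (Dx w) ((hs.sm_w.le hΩ).dx Ω.isOpen) +
      20 * mk (Dx f) ((hs.sm_f.le hΩ).dx Ω.isOpen) := by
    have : (conf0 hs hΩ).a = 19 * dX (mk w (hs.sm_w.le hΩ)) + 20 * dX (mk f (hs.sm_f.le hΩ)) := rfl
    rw [this, dX_mk, dX_mk]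
  rw [h1, dX_mk hH, dT_mk hH, h2]
  refine sO_ext fun t x hz => ?_
  have e1 : Real.exp (-w t x) ^ 2 = Real.exp (-2 * w t x) := by
    rw [← Real.exp_nat_mul]; congr 1; push_cast; ring
  have e2 := sx_sq (hΩ hz).2
  have e3 : (conf0 hs hΩ).s = mk (fun _ x => sx x) (sm_sx.le hΩ) := rfl
  have e4 : (conf0 hs hΩ).e = mk (fun t x => Real.exp (-w t x)) (hs.sm_ew.le hΩ) := rfl
  have e5 : (conf0 hs hΩ).J = mk (fun t x => Jf 20 (w t) (f t) x) (hs.sm_J.le hΩ) := rfl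
  rw [e3, e4, e5]
  simp only [toFn_mk _ hz, toFn_mul, toFn_add, toFn_pow _ _ hz, toFn_ofNat _ hz, DT, Xg]
  rw [e1, e2]
  ring

lemma fr_u : (fr hs hΩ).u = mk (uu w f) (hs.sm_uu.le hΩ) := rfl
lemma fr_ρ : (fr hs hΩ).ρ = mk (rho w f) (hs.sm_rho.le hΩ) := rfl
lemma fr_sh : (fr hs hΩ).sh = mk (fun t x => Real.sinh (uu w f t x)) (hs.sm_uu.le hΩ).sinh := rfl
lemma fr_ch : (fr hs hΩ).ch = mk (fun t x => Real.cosh (uu w f t x)) (hs.sm_uu.le hΩ).cosh := rfl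
lemma fr_r2 : (fr hs hΩ).r2 = mk (fun t x => (rr w f t x) ^ 2) ((hs.sm_rr.le hΩ).pow 2) := rfl
lemma fr_ir : (fr hs hΩ).ir = mk (fun t x => ((rr w f t x) ^ 2)⁻¹) (((hs.sm_rr.le hΩ).pow 2).inv
    fun z _ => (pow_pos (rr_pos w f z.1 z.2) 2).ne') := rfl

lemma fr_P : (fr hs hΩ).P = mk (PP w f) (sm_PP hs hΩ) := by
  rw [Frame.P, fr_u, fr_Ds]; rfl

lemma fr_ρs : (fr hs hΩ).ρs = mk (rs w f) (sm_rs hs hΩ) := by
  rw [Frame.ρs, fr_ρ, fr_Ds]; rfl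

lemma fr_Lap {H : Fn} (hH : Sm (Ω : Set (ℝ × ℝ)) H) :
    (fr hs hΩ).Lap (mk H hH) = mk (Lp w f H) (sm_Lp hs hΩ hH) := by
  rw [Frame.Lap, fr_Ds hs hΩ hH, fr_Ds hs hΩ (sm_Ds hs hΩ hH), fr_ρs]
  refine sO_ext fun t x hz => ?_
  simp only [toFn_mk _ hz, toFn_mul, toFn_add, toFn_ofNat _ hz, Lp]
  rfl

lemma fr_V : (fr hs hΩ).V = mk (VV w f) (sm_VV hs hΩ) := by
  rw [Frame.V_eq, fr_P, fr_ρs, fr_Ds, fr_sh, fr_ir]
  refine sO_ext fun t x hz => ?_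
  simp only [toFn_mk _ hz, toFn_mul, toFn_add, toFn_ofNat _ hz, VV, Lp, PP, rs]
  rw [div_eq_mul_inv]

lemma fr_yt : (fr hs hΩ).yt = mk (yy w f) (sm_yy hs hΩ) := by
  rw [Frame.yt_eq, fr_ρs, fr_Ds, fr_ch, fr_ir]
  refine sO_ext fun t x hz => ?_
  simp only [toFn_mk _ hz, toFn_mul, toFn_add, toFn_sub _ _ hz, toFn_pow _ _ hz, toFn_ofNat _ hz,
    yy, Lp, rs]
  rw [div_eq_mul_inv]; ring

lemma fr_E0 : (fr hs hΩ).E0 = mk (E0 w f) (sm_E0 hs hΩ) := by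
  rw [Frame.E0_eq, fr_P, fr_ρs, fr_Ds]
  refine sO_ext fun t x hz => ?_
  simp only [toFn_mk _ hz, toFn_mul, toFn_add, toFn_sub _ _ hz, toFn_neg _ hz, toFn_pow _ _ hz,
    toFn_ofNat _ hz, E0]
  ring

lemma fr_R : (fr hs hΩ).Rs = mk (RR w f) (sm_RR hs hΩ) := by
  rw [Frame.Rs, fr_E0, fr_yt]
  refine sO_ext fun t x hz => ?_
  simp only [toFn_mk _ hz, toFn_mul, toFn_add, toFn_sub _ _ hz, toFn_ofNat _ hz, RR]

lemma fr_Z : (fr hs hΩ).Z = mk (ZZ w f) (sm_ZZ hs hΩ) := by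
  rw [Frame.Z, fr_ρs, fr_r2]; rfl

end Dict

/-! ### pointwise identities -/

section Pt

variable (hs : ConfSol 20 w f T) {t x : ℝ} (ht : t ∈ Ioo 0 T) (hx : x ∈ Ioo (-1 : ℝ) 1)

include hs ht hx

/-- (F1) -/
theorem DT_uu : DT w f (uu w f) t x = VV w f t x := by
  have hz : (t, x) ∈ Dom T := mem_Dom.mpr ⟨ht, hx⟩
  have h : (fr hs le_rfl).V = (fr hs le_rfl).Dt (fr hs le_rfl).u := rfl
  rw [fr_V, fr_u, fr_Dt] at h
  have h2 := congrArg (fun k => toFn k t x) h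
  simp only [toFn_mk _ hz] at h2
  exact h2.symm

/-- (F1) -/
theorem DT_rho : DT w f (rho w f) t x = yy w f t x := by
  have hz : (t, x) ∈ Dom T := mem_Dom.mpr ⟨ht, hx⟩
  have h : (fr hs le_rfl).yt = (fr hs le_rfl).Dt (fr hs le_rfl).ρ := rfl
  rw [fr_yt, fr_ρ, fr_Dt] at h
  have h2 := congrArg (fun k => toFn k t x) h
  simp only [toFn_mk _ hz] at h2
  exact h2.symm

/-- (F2) -/
theorem F2_geo : DT w f (RR w f) t x - Lp w f (RR w f) t x =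
    2 * E0 w f t x ^ 2 + (RR w f t x - E0 w f t x) ^ 2 / 20 + 20 * VV w f t x ^ 2 := by
  have hz : (t, x) ∈ Dom T := mem_Dom.mpr ⟨ht, hx⟩
  have h := (fr hs le_rfl).F2
  rw [fr_V, fr_R, fr_E0, fr_Dt, fr_Lap] at h
  have h2 := congrArg (fun k => toFn k t x) h
  simp only [toFn_mk _ hz, toFn_mul, toFn_add, toFn_sub _ _ hz, toFn_pow _ _ hz,
    toFn_ofNat _ hz] at h2
  linarith only [h2]

/-- (F3) -/
theorem F3_geo : 2 * Ds w (E0 w f) t x + 82 * rs w f t x * E0 w f t x +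
    20 * PP w f t x * VV w f t x = Ds w (RR w f) t x + 2 * rs w f t x * RR w f t x := by
  have hz : (t, x) ∈ Dom T := mem_Dom.mpr ⟨ht, hx⟩
  have h := (fr hs le_rfl).F3
  rw [fr_V, fr_R, fr_E0, fr_P, fr_ρs, fr_Ds, fr_Ds] at h
  have h2 := congrArg (fun k => toFn k t x) h
  simp only [toFn_mk _ hz, toFn_mul, toFn_add, toFn_sub _ _ hz, toFn_pow _ _ hz,
    toFn_ofNat _ hz] at h2
  exact h2

/-- (F5) -/
theorem F5_geo : DT w f (VV w f) t x - Lp w f (VV w f) t x =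
    (78 * Real.cosh (uu w f t x) / rr w f t x ^ 2 - 20 * PP w f t x ^ 2 + 2 * E0 w f t x) *
      VV w f t x + (-(2 * rs w f t x * PP w f t x) -
        39 / 10 * Real.sinh (uu w f t x) / rr w f t x ^ 2) * (41 * E0 w f t x - RR w f t x) := by
  have hz : (t, x) ∈ Dom T := mem_Dom.mpr ⟨ht, hx⟩
  have h := (fr hs le_rfl).F5
  rw [Frame.b20, fr_V, fr_R, fr_E0, fr_P, fr_ρs, fr_Dt, fr_Lap, fr_ch, fr_sh, fr_ir] at h
  have h2 := congrArg (fun k => toFn k t x) h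
  simp only [toFn_mk _ hz, toFn_mul, toFn_add, toFn_sub _ _ hz, toFn_neg _ hz, toFn_pow _ _ hz,
    toFn_ofNat _ hz] at h2
  rw [div_eq_mul_inv, div_eq_mul_inv]
  linear_combination (1 / 10) * h2

/-- (F6) for `P` -/
theorem F6P_geo : DT w f (PP w f) t x - Lp w f (PP w f) t x =
    (78 * Real.cosh (uu w f t x) / rr w f t x ^ 2 - 40 * rs w f t x ^ 2 -
      10 * PP w f t x ^ 2) * PP w f t x -
      156 * Real.sinh (uu w f t x) / rr w f t x ^ 2 * rs w f t x := by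
  have hz : (t, x) ∈ Dom T := mem_Dom.mpr ⟨ht, hx⟩
  have h := (fr hs le_rfl).F6P
  rw [fr_P, fr_ρs, fr_Dt, fr_Lap, fr_ch, fr_sh, fr_ir] at h
  have h2 := congrArg (fun k => toFn k t x) h
  simp only [toFn_mk _ hz, toFn_mul, toFn_add, toFn_sub _ _ hz, toFn_neg _ hz, toFn_pow _ _ hz,
    toFn_ofNat _ hz] at h2
  rw [div_eq_mul_inv, div_eq_mul_inv]
  linear_combination h2

/-- (F6) for `ρ_s` -/
theorem F6rs_geo : DT w f (rs w f) t x - Lp w f (rs w f) t x =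
    (78 * Real.cosh (uu w f t x) / rr w f t x ^ 2 - 40 * rs w f t x ^ 2 -
      10 * PP w f t x ^ 2) * rs w f t x -
      39 * Real.sinh (uu w f t x) / rr w f t x ^ 2 * PP w f t x := by
  have hz : (t, x) ∈ Dom T := mem_Dom.mpr ⟨ht, hx⟩
  have h := (fr hs le_rfl).F6ρ
  rw [fr_P, fr_ρs, fr_Dt, fr_Lap, fr_ch, fr_sh, fr_ir] at h
  have h2 := congrArg (fun k => toFn k t x) h
  simp only [toFn_mk _ hz, toFn_mul, toFn_add, toFn_sub _ _ hz, toFn_neg _ hz, toFn_pow _ _ hz,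
    toFn_ofNat _ hz] at h2
  rw [div_eq_mul_inv, div_eq_mul_inv]
  linear_combination h2

/-- (F0) the commutator -/
theorem comm_geo {H : Fn} (hH : Sm (Dom T : Set (ℝ × ℝ)) H) :
    DT w f (Ds w H) t x = Ds w (DT w f H) t x + E0 w f t x * Ds w H t x := by
  have hz : (t, x) ∈ Dom T := mem_Dom.mpr ⟨ht, hx⟩
  have h := (fr hs le_rfl).comm (mk H hH)
  rw [fr_Ds, fr_Dt, fr_Dt, fr_Ds, fr_E0] at h
  have h2 := congrArg (fun k => toFn k t x) h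
  simp only [toFn_mk _ hz, toFn_mul, toFn_add] at h2
  exact h2

/-- (F4) -/
theorem F4_geo {H : Fn} (hH : Sm (Dom T : Set (ℝ × ℝ)) H) :
    DT w f (Lp w f H) t x = Lp w f (DT w f H) t x + 2 * E0 w f t x * Lp w f H t x +
      (2 * Ds w (E0 w f) t x - Ds w (RR w f) t x) * Ds w H t x := by
  have hz : (t, x) ∈ Dom T := mem_Dom.mpr ⟨ht, hx⟩
  have h := (fr hs le_rfl).F4 (mk H hH)
  rw [fr_E0, fr_R, fr_Ds, fr_Ds, fr_Ds, fr_Lap, fr_Dt, fr_Dt, fr_Lap] at h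
  have h2 := congrArg (fun k => toFn k t x) h
  simp only [toFn_mk _ hz, toFn_mul, toFn_add, toFn_sub _ _ hz, toFn_ofNat _ hz] at h2
  exact h2

end Pt

end

end Vale.Agent.P244.ST
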