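import Mathlib
import Vale.Agent.P244.ST.Geo

/-!
# P244-ST, block M : elementary facts on `κ` and on the bubble function `IsBub g` (Geo.lean)
-/

open Set
open scoped ContDiff

namespace Vale.Agent.P244.ST.M

open Vale.Agent.P244.ST

lemma kap_eq : kap ^ 2 - 39 * kap + 78 = 0 := by
  have h : Real.sqrt 1209 ^ 2 = 1209 := Real.sq_sqrt (by norm_num)
  unfold kap
  linear_combination (1 / 4) * h

lemma sqrt1209_lt : Real.sqrt 1209 < 34.7708 := by
  rw [Real.sqrt_lt' (by norm_num)]; norm_num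

lemma sqrt1209_gt : 34.7706 < Real.sqrt 1209 := by
  rw [Real.lt_sqrt (by norm_num)]; norm_num

lemma kap_lt : kap < 2.1147 := by
  unfold kap; linarith only [sqrt1209_gt]

lemma kap_gt : 2.1146 < kap := by
  unfold kap; linarith only [sqrt1209_lt]

lemma kap_pos : 0 < kap := by linarith only [kap_gt]

lemma tanh_pos' {u : ℝ} (hu : 0 < u) : 0 < Real.tanh u := by
  rw [Real.tanh_eq_sinh_div_cosh]
  exact div_pos (Real.sinh_pos_iff.mpr hu) (Real.cosh_pos u)

section

variable {g : ℝ → ℝ} (hg : IsBub g)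

include hg

lemma g_pos {u : ℝ} (hu : 0 < u) : 0 < g u :=
  lt_trans (mul_pos two_pos (tanh_pos' hu)) (hg.lower u hu)

lemma g_hasDeriv {u : ℝ} (hu : 0 < u) : HasDerivAt g (deriv g u) u :=
  (hg.ode u hu).differentiableAt.hasDerivAt

lemma g_ode {u : ℝ} (hu : 0 < u) :
    g u * deriv g u = (39 - g u ^ 2 / 4) * (g u - 2 * Real.tanh u) := by
  rw [(hg.ode u hu).deriv]
  have := (g_pos hg hu).ne'
  field_simp

lemma q_pos {u : ℝ} (hu : 0 < u) : 38 < qb g u := by
  have h1 := g_pos hg hu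
  have h2 := hg.lt_two u hu
  unfold qb; nlinarith only [h1, h2]

lemma q_lt {u : ℝ} (hu : 0 < u) : qb g u < 39 := by
  have h1 := g_pos hg hu
  unfold qb; nlinarith only [h1]

lemma Zs_pos {u : ℝ} (hu : 0 < u) : 0 < Zs g u := by
  unfold Zs
  have := q_pos hg hu
  have := Real.cosh_pos u
  positivity

end

end Vale.Agent.P244.ST.M
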