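import Vale.Agent.P244.ST.Geo
import Vale.Agent.P244.ST.BubHyp
import Vale.Agent.P244.ST.BAux

/-!
# P244-ST, block B : derived facts on the bubble functions `g, Zs, c0, As` (`u > 0`)

`Wb g u = g (1 - T²) - T g' ≥ 0` (`T = tanh u`) measures the decrease of `g / tanh`.
-/

open Set Filter Topology Real
open scoped ContDiff

namespace Vale.Agent.P244.ST.BDer

open Vale.Agent.P244.ST.BD.BT Vale.Agent.P244.ST.BD.BA Vale.Agent.P244.ST.M

theorem sq_kap : kap ^ 2 = 39 * kap - 78 := by linarith only [kap_eq]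

theorem tanh_mul_cosh (u : ℝ) : tanh u * cosh u = sinh u := by
  rw [tanh_eq_sinh_div_cosh, div_mul_cancel₀ _ (cosh_pos u).ne']

theorem one_sub_tanh_sq (u : ℝ) : 1 - tanh u ^ 2 = 1 / cosh u ^ 2 := by
  have h := cosh_sq u
  have hc : cosh u ≠ 0 := (cosh_pos u).ne'
  rw [tanh_eq_sinh_div_cosh]
  field_simp
  linarith only [h]

theorem one_sub_tanh_sq_pos (u : ℝ) : 0 < 1 - tanh u ^ 2 := by
  rw [one_sub_tanh_sq]
  have := cosh_pos u
  positivity

/-- `1 - tanh u ≤ 2 e^{-2u}` -/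
theorem one_sub_tanh_le (u : ℝ) : 1 - tanh u ≤ 2 * exp (-2 * u) := by
  have h1 : tanh u = (exp u - exp (-u)) / (exp u + exp (-u)) := tanh_eq u
  have h2 : 0 < exp u + exp (-u) := by positivity
  have h3 : exp u * exp (-u) = 1 := by rw [← exp_add]; simp
  have h4 : exp (-2 * u) = exp (-u) ^ 2 := by
    rw [← exp_nat_mul]; congr 1; push_cast; ring
  have h5 : 1 - tanh u = 2 * exp (-u) / (exp u + exp (-u)) := by
    rw [h1]; field_simp; ring
  rw [h5, h4, div_le_iff₀ h2]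
  have h6 : 0 < exp (-u) := exp_pos _
  nlinarith only [h2, h3, h6, pow_pos h6 3]

/-- `As = 39 cosh u (4 T / g - 1)` -/
theorem As_eq (g : ℝ → ℝ) (u : ℝ) : As g u = 39 * cosh u * (4 * tanh u / g u - 1) := by
  unfold As
  rw [← tanh_mul_cosh u]
  ring

section

variable {g : ℝ → ℝ} (hg : IsBub g)

/-- `W = g (1 - T²) - T g'` -/
noncomputable def Wb (g : ℝ → ℝ) (u : ℝ) : ℝ := g u * (1 - tanh u ^ 2) - tanh u * deriv g u

include hg

theorem deriv_eq {u : ℝ} (hu : 0 < u) : deriv g u = qb g u * (1 - 2 * tanh u / g u) := by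
  have h := g_ode hg hu
  have h1 := (g_pos hg hu).ne'
  unfold qb
  field_simp
  linarith only [h]

/-- `0 < 2 - g ≤ 2 (1 - tanh u) ≤ 4 e^{-2u}` -/
theorem two_sub_le {u : ℝ} (hu : 0 < u) : 2 - g u ≤ 2 * (1 - tanh u) := by
  linarith only [hg, hu, hg.lower u hu]

theorem two_sub_le_exp {u : ℝ} (hu : 0 < u) : 2 - g u ≤ 4 * exp (-2 * u) := by
  linarith only [hg, hu, hg.lower u hu, one_sub_tanh_le u]

theorem g_lt_kap_mul {u : ℝ} (hu : 0 < u) : g u < kap * u := by
  have h1 := hg.upper u hu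
  have h2 := ba_tanh_le hu.le
  have h3 := kap_pos
  nlinarith only [h1, h2, h3]

/-- `g' ≤ κ (1 - T²)` -/
theorem deriv_le {u : ℝ} (hu : 0 < u) : deriv g u ≤ kap * (1 - tanh u ^ 2) := by
  have h1 := hg.ratio u hu
  have h2 := hg.upper u hu
  have h3 := tanh_pos' hu
  have h4 := one_sub_tanh_sq_pos u
  have h5 : deriv g u * tanh u ≤ kap * tanh u * (1 - tanh u ^ 2) :=
    h1.trans (mul_le_mul_of_nonneg_right h2.le h4.le)
  have h6 : deriv g u * tanh u ≤ kap * (1 - tanh u ^ 2) * tanh u := by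
    rw [show kap * (1 - tanh u ^ 2) * tanh u = kap * tanh u * (1 - tanh u ^ 2) by ring]
    exact h5
  exact le_of_mul_le_mul_right h6 h3

theorem deriv_le_cosh {u : ℝ} (hu : 0 < u) : deriv g u ≤ kap / cosh u ^ 2 := by
  have := deriv_le hg hu
  rw [one_sub_tanh_sq, mul_one_div] at this
  exact this

theorem Wb_nonneg {u : ℝ} (hu : 0 < u) : 0 ≤ Wb g u := by
  unfold Wb; linarith only [hg, hu, hg.ratio u hu]

theorem Wb_le {u : ℝ} (hu : 0 < u) : Wb g u ≤ kap * tanh u * (1 - tanh u ^ 2) := by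
  have h1 := hg.deriv_pos u hu
  have h2 := tanh_pos' hu
  have h3 := mul_pos h2 h1
  have h4 := mul_le_mul_of_nonneg_right (hg.upper u hu).le (one_sub_tanh_sq_pos u).le
  unfold Wb
  linarith only [h3, h4]

/-- `W ≤ C T³ (1 - T²)` -/
theorem Wb_cubic : ∃ C, 0 ≤ C ∧ ∀ u > 0, Wb g u ≤ C * tanh u ^ 3 * (1 - tanh u ^ 2) := by
  obtain ⟨C, hC⟩ := hg.at_zero
  refine ⟨2 * (|C| * (39 - kap) / 2) + 2 * kap, ?_, fun u hu => ?_⟩
  · have := kap_pos
    have := kap_lt
    have h0 : 0 ≤ |C| * (39 - kap) := mul_nonneg (abs_nonneg _) (by linarith only [this])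
    linarith
  have hT := tanh_pos' hu
  have hT1 := ba_tanh_lt_one u
  have h1 := hC u hu
  have h2 := hg.lower u hu
  have h3 := hg.upper u hu
  have hk := kap_pos
  have hk1 := kap_lt
  have hgp := g_pos hg hu
  have hq := g_ode hg hu
  have key : g u * Wb g u = (kap * tanh u - g u) * ((39 - kap) * tanh u - g u) +
      tanh u * g u ^ 2 * ((g u - 2 * tanh u) / 4 - tanh u) := by
    have e : g u * Wb g u = g u ^ 2 * (1 - tanh u ^ 2) - tanh u * (g u * deriv g u) := by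
      unfold Wb; ring
    rw [e, hq]
    linear_combination (tanh u ^ 2) * kap_eq
  have neg : tanh u * g u ^ 2 * ((g u - 2 * tanh u) / 4 - tanh u) ≤ 0 := by
    apply mul_nonpos_of_nonneg_of_nonpos (by positivity)
    nlinarith only [hT, hT1, h3, hk1]
  have a1 : (kap * tanh u - g u) * ((39 - kap) * tanh u - g u) ≤
      |C| * tanh u ^ 3 * ((39 - kap) * tanh u) := by
    have b1 : kap * tanh u - g u ≤ |C| * tanh u ^ 3 :=
      h1.trans (mul_le_mul_of_nonneg_right (le_abs_self C) (by positivity))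
    have b2 : 0 ≤ (39 - kap) * tanh u - g u := by nlinarith only [hT, hT1, h3, hk1]
    exact mul_le_mul b1 (by linarith only [hT, h2]) b2 (by positivity)
  have a2 : Wb g u ≤ |C| * (39 - kap) / 2 * tanh u ^ 3 := by
    have b1 : 2 * tanh u * Wb g u ≤ g u * Wb g u :=
      mul_le_mul_of_nonneg_right h2.le (Wb_nonneg hg hu)
    have b2 : 2 * tanh u * Wb g u ≤ 2 * tanh u * (|C| * (39 - kap) / 2 * tanh u ^ 3) := by
      have : 2 * tanh u * (|C| * (39 - kap) / 2 * tanh u ^ 3) =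
        |C| * tanh u ^ 3 * ((39 - kap) * tanh u) := by ring
      linarith only [key, neg, a1, b1]
    exact le_of_mul_le_mul_left b2 (by positivity)
  have hD : 0 ≤ |C| * (39 - kap) / 2 := by
    have h0 : 0 ≤ |C| * (39 - kap) := mul_nonneg (abs_nonneg _) (by linarith only [hT, hT1, hk1])
    linarith only [h0]
  have hs := one_sub_tanh_sq_pos u
  set D := |C| * (39 - kap) / 2 with hDdef
  have hT3 : 0 < tanh u ^ 3 := by positivity
  rcases le_total (tanh u ^ 2) (1 / 2) with hh | hh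
  · have b1 : D * tanh u ^ 3 ≤ 2 * D * tanh u ^ 3 * (1 - tanh u ^ 2) := by
      have : 0 ≤ D * tanh u ^ 3 := by positivity
      nlinarith only [hT, hT1, hh, this]
    have b2 : 0 ≤ 2 * kap * tanh u ^ 3 * (1 - tanh u ^ 2) := by positivity
    nlinarith only [a2, b1, b2]
  · have b0 := Wb_le hg hu
    have b1 : kap * tanh u * (1 - tanh u ^ 2) ≤ 2 * kap * tanh u ^ 3 * (1 - tanh u ^ 2) := by
      refine mul_le_mul_of_nonneg_right ?_ hs.le
      have : 0 < kap * tanh u := by positivity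
      nlinarith only [hT, hT1, h2, h3, hh]
    have b2 : 0 ≤ 2 * D * tanh u ^ 3 * (1 - tanh u ^ 2) := by positivity
    nlinarith only [b0, b1, b2]

theorem hasDerivAt_qb {u : ℝ} (hu : 0 < u) :
    HasDerivAt (qb g) (-(g u * deriv g u / 2)) u := by
  have h1 := (((g_hasDeriv hg hu).pow 2).div_const 4).const_sub 39
  refine h1.congr_deriv ?_
  push_cast
  ring

/-- `Zs' = g Zs / 2` -/
theorem hasDerivAt_Zs {u : ℝ} (hu : 0 < u) : HasDerivAt (Zs g) (g u * Zs g u / 2) u := by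
  have hq := q_pos hg hu
  have hq0 : qb g u ≠ 0 := by linarith only [hq]
  have h1 := ((hasDerivAt_cosh u).const_mul 39).div (hasDerivAt_qb hg hu) hq0
  refine h1.congr_deriv ?_
  have h2 : g u * deriv g u = qb g u * (g u - 2 * tanh u) := g_ode hg hu
  have h3 := tanh_mul_cosh u
  unfold Zs
  rw [h2]
  field_simp
  linear_combination (-2) * h3

/-- `Zs g g' = 39 (g cosh u - 2 sinh u)` -/
theorem Zs_mul {u : ℝ} (hu : 0 < u) :
    Zs g u * (g u * deriv g u) = 39 * (g u * cosh u - 2 * sinh u) := by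
  have hq := q_pos hg hu
  have hq0 : qb g u ≠ 0 := by linarith only [hq]
  have h2 : g u * deriv g u = qb g u * (g u - 2 * tanh u) := g_ode hg hu
  have h3 := tanh_mul_cosh u
  unfold Zs
  rw [h2]
  field_simp
  linear_combination (-2) * h3

theorem cosh_le_Zs {u : ℝ} (hu : 0 < u) : cosh u ≤ Zs g u := by
  have hq := q_pos hg hu
  have hq1 := q_lt hg hu
  unfold Zs
  rw [le_div_iff₀ (by linarith only [hq, hq1])]
  nlinarith only [hq, hq1, cosh_pos u]

theorem Zs_le {u : ℝ} (hu : 0 < u) : Zs g u ≤ 39 / 38 * cosh u := by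
  have hq := q_pos hg hu
  unfold Zs
  rw [div_le_iff₀ (by linarith only [hq])]
  nlinarith only [hq, cosh_pos u]

theorem one_le_Zs {u : ℝ} (hu : 0 < u) : 1 ≤ Zs g u :=
  (one_le_cosh u).trans (cosh_le_Zs hg hu)

/-- `Zs - 1 ≤ 2 u²` for `u ≤ 1`; -/
theorem Zs_sub_one_le {u : ℝ} (hu : 0 < u) (hu1 : u ≤ 1) : Zs g u - 1 ≤ 2 * u ^ 2 := by
  have hq := q_pos hg hu
  have h1 := g_lt_kap_mul hg hu
  have h2 := g_pos hg hu
  have h3 : cosh u - 1 ≤ u ^ 2 := by
    have a1 := cosh_le_exp_half_sq u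
    have a2 : |exp (u ^ 2 / 2) - 1| ≤ 2 * |u ^ 2 / 2| := by
      apply abs_exp_sub_one_le
      rw [abs_of_nonneg (by positivity)]
      nlinarith only [hu, hu1]
    rw [abs_of_nonneg (by positivity : (0 : ℝ) ≤ u ^ 2 / 2)] at a2
    linarith only [a1, a2, le_abs_self (exp (u ^ 2 / 2) - 1)]
  have h4 : g u ^ 2 ≤ 4.6 * u ^ 2 := by
    have hk := kap_lt
    have hk0 := kap_pos
    have a1 : g u ^ 2 ≤ (kap * u) ^ 2 := pow_le_pow_left₀ h2.le h1.le 2
    have a2 : kap ^ 2 ≤ 4.6 := by nlinarith only [hk, sq_kap]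
    nlinarith only [a1, a2, sq_nonneg u]
  have h5 : Zs g u - 1 = (39 * (cosh u - 1) + g u ^ 2 / 4) / qb g u := by
    unfold Zs
    rw [eq_div_iff (by linarith only [hq]), sub_mul, div_mul_cancel₀ _ (by linarith only [hq])]
    unfold qb
    ring
  rw [h5, div_le_iff₀ (by linarith only [hq])]
  nlinarith only [hq, h3, h4, sq_nonneg u]

theorem c0_eq {u : ℝ} (hu : 0 < u) : c0 g u = cosh u * deriv g u / qb g u := by
  have hq := q_pos hg hu
  have hq0 : qb g u ≠ 0 := by linarith only [hq]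
  have h1 := (g_pos hg hu).ne'
  rw [deriv_eq hg hu]
  unfold c0
  rw [← tanh_mul_cosh u]
  field_simp

theorem c0_pos {u : ℝ} (hu : 0 < u) : 0 < c0 g u := by
  rw [c0_eq hg hu]
  have := hg.deriv_pos u hu
  have := cosh_pos u
  have := q_pos hg hu
  positivity

theorem c0_le {u : ℝ} (hu : 0 < u) : c0 g u ≤ kap / (38 * cosh u) := by
  rw [c0_eq hg hu]
  have h1 := deriv_le_cosh hg hu
  have h0 := hg.deriv_pos u hu
  have hc := cosh_pos u
  have hq := q_pos hg hu
  have hk := kap_pos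
  rw [div_le_div_iff₀ (by linarith only [hq]) (by positivity)]
  rw [le_div_iff₀ (by positivity)] at h1
  have h2 : kap * 38 ≤ kap * qb g u := by nlinarith only [hq, hk]
  nlinarith only [h1, h2]

theorem As_ge {u : ℝ} (hu : 0 < u) : 39 * cosh u * (4 / kap - 1) ≤ As g u := by
  rw [As_eq g u]
  have hk := kap_pos
  have hgp := g_pos hg hu
  have h1 : 4 / kap ≤ 4 * tanh u / g u := by
    rw [div_le_div_iff₀ hk hgp]
    nlinarith only [hg, hu, hg.upper u hu]
  have := cosh_pos u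
  exact mul_le_mul_of_nonneg_left (by linarith only [h1]) (by positivity)

theorem As_le {u : ℝ} (hu : 0 < u) : As g u ≤ 39 * cosh u := by
  rw [As_eq g u]
  have hgp := g_pos hg hu
  have h1 : 4 * tanh u / g u ≤ 2 := by
    rw [div_le_iff₀ hgp]
    nlinarith only [hg, hu, hg.lower u hu]
  have := cosh_pos u
  nlinarith only [h1, this]

/-- `c0' = T c0 - 2 cosh W / g²` -/
theorem hasDerivAt_c0 {u : ℝ} (hu : 0 < u) :
    HasDerivAt (c0 g) (tanh u * c0 g u - 2 * cosh u * Wb g u / g u ^ 2) u := by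
  have h1 := (g_pos hg hu).ne'
  have h2 := (hasDerivAt_cosh u).sub
    (((hasDerivAt_sinh u).const_mul 2).div (g_hasDeriv hg hu) h1)
  refine h2.congr_deriv ?_
  unfold c0 Wb
  rw [← tanh_mul_cosh u]
  field_simp
  ring

/-- `c0' = sinh - 2 cosh / g + 2 sinh g' / g²` -/
theorem hasDerivAt_c0' {u : ℝ} (hu : 0 < u) :
    HasDerivAt (c0 g) (sinh u - 2 * cosh u / g u + 2 * sinh u * deriv g u / g u ^ 2) u := by
  have h1 := (g_pos hg hu).ne'
  have h2 := (hasDerivAt_cosh u).sub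
    (((hasDerivAt_sinh u).const_mul 2).div (g_hasDeriv hg hu) h1)
  refine h2.congr_deriv ?_
  field_simp
  ring

/-- `|c0'| ≤ C T / cosh u` -/
theorem deriv_c0_le : ∃ C, 0 ≤ C ∧ ∀ u > 0, |deriv (c0 g) u| ≤ C * tanh u / cosh u := by
  obtain ⟨C, hC0, hC⟩ := Wb_cubic hg
  have hk := kap_pos
  refine ⟨kap / 38 + C, by positivity, fun u hu => ?_⟩
  rw [(hasDerivAt_c0 hg hu).deriv]
  have hT := tanh_pos' hu
  have hc := cosh_pos u
  have hgp := g_pos hg hu
  have h1 : tanh u * c0 g u ≤ kap / 38 * tanh u / cosh u := by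
    have := mul_le_mul_of_nonneg_left (c0_le hg hu) hT.le
    refine this.trans (le_of_eq ?_)
    field_simp
  have h2 : 2 * cosh u * Wb g u / g u ^ 2 ≤ C * tanh u / cosh u := by
    have a1 := hC u hu
    rw [one_sub_tanh_sq] at a1
    have a2 : (2 * tanh u) ^ 2 ≤ g u ^ 2 := pow_le_pow_left₀ (by positivity) (hg.lower u hu).le 2
    rw [div_le_iff₀ (by positivity)]
    calc 2 * cosh u * Wb g u ≤ 2 * cosh u * (C * tanh u ^ 3 * (1 / cosh u ^ 2)) :=
          mul_le_mul_of_nonneg_left a1 (by positivity)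
      _ = C * tanh u / cosh u * (2 * tanh u ^ 2) := by field_simp
      _ ≤ C * tanh u / cosh u * g u ^ 2 := by
        refine mul_le_mul_of_nonneg_left ?_ (by positivity)
        nlinarith only [a2, sq_nonneg (tanh u)]
  have h3 : 0 ≤ tanh u * c0 g u := mul_nonneg hT.le (c0_pos hg hu).le
  have h4 : 0 ≤ 2 * cosh u * Wb g u / g u ^ 2 := by
    have := Wb_nonneg hg hu
    positivity
  have h5 : (kap / 38 + C) * tanh u / cosh u =
      kap / 38 * tanh u / cosh u + C * tanh u / cosh u := by ring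
  have h6 : 0 ≤ kap / 38 * tanh u / cosh u := by positivity
  have h7 : 0 ≤ C * tanh u / cosh u := by positivity
  rw [h5, abs_le]
  constructor <;> linarith only [h1, h2, h3, h4]

/-- `As' = T As + 156 cosh W / g²` -/
theorem hasDerivAt_As {u : ℝ} (hu : 0 < u) :
    HasDerivAt (As g) (tanh u * As g u + 156 * cosh u * Wb g u / g u ^ 2) u := by
  have h1 := (g_pos hg hu).ne'
  have h2 := ((((hasDerivAt_sinh u).const_mul 4).div (g_hasDeriv hg hu) h1).sub
    (hasDerivAt_cosh u)).const_mul 39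
  refine h2.congr_deriv ?_
  unfold As Wb
  rw [← tanh_mul_cosh u]
  field_simp
  ring

/-- second derivative: `g'' = -(g g'^2)/(2q) - 2 q W / g²` -/
theorem hasDerivAt_deriv {u : ℝ} (hu : 0 < u) :
    HasDerivAt (deriv g) (-(g u * deriv g u ^ 2 / (2 * qb g u)) - 2 * qb g u * Wb g u / g u ^ 2)
      u := by
  have h1 := (g_pos hg hu).ne'
  have hq := q_pos hg hu
  have hq0 : qb g u ≠ 0 := by linarith only [hq]
  have h2 : HasDerivAt (fun u => qb g u * (1 - 2 * tanh u / g u)) _ u :=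
    (hasDerivAt_qb hg hu).mul
      ((((bt_tanh_deriv u).const_mul 2).div (g_hasDeriv hg hu) h1).const_sub 1)
  have h3 : HasDerivAt (deriv g) _ u := h2.congr_of_eventuallyEq (by
    filter_upwards [lt_mem_nhds hu] with v hv
    exact deriv_eq hg hv)
  refine h3.congr_deriv ?_
  have e1 : 1 - 2 * tanh u / g u = deriv g u / qb g u := by
    rw [deriv_eq hg hu]; field_simp
  rw [e1]
  unfold Wb
  field_simp
  ring

/-- `g'' ≤ 0` -/
theorem deriv2_nonpos {u : ℝ} (hu : 0 < u) : deriv (deriv g) u ≤ 0 := by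
  rw [(hasDerivAt_deriv hg hu).deriv]
  have h1 := g_pos hg hu
  have hq := q_pos hg hu
  have hW := Wb_nonneg hg hu
  have a1 : 0 ≤ g u * deriv g u ^ 2 / (2 * qb g u) := by positivity
  have a2 : 0 ≤ 2 * qb g u * Wb g u / g u ^ 2 := by positivity
  linarith only [a1, a2]

/-- `|g''| ≤ C T (1 - T²)` -/
theorem deriv2_le : ∃ C, 0 ≤ C ∧ ∀ u > 0,
    |deriv (deriv g) u| ≤ C * tanh u * (1 - tanh u ^ 2) := by
  obtain ⟨C, hC0, hC⟩ := Wb_cubic hg
  have hk := kap_pos
  refine ⟨kap ^ 3 / 76 + 20 * C, by positivity, fun u hu => ?_⟩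
  rw [(hasDerivAt_deriv hg hu).deriv]
  have hT := tanh_pos' hu
  have hT1 := ba_tanh_lt_one u
  have hgp := g_pos hg hu
  have hq := q_pos hg hu
  have hq1 := q_lt hg hu
  have hW := Wb_nonneg hg hu
  have hs := one_sub_tanh_sq_pos u
  have hs1 : 1 - tanh u ^ 2 ≤ 1 := by nlinarith only [sq_nonneg (tanh u)]
  have hd := hg.deriv_pos u hu
  have a1 : 0 ≤ g u * deriv g u ^ 2 / (2 * qb g u) := by positivity
  have a2 : 0 ≤ 2 * qb g u * Wb g u / g u ^ 2 := by positivity
  have b1 : g u * deriv g u ^ 2 / (2 * qb g u) ≤ kap ^ 3 / 76 * tanh u * (1 - tanh u ^ 2) := by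
    rw [div_le_iff₀ (by linarith only [hT, hT1, hq])]
    have c1 : deriv g u ^ 2 ≤ (kap * (1 - tanh u ^ 2)) ^ 2 :=
      pow_le_pow_left₀ hd.le (deriv_le hg hu) 2
    have c2 : g u * deriv g u ^ 2 ≤ kap * tanh u * (kap * (1 - tanh u ^ 2)) ^ 2 :=
      mul_le_mul (hg.upper u hu).le c1 (sq_nonneg _) (by positivity)
    have c3 : kap * tanh u * (kap * (1 - tanh u ^ 2)) ^ 2 ≤
        kap ^ 3 * tanh u * (1 - tanh u ^ 2) := by
      have : kap * tanh u * (kap * (1 - tanh u ^ 2)) ^ 2 =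
          kap ^ 3 * tanh u * (1 - tanh u ^ 2) * (1 - tanh u ^ 2) := by ring
      rw [this]
      exact mul_le_of_le_one_right (by positivity) hs1
    have c4 : kap ^ 3 * tanh u * (1 - tanh u ^ 2) ≤
        kap ^ 3 / 76 * tanh u * (1 - tanh u ^ 2) * (2 * qb g u) := by
      have : 0 ≤ kap ^ 3 * tanh u * (1 - tanh u ^ 2) := by positivity
      nlinarith only [hT, hT1, hq, this]
    linarith only [c2, c3, c4]
  have b2 : 2 * qb g u * Wb g u / g u ^ 2 ≤ 20 * C * tanh u * (1 - tanh u ^ 2) := by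
    have c2 : (2 * tanh u) ^ 2 ≤ g u ^ 2 := pow_le_pow_left₀ (by positivity) (hg.lower u hu).le 2
    rw [div_le_iff₀ (by positivity)]
    calc 2 * qb g u * Wb g u ≤ 80 * (C * tanh u ^ 3 * (1 - tanh u ^ 2)) := by
          refine mul_le_mul (by linarith only [hT, hT1, hq1]) (hC u hu) hW (by norm_num)
      _ = 20 * C * tanh u * (1 - tanh u ^ 2) * (2 * tanh u) ^ 2 := by ring
      _ ≤ 20 * C * tanh u * (1 - tanh u ^ 2) * g u ^ 2 :=
        mul_le_mul_of_nonneg_left c2 (by positivity)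
  have h5 : (kap ^ 3 / 76 + 20 * C) * tanh u * (1 - tanh u ^ 2) =
      kap ^ 3 / 76 * tanh u * (1 - tanh u ^ 2) + 20 * C * tanh u * (1 - tanh u ^ 2) := by ring
  rw [h5, abs_le]
  constructor <;> linarith only [b1, b2, a1, a2]

/-- `0 ≤ κ - g' ≤ C T²` -/
theorem kap_sub_deriv : ∃ C, 0 ≤ C ∧ ∀ u > 0,
    0 ≤ kap - deriv g u ∧ kap - deriv g u ≤ C * tanh u ^ 2 := by
  obtain ⟨C, hC⟩ := hg.at_zero
  have hk := kap_pos
  refine ⟨78 * |C| + kap ^ 2, by positivity, fun u hu => ?_⟩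
  have hT := tanh_pos' hu
  have hgp := g_pos hg hu
  have h1 := hC u hu
  have h2 := hg.lower u hu
  have h3 := hg.upper u hu
  have e : kap - deriv g u = 78 * (kap * tanh u - g u) / (kap * g u) +
      g u * (g u - 2 * tanh u) / 4 := by
    rw [deriv_eq hg hu]
    unfold qb
    field_simp
    linear_combination (4 * g u) * kap_eq
  rw [e]
  constructor
  · have a1 : 0 ≤ kap * tanh u - g u := by linarith only [h3]
    have a2 : 0 ≤ g u - 2 * tanh u := by linarith only [h2]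
    positivity
  · have a1 : 78 * (kap * tanh u - g u) / (kap * g u) ≤ 78 * |C| * tanh u ^ 2 := by
      rw [div_le_iff₀ (by positivity)]
      have b1 : kap * tanh u - g u ≤ |C| * tanh u ^ 3 :=
        h1.trans (mul_le_mul_of_nonneg_right (le_abs_self C) (by positivity))
      have b2 : tanh u ≤ kap * g u := by nlinarith only [hk, hgp, h2, h3, kap_gt]
      calc 78 * (kap * tanh u - g u) ≤ 78 * (|C| * tanh u ^ 3) := by linarith only [b1]
        _ = 78 * |C| * tanh u ^ 2 * tanh u := by ring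
        _ ≤ 78 * |C| * tanh u ^ 2 * (kap * g u) :=
          mul_le_mul_of_nonneg_left b2 (by positivity)
    have a2 : g u * (g u - 2 * tanh u) / 4 ≤ kap ^ 2 * tanh u ^ 2 := by
      have b1 : g u * (g u - 2 * tanh u) ≤ (kap * tanh u) * (kap * tanh u) :=
        mul_le_mul h3.le (by linarith only [hT, h3]) (by linarith only [h2]) (by positivity)
      nlinarith only [b1, sq_nonneg (kap * tanh u)]
    have : (78 * |C| + kap ^ 2) * tanh u ^ 2 =
      78 * |C| * tanh u ^ 2 + kap ^ 2 * tanh u ^ 2 := by ring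
    linarith only [a1, a2]

/-- `0 < κ u - g ≤ C u³` -/
theorem kap_mul_sub_g : ∃ C, 0 ≤ C ∧ ∀ u > 0, 0 < kap * u - g u ∧ kap * u - g u ≤ C * u ^ 3 := by
  obtain ⟨C, hC⟩ := hg.at_zero
  have hk := kap_pos
  refine ⟨|C| + kap / 3, by positivity, fun u hu => ⟨by linarith only [hg, hu, g_lt_kap_mul hg hu], ?_⟩⟩
  have hT := tanh_pos' hu
  have h2 := hC u hu
  have h3 : C * tanh u ^ 3 ≤ |C| * u ^ 3 := by
    have h4 : tanh u ^ 3 ≤ u ^ 3 := pow_le_pow_left₀ hT.le (ba_tanh_le hu.le) 3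
    calc C * tanh u ^ 3 ≤ |C| * tanh u ^ 3 :=
          mul_le_mul_of_nonneg_right (le_abs_self C) (by positivity)
      _ ≤ |C| * u ^ 3 := mul_le_mul_of_nonneg_left h4 (abs_nonneg _)
  have h5 := mul_le_mul_of_nonneg_left (ba_tanh_ge hu.le) hk.le
  nlinarith only [h2, h3, h5]

end

end Vale.Agent.P244.ST.BDer
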