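import Vale.Agent.P244.ST.Frame

/-!
# P244-ST : the bubble part of the frame identities: (TH), (E4), (ET), (FF)

Everything is written with `h = g/2`: `g = 2 h`, `q = 39 - g²/4 = 39 - h²`, `Zs = 39 cosh u / q`,
`g g' = q (g - 2 tanh u)` becomes `2 h h₁ cosh u = q (h cosh u - sinh u)`.
`e = 1 - G/g`, i.e. `G = 2 h (1 - e)`, `f = e/r²`, `th = Z/Zs - 1`, `η = Tr u / g`.
-/

namespace Vale.Agent.P244.ST

noncomputable section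

/-- bubble elements over a frame with gauge `κ = 1/ρ_s` -/
structure Bub {R : Type*} [CommRing R] [Algebra ℝ R] (A : Frame R) (κ : R) where
  /-- `g/2` -/
  h : R
  /-- `g'/2` -/
  h1 : R
  /-- `1/h = 2/g` -/
  ih : R
  /-- `1/q` -/
  iq : R
  /-- `1/cosh u` -/
  ich : R
  /-- `e = 1 - G/g` -/
  e : R
  hk : κ * A.ρs = 1
  h_ih : h * ih = 1
  q_iq : (39 - h ^ 2) * iq = 1
  ch_ich : A.ch * ich = 1
  Ds_h : A.Ds h = h1 * A.P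
  Dt_h : A.Dt h = h1 * A.V
  ode : 2 * h * h1 * A.ch = (39 - h ^ 2) * (h * A.ch - A.sh)
  G_eq : A.G κ = 2 * h * (1 - e)

namespace Bub

variable {R : Type*} [CommRing R] [Algebra ℝ R] {A : Frame R} {κ : R} (b : Bub A κ)

/-- `q = 39 - g²/4` -/
def q : R := 39 - b.h ^ 2

/-- `Zs = 39 cosh u / q` -/
def Zs : R := 39 * A.ch * b.iq

/-- `1/Zs = q / (39 cosh u)` -/
def iZs : R := algebraMap ℝ R (1 / 39) * b.q * b.ich

/-- `c₀ = cosh u - 2 sinh u / g` -/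
def c0 : R := A.ch - A.sh * b.ih

/-- `A = 39 cosh u - 2 Z g'` -/
def AA : R := 39 * A.ch - 4 * A.Z * b.h1

/-- `f = e/r²` -/
def f : R := b.e * A.ir

/-- `th = Z/Zs - 1` -/
def th : R := A.Z * b.iZs - 1

/-- `η = Tr u / g` -/
def eta : R := algebraMap ℝ R (1 / 2) * A.Tr κ A.u * b.ih

lemma c39 : algebraMap ℝ R (1 / 39) * 39 = 1 := by
  have : (39 : R) = algebraMap ℝ R 39 := (map_ofNat _ 39).symm
  rw [this, ← map_mul]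
  norm_num

lemma c2 : algebraMap ℝ R (1 / 2) * 2 = 1 := by
  have : (2 : R) = algebraMap ℝ R 2 := (map_ofNat _ 2).symm
  rw [this, ← map_mul]
  norm_num

lemma Zs_iZs : b.Zs * b.iZs = 1 := by
  have h1 := b.q_iq
  have h2 := b.ch_ich
  have h3 := c39 (R := R)
  rw [Zs, iZs, q]
  linear_combination (algebraMap ℝ R (1 / 39) * 39 * A.ch * b.ich) * h1 + (A.ch * b.ich) * h3 + h2

lemma Zs_q : b.Zs * b.q = 39 * A.ch := by
  rw [Zs, q]; linear_combination (39 * A.ch) * b.q_iq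

lemma iZs_ch : 39 * A.ch * b.iZs = b.q := by
  have h1 := b.Zs_iZs
  have h2 := b.Zs_q
  linear_combination b.q * h1 - b.iZs * h2

lemma Z_eq : A.Z = b.Zs * (1 + b.th) := by
  have h1 := b.Zs_iZs
  rw [th]; linear_combination -A.Z * h1

/-- `2 h₁ Zs = 39 c₀` -/
lemma h1_Zs : 2 * b.h1 * b.Zs = 39 * b.c0 := by
  have h1 := b.q_iq
  have h2 := b.ode
  have h3 := b.h_ih
  rw [Zs, c0]
  linear_combination (39 * b.ih * b.iq) * h2 + (39 * A.ch * b.h * b.ih - 39 * b.ih * A.sh) * h1 +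
    (39 * A.ch - 78 * b.h1 * A.ch * b.iq) * h3

/-! ### `Dr` and `Tr` of the elements -/

lemma kP : κ * A.P = -A.G κ := by rw [Frame.G]; ring

lemma Dr_ch : A.Dr κ A.ch = -A.sh * A.G κ := by
  have h1 : A.Ds A.ch = A.sh * A.P := A.Ds_ch
  rw [Frame.Dr, h1, Frame.G]; ring

lemma Dr_sh : A.Dr κ A.sh = -A.ch * A.G κ := by
  have h1 : A.Ds A.sh = A.ch * A.P := A.Ds_sh
  rw [Frame.Dr, h1, Frame.G]; ring

lemma Tr_ch : A.Tr κ A.ch = A.sh * A.Tr κ A.u := by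
  have h1 : A.Ds A.ch = A.sh * A.P := A.Ds_ch
  have h2 : A.Dt A.ch = A.sh * A.V := A.Dt_ch
  have h3 : A.Tr κ A.u = A.V - A.yt * (κ * A.P) := rfl
  rw [h3, Frame.Tr, h1, h2]; ring

lemma Tr_sh : A.Tr κ A.sh = A.ch * A.Tr κ A.u := by
  have h1 : A.Ds A.sh = A.ch * A.P := A.Ds_sh
  have h2 : A.Dt A.sh = A.ch * A.V := A.Dt_sh
  have h3 : A.Tr κ A.u = A.V - A.yt * (κ * A.P) := rfl
  rw [h3, Frame.Tr, h1, h2]; ring

/-- functions of `u` in the `r`-gauge -/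
lemma Dr_of_u {k k1 : R} (hs : A.Ds k = k1 * A.P) : A.Dr κ k = -k1 * A.G κ := by
  rw [Frame.Dr, hs, Frame.G]; ring

lemma Tr_of_u {k k1 : R} (hs : A.Ds k = k1 * A.P) (ht : A.Dt k = k1 * A.V) :
    A.Tr κ k = k1 * A.Tr κ A.u := by
  have h3 : A.Tr κ A.u = A.V - A.yt * (κ * A.P) := rfl
  rw [h3, Frame.Tr, hs, ht]; ring

lemma Dr_h : A.Dr κ b.h = -b.h1 * A.G κ := Dr_of_u b.Ds_h

lemma Tr_h : A.Tr κ b.h = b.h1 * A.Tr κ A.u := Tr_of_u b.Ds_h b.Dt_h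

/-- derivative of an inverse -/
lemma inv_Ds {x y dx : R} (h : x * y = 1) (hx : A.Ds x = dx) : A.Ds y = -y ^ 2 * dx := by
  have h1 := congrArg A.Ds h
  rw [Frame.Ds_mul, Frame.Ds_one, hx] at h1
  linear_combination y * h1 - A.Ds y * h

lemma inv_Dt {x y dx : R} (h : x * y = 1) (hx : A.Dt x = dx) : A.Dt y = -y ^ 2 * dx := by
  have h1 := congrArg A.Dt h
  rw [Frame.Dt_mul, Frame.Dt_one, hx] at h1
  linear_combination y * h1 - A.Dt y * h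

lemma Ds_ih : A.Ds b.ih = (-b.ih ^ 2 * b.h1) * A.P := by
  rw [inv_Ds b.h_ih b.Ds_h]; ring

lemma Dt_ih : A.Dt b.ih = (-b.ih ^ 2 * b.h1) * A.V := by
  rw [inv_Dt b.h_ih b.Dt_h]; ring

lemma Ds_q : A.Ds (39 - b.h ^ 2) = (-2 * b.h * b.h1) * A.P := by
  rw [map_sub, Frame.Ds_sq, Frame.Ds_ofNat, b.Ds_h]; ring

lemma Dt_q : A.Dt (39 - b.h ^ 2) = (-2 * b.h * b.h1) * A.V := by
  rw [map_sub, Frame.Dt_sq, Frame.Dt_ofNat, b.Dt_h]; ring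

lemma Ds_iq : A.Ds b.iq = (2 * b.iq ^ 2 * b.h * b.h1) * A.P := by
  rw [inv_Ds b.q_iq b.Ds_q]; ring

lemma Dt_iq : A.Dt b.iq = (2 * b.iq ^ 2 * b.h * b.h1) * A.V := by
  rw [inv_Dt b.q_iq b.Dt_q]; ring

/-- `Zs' = g Zs / 2` -/
lemma Ds_Zs : A.Ds b.Zs = (b.h * b.Zs) * A.P := by
  have h1 : A.Ds A.ch = A.sh * A.P := A.Ds_ch
  rw [Zs]
  simp only [Frame.Ds_mul, Frame.Ds_ofNat, h1, b.Ds_iq]
  have h2 := b.ode
  have h3 := b.q_iq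
  linear_combination (39 * b.iq ^ 2 * A.P) * h2 + (39 * b.iq * A.P * (b.h * A.ch - A.sh)) * h3

lemma Dt_Zs : A.Dt b.Zs = (b.h * b.Zs) * A.V := by
  have h1 : A.Dt A.ch = A.sh * A.V := A.Dt_ch
  rw [Zs]
  simp only [Frame.Dt_mul, Frame.Dt_ofNat, h1, b.Dt_iq]
  have h2 := b.ode
  have h3 := b.q_iq
  linear_combination (39 * b.iq ^ 2 * A.V) * h2 + (39 * b.iq * A.V * (b.h * A.ch - A.sh)) * h3

lemma Ds_iZs : A.Ds b.iZs = (-b.h * b.iZs) * A.P := by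
  rw [inv_Ds b.Zs_iZs b.Ds_Zs]
  linear_combination (-b.iZs * b.h * A.P) * b.Zs_iZs

lemma Dt_iZs : A.Dt b.iZs = (-b.h * b.iZs) * A.V := by
  rw [inv_Dt b.Zs_iZs b.Dt_Zs]
  linear_combination (-b.iZs * b.h * A.V) * b.Zs_iZs

lemma Dr_Zs : A.Dr κ b.Zs = -(b.h * b.Zs) * A.G κ := Dr_of_u b.Ds_Zs

lemma Dr_iZs : A.Dr κ b.iZs = (b.h * b.iZs) * A.G κ := by
  rw [Dr_of_u b.Ds_iZs]; ring

lemma Ds_c0 : A.Ds b.c0 = (A.sh - A.ch * b.ih + A.sh * b.ih ^ 2 * b.h1) * A.P := by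
  have h1 : A.Ds A.ch = A.sh * A.P := A.Ds_ch
  have h2 : A.Ds A.sh = A.ch * A.P := A.Ds_sh
  rw [c0, map_sub, Frame.Ds_mul, h1, h2, b.Ds_ih]; ring

lemma Dr_c0 : A.Dr κ b.c0 = -(A.sh - A.ch * b.ih + A.sh * b.ih ^ 2 * b.h1) * A.G κ :=
  Dr_of_u b.Ds_c0

/-- `Dr² u` -/
lemma Dr_G : A.Dr κ (A.G κ) = -4 * b.h * b.h1 * (1 - b.e) ^ 2 - 2 * b.h * A.Dr κ b.e := by
  have h1 : A.Dr κ (A.G κ) = A.Dr κ (2 * b.h * (1 - b.e)) := by rw [← b.G_eq]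
  have h2 := b.Dr_h
  have h3 : A.Dr κ (1 : R) = 0 := by rw [Frame.Dr, Frame.Ds_one, mul_zero]
  rw [h1, Frame.Dr_mul, Frame.Dr_mul, Frame.Dr_sub, Frame.Dr_ofNat, h2, h3, b.G_eq]
  ring

/-! ### (TH) and (E4) -/

include b in
/-- `Dr Z` -/
lemma Dr_Z' : 40 * A.Dr κ A.Z = 1560 * (A.ch - A.Z) - 10 * A.Z * A.G κ ^ 2 - A.r2 * A.Rs := by
  have h := A.E3 b.hk
  linear_combination h

/-- **(TH)**, multiplied by `40`:
`Dr th = - th [39 - g²/4 + δ²/4] - δ²/4 - r² R/(40 Zs)`, `δ = -g e` -/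
theorem TH : 40 * A.Dr κ b.th =
    -(40 * b.th * (39 - b.h ^ 2 + b.h ^ 2 * b.e ^ 2)) - 40 * b.h ^ 2 * b.e ^ 2 -
      A.r2 * A.Rs * b.iZs := by
  have h1 := b.Dr_Z'
  have h3 : A.Dr κ (1 : R) = 0 := by rw [Frame.Dr, Frame.Ds_one, mul_zero]
  have h4 : A.Dr κ b.th = A.Z * A.Dr κ b.iZs + b.iZs * A.Dr κ A.Z := by
    rw [th, Frame.Dr_sub, Frame.Dr_mul, h3, sub_zero]
  rw [h4, b.Dr_iZs]
  have h5 := b.iZs_ch
  rw [q] at h5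
  have h6 := b.G_eq
  have h7 : b.th = A.Z * b.iZs - 1 := rfl
  rw [h6] at h1 ⊢
  rw [h7]
  linear_combination b.iZs * h1 + 40 * h5

/-- **(E4)**: `(2 E0 - R) r² = Zs { th [1560 - 10 G²] - 10 (G² - g²) }` -/
theorem E4 : A.r2 * (2 * A.E0 - A.Rs) =
    b.Zs * (b.th * (1560 - 10 * A.G κ ^ 2) - 10 * (A.G κ ^ 2 - 4 * b.h ^ 2)) := by
  have h1 := A.E3' b.hk
  have h2 := b.Z_eq
  have h3 := b.Zs_q
  rw [q] at h3
  rw [h1, h2]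
  linear_combination 40 * h3

/-! ### (ET) and (FF) -/

/-- `g η = Tr u` -/
lemma g_eta : 2 * b.h * b.eta = A.Tr κ A.u := by
  have h1 := b.h_ih
  have h2 := c2 (R := R)
  rw [eta]
  linear_combination (algebraMap ℝ R (1 / 2) * 2 * A.Tr κ A.u) * h1 + A.Tr κ A.u * h2

/-- **(ET)**: `r² η = Z Dr e + A e + Z g' e² + 39 th c₀` -/
theorem ET : A.r2 * b.eta =
    A.Z * A.Dr κ b.e + b.AA * b.e + 2 * A.Z * b.h1 * b.e ^ 2 + 39 * b.th * b.c0 := by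
  have h1 := A.E1 b.hk
  have h2 : A.Dr κ A.u = -A.G κ := A.Dr_u κ
  rw [h2, Frame.Dr_neg, b.Dr_G, b.G_eq, ← b.g_eta] at h1
  -- divide by `2 h`
  have h3 := b.h_ih
  have h4 : A.r2 * b.eta = A.Z * (2 * b.h1 * (1 - b.e) ^ 2 + A.Dr κ b.e) -
      39 * A.ch * (1 - b.e) + 39 * A.sh * b.ih := by
    refine two_cancel ?_
    linear_combination b.ih * h1 - (2 * A.r2 * b.eta - 4 * A.Z * b.h1 * (1 - b.e) ^ 2 -
      2 * A.Z * A.Dr κ b.e + 78 * A.ch * (1 - b.e)) * h3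
  have h5 := b.h1_Zs
  have h6 := b.Z_eq
  rw [h4, AA]
  have h7 : 39 * b.c0 = 39 * A.ch - 39 * A.sh * b.ih := by rw [c0]; ring
  linear_combination (2 * b.h1) * h6 + (1 + b.th) * h5 + h7

/-- **(ET)**, second part: `Tr e = Dr η` -/
theorem Tr_e : A.Tr κ b.e = A.Dr κ b.eta := by
  have h1 := A.Tr_Dr b.hk A.u
  have h2 : A.Dr κ A.u = -A.G κ := A.Dr_u κ
  have h4 : A.Tr κ (-A.G κ) = A.Tr κ (2 * b.h * (b.e - 1)) := by
    congr 1; rw [b.G_eq]; ring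
  have h5 : A.Tr κ (1 : R) = 0 := by
    rw [Frame.Tr, Frame.Dt_one, Frame.Ds_one]; ring
  have h6 : A.Tr κ (2 : R) = 0 := by
    rw [Frame.Tr, Frame.Dt_ofNat, Frame.Ds_ofNat]; ring
  rw [h2, h4, ← b.g_eta] at h1
  simp only [Frame.Tr_mul, Frame.Tr_sub, Frame.Dr_mul, Frame.Dr_ofNat, h5, h6, b.Tr_h, b.Dr_h,
    b.G_eq] at h1
  rw [← b.g_eta] at h1
  have h3 := b.h_ih
  refine two_cancel ?_
  linear_combination b.ih * h1 - (2 * A.Tr κ b.e - 2 * A.Dr κ b.eta) * h3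

/-- `Tr e = r² Tr f` -/
lemma r2_Tr_f : A.r2 * A.Tr κ b.f = A.Tr κ b.e := by
  rw [f, Frame.Tr_mul, A.Tr_ir b.hk]
  linear_combination A.Tr κ b.e * A.r2_ir

/-- `Dr e = r² (Dr f + 2 f)` -/
lemma Dr_e : A.Dr κ b.e = A.r2 * (A.Dr κ b.f + 2 * b.f) := by
  rw [f, Frame.Dr_mul, A.Dr_ir b.hk]
  linear_combination -A.Dr κ b.e * A.r2_ir

lemma e_eq : b.e = A.r2 * b.f := by
  rw [f]; linear_combination -b.e * A.r2_ir

/-- the flux -/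
def Fl : R := A.Z * A.Dr κ b.f + (2 * A.Z + b.AA) * b.f + 2 * A.Z * b.h1 * A.r2 * b.f ^ 2 +
  39 * b.th * b.c0 * A.ir

lemma eta_eq : b.eta = b.Fl := by
  have h1 := b.ET
  have h2 := b.Dr_e
  have h3 := b.e_eq
  have h4 := A.r2_ir
  have h5 : b.eta = A.ir * (A.r2 * b.eta) := by linear_combination -b.eta * h4
  rw [h5, h1, h2, Fl]
  have h6 : b.AA * b.e = b.AA * (A.r2 * b.f) := by rw [← h3]
  have h7 : b.e ^ 2 = (A.r2 * b.f) ^ 2 := by rw [← h3]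
  rw [h6, h7]
  linear_combination (A.Z * (A.Dr κ b.f + 2 * b.f) + b.AA * b.f +
    2 * A.Z * b.h1 * A.r2 * b.f ^ 2) * h4

/-- **(FF)**: `r² Tr f = Dr { Z Dr f + (2 Z + A) f + Z g' r² f² + 39 th c₀ / r² }` -/
theorem FF : A.r2 * A.Tr κ b.f = A.Dr κ b.Fl := by
  rw [b.r2_Tr_f, b.Tr_e, b.eta_eq]

end Bub

end

end Vale.Agent.P244.ST
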