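import Vale.Agent.P244.ST.OAlg
import Vale.Agent.P244.ST.FrameBub

/-!
# P244-ST : the bubble elements over the algebra of smooth functions (Geo.lean functions)

`IsGeo A w f` : the frame `A` on `sO Ω` consists of the functions of Geo.lean.
`bub` : the instance of `Bub`; dictionary between elements and the functions of Geo.lean.
-/

open Set Filter TopologicalSpace
open scoped ContDiff Topology

namespace Vale.Agent.P244.ST

noncomputable section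

variable {Ω : Opens (ℝ × ℝ)} {w f : Fn} {g : ℝ → ℝ}

/-! ### locality and chain rules -/

lemma Ds_congr (Ω : Opens (ℝ × ℝ)) {H K : Fn} (he : ∀ z ∈ Ω, H z.1 z.2 = K z.1 z.2)
    {t x : ℝ} (hz : (t, x) ∈ Ω) : Ds w H t x = Ds w K t x := by
  rw [Ds, Ds, Dx_congr Ω.isOpen he hz]

lemma DT_congr (Ω : Opens (ℝ × ℝ)) {H K : Fn} (he : ∀ z ∈ Ω, H z.1 z.2 = K z.1 z.2)
    {t x : ℝ} (hz : (t, x) ∈ Ω) : DT w f H t x = DT w f K t x := by
  rw [DT, DT, Dx_congr Ω.isOpen he hz, Dt_congr Ω.isOpen he hz]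

lemma Dr_congr (Ω : Opens (ℝ × ℝ)) {H K : Fn} (he : ∀ z ∈ Ω, H z.1 z.2 = K z.1 z.2)
    {t x : ℝ} (hz : (t, x) ∈ Ω) : Dr w f H t x = Dr w f K t x := by
  rw [Dr, Dr, Ds_congr Ω he hz]

lemma Tr_congr (Ω : Opens (ℝ × ℝ)) {H K : Fn} (he : ∀ z ∈ Ω, H z.1 z.2 = K z.1 z.2)
    {t x : ℝ} (hz : (t, x) ∈ Ω) : Tr w f H t x = Tr w f K t x := by
  rw [Tr, Tr, DT_congr Ω he hz, Dr_congr Ω he hz]

lemma Dx_comp {U : Fn} (hU : Sm (Ω : Set (ℝ × ℝ)) U) {k : ℝ → ℝ} {k' t x : ℝ}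
    (hz : (t, x) ∈ Ω) (hk : HasDerivAt k k' (U t x)) :
    Dx (fun t x => k (U t x)) t x = k' * Dx U t x :=
  (HasDerivAt.comp x hk (hU.hasDeriv_x Ω.isOpen hz)).deriv

lemma Dt_comp {U : Fn} (hU : Sm (Ω : Set (ℝ × ℝ)) U) {k : ℝ → ℝ} {k' t x : ℝ}
    (hz : (t, x) ∈ Ω) (hk : HasDerivAt k k' (U t x)) :
    Dt (fun t x => k (U t x)) t x = k' * Dt U t x :=
  (HasDerivAt.comp t (h := fun s => U s x) hk (hU.hasDeriv_t Ω.isOpen hz)).deriv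

lemma Ds_comp {U : Fn} (hU : Sm (Ω : Set (ℝ × ℝ)) U) {k : ℝ → ℝ} {k' t x : ℝ}
    (hz : (t, x) ∈ Ω) (hk : HasDerivAt k k' (U t x)) :
    Ds w (fun t x => k (U t x)) t x = k' * Ds w U t x := by
  rw [Ds, Ds, Dx_comp hU hz hk]; ring

lemma DT_comp {U : Fn} (hU : Sm (Ω : Set (ℝ × ℝ)) U) {k : ℝ → ℝ} {k' t x : ℝ}
    (hz : (t, x) ∈ Ω) (hk : HasDerivAt k k' (U t x)) :
    DT w f (fun t x => k (U t x)) t x = k' * DT w f U t x := by
  rw [DT, DT, Dx_comp hU hz hk, Dt_comp hU hz hk]; ring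

/-! ### frames made of the functions of Geo.lean -/

/-- The frame consists of the functions of Geo.lean. -/
structure IsGeo (A : Frame (sO Ω)) (w f : Fn) : Prop where
  intro ::
  u_sm : Sm (Ω : Set (ℝ × ℝ)) (uu w f)
  rho_sm : Sm (Ω : Set (ℝ × ℝ)) (rho w f)
  u_eq : ∀ {t x : ℝ}, (t, x) ∈ Ω → toFn A.u t x = uu w f t x
  rho_eq : ∀ {t x : ℝ}, (t, x) ∈ Ω → toFn A.ρ t x = rho w f t x
  sh_eq : ∀ {t x : ℝ}, (t, x) ∈ Ω → toFn A.sh t x = Real.sinh (uu w f t x)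
  ch_eq : ∀ {t x : ℝ}, (t, x) ∈ Ω → toFn A.ch t x = Real.cosh (uu w f t x)
  r2_eq : ∀ {t x : ℝ}, (t, x) ∈ Ω → toFn A.r2 t x = (rr w f t x) ^ 2
  Ds_eq : ∀ (h : sO Ω) {t x : ℝ}, (t, x) ∈ Ω → toFn (A.Ds h) t x = Ds w (toFn h) t x
  Dt_eq : ∀ (h : sO Ω) {t x : ℝ}, (t, x) ∈ Ω → toFn (A.Dt h) t x = DT w f (toFn h) t x

namespace IsGeo

variable {A : Frame (sO Ω)} (hA : IsGeo A w f)

include hA

lemma P_eq {t x : ℝ} (hz : (t, x) ∈ Ω) : toFn A.P t x = PP w f t x := by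
  rw [Frame.P, hA.Ds_eq _ hz]
  exact Ds_congr Ω (fun z hz' => hA.u_eq (t := z.1) (x := z.2) hz') hz

lemma rs_eq {t x : ℝ} (hz : (t, x) ∈ Ω) : toFn A.ρs t x = rs w f t x := by
  rw [Frame.ρs, hA.Ds_eq _ hz]
  exact Ds_congr Ω (fun z hz' => hA.rho_eq (t := z.1) (x := z.2) hz') hz

lemma P_sm : Sm (Ω : Set (ℝ × ℝ)) (PP w f) :=
  (toFn_sm A.P).congr fun z hz => (hA.P_eq (t := z.1) (x := z.2) hz).symm

lemma rs_sm : Sm (Ω : Set (ℝ × ℝ)) (rs w f) :=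
  (toFn_sm A.ρs).congr fun z hz => (hA.rs_eq (t := z.1) (x := z.2) hz).symm

lemma ir_eq {t x : ℝ} (hz : (t, x) ∈ Ω) : toFn A.ir t x = 1 / (rr w f t x) ^ 2 := by
  have h1 := congrArg (fun h => toFn h t x) A.r2_ir
  simp only [toFn_mul, hA.r2_eq hz, toFn_one hz] at h1
  have h2 : 0 < rr w f t x := Real.exp_pos _
  field_simp
  linarith only [h1]

/-- elements which are functions of `U` -/
lemma Ds_mk {U : Fn} (hU : Sm (Ω : Set (ℝ × ℝ)) U) {k k1 : ℝ → ℝ}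
    (hk : Sm (Ω : Set (ℝ × ℝ)) (fun t x => k (U t x)))
    (hk1 : Sm (Ω : Set (ℝ × ℝ)) (fun t x => k1 (U t x)))
    (hd : ∀ t x, (t, x) ∈ Ω → HasDerivAt k (k1 (U t x)) (U t x)) :
    A.Ds (mk _ hk) = mk _ hk1 * A.Ds (mk U hU) := by
  refine sO_ext fun t x hz => ?_
  rw [toFn_mul, toFn_mk _ hz, hA.Ds_eq _ hz, hA.Ds_eq _ hz,
    Ds_congr Ω (K := fun t x => k (U t x)) (fun z hz' => toFn_mk hk (t := z.1) (x := z.2) hz') hz,
    Ds_congr Ω (fun z hz' => toFn_mk hU (t := z.1) (x := z.2) hz') hz]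
  exact Ds_comp hU hz (hd t x hz)

lemma Dt_mk {U : Fn} (hU : Sm (Ω : Set (ℝ × ℝ)) U) {k k1 : ℝ → ℝ}
    (hk : Sm (Ω : Set (ℝ × ℝ)) (fun t x => k (U t x)))
    (hk1 : Sm (Ω : Set (ℝ × ℝ)) (fun t x => k1 (U t x)))
    (hd : ∀ t x, (t, x) ∈ Ω → HasDerivAt k (k1 (U t x)) (U t x)) :
    A.Dt (mk _ hk) = mk _ hk1 * A.Dt (mk U hU) := by
  refine sO_ext fun t x hz => ?_
  rw [toFn_mul, toFn_mk _ hz, hA.Dt_eq _ hz, hA.Dt_eq _ hz,
    DT_congr Ω (K := fun t x => k (U t x)) (fun z hz' => toFn_mk hk (t := z.1) (x := z.2) hz') hz,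
    DT_congr Ω (fun z hz' => toFn_mk hU (t := z.1) (x := z.2) hz') hz]
  exact DT_comp hU hz (hd t x hz)

lemma u_mk : A.u = mk (uu w f) hA.u_sm :=
  sO_ext fun t x hz => by rw [hA.u_eq hz, toFn_mk _ hz]

lemma Ds_u {k k1 : ℝ → ℝ}
    (hk : Sm (Ω : Set (ℝ × ℝ)) (fun t x => k (uu w f t x)))
    (hk1 : Sm (Ω : Set (ℝ × ℝ)) (fun t x => k1 (uu w f t x)))
    (hd : ∀ t x, (t, x) ∈ Ω → HasDerivAt k (k1 (uu w f t x)) (uu w f t x)) :
    A.Ds (mk _ hk) = mk _ hk1 * A.P := by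
  rw [Frame.P, hA.u_mk]
  exact hA.Ds_mk hA.u_sm hk hk1 hd

lemma Dt_u {k k1 : ℝ → ℝ}
    (hk : Sm (Ω : Set (ℝ × ℝ)) (fun t x => k (uu w f t x)))
    (hk1 : Sm (Ω : Set (ℝ × ℝ)) (fun t x => k1 (uu w f t x)))
    (hd : ∀ t x, (t, x) ∈ Ω → HasDerivAt k (k1 (uu w f t x)) (uu w f t x)) :
    A.Dt (mk _ hk) = mk _ hk1 * A.V := by
  rw [Frame.V, hA.u_mk]
  exact hA.Dt_mk hA.u_sm hk hk1 hd

/-! ### dictionary -/

lemma yt_eq {t x : ℝ} (hz : (t, x) ∈ Ω) : toFn A.yt t x = yy w f t x := by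
  have h1 : toFn (A.Ds A.ρs) t x = Ds w (rs w f) t x := by
    rw [hA.Ds_eq _ hz]
    exact Ds_congr Ω (fun z hz' => hA.rs_eq (t := z.1) (x := z.2) hz') hz
  rw [A.yt_eq, toFn_sub _ _ hz, toFn_add, toFn_mul, toFn_mul, toFn_mul, toFn_ofNat _ hz,
    toFn_ofNat _ hz, toFn_pow _ _ hz, h1, hA.rs_eq hz, hA.ch_eq hz, hA.ir_eq hz]
  show _ = Ds w (Ds w (rho w f)) t x + 40 * Ds w (rho w f) t x * Ds w (rho w f) t x -
    39 * Real.cosh (uu w f t x) / (rr w f t x) ^ 2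
  rw [rs]
  ring

lemma V_eq {t x : ℝ} (hz : (t, x) ∈ Ω) : toFn A.V t x = VV w f t x := by
  have h1 : toFn (A.Ds A.P) t x = Ds w (PP w f) t x := by
    rw [hA.Ds_eq _ hz]
    exact Ds_congr Ω (fun z hz' => hA.P_eq (t := z.1) (x := z.2) hz') hz
  rw [A.V_eq, toFn_add, toFn_add, toFn_mul, toFn_mul, toFn_mul, toFn_mul, toFn_ofNat _ hz,
    toFn_ofNat _ hz, h1, hA.rs_eq hz, hA.P_eq hz, hA.sh_eq hz, hA.ir_eq hz]
  show _ = Ds w (Ds w (uu w f)) t x + 40 * Ds w (rho w f) t x * Ds w (uu w f) t x +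
    78 * Real.sinh (uu w f t x) / (rr w f t x) ^ 2
  rw [rs, PP]
  ring

lemma E0_eq {t x : ℝ} (hz : (t, x) ∈ Ω) : toFn A.E0 t x = E0 w f t x := by
  have h1 : toFn (A.Ds A.ρs) t x = Ds w (rs w f) t x := by
    rw [hA.Ds_eq _ hz]
    exact Ds_congr Ω (fun z hz' => hA.rs_eq (t := z.1) (x := z.2) hz') hz
  rw [A.E0_eq, toFn_sub _ _ hz, toFn_sub _ _ hz, toFn_mul, toFn_mul, toFn_mul, toFn_neg _ hz,
    toFn_ofNat _ hz, toFn_ofNat _ hz, toFn_pow _ _ hz, toFn_pow _ _ hz, h1, hA.rs_eq hz,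
    hA.P_eq hz, E0]
  ring

lemma Rs_eq {t x : ℝ} (hz : (t, x) ∈ Ω) : toFn A.Rs t x = RR w f t x := by
  rw [Frame.Rs, toFn_sub _ _ hz, toFn_mul, toFn_ofNat _ hz, hA.E0_eq hz, hA.yt_eq hz, RR]

lemma Lap_eq (h : sO Ω) {t x : ℝ} (hz : (t, x) ∈ Ω) :
    toFn (A.Lap h) t x = Lp w f (toFn h) t x := by
  rw [Frame.Lap, toFn_add, toFn_mul, toFn_mul, toFn_ofNat _ hz, hA.rs_eq hz, hA.Ds_eq _ hz,
    hA.Ds_eq _ hz, Ds_congr Ω (fun z hz' => hA.Ds_eq h (t := z.1) (x := z.2) hz') hz]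
  rfl

lemma Z_eq {t x : ℝ} (hz : (t, x) ∈ Ω) : toFn A.Z t x = ZZ w f t x := by
  rw [Frame.Z, toFn_mul, toFn_pow _ _ hz, hA.r2_eq hz, hA.rs_eq hz, ZZ]

end IsGeo

/-! ### the `r`-gauge -/

section gauge

variable {A : Frame (sO Ω)} (hA : IsGeo A w f) (hrs : ∀ z ∈ Ω, rs w f z.1 z.2 ≠ 0)

/-- `κ = 1/ρ_s` -/
def kapG (hA : IsGeo A w f) (hrs : ∀ z ∈ Ω, rs w f z.1 z.2 ≠ 0) : sO Ω :=
  mk (fun t x => (rs w f t x)⁻¹) (hA.rs_sm.inv hrs)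

lemma kapG_mul : kapG hA hrs * A.ρs = 1 := by
  refine sO_ext fun t x hz => ?_
  rw [toFn_mul, kapG, toFn_mk _ hz, hA.rs_eq hz, toFn_one hz]
  exact inv_mul_cancel₀ (hrs _ hz)

lemma Dr_eq (h : sO Ω) {t x : ℝ} (hz : (t, x) ∈ Ω) :
    toFn (A.Dr (kapG hA hrs) h) t x = Dr w f (toFn h) t x := by
  rw [Frame.Dr, toFn_mul, kapG, toFn_mk _ hz, hA.Ds_eq _ hz, Dr]
  ring

lemma Tr_eq (h : sO Ω) {t x : ℝ} (hz : (t, x) ∈ Ω) :
    toFn (A.Tr (kapG hA hrs) h) t x = Tr w f (toFn h) t x := by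
  rw [Frame.Tr, toFn_sub _ _ hz, toFn_mul, toFn_mul, kapG, toFn_mk _ hz, hA.Ds_eq _ hz,
    hA.Dt_eq _ hz, hA.yt_eq hz, Tr, Dr]
  ring

lemma Dr_eq' {h : sO Ω} {H : Fn} (he : ∀ z ∈ Ω, toFn h z.1 z.2 = H z.1 z.2) {t x : ℝ}
    (hz : (t, x) ∈ Ω) : toFn (A.Dr (kapG hA hrs) h) t x = Dr w f H t x := by
  rw [Dr_eq hA hrs h hz]; exact Dr_congr Ω he hz

lemma DrDr_eq' {h : sO Ω} {H : Fn} (he : ∀ z ∈ Ω, toFn h z.1 z.2 = H z.1 z.2) {t x : ℝ}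
    (hz : (t, x) ∈ Ω) :
    toFn (A.Dr (kapG hA hrs) (A.Dr (kapG hA hrs) h)) t x = Dr w f (Dr w f H) t x :=
  Dr_eq' hA hrs (fun z hz' => Dr_eq' hA hrs he (t := z.1) (x := z.2) hz') hz

lemma Tr_eq' {h : sO Ω} {H : Fn} (he : ∀ z ∈ Ω, toFn h z.1 z.2 = H z.1 z.2) {t x : ℝ}
    (hz : (t, x) ∈ Ω) : toFn (A.Tr (kapG hA hrs) h) t x = Tr w f H t x := by
  rw [Tr_eq hA hrs h hz]; exact Tr_congr Ω he hz

lemma G_eq {t x : ℝ} (hz : (t, x) ∈ Ω) : toFn (A.G (kapG hA hrs)) t x = GG w f t x := by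
  rw [Frame.G, toFn_neg _ hz, toFn_mul, kapG, toFn_mk _ hz, hA.P_eq hz, GG]
  ring

end gauge

/-! ### the bubble elements -/

section bubble

/-- `g' = (39 - g²/4)(g - 2 tanh)/g` -/
def g1f (g : ℝ → ℝ) (u : ℝ) : ℝ := (39 - g u ^ 2 / 4) * (g u - 2 * Real.tanh u) / g u

lemma IsBub.pos (hg : IsBub g) {u : ℝ} (hu : 0 < u) : 0 < g u := by
  have h1 := hg.lower u hu
  have h2 : 0 < Real.tanh u := by
    rw [Real.tanh_eq_sinh_div_cosh]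
    exact div_pos (Real.sinh_pos_iff.2 hu) (Real.cosh_pos u)
  linarith only [h1, h2]

lemma IsBub.q_pos (hg : IsBub g) {u : ℝ} (hu : 0 < u) : 0 < 39 - g u ^ 2 / 4 := by
  have h1 := hg.lt_two u hu
  have h2 := hg.pos hu
  nlinarith only [h1, h2]

lemma IsBub.hasDeriv (hg : IsBub g) {u : ℝ} (hu : 0 < u) : HasDerivAt g (g1f g u) u :=
  hg.ode u hu

lemma IsBub.g1_smooth (hg : IsBub g) : ContDiffOn ℝ ∞ (g1f g) (Ioi 0) := by
  have h1 : ContDiffOn ℝ ∞ (fun u => Real.tanh u) (Ioi 0) := by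
    have : (fun u => Real.tanh u) = fun u => Real.sinh u / Real.cosh u := by
      funext u; exact Real.tanh_eq_sinh_div_cosh u
    rw [this]
    exact (Real.contDiff_sinh.div Real.contDiff_cosh fun u => (Real.cosh_pos u).ne').contDiffOn
  exact ((contDiffOn_const.sub ((hg.smooth.pow 2).div_const 4)).mul
    (hg.smooth.sub (contDiffOn_const.mul h1))).div hg.smooth fun u hu => (hg.pos hu).ne'

variable {A : Frame (sO Ω)} (hA : IsGeo A w f) (hrs : ∀ z ∈ Ω, rs w f z.1 z.2 ≠ 0)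
  (hg : IsBub g) (hu : ∀ z ∈ Ω, 0 < uu w f z.1 z.2)

include hA hg hu

lemma gu_sm : Sm (Ω : Set (ℝ × ℝ)) (fun t x => g (uu w f t x)) :=
  Sm.comp hg.smooth hA.u_sm hu

lemma g1u_sm : Sm (Ω : Set (ℝ × ℝ)) (fun t x => g1f g (uu w f t x)) :=
  Sm.comp hg.g1_smooth hA.u_sm hu

include hrs in
omit hg hu in
lemma G_sm : Sm (Ω : Set (ℝ × ℝ)) (GG w f) :=
  (hA.P_sm.div hA.rs_sm hrs).neg

include hrs in
lemma ee_sm : Sm (Ω : Set (ℝ × ℝ)) (ee g w f) :=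
  (Sm.const 1).sub ((G_sm hA hrs).div (gu_sm hA hg hu) fun z hz => (hg.pos (hu z hz)).ne')

/-- **the bubble elements** -/
def bub : Bub A (kapG hA hrs) where
  h := mk (fun t x => g (uu w f t x) / 2)
    ((gu_sm hA hg hu).div (Sm.const 2) fun _ _ => by norm_num)
  h1 := mk (fun t x => g1f g (uu w f t x) / 2)
    ((g1u_sm hA hg hu).div (Sm.const 2) fun _ _ => by norm_num)
  ih := mk (fun t x => 2 / g (uu w f t x))
    ((Sm.const 2).div (gu_sm hA hg hu) fun z hz => (hg.pos (hu z hz)).ne')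
  iq := mk (fun t x => 1 / (39 - g (uu w f t x) ^ 2 / 4))
    ((Sm.const 1).div ((Sm.const 39).sub (((gu_sm hA hg hu).pow 2).div (Sm.const 4)
      fun _ _ => by norm_num)) fun z hz => (hg.q_pos (hu z hz)).ne')
  ich := mk (fun t x => 1 / Real.cosh (uu w f t x))
    ((Sm.const 1).div hA.u_sm.cosh fun z _ => (Real.cosh_pos _).ne')
  e := mk (ee g w f) (ee_sm hA hrs hg hu)
  hk := kapG_mul hA hrs
  h_ih := by
    refine sO_ext fun t x hz => ?_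
    have := (hg.pos (hu _ hz)).ne'
    rw [toFn_mul, toFn_mk _ hz, toFn_mk _ hz, toFn_one hz]
    field_simp
  q_iq := by
    refine sO_ext fun t x hz => ?_
    have := (hg.q_pos (hu _ hz)).ne'
    rw [toFn_mul, toFn_sub _ _ hz, toFn_pow _ _ hz, toFn_mk _ hz, toFn_mk _ hz, toFn_one hz,
      toFn_ofNat _ hz, show (g (uu w f t x) / 2) ^ 2 = g (uu w f t x) ^ 2 / 4 by ring]
    exact mul_one_div_cancel this
  ch_ich := by
    refine sO_ext fun t x hz => ?_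
    rw [toFn_mul, toFn_mk _ hz, hA.ch_eq hz, toFn_one hz]
    exact mul_one_div_cancel (Real.cosh_pos _).ne'
  Ds_h := hA.Ds_u (k := fun u => g u / 2) (k1 := fun u => g1f g u / 2) _ _
    fun t x hz => (hg.hasDeriv (hu _ hz)).div_const 2
  Dt_h := hA.Dt_u (k := fun u => g u / 2) (k1 := fun u => g1f g u / 2) _ _
    fun t x hz => (hg.hasDeriv (hu _ hz)).div_const 2
  ode := by
    refine sO_ext fun t x hz => ?_
    have h1 := (hg.pos (hu _ hz)).ne'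
    have h2 := (Real.cosh_pos (uu w f t x)).ne'
    simp only [toFn_mul, toFn_sub _ _ hz, toFn_pow _ _ hz, toFn_mk _ hz, toFn_ofNat _ hz,
      hA.ch_eq hz, hA.sh_eq hz, g1f, Real.tanh_eq_sinh_div_cosh]
    simp only at h1
    field_simp
    ring
  G_eq := by
    refine sO_ext fun t x hz => ?_
    have h1 := (hg.pos (hu _ hz)).ne'
    simp only [toFn_mul, toFn_sub _ _ hz, toFn_mk _ hz, toFn_ofNat _ hz, toFn_one hz,
      G_eq hA hrs hz, ee]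
    simp only at h1
    field_simp
    ring

omit hA in
lemma Zs_eq_iZs {t x : ℝ} (hz : (t, x) ∈ Ω) : Zs g (uu w f t x) ≠ 0 := by
  have h1 := (hg.q_pos (hu _ hz)).ne'
  have h2 := (Real.cosh_pos (uu w f t x)).ne'
  simp only at h1
  rw [Zs, qb]
  positivity

/-! ### values of the bubble elements -/

lemma bub_h {t x : ℝ} (hz : (t, x) ∈ Ω) :
    toFn (bub hA hrs hg hu).h t x = g (uu w f t x) / 2 := toFn_mk _ hz

lemma bub_h1 {t x : ℝ} (hz : (t, x) ∈ Ω) :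
    toFn (bub hA hrs hg hu).h1 t x = g1f g (uu w f t x) / 2 := toFn_mk _ hz

lemma bub_e {t x : ℝ} (hz : (t, x) ∈ Ω) :
    toFn (bub hA hrs hg hu).e t x = ee g w f t x := toFn_mk (ee_sm hA hrs hg hu) hz

lemma bub_f {t x : ℝ} (hz : (t, x) ∈ Ω) :
    toFn (bub hA hrs hg hu).f t x = ff g w f t x := by
  rw [Bub.f, toFn_mul, bub_e hA hrs hg hu hz, hA.ir_eq hz, ff]
  ring

lemma bub_Zs {t x : ℝ} (hz : (t, x) ∈ Ω) :
    toFn (bub hA hrs hg hu).Zs t x = Zs g (uu w f t x) := by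
  have h1 : toFn (bub hA hrs hg hu).iq t x = 1 / (39 - g (uu w f t x) ^ 2 / 4) := toFn_mk _ hz
  rw [Bub.Zs, toFn_mul, toFn_mul, toFn_ofNat _ hz, hA.ch_eq hz, h1, Zs, qb]
  ring

lemma bub_iZs {t x : ℝ} (hz : (t, x) ∈ Ω) :
    toFn (bub hA hrs hg hu).iZs t x = 1 / Zs g (uu w f t x) := by
  have h1 := congrArg (fun h => toFn h t x) (bub hA hrs hg hu).Zs_iZs
  simp only [toFn_mul, bub_Zs hA hrs hg hu hz, toFn_one hz] at h1
  have h2 := Zs_eq_iZs hg hu hz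
  field_simp
  linarith only [hA, hrs, hg, hu, h1]

lemma bub_th {t x : ℝ} (hz : (t, x) ∈ Ω) :
    toFn (bub hA hrs hg hu).th t x = th g w f t x := by
  rw [Bub.th, toFn_sub _ _ hz, toFn_mul, toFn_one hz, hA.Z_eq hz, bub_iZs hA hrs hg hu hz, th]
  ring

lemma bub_c0 {t x : ℝ} (hz : (t, x) ∈ Ω) :
    toFn (bub hA hrs hg hu).c0 t x = c0 g (uu w f t x) := by
  have h1 : toFn (bub hA hrs hg hu).ih t x = 2 / g (uu w f t x) := toFn_mk _ hz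
  rw [Bub.c0, toFn_sub _ _ hz, toFn_mul, hA.ch_eq hz, hA.sh_eq hz, h1, c0]
  ring

/-! ### pointwise identities -/

include hrs in
/-- **(TH)** -/
theorem TH_pt {t x : ℝ} (hz : (t, x) ∈ Ω) : 40 * Dr w f (th g w f) t x =
    -(40 * th g w f t x * (39 - g (uu w f t x) ^ 2 / 4 +
      g (uu w f t x) ^ 2 / 4 * ee g w f t x ^ 2)) -
      10 * g (uu w f t x) ^ 2 * ee g w f t x ^ 2 -
      (rr w f t x) ^ 2 * RR w f t x / Zs g (uu w f t x) := by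
  have h1 := congrArg (fun h => toFn h t x) (bub hA hrs hg hu).TH
  simp only [toFn_mul, toFn_sub _ _ hz, toFn_add, toFn_neg _ hz, toFn_pow _ _ hz,
    toFn_ofNat _ hz, bub_th hA hrs hg hu hz, bub_h hA hrs hg hu hz, bub_e hA hrs hg hu hz,
    hA.r2_eq hz, hA.Rs_eq hz, bub_iZs hA hrs hg hu hz,
    Dr_eq' hA hrs (fun z hz' => bub_th hA hrs hg hu (t := z.1) (x := z.2) hz') hz] at h1
  rw [h1]
  ring

include hrs in
/-- **(E4)** -/
theorem E4_pt {t x : ℝ} (hz : (t, x) ∈ Ω) :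
    (rr w f t x) ^ 2 * (2 * E0 w f t x - RR w f t x) =
    Zs g (uu w f t x) * (th g w f t x * (1560 - 10 * GG w f t x ^ 2) -
      10 * (GG w f t x ^ 2 - g (uu w f t x) ^ 2)) := by
  have h1 := congrArg (fun h => toFn h t x) (bub hA hrs hg hu).E4
  simp only [toFn_mul, toFn_sub _ _ hz, toFn_pow _ _ hz,
    toFn_ofNat _ hz, bub_th hA hrs hg hu hz, bub_h hA hrs hg hu hz,
    hA.r2_eq hz, hA.Rs_eq hz, hA.E0_eq hz, bub_Zs hA hrs hg hu hz, G_eq hA hrs hz] at h1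
  rw [h1]
  ring

include hrs in
/-- **(ET)**: `r² η_t = Z Dr e + A e + Z g' e² + 39 th c₀`, `A = 39 cosh u - 2 Z g'`,
`η_t = Tr u/g` -/
theorem ET_pt {t x : ℝ} (hz : (t, x) ∈ Ω) :
    (rr w f t x) ^ 2 * (Tr w f (uu w f) t x / g (uu w f t x)) =
    ZZ w f t x * Dr w f (ee g w f) t x +
      (39 * Real.cosh (uu w f t x) - 2 * ZZ w f t x * g1f g (uu w f t x)) * ee g w f t x +
      ZZ w f t x * g1f g (uu w f t x) * ee g w f t x ^ 2 +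
      39 * th g w f t x * c0 g (uu w f t x) := by
  have h1 := congrArg (fun h => toFn h t x) (bub hA hrs hg hu).ET
  have h2 : toFn (bub hA hrs hg hu).eta t x = Tr w f (uu w f) t x / g (uu w f t x) := by
    have h3 : toFn (bub hA hrs hg hu).ih t x = 2 / g (uu w f t x) := toFn_mk _ hz
    rw [Bub.eta, toFn_mul, toFn_mul, toFn_algebraMap _ hz, h3,
      Tr_eq' hA hrs (fun z hz' => hA.u_eq (t := z.1) (x := z.2) hz') hz]
    ring
  simp only [toFn_mul, toFn_sub _ _ hz, toFn_add, toFn_pow _ _ hz, Bub.AA,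
    toFn_ofNat _ hz, bub_th hA hrs hg hu hz, bub_h1 hA hrs hg hu hz, bub_e hA hrs hg hu hz,
    hA.r2_eq hz, hA.Z_eq hz, hA.ch_eq hz, bub_c0 hA hrs hg hu hz, h2,
    Dr_eq' hA hrs (fun z hz' => bub_e hA hrs hg hu (t := z.1) (x := z.2) hz') hz] at h1
  rw [h1]
  ring

/-! ### smoothness and operators -/

include hrs in
lemma ff_sm : Sm (Ω : Set (ℝ × ℝ)) (ff g w f) :=
  (toFn_sm (bub hA hrs hg hu).f).congr fun z hz =>
    (bub_f hA hrs hg hu (t := z.1) (x := z.2) hz).symm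

include hrs in
lemma th_sm : Sm (Ω : Set (ℝ × ℝ)) (th g w f) :=
  (toFn_sm (bub hA hrs hg hu).th).congr fun z hz =>
    (bub_th hA hrs hg hu (t := z.1) (x := z.2) hz).symm

lemma bub_Dr_f {t x : ℝ} (hz : (t, x) ∈ Ω) :
    toFn (A.Dr (kapG hA hrs) (bub hA hrs hg hu).f) t x = Dr w f (ff g w f) t x :=
  Dr_eq' hA hrs (fun z hz' => bub_f hA hrs hg hu (t := z.1) (x := z.2) hz') hz

lemma bub_DrDr_f {t x : ℝ} (hz : (t, x) ∈ Ω) :
    toFn (A.Dr (kapG hA hrs) (A.Dr (kapG hA hrs) (bub hA hrs hg hu).f)) t x =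
      Dr w f (Dr w f (ff g w f)) t x :=
  DrDr_eq' hA hrs (fun z hz' => bub_f hA hrs hg hu (t := z.1) (x := z.2) hz') hz

lemma bub_Tr_f {t x : ℝ} (hz : (t, x) ∈ Ω) :
    toFn (A.Tr (kapG hA hrs) (bub hA hrs hg hu).f) t x = Tr w f (ff g w f) t x :=
  Tr_eq' hA hrs (fun z hz' => bub_f hA hrs hg hu (t := z.1) (x := z.2) hz') hz

lemma bub_Dr_th {t x : ℝ} (hz : (t, x) ∈ Ω) :
    toFn (A.Dr (kapG hA hrs) (bub hA hrs hg hu).th) t x = Dr w f (th g w f) t x :=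
  Dr_eq' hA hrs (fun z hz' => bub_th hA hrs hg hu (t := z.1) (x := z.2) hz') hz

end bubble

end

end Vale.Agent.P244.ST
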