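import Vale.Agent.P244.ST.C2RB
import Vale.Agent.P244.ST.M.Skel

/-!
# P244-ST, block C2: conclusion for solutions trapped up to `t = 1` (helper264)
-/

open Set Filter Topology
open scoped ContDiff

namespace Vale.Agent.P244.ST.C2

open M

/-- the situation at a fixed time, from the hypotheses of `C2Statement` -/
theorem ft_of {q : Par} {g : ℝ → ℝ} {w f : Fn} (h : ConfSol 20 w f 1) (hQ : Qual w f 1)
    (hB : ∀ t₁ ∈ Ico (0 : ℝ) 1, Boot q g w f t₁)
    (hbd : ∀ t ∈ Ico (0 : ℝ) 1, ∀ x ∈ Ioo (0 : ℝ) 1, yv w f t x = q.rho0 →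
      9 / 10 * q.T0 t ≤ Real.tanh (uu w f t x) ∧ Real.tanh (uu w f t x) ≤ 11 / 10 * q.T0 t)
    {t : ℝ} (ht : t ∈ Ico (0 : ℝ) 1) : FT q g w f 1 t where
  T_le := le_rfl
  sol := h
  qual := hQ
  mem := ht
  boot := (hB t ht).b5 t ⟨ht.1, le_rfl⟩
  eq_ge := (hB t ht).b0 t ⟨ht.1, le_rfl⟩
  bd := hbd t ht

/-- the outer region -/
theorem RR_outer {q : Par} {g : ℝ → ℝ} {w f : Fn} (hp : ParPos 4 q) (hQ : Qual w f 1) {t x : ℝ}
    (ht : t ∈ Ico (0 : ℝ) 1) (hx : x ∈ Ico (0 : ℝ) 1) (hb : BootAt q g w f t x)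
    (hy : q.rho0 ≤ yv w f t x) :
    RR w f t x ≤ 2 * q.eta + q.GR * q.eps ^ (-(2 * aa)) *
      (625 * (Real.cosh (q.MU * q.eps) / 2 * (q.MU * q.eps) ^ 2) +
        Real.cosh (q.CU * q.eps * (rr w f 0 0) ^ bb) / 2 * (q.CU * q.eps) ^ 2 * 100 ^ gam *
          (rr w f 0 0) ^ (2 + 2 * bb - 2 * gam)) := by
  have hτ : 0 < tau t := by unfold tau; linarith only [ht, ht.2]
  have hτ1 : tau t ≤ 1 := by unfold tau; linarith only [ht, ht.1]
  have hMU : 0 ≤ q.MU := by linarith only [hp, hp.MU]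
  have hCU : 0 ≤ q.CU := by linarith only [hp, hp.CU]
  have hGR : 0 ≤ q.GR := by linarith only [hp, hp.GR]
  have hr : 0 < rr w f t x := Real.exp_pos _
  have hr0 : 0 < rr w f 0 0 := Real.exp_pos _
  have c1 := Real.cosh_pos (q.MU * q.eps)
  have c2 := Real.cosh_pos (q.CU * q.eps * (rr w f 0 0) ^ bb)
  have n1 : 0 ≤ 625 * (Real.cosh (q.MU * q.eps) / 2 * (q.MU * q.eps) ^ 2) := by positivity
  have n2 : 0 ≤ Real.cosh (q.CU * q.eps * (rr w f 0 0) ^ bb) / 2 * (q.CU * q.eps) ^ 2 *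
      100 ^ gam * (rr w f 0 0) ^ (2 + 2 * bb - 2 * gam) := by positivity
  refine hb.b3.trans (RB_le hGR hp.eps.le ht.2.le ?_)
  rcases le_total (yv w f t x) 25 with h25 | h25
  · have := TT_II (q := q) (u := uu w f t x) hτ hτ1 hp.eps.le hMU hr.le h25 (hb.b4 hy h25).1
    linarith only [n2, this]
  · have := TT_III (q := q) (u := uu w f t x) hτ hp.eps.le hCU hr (hQ.r_le t ht x hx)
      (hb.b5 h25).1
    linarith only [n1, this]

/-- BLOCK C2, from the derived facts in region I. -/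
theorem c2Statement (hM2 : M2Statement) (hMB : MBStatement) : C2Statement := by
  intro g hg
  refine (((hM2 g hg).and hMB).and (ev_pos (K := 4) (by norm_num))).mono ?_
  rintro q ⟨⟨h2, hbd⟩, hp⟩ w f h hQ _ hB hcl
  have hFT : ∀ t ∈ Ico (0 : ℝ) 1, FT q g w f 1 t := fun t ht =>
    ft_of h hQ hB (fun s hs => hbd w f s hs (hcl s hs)) ht
  refine ⟨⟨3 * q.eta + (2 * q.eta + q.GR * q.eps ^ (-(2 * aa)) *
      (625 * (Real.cosh (q.MU * q.eps) / 2 * (q.MU * q.eps) ^ 2) +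
        Real.cosh (q.CU * q.eps * (rr w f 0 0) ^ bb) / 2 * (q.CU * q.eps) ^ 2 * 100 ^ gam *
          (rr w f 0 0) ^ (2 + 2 * bb - 2 * gam))), ?_⟩, ?_⟩
  · intro t ht
    have hη := eta_nonneg q
    have hGR : 0 ≤ q.GR := by linarith only [hp, hp.GR]
    have hr0 : 0 < rr w f 0 0 := Real.exp_pos _
    have c1 := Real.cosh_pos (q.MU * q.eps)
    have c2 := Real.cosh_pos (q.CU * q.eps * (rr w f 0 0) ^ bb)
    have he := hp.eps
    have n1 : 0 ≤ q.GR * q.eps ^ (-(2 * aa)) *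
      (625 * (Real.cosh (q.MU * q.eps) / 2 * (q.MU * q.eps) ^ 2) +
        Real.cosh (q.CU * q.eps * (rr w f 0 0) ^ bb) / 2 * (q.CU * q.eps) ^ 2 * 100 ^ gam *
          (rr w f 0 0) ^ (2 + 2 * bb - 2 * gam)) := by positivity
    refine scal_bound h ht ?_
    intro x hx
    rw [abs_of_nonneg (hQ.R_nonneg t ht x hx)]
    rcases le_total q.rho0 (yv w f t x) with hy | hy
    · have := RR_outer hp hQ ht hx ((hB t ht).b5 t ⟨ht.1, le_rfl⟩ x hx) hy
      linarith only [hη, this]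
    · rcases hx.1.eq_or_lt with h0 | h0
      · -- `x = 0` : the equator is in the outer region
        have hτ : 0 < tau t := by unfold tau; linarith only [ht, ht.2]
        have hτ1 : tau t ≤ 1 := by unfold tau; linarith only [ht, ht.1]
        have hs := Real.sqrt_pos.2 hτ
        have hs1 : Real.sqrt (tau t) ≤ 1 := Real.sqrt_le_one.2 hτ1
        have hy' : q.rho0 ≤ yv w f t x := by
          have h1 := (hB t ht).b0 t ⟨ht.1, le_rfl⟩
          have h3 := hp.N
          have h4 := hp.rho0'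
          have h5 := hp.rho0
          rw [← h0]
          unfold yv
          rw [le_div_iff₀ hs]
          nlinarith only [hs, hs1, h1, h3, h4]
        have := RR_outer hp hQ ht hx ((hB t ht).b5 t ⟨ht.1, le_rfl⟩ x hx) hy'
        linarith only [hη, this]
      · have := ((h2 w f 1 t (hFT t ht)).1 x ⟨h0, hx.2⟩ hy).R_le
        linarith only [hη, n1, this]
  · exact f_tip_tendsto h hQ hB hp.rho0 (hp.rho0'.trans (by norm_num)) hp.N
      (by linarith only [hp, hp.MU]) hp.eps.le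

end Vale.Agent.P244.ST.C2
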