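import Vale.Agent.P244.ST.A.TipJet
import Vale.Agent.P244.ST.A.JetA
import Vale.Agent.P244.ST.A.EvLem

/-!
# P244-ST, block C2, part 1: evenness and continuity of the scalar curvature (helper264)
-/

open Set Filter Topology
open scoped ContDiff

namespace Vale.Agent.P244.ST.C2

theorem neg_mem {x : ℝ} (hx : x ∈ Icc (-1 : ℝ) 1) : -x ∈ Icc (-1 : ℝ) 1 :=
  ⟨by linarith only [hx, hx.2], by linarith only [hx, hx.1]⟩

theorem neg_Icc : -(Icc (-1 : ℝ) 1) = Icc (-1 : ℝ) 1 := by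
  ext x
  simp only [Set.mem_neg, mem_Icc]
  constructor <;> rintro ⟨h1, h2⟩ <;> constructor <;> linarith only [h2, h1]

theorem dx_refl {h k : ℝ → ℝ} (hk : ∀ x ∈ Icc (-1 : ℝ) 1, k x = h (-x)) {x : ℝ}
    (hx : x ∈ Icc (-1 : ℝ) 1) : dx k x = -dx h (-x) := by
  unfold dx
  have h1 : derivWithin k (Icc (-1) 1) x = derivWithin (fun y => h (-y)) (Icc (-1) 1) x :=
    derivWithin_congr hk (hk x hx)
  rw [h1, derivWithin_comp_neg, neg_Icc]

/-- the derivative of an even function is odd -/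
theorem dx_even {h : ℝ → ℝ} (hh : ∀ x ∈ Icc (-1 : ℝ) 1, h (-x) = h x) {x : ℝ}
    (hx : x ∈ Icc (-1 : ℝ) 1) : dx h (-x) = -dx h x := by
  have h1 := dx_refl (h := h) (k := h) (fun y hy => (hh y hy).symm) hx
  rw [h1, neg_neg]

/-- the second derivative of an even function is even -/
theorem dx_dx_even {h : ℝ → ℝ} (hh : ∀ x ∈ Icc (-1 : ℝ) 1, h (-x) = h x) {x : ℝ}
    (hx : x ∈ Icc (-1 : ℝ) 1) : dx (dx h) (-x) = dx (dx h) x := by
  have h1 : ∀ y ∈ Icc (-1 : ℝ) 1, (fun z => -dx h z) y = dx h (-y) := fun y hy =>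
    (dx_even hh hy).symm
  have h2 := dx_refl (h := dx h) (k := fun z => -dx h z) h1 hx
  have h3 : dx (fun z => -dx h z) x = -dx (dx h) x := by
    unfold dx
    exact derivWithin.fun_neg ..
  rw [h3] at h2
  linarith only [h2]

theorem scal_even {p : ℕ} {w f : ℝ → ℝ} (hw : ∀ x ∈ Icc (-1 : ℝ) 1, w (-x) = w x)
    (hf : ∀ x ∈ Icc (-1 : ℝ) 1, f (-x) = f x) {x : ℝ} (hx : x ∈ Icc (-1 : ℝ) 1) :
    scal p w f (-x) = scal p w f x := by
  unfold scal ric0 ric1 ric2 gx lap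
  rw [dx_even hw hx, dx_even hf hx, dx_dx_even hw hx, dx_dx_even hf hx, hw x hx, hf x hx]
  ring_nf

theorem scal_cont {p : ℕ} {w f : ℝ → ℝ} (hw : ContDiffOn ℝ ∞ w (Icc (-1) 1))
    (hf : ContDiffOn ℝ ∞ f (Icc (-1) 1)) : ContinuousOn (scal p w f) (Icc (-1) 1) := by
  have w0 := hw.continuousOn
  have f0 := hf.continuousOn
  have w1 := (JA.smooth_dx_slice hw).continuousOn
  have f1 := (JA.smooth_dx_slice hf).continuousOn
  have w2 := (JA.smooth_dx_slice (JA.smooth_dx_slice hw)).continuousOn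
  have f2 := (JA.smooth_dx_slice (JA.smooth_dx_slice hf)).continuousOn
  unfold scal ric0 ric1 ric2 gx lap
  fun_prop

/-- bounds of the scalar curvature on `[0,1)` extend to `[-1,1]` -/
theorem scal_bound {w f : Fn} {T : ℝ} (h : ConfSol 20 w f T) {C : ℝ} {t : ℝ} (ht : t ∈ Ico 0 T)
    (hR : ∀ x ∈ Ico (0 : ℝ) 1, |RR w f t x| ≤ C) :
    ∀ x ∈ Icc (-1 : ℝ) 1, |scal 20 (w t) (f t) x| ≤ C := by
  have hc := scal_cont (p := 20) (JA.smooth_slice h.smooth_w ht) (JA.smooth_slice h.smooth_f ht)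
  have h1 : ∀ x ∈ Ico (0 : ℝ) 1, |scal 20 (w t) (f t) x| ≤ C := by
    intro x hx
    rw [← Tip.RR_eq h ht ⟨by linarith only [hx, hx.1], hx.2⟩]
    exact hR x hx
  have h2 : ∀ x ∈ Icc (0 : ℝ) 1, |scal 20 (w t) (f t) x| ≤ C := by
    intro x hx
    have h3 : ContinuousOn (fun x => |scal 20 (w t) (f t) x|) (closure (Ico (0 : ℝ) 1)) := by
      rw [closure_Ico (by norm_num)]
      exact (hc.mono (Icc_subset_Icc_left (by norm_num))).abs
    have h4 : x ∈ closure (Ico (0 : ℝ) 1) := by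
      rw [closure_Ico (by norm_num)]
      exact hx
    exact le_on_closure h1 h3 continuousOn_const h4
  intro x hx
  rcases le_total 0 x with h5 | h5
  · exact h2 x ⟨h5, hx.2⟩
  · rw [← scal_even (h.even_w t ht) (h.even_f t ht) hx]
    exact h2 (-x) ⟨by linarith only [h5], by linarith only [hx, hx.1]⟩

end Vale.Agent.P244.ST.C2
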