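import Vale.Agent.P244.ST.C2Tip

/-!
# P244-ST, block C2, part 3: the barrier of `R` is bounded (helper264)
-/

open Set Filter Topology
open scoped ContDiff

namespace Vale.Agent.P244.ST.C2

/-- the variable term of the barrier `RB` -/
noncomputable def TT (t r u : ℝ) : ℝ :=
  r ^ 2 * (Real.cosh u - 1) * (tau t + r ^ 2 / 100) ^ (-gam)

theorem RB_eq (q : Par) (t r u : ℝ) :
    q.RB t r u = q.eta * (1 + t) + q.GR * q.eps ^ (-(2 * aa)) * TT t r u := by
  unfold Par.RB TT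
  ring

theorem eta_nonneg (q : Par) : 0 ≤ q.eta := by unfold Par.eta; positivity

theorem RB_le {q : Par} (hGR : 0 ≤ q.GR) (heps : 0 ≤ q.eps) {t r u C : ℝ} (ht : t ≤ 1)
    (h : TT t r u ≤ C) : q.RB t r u ≤ 2 * q.eta + q.GR * q.eps ^ (-(2 * aa)) * C := by
  rw [RB_eq]
  have h1 := eta_nonneg q
  have h2 : 0 ≤ q.GR * q.eps ^ (-(2 * aa)) := mul_nonneg hGR (Real.rpow_nonneg heps _)
  have h3 := mul_le_mul_of_nonneg_left h h2
  nlinarith only [ht, h1, h3]

theorem cosh_sub_one_le {u U : ℝ} (hu : |u| ≤ U) :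
    Real.cosh u - 1 ≤ Real.cosh U / 2 * u ^ 2 := by
  have h1 : Real.cosh u - 1 = 2 * Real.sinh (|u| / 2) ^ 2 := by
    have h2 := Real.cosh_two_mul (|u| / 2)
    have h3 := Real.cosh_sq (|u| / 2)
    rw [mul_div_cancel₀ _ (two_ne_zero), Real.cosh_abs] at h2
    linarith only [h2, h3]
  have h4 : Real.sinh (|u| / 2) ≤ |u| / 2 * Real.cosh (|u| / 2) := by
    have h0 : 0 ≤ |u| / 2 := by positivity
    have hm : MonotoneOn (fun x => x * Real.cosh x - Real.sinh x) (Ici 0) := by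
      refine monotoneOn_of_deriv_nonneg (convex_Ici 0) (by fun_prop) (by fun_prop) ?_
      intro x hx
      rw [interior_Ici] at hx
      have hd : HasDerivAt (fun x => x * Real.cosh x - Real.sinh x) (x * Real.sinh x) x := by
        have := ((hasDerivAt_id x).mul (Real.hasDerivAt_cosh x)).sub (Real.hasDerivAt_sinh x)
        refine this.congr_deriv ?_
        simp only [id]
        ring
      rw [hd.deriv]
      exact mul_nonneg (le_of_lt hx) (Real.sinh_nonneg_iff.2 (le_of_lt hx))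
    have := hm (mem_Ici.2 le_rfl) (mem_Ici.2 h0) h0
    simp only [Real.sinh_zero, zero_mul, sub_zero] at this
    linarith only [this]
  have h5 : 0 ≤ Real.sinh (|u| / 2) := Real.sinh_nonneg_iff.2 (by positivity)
  have h6 : Real.sinh (|u| / 2) ^ 2 ≤ (|u| / 2 * Real.cosh (|u| / 2)) ^ 2 :=
    pow_le_pow_left₀ h5 h4 2
  have h7 : Real.cosh (|u| / 2) ^ 2 ≤ Real.cosh U := by
    have h8 := Real.cosh_two_mul (|u| / 2)
    have h9 := Real.cosh_sq (|u| / 2)
    rw [mul_div_cancel₀ _ (two_ne_zero)] at h8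
    have h10 : Real.cosh |u| ≤ Real.cosh U := by
      rw [Real.cosh_le_cosh, abs_abs]
      exact hu.trans (le_abs_self U)
    have h11 := Real.one_le_cosh |u|
    linarith only [h8, h9, h10, h11]
  have h8 : (|u| / 2) ^ 2 = u ^ 2 / 4 := by
    rw [div_pow, sq_abs]
    norm_num
  rw [h1]
  rw [mul_pow, h8] at h6
  nlinarith only [h6, h7, mul_le_mul_of_nonneg_left h7 (sq_nonneg u)]

theorem cosh_sub_one_nonneg (u : ℝ) : 0 ≤ Real.cosh u - 1 := by
  linarith only [Real.one_le_cosh u]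

theorem lam3_bounds : 1.9426 < lam 3 ∧ lam 3 < 1.9428 := by
  have h1 := M2.kap_lt
  have h2 := M2.kap_gt
  unfold lam
  push_cast
  constructor <;> linarith only [h1, h2]

theorem gam_bounds : 2.1942 < gam ∧ gam < 2.1943 := by
  have h := lam3_bounds
  unfold gam aa
  constructor <;> linarith only [h, h.1, h.2]

theorem bb_bounds : 3.8853 ≤ bb ∧ bb ≤ 3.8854 := by
  have h1 := M2.kap_lt
  have h2 := M2.kap_gt
  unfold bb
  constructor <;> linarith only [h1, h2]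

/-- comparison with a pure power of `τ` -/
theorem TT_le_tau {t r u K s : ℝ} (hτ : 0 < tau t) (hτ1 : tau t ≤ 1) (hK : 0 ≤ K)
    (hs : gam ≤ s) (h : r ^ 2 * (Real.cosh u - 1) ≤ K * tau t ^ s) : TT t r u ≤ K := by
  have h1 : (tau t + r ^ 2 / 100) ^ (-gam) ≤ tau t ^ (-gam) := by
    refine Real.rpow_le_rpow_of_nonpos hτ ?_ (by linarith only [gam_bounds.1])
    linarith only [sq_nonneg r]
  have h2 : 0 ≤ r ^ 2 * (Real.cosh u - 1) := mul_nonneg (sq_nonneg _) (cosh_sub_one_nonneg u)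
  calc TT t r u = r ^ 2 * (Real.cosh u - 1) * (tau t + r ^ 2 / 100) ^ (-gam) := rfl
    _ ≤ (K * tau t ^ s) * tau t ^ (-gam) := by
        refine mul_le_mul h h1 ?_ ?_
        · exact Real.rpow_nonneg (by positivity) _
        · exact mul_nonneg hK (Real.rpow_nonneg hτ.le _)
    _ = K * tau t ^ (s - gam) := by
        rw [mul_assoc, ← Real.rpow_add hτ, ← sub_eq_add_neg]
    _ ≤ K * 1 := mul_le_mul_of_nonneg_left
        (Real.rpow_le_one hτ.le hτ1 (by linarith only [hs])) hK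
    _ = K := mul_one K

/-- region II -/
theorem TT_II {q : Par} {t r u : ℝ} (hτ : 0 < tau t) (hτ1 : tau t ≤ 1) (heps : 0 ≤ q.eps)
    (hMU : 0 ≤ q.MU) (hr0 : 0 ≤ r) (hr : r / Real.sqrt (tau t) ≤ 25) (hu : |u| ≤ q.MU * q.A t) :
    TT t r u ≤ 625 * (Real.cosh (q.MU * q.eps) / 2 * (q.MU * q.eps) ^ 2) := by
  have hs := Real.sqrt_pos.2 hτ
  have hl := lam3_bounds
  have hA0 : 0 ≤ q.A t := mul_nonneg heps (Real.rpow_nonneg hτ.le _)
  have hA1 : q.A t ≤ q.eps := by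
    have := Real.rpow_le_one hτ.le hτ1 (z := lam 3) (by linarith only [hl, hl.1])
    unfold Par.A
    nlinarith only [heps, this]
  have hr2 : r ^ 2 ≤ 625 * tau t := by
    rw [div_le_iff₀ hs] at hr
    have h1 := Real.sq_sqrt hτ.le
    nlinarith only [hr0, hr, h1]
  have hc := cosh_sub_one_le (u := u) (U := q.MU * q.eps)
    (hu.trans (mul_le_mul_of_nonneg_left hA1 hMU))
  have hu2 : u ^ 2 ≤ (q.MU * q.A t) ^ 2 := by
    rw [← sq_abs u]
    exact pow_le_pow_left₀ (abs_nonneg u) hu 2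
  have hcp := Real.cosh_pos (q.MU * q.eps)
  refine TT_le_tau (s := 1 + 2 * lam 3) hτ hτ1 (by positivity) ?_ ?_
  · linarith only [hl, gam_bounds.2, hl.1]
  · have h3 : tau t ^ (1 + 2 * lam 3) = tau t * (tau t ^ lam 3) ^ 2 := by
      rw [Real.rpow_add hτ, Real.rpow_one, mul_comm (2 : ℝ), Real.rpow_mul hτ.le,
        Real.rpow_two]
    have h4 : Real.cosh u - 1 ≤ Real.cosh (q.MU * q.eps) / 2 * (q.MU * q.A t) ^ 2 :=
      hc.trans (mul_le_mul_of_nonneg_left hu2 (by positivity))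
    calc r ^ 2 * (Real.cosh u - 1)
        ≤ 625 * tau t * (Real.cosh (q.MU * q.eps) / 2 * (q.MU * q.A t) ^ 2) :=
          mul_le_mul hr2 h4 (cosh_sub_one_nonneg u) (by positivity)
      _ = _ := by
          rw [h3]
          unfold Par.A
          ring

/-- region III -/
theorem TT_III {q : Par} {t r u R : ℝ} (hτ : 0 < tau t) (heps : 0 ≤ q.eps)
    (hCU : 0 ≤ q.CU) (hr0 : 0 < r) (hrR : r ≤ R) (hu : |u| ≤ q.UB t r) :
    TT t r u ≤ Real.cosh (q.CU * q.eps * R ^ bb) / 2 * (q.CU * q.eps) ^ 2 * 100 ^ gam *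
      R ^ (2 + 2 * bb - 2 * gam) := by
  have hb := bb_bounds
  have hg := gam_bounds
  have h1 : |u| ≤ q.CU * q.eps * r ^ bb := by
    refine hu.trans ?_
    unfold Par.UB
    have : 0 ≤ 300 * tau t * r ^ (bb - 2) := by positivity
    have h2 : 0 ≤ q.CU * q.eps := mul_nonneg hCU heps
    nlinarith only [hg, this, h2]
  have h2 : |u| ≤ q.CU * q.eps * R ^ bb :=
    h1.trans (mul_le_mul_of_nonneg_left (Real.rpow_le_rpow hr0.le hrR (by linarith only [hb, hg, hb.1]))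
      (mul_nonneg hCU heps))
  have hc := cosh_sub_one_le h2
  have hu2 : u ^ 2 ≤ (q.CU * q.eps * r ^ bb) ^ 2 := by
    rw [← sq_abs u]
    exact pow_le_pow_left₀ (abs_nonneg u) h1 2
  have hcp := Real.cosh_pos (q.CU * q.eps * R ^ bb)
  have h4 : Real.cosh u - 1 ≤ Real.cosh (q.CU * q.eps * R ^ bb) / 2 *
      (q.CU * q.eps * r ^ bb) ^ 2 :=
    hc.trans (mul_le_mul_of_nonneg_left hu2 (by positivity))
  have h5 : (tau t + r ^ 2 / 100) ^ (-gam) ≤ (r ^ 2 / 100) ^ (-gam) := by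
    refine Real.rpow_le_rpow_of_nonpos (by positivity) ?_ (by linarith only [hg, hg.1])
    linarith only [hτ]
  have h6 : (r ^ 2 / 100) ^ (-gam) = 100 ^ gam * r ^ (-(2 * gam)) := by
    rw [Real.div_rpow (by positivity) (by norm_num), ← Real.rpow_natCast r 2,
      ← Real.rpow_mul hr0.le, Real.rpow_neg (by norm_num : (0 : ℝ) ≤ 100), div_inv_eq_mul]
    push_cast
    rw [mul_comm (100 ^ gam)]
    congr 2
    ring
  have h7 : 0 ≤ 100 ^ gam * r ^ (-(2 * gam)) := by positivity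
  calc TT t r u = r ^ 2 * (Real.cosh u - 1) * (tau t + r ^ 2 / 100) ^ (-gam) := rfl
    _ ≤ r ^ 2 * (Real.cosh (q.CU * q.eps * R ^ bb) / 2 * (q.CU * q.eps * r ^ bb) ^ 2) *
        (100 ^ gam * r ^ (-(2 * gam))) := by
        rw [← h6]
        refine mul_le_mul (mul_le_mul_of_nonneg_left h4 (sq_nonneg r)) h5
          (Real.rpow_nonneg (by positivity) _) (by positivity)
    _ = Real.cosh (q.CU * q.eps * R ^ bb) / 2 * (q.CU * q.eps) ^ 2 * 100 ^ gam *
        r ^ (2 + 2 * bb - 2 * gam) := by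
        have h8 : r ^ (2 + 2 * bb - 2 * gam) = r ^ 2 * (r ^ bb) ^ 2 * r ^ (-(2 * gam)) := by
          rw [sub_eq_add_neg, Real.rpow_add hr0, Real.rpow_add hr0, Real.rpow_two,
            mul_comm (2 : ℝ) bb, Real.rpow_mul hr0.le, Real.rpow_two]
        rw [h8]
        ring
    _ ≤ _ := by
        refine mul_le_mul_of_nonneg_left (Real.rpow_le_rpow hr0.le hrR ?_) (by positivity)
        linarith only [hb, hg, hb.1, hg.2]

/-- region I: from the static estimates -/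
theorem TT_I {t r u K s : ℝ} (hτ : 0 < tau t) (hτ1 : tau t ≤ 1) (hK : 0 ≤ K)
    (hs : gam ≤ s) (h : r ^ 2 * (Real.cosh u - 1) ≤ K * tau t ^ s) : TT t r u ≤ K :=
  TT_le_tau hτ hτ1 hK hs h

theorem small_sinh {r r0 σ σ0 k : ℝ} (hr : 0 < r) (hr0 : 0 < r0) (hσ : 0 < σ) (hσ1 : σ ≤ 1)
    (hσ0 : 0 ≤ σ0) (hk : 1 ≤ k) (h : σ ≤ σ0 * (r0 / r) ^ k) :
    r ^ 2 * σ ^ 2 ≤ r0 ^ 2 * σ0 ^ (2 / k) := by
  have hk0 : 0 < k := by linarith only [hk]
  have h1 : r ^ k * σ ≤ r0 ^ k * σ0 := by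
    rw [Real.div_rpow hr0.le hr.le] at h
    have h2 : 0 < r ^ k := Real.rpow_pos_of_pos hr k
    calc r ^ k * σ ≤ r ^ k * (σ0 * (r0 ^ k / r ^ k)) := mul_le_mul_of_nonneg_left h h2.le
      _ = r0 ^ k * σ0 := by field_simp
  have h3 : (r ^ k * σ) ^ (2 / k) ≤ (r0 ^ k * σ0) ^ (2 / k) :=
    Real.rpow_le_rpow (by positivity) h1 (by positivity)
  have e1 : ∀ {a : ℝ}, 0 ≤ a → (a ^ k) ^ (2 / k) = a ^ 2 := by
    intro a ha
    rw [← Real.rpow_mul ha, mul_div_cancel₀ _ hk0.ne', Real.rpow_two]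
  rw [Real.mul_rpow (by positivity) hσ.le, Real.mul_rpow (by positivity) hσ0, e1 hr.le,
    e1 hr0.le] at h3
  have h4 : σ ^ 2 ≤ σ ^ (2 / k) := by
    rw [← Real.rpow_two]
    refine Real.rpow_le_rpow_of_exponent_ge hσ hσ1 ?_
    rw [div_le_iff₀ hk0]
    linarith only [hk]
  exact (mul_le_mul_of_nonneg_left h4 (sq_nonneg r)).trans h3

theorem cosh_sub_one_le_sinh (u : ℝ) : Real.cosh u - 1 ≤ Real.sinh u ^ 2 / 2 := by
  have h1 := Real.cosh_sq u
  have h2 := Real.one_le_cosh u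
  nlinarith only [h1, h2]

theorem sinh_le_two {u : ℝ} (h0 : 0 ≤ u) (h1 : u ≤ 1) : Real.sinh u ≤ 2 * u := by
  have hm : MonotoneOn (fun x => 2 * x - Real.sinh x) (Icc 0 1) := by
    refine monotoneOn_of_deriv_nonneg (convex_Icc 0 1) (by fun_prop) (by fun_prop) ?_
    intro x hx
    rw [interior_Icc] at hx
    have hd : HasDerivAt (fun x => 2 * x - Real.sinh x) (2 - Real.cosh x) x := by
      have := ((hasDerivAt_id x).const_mul 2).sub (Real.hasDerivAt_sinh x)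
      refine this.congr_deriv ?_
      ring
    rw [hd.deriv]
    have h3 : Real.cosh x ≤ Real.cosh 1 := by
      rw [Real.cosh_le_cosh, abs_of_pos hx.1, abs_one]
      exact hx.2.le
    have h4 : Real.cosh 1 ≤ 2 := by
      rw [Real.cosh_eq]
      have h5 := Real.exp_one_lt_d9
      have h6 : Real.exp (-1) ≤ 1 := Real.exp_le_one_iff.2 (by norm_num)
      linarith only [h5, h6]
    linarith only [h3, h4]
  have := hm ⟨le_rfl, zero_le_one⟩ ⟨h0, h1⟩ h0
  simp only [Real.sinh_zero, mul_zero, sub_zero] at this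
  linarith only [this]

/-- `κ' = κ (1 + 10⁻⁴)` -/
noncomputable def kp : ℝ := kap * (1 + 1 / 10000)

theorem kp_bounds : 2 < kp ∧ kp < 2.1150 := by
  have h1 := M2.kap_lt
  have h2 := M2.kap_gt
  unfold kp
  constructor <;> nlinarith only [h1, h2]

/-- the constant in region I -/
noncomputable def KI (q : Par) : ℝ :=
  2 * q.rho0 ^ 2 * (22 / 10 * (q.eps * q.rho0 ^ (-kap))) ^ (2 / kp)

theorem KI_nonneg {q : Par} (h0 : 0 ≤ q.rho0) (h1 : 0 ≤ q.eps) : 0 ≤ KI q := by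
  unfold KI
  positivity

theorem s_ge : gam ≤ 1 + 2 * lam 3 / kp := by
  have h1 := gam_bounds
  have h2 := lam3_bounds
  have h3 := kp_bounds
  have h4 : 1.8 ≤ 2 * lam 3 / kp := by
    rw [le_div_iff₀ (by linarith only [h3])]
    linarith only [h2, h3]
  linarith only [h1, h3, h4]

theorem T0_pow {q : Par} {t c : ℝ} (hτ : 0 < tau t) (hc : 0 ≤ c) (h0 : 0 ≤ q.rho0)
    (h1 : 0 ≤ q.eps) :
    tau t * (c * q.T0 t) ^ (2 / kp) =
      (c * (q.eps * q.rho0 ^ (-kap))) ^ (2 / kp) * tau t ^ (1 + 2 * lam 3 / kp) := by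
  have e1 : c * q.T0 t = (c * (q.eps * q.rho0 ^ (-kap))) * tau t ^ lam 3 := by
    unfold Par.T0 Par.A
    ring
  have e2 : lam 3 * (2 / kp) = 2 * lam 3 / kp := by ring
  rw [e1, Real.mul_rpow (by positivity) (by positivity), ← Real.rpow_mul hτ.le, e2,
    Real.rpow_add hτ, Real.rpow_one]
  ring

/-- region I, `sinh u ≥ 1` -/
theorem rI_large {q : Par} {t r u : ℝ} (hτ : 0 < tau t) (h0 : 0 ≤ q.rho0) (h1 : 0 ≤ q.eps)
    (h : r ^ 2 * Real.cosh u ≤ Real.sqrt 2 * q.rho0 ^ 2 * tau t *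
      (11 / 10 * q.T0 t) ^ (2 / kp)) :
    r ^ 2 * (Real.cosh u - 1) ≤ KI q * tau t ^ (1 + 2 * lam 3 / kp) := by
  have hk := kp_bounds
  have hT : 0 ≤ q.T0 t := by
    unfold Par.T0 Par.A
    positivity
  have h2 : (11 / 10 * q.T0 t) ^ (2 / kp) ≤ (22 / 10 * q.T0 t) ^ (2 / kp) :=
    Real.rpow_le_rpow (by positivity) (by linarith only [hT]) (by
      have : 0 < kp := by linarith only [hk]
      positivity)
  have h3 : Real.sqrt 2 ≤ 2 := by
    rw [Real.sqrt_le_left (by norm_num)]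
    norm_num
  have h4 := T0_pow (t := t) (c := 22 / 10) hτ (by norm_num) h0 h1
  calc r ^ 2 * (Real.cosh u - 1) ≤ r ^ 2 * Real.cosh u := by nlinarith only [sq_nonneg r]
    _ ≤ Real.sqrt 2 * q.rho0 ^ 2 * tau t * (11 / 10 * q.T0 t) ^ (2 / kp) := h
    _ ≤ 2 * q.rho0 ^ 2 * tau t * (22 / 10 * q.T0 t) ^ (2 / kp) := by
        refine mul_le_mul ?_ h2 (by positivity) (by positivity)
        refine mul_le_mul_of_nonneg_right ?_ hτ.le
        exact mul_le_mul_of_nonneg_right h3 (sq_nonneg _)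
    _ = 2 * q.rho0 ^ 2 * (tau t * (22 / 10 * q.T0 t) ^ (2 / kp)) := by ring
    _ = _ := by
        rw [h4]
        unfold KI
        ring

/-- region I, `sinh u ≤ 1` -/
theorem rI_small {q : Par} {t r u u0 : ℝ} (hτ : 0 < tau t) (h0 : 0 < q.rho0) (h1 : 0 ≤ q.eps)
    (hr : 0 < r) (hu : 0 < u) (hu1 : Real.sinh u ≤ 1) (hu0 : 0 ≤ u0) (hu01 : u0 ≤ 1)
    (hu0T : u0 ≤ 11 / 10 * q.T0 t)
    (h : Real.sinh u ≤ Real.sinh u0 * (q.rho0 * Real.sqrt (tau t) / r) ^ kp) :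
    r ^ 2 * (Real.cosh u - 1) ≤ KI q * tau t ^ (1 + 2 * lam 3 / kp) := by
  have hk := kp_bounds
  have hs := Real.sqrt_pos.2 hτ
  have hT : 0 ≤ q.T0 t := by
    unfold Par.T0 Par.A
    positivity
  have hs0 : 0 ≤ Real.sinh u0 := Real.sinh_nonneg_iff.2 hu0
  have h2 := small_sinh hr (mul_pos h0 hs) (Real.sinh_pos_iff.2 hu) hu1 hs0
    (by linarith only [hk, hk.1]) h
  have h3 : Real.sinh u0 ≤ 22 / 10 * q.T0 t := by
    have := sinh_le_two hu0 hu01
    linarith only [hu0T, this]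
  have h4 : Real.sinh u0 ^ (2 / kp) ≤ (22 / 10 * q.T0 t) ^ (2 / kp) :=
    Real.rpow_le_rpow hs0 h3 (by
      have : 0 < kp := by linarith only [hk]
      positivity)
  have h5 : (q.rho0 * Real.sqrt (tau t)) ^ 2 = q.rho0 ^ 2 * tau t := by
    rw [mul_pow, Real.sq_sqrt hτ.le]
  have h6 := T0_pow (t := t) (c := 22 / 10) hτ (by norm_num) h0.le h1
  have h7 := cosh_sub_one_le_sinh u
  have h8 : 0 ≤ (22 / 10 * q.T0 t) ^ (2 / kp) := by positivity
  calc r ^ 2 * (Real.cosh u - 1) ≤ r ^ 2 * (Real.sinh u ^ 2 / 2) :=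
        mul_le_mul_of_nonneg_left h7 (sq_nonneg r)
    _ = (r ^ 2 * Real.sinh u ^ 2) / 2 := by ring
    _ ≤ (q.rho0 ^ 2 * tau t * Real.sinh u0 ^ (2 / kp)) / 2 := by
        rw [← h5]
        linarith only [h2]
    _ ≤ (q.rho0 ^ 2 * tau t * (22 / 10 * q.T0 t) ^ (2 / kp)) / 2 := by
        have := mul_le_mul_of_nonneg_left h4 (by positivity : 0 ≤ q.rho0 ^ 2 * tau t)
        linarith only [this]
    _ ≤ 2 * q.rho0 ^ 2 * (tau t * (22 / 10 * q.T0 t) ^ (2 / kp)) := by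
        have : 0 ≤ q.rho0 ^ 2 * (tau t * (22 / 10 * q.T0 t) ^ (2 / kp)) := by positivity
        nlinarith only [this]
    _ = _ := by
        rw [h6]
        unfold KI
        ring

end Vale.Agent.P244.ST.C2
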