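import Vale.Agent.P244.ST.Geo

/-!
# P244-ST, block M2 : identities at fixed time (`x`-derivatives of `ρ`, `u`, `Z`, `θ`)

Everything is at a fixed time `t`; `(E3)`, `(E4)`, `(TH)` of note P244-0.
-/

open Set Filter Topology
open scoped ContDiff

namespace Vale.Agent.P244.ST.M2

noncomputable section

/-- the space slices are smooth on `[-1,1]` -/
structure Slice (w f : Fn) (t : ℝ) : Prop where
  hw : ContDiffOn ℝ ∞ (w t) (Icc (-1) 1)
  hf : ContDiffOn ℝ ∞ (f t) (Icc (-1) 1)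

theorem slice_of_confSol {p : ℕ} {w f : Fn} {T t : ℝ} (h : ConfSol p w f T) (ht : t ∈ Ico 0 T) :
    Slice w f t where
  hw := by
    have h1 : ContDiffOn ℝ ∞ (fun x : ℝ => (t, x)) (Icc (-1) 1) :=
      (contDiff_const.prodMk contDiff_id).contDiffOn
    exact h.smooth_w.comp h1 fun x hx => ⟨ht, hx⟩
  hf := by
    have h1 : ContDiffOn ℝ ∞ (fun x : ℝ => (t, x)) (Icc (-1) 1) :=
      (contDiff_const.prodMk contDiff_id).contDiffOn
    exact h.smooth_f.comp h1 fun x hx => ⟨ht, hx⟩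

/-- the coefficient of `Ds` -/
def kk (w : Fn) (t x : ℝ) : ℝ := -(sx x * Real.exp (-w t x))

variable {w f : Fn} {t : ℝ}

theorem Ds_eq (H : Fn) (x : ℝ) : Ds w H t x = kk w t x * deriv (H t) x := rfl

theorem one_sub_sq_pos {x : ℝ} (hx : x ∈ Ioo (-1 : ℝ) 1) : 0 < 1 - x ^ 2 := by
  nlinarith only [hx, hx.1, hx.2]

theorem sx_pos {x : ℝ} (hx : x ∈ Ioo (-1 : ℝ) 1) : 0 < sx x :=
  Real.sqrt_pos.2 (one_sub_sq_pos hx)

theorem kk_neg {x : ℝ} (hx : x ∈ Ioo (-1 : ℝ) 1) : kk w t x < 0 := by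
  have := mul_pos (sx_pos hx) (Real.exp_pos (-w t x))
  unfold kk
  linarith only [this]

theorem smooth_log : ContDiffOn ℝ ∞ (fun x : ℝ => Real.log (1 - x ^ 2)) (Ioo (-1) 1) :=
  ((contDiff_const.sub (contDiff_id.pow 2)).contDiffOn).log fun _ hx => (one_sub_sq_pos hx).ne'

theorem smooth_sx : ContDiffOn ℝ ∞ sx (Ioo (-1) 1) :=
  ((contDiff_const.sub (contDiff_id.pow 2)).contDiffOn).sqrt fun _ hx => (one_sub_sq_pos hx).ne'

section

variable (h : Slice w f t)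
include h

theorem Slice.w' : ContDiffOn ℝ ∞ (w t) (Ioo (-1) 1) := h.hw.mono Ioo_subset_Icc_self
theorem Slice.f' : ContDiffOn ℝ ∞ (f t) (Ioo (-1) 1) := h.hf.mono Ioo_subset_Icc_self

theorem smooth_uu : ContDiffOn ℝ ∞ (uu w f t) (Ioo (-1) 1) :=
  (h.f'.sub h.w').sub (smooth_log.div_const 2)

theorem smooth_rho : ContDiffOn ℝ ∞ (rho w f t) (Ioo (-1) 1) :=
  (((h.f'.add h.w').add (smooth_log.div_const 2)).sub contDiffOn_const).div_const 2

theorem smooth_kk : ContDiffOn ℝ ∞ (kk w t) (Ioo (-1) 1) :=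
  (smooth_sx.mul h.w'.neg.exp).neg

theorem smooth_Ds {H : Fn} (hH : ContDiffOn ℝ ∞ (H t) (Ioo (-1) 1)) :
    ContDiffOn ℝ ∞ (Ds w H t) (Ioo (-1) 1) :=
  (smooth_kk h).mul (hH.deriv_of_isOpen isOpen_Ioo (by simp))

theorem smooth_rs : ContDiffOn ℝ ∞ (rs w f t) (Ioo (-1) 1) := smooth_Ds h (smooth_rho h)

theorem smooth_PP : ContDiffOn ℝ ∞ (PP w f t) (Ioo (-1) 1) := smooth_Ds h (smooth_uu h)

theorem smooth_rr : ContDiffOn ℝ ∞ (rr w f t) (Ioo (-1) 1) := (smooth_rho h).exp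

theorem smooth_ZZ : ContDiffOn ℝ ∞ (ZZ w f t) (Ioo (-1) 1) :=
  ((smooth_rr h).pow 2).mul ((smooth_rs h).pow 2)

end

theorem hasDerivAt_of_smooth {H : ℝ → ℝ} (hH : ContDiffOn ℝ ∞ H (Ioo (-1) 1)) {x : ℝ}
    (hx : x ∈ Ioo (-1 : ℝ) 1) : HasDerivAt H (deriv H x) x :=
  ((hH.contDiffAt (isOpen_Ioo.mem_nhds hx)).differentiableAt (by simp)).hasDerivAt

/-- `ρ'` -/
def r1 (w f : Fn) (t x : ℝ) : ℝ := deriv (rho w f t) x

theorem rs_eq (x : ℝ) : rs w f t x = kk w t x * r1 w f t x := rfl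

theorem r1_neg {x : ℝ} (hx : x ∈ Ioo (-1 : ℝ) 1) (hr : 0 < rs w f t x) : r1 w f t x < 0 := by
  rw [rs_eq] at hr
  have := kk_neg (w := w) (t := t) hx
  by_contra h
  push Not at h
  nlinarith only [hr, this, h, mul_nonpos_of_nonpos_of_nonneg this.le h]

theorem rr_pos (x : ℝ) : 0 < rr w f t x := Real.exp_pos _

section

variable (h : Slice w f t)
include h

theorem hasDerivAt_rho {x : ℝ} (hx : x ∈ Ioo (-1 : ℝ) 1) :
    HasDerivAt (rho w f t) (r1 w f t x) x :=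
  hasDerivAt_of_smooth (smooth_rho h) hx

theorem hasDerivAt_rr {x : ℝ} (hx : x ∈ Ioo (-1 : ℝ) 1) :
    HasDerivAt (rr w f t) (r1 w f t x * rr w f t x) x := by
  have h1 := (hasDerivAt_rho h hx).exp
  rw [mul_comm]
  exact h1

theorem hasDerivAt_uu {x : ℝ} (hx : x ∈ Ioo (-1 : ℝ) 1) (hr : rs w f t x ≠ 0) :
    HasDerivAt (uu w f t) (r1 w f t x * -(GG w f t x)) x := by
  have h1 := hasDerivAt_of_smooth (smooth_uu h) hx
  convert h1 using 1
  have hk := (kk_neg (w := w) (t := t) hx).ne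
  have h2 : PP w f t x = kk w t x * deriv (uu w f t) x := rfl
  have h3 := rs_eq (w := w) (f := f) (t := t) x
  have hr1 : r1 w f t x ≠ 0 := by
    intro h4
    rw [h4, mul_zero] at h3
    exact hr h3
  unfold GG
  rw [h2, h3]
  field_simp

/-- `(E3)`: `Dr Z = 39 (cosh u - Z) - r² P²/4 - r² R/40` -/
theorem hasDerivAt_ZZ {x : ℝ} (hx : x ∈ Ioo (-1 : ℝ) 1) :
    HasDerivAt (ZZ w f t) (r1 w f t x * (39 * (Real.cosh (uu w f t x) - ZZ w f t x)
      - (rr w f t x) ^ 2 * (PP w f t x) ^ 2 / 4 - (rr w f t x) ^ 2 * RR w f t x / 40)) x := by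
  have h1 := ((hasDerivAt_rr h hx).pow 2).mul
    ((hasDerivAt_of_smooth (smooth_rs h) hx).pow 2)
  refine h1.congr_deriv ?_
  have h2 : RR w f t x = -80 * (kk w t x * deriv (rs w f t) x) - 1640 * (rs w f t x) ^ 2
      - 10 * (PP w f t x) ^ 2 + 1560 * Real.cosh (uu w f t x) / (rr w f t x) ^ 2 := by
    simp only [RR, E0, yy, Lp]
    have h3 : Ds w (Ds w (rho w f)) t x = kk w t x * deriv (rs w f t) x := rfl
    have h4 : Ds w (rs w f) t x = kk w t x * deriv (rs w f t) x := rfl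
    have h5 : Ds w (rho w f) t x = rs w f t x := rfl
    rw [h3, h4, h5]
    ring
  have hrr := (rr_pos (w := w) (f := f) (t := t) x).ne'
  have h3 := rs_eq (w := w) (f := f) (t := t) x
  simp only [Pi.pow_apply]
  rw [h2]
  unfold ZZ
  rw [h3]
  field_simp
  ring

end

/-- `(E3)`, second part, `(E4)` without the bubble -/
theorem E3' (x : ℝ) : (rr w f t x) ^ 2 * (2 * E0 w f t x - RR w f t x) =
    1560 * (ZZ w f t x - Real.cosh (uu w f t x)) - 10 * ((rr w f t x) ^ 2 * (PP w f t x) ^ 2) := by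
  have hrr := (rr_pos (w := w) (f := f) (t := t) x).ne'
  have h3 : Ds w (Ds w (rho w f)) t x = Ds w (rs w f) t x := rfl
  have h5 : Ds w (rho w f) t x = rs w f t x := rfl
  simp only [RR, E0, yy, Lp, ZZ, h3, h5]
  field_simp
  ring

theorem ZG (x : ℝ) (hr : rs w f t x ≠ 0) :
    (rr w f t x) ^ 2 * (PP w f t x) ^ 2 = ZZ w f t x * (GG w f t x) ^ 2 := by
  unfold ZZ GG
  field_simp

theorem ZZ_nonneg (x : ℝ) : 0 ≤ ZZ w f t x := by unfold ZZ; positivity

theorem ZZ_pos {x : ℝ} (hr : rs w f t x ≠ 0) : 0 < ZZ w f t x := by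
  have := rr_pos (w := w) (f := f) (t := t) x
  unfold ZZ; positivity

/-! ### the bubble -/

theorem tanh_pos {u : ℝ} (hu : 0 < u) : 0 < Real.tanh u := by
  rw [Real.tanh_eq_sinh_div_cosh]
  exact div_pos (Real.sinh_pos_iff.2 hu) (Real.cosh_pos u)

theorem kap_lt : kap < 2.1147 := by
  have h : (34.7706 : ℝ) < Real.sqrt 1209 := by rw [Real.lt_sqrt (by norm_num)]; norm_num
  unfold kap; linarith only [h]

theorem kap_gt : 2.1146 < kap := by
  have h : Real.sqrt 1209 < (34.7708 : ℝ) := by rw [Real.sqrt_lt' (by norm_num)]; norm_num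
  unfold kap; linarith only [h]

section

variable {g : ℝ → ℝ} (hg : IsBub g)
include hg

theorem g_pos {u : ℝ} (hu : 0 < u) : 0 < g u := by
  have h1 := hg.lower u hu
  have h2 : 0 < Real.tanh u := tanh_pos hu
  linarith only [h1, h2]

theorem q_lo {u : ℝ} (hu : 0 < u) : 38 < qb g u := by
  have h1 := g_pos hg hu
  have h2 := hg.lt_two u hu
  unfold qb
  nlinarith only [h1, h2]

omit hg in
theorem q_hi (u : ℝ) : qb g u ≤ 39 := by
  unfold qb
  nlinarith only [sq_nonneg (g u)]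

theorem Zs_pos {u : ℝ} (hu : 0 < u) : 0 < Zs g u := by
  have := q_lo hg hu
  have := Real.cosh_pos u
  unfold Zs
  positivity

theorem cosh_le_Zs {u : ℝ} (hu : 0 < u) : Real.cosh u ≤ Zs g u := by
  have h1 := q_lo hg hu
  have h2 := q_hi (g := g) u
  have h3 := Real.cosh_pos u
  unfold Zs
  rw [le_div_iff₀ (by linarith only [h1])]
  nlinarith only [h2, h3]

theorem Zs_le {u : ℝ} (hu : 0 < u) : Zs g u ≤ 39 / 38 * Real.cosh u := by
  have h1 := q_lo hg hu
  have h3 := Real.cosh_pos u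
  unfold Zs
  rw [div_le_iff₀ (by linarith only [h1])]
  nlinarith only [h1, h3]

theorem Zs_q {u : ℝ} (hu : 0 < u) : Zs g u * qb g u = 39 * Real.cosh u := by
  have h1 := q_lo hg hu
  unfold Zs
  field_simp

theorem hasDerivAt_Zs {u : ℝ} (hu : 0 < u) : HasDerivAt (Zs g) (Zs g u * g u / 2) u := by
  have h1 := hg.ode u hu
  have hq := q_lo hg hu
  have hgp := g_pos hg hu
  have h2 : HasDerivAt (qb g) (-(g u * ((39 - g u ^ 2 / 4) * (g u - 2 * Real.tanh u) / g u)) / 2)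
      u := by
    have h3 := ((h1.pow 2).div_const 4).const_sub 39
    refine h3.congr_deriv ?_
    ring
  have h4 := ((Real.hasDerivAt_cosh u).const_mul 39).div h2 (by linarith only [hq])
  refine h4.congr_deriv ?_
  have hc := (Real.cosh_pos u).ne'
  have hq' : 39 - g u ^ 2 / 4 = qb g u := rfl
  rw [hq', Real.tanh_eq_sinh_div_cosh]
  unfold Zs
  field_simp
  ring

end

/-- `(TH)` -/
theorem hasDerivAt_th {g : ℝ → ℝ} (hg : IsBub g) (h : Slice w f t) {x : ℝ}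
    (hx : x ∈ Ioo (-1 : ℝ) 1) (hr : rs w f t x ≠ 0) (hu : 0 < uu w f t x) :
    HasDerivAt (th g w f t) (r1 w f t x * (-(th g w f t x) * (qb g (uu w f t x) +
      (GG w f t x - g (uu w f t x)) ^ 2 / 4) - (GG w f t x - g (uu w f t x)) ^ 2 / 4
      - (rr w f t x) ^ 2 * RR w f t x / (40 * Zs g (uu w f t x)))) x := by
  have h1 := hasDerivAt_ZZ h hx
  have h2 := (hasDerivAt_Zs hg hu).comp x (hasDerivAt_uu h hx hr)
  have hZs := (Zs_pos hg hu).ne'
  have h3 := (h1.div h2 hZs).sub_const 1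
  refine h3.congr_deriv ?_
  have hq := Zs_q hg hu
  rw [ZG x hr]
  have hch : Real.cosh (uu w f t x) = Zs g (uu w f t x) * qb g (uu w f t x) / 39 := by
    rw [hq]; ring
  have hth : th g w f t x = ZZ w f t x / Zs g (uu w f t x) - 1 := rfl
  have hqb : g (uu w f t x) ^ 2 = 4 * (39 - qb g (uu w f t x)) := by unfold qb; ring
  rw [hch, hth]
  simp only [Function.comp_apply]
  field_simp
  ring_nf
  rw [hqb]
  ring

/-- `(E4)` -/
theorem E4 {g : ℝ → ℝ} (hg : IsBub g) {x : ℝ} (hr : rs w f t x ≠ 0) (hu : 0 < uu w f t x) :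
    (rr w f t x) ^ 2 * (2 * E0 w f t x - RR w f t x) = Zs g (uu w f t x) *
      (th g w f t x * (1560 - 10 * (GG w f t x) ^ 2) -
        10 * ((GG w f t x) ^ 2 - g (uu w f t x) ^ 2)) := by
  have hq := Zs_q hg hu
  have hZs := (Zs_pos hg hu).ne'
  have hZ : ZZ w f t x = Zs g (uu w f t x) * (th g w f t x + 1) := by
    unfold th; field_simp; ring
  have hqb : g (uu w f t x) ^ 2 = 4 * (39 - qb g (uu w f t x)) := by unfold qb; ring
  rw [E3', ZG x hr, hZ, hqb]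
  linear_combination 40 * hq

end

end Vale.Agent.P244.ST.M2
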