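import Mathlib

/-!
# P244-ST, block M7 : maximum principle on a parabolic window (r-gauge coordinates `(t, ρ)`)

The window is `{0 ≤ t ≤ t₁, y₀ √(1-t) ≤ e^ρ ≤ y₁ √(1-t)}`.
-/

open Set Filter Topology

namespace Vale.Agent.P244.ST

/-- parabolic window, `y = e^ρ / √(1-t)` between `y₀` and `y₁`. -/
def Win (y₀ y₁ t₁ : ℝ) : Set (ℝ × ℝ) :=
  {q | q.1 ∈ Icc 0 t₁ ∧ y₀ * Real.sqrt (1 - q.1) ≤ Real.exp q.2 ∧
    Real.exp q.2 ≤ y₁ * Real.sqrt (1 - q.1)}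

lemma Win_isCompact {y₀ y₁ t₁ : ℝ} (hy₀ : 0 < y₀) (hy₁ : 0 < y₁) (ht₁ : t₁ < 1) :
    IsCompact (Win y₀ y₁ t₁) := by
  have hc1 : Continuous fun q : ℝ × ℝ => y₀ * Real.sqrt (1 - q.1) := by fun_prop
  have hc2 : Continuous fun q : ℝ × ℝ => y₁ * Real.sqrt (1 - q.1) := by fun_prop
  have hc3 : Continuous fun q : ℝ × ℝ => Real.exp q.2 := by fun_prop
  have hclosed : IsClosed (Win y₀ y₁ t₁) := by
    have : Win y₀ y₁ t₁ = (Prod.fst ⁻¹' (Icc 0 t₁)) ∩ {q | y₀ * Real.sqrt (1 - q.1) ≤ Real.exp q.2}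
        ∩ {q | Real.exp q.2 ≤ y₁ * Real.sqrt (1 - q.1)} := by
      ext q; simp only [Win, Set.mem_ofPred_eq, mem_inter_iff, mem_preimage]; tauto
    rw [this]
    exact ((isClosed_Icc.preimage continuous_fst).inter (isClosed_le hc1 hc3)).inter
      (isClosed_le hc3 hc2)
  have hsub : Win y₀ y₁ t₁ ⊆ Icc 0 t₁ ×ˢ
      Icc (Real.log (y₀ * Real.sqrt (1 - t₁))) (Real.log y₁) := by
    rintro ⟨t, ρ⟩ ⟨ht, h1, h2⟩
    have ht' : 0 ≤ t ∧ t ≤ t₁ := ht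
    have hs1 : Real.sqrt (1 - t₁) ≤ Real.sqrt (1 - t) := Real.sqrt_le_sqrt (by linarith only [ht', ht'.2])
    have hs2 : Real.sqrt (1 - t) ≤ 1 := Real.sqrt_le_one.2 (by linarith only [ht', ht'.1])
    have hs0 : 0 < Real.sqrt (1 - t₁) := Real.sqrt_pos.2 (by linarith only [ht₁])
    refine ⟨ht, ?_, ?_⟩
    · show Real.log (y₀ * Real.sqrt (1 - t₁)) ≤ ρ
      rw [Real.log_le_iff_le_exp (by positivity)]
      exact (mul_le_mul_of_nonneg_left hs1 hy₀.le).trans h1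
    · show ρ ≤ Real.log y₁
      rw [Real.le_log_iff_exp_le hy₁]
      refine h2.trans ?_
      simpa using mul_le_mul_of_nonneg_left hs2 hy₁.le
  exact (isCompact_Icc.prod isCompact_Icc).of_isClosed_subset hclosed hsub

/-- left difference quotient at a left-maximum -/
lemma deriv_nonneg_of_left_max {F : ℝ → ℝ} {F' t : ℝ} (hd : HasDerivAt F F' t)
    (h : ∀ᶠ s in 𝓝[<] t, F s ≤ F t) : 0 ≤ F' := by
  have hd2 : HasDerivWithinAt F F' (Iio t) t := hd.hasDerivWithinAt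
  rw [hasDerivWithinAt_iff_tendsto_slope] at hd2
  have hne : (Iio t \ {t} : Set ℝ) = Iio t := by ext x; simp
  rw [hne] at hd2
  refine ge_of_tendsto hd2 ?_
  filter_upwards [h, self_mem_nhdsWithin] with s hs hst
  rw [slope_def_field]
  have h3 : s - t < 0 := by have : s < t := hst; linarith only [this]
  exact div_nonneg_of_nonpos (by linarith only [hs]) h3.le

/-- second derivative at a local maximum -/
lemma second_deriv_nonpos {F F1 : ℝ → ℝ} {F2 x : ℝ} (hm : IsLocalMax F x)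
    (h1 : ∀ᶠ z in 𝓝 x, HasDerivAt F (F1 z) z) (h2 : HasDerivAt F1 F2 x) :
    F1 x = 0 ∧ F2 ≤ 0 := by
  have hx : HasDerivAt F (F1 x) x := h1.self_of_nhds
  have h0 : F1 x = 0 := hm.hasDerivAt_eq_zero hx
  refine ⟨h0, ?_⟩
  by_contra hcon
  push Not at hcon
  have hev : deriv F =ᶠ[𝓝 x] F1 := by
    filter_upwards [h1] with z hz using hz.deriv
  have hdd : deriv (deriv F) x = F2 := by
    rw [hev.deriv_eq]; exact h2.deriv
  have hmin : IsLocalMin F x := by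
    refine isLocalMin_of_deriv_deriv_pos (by rw [hdd]; exact hcon) ?_ hx.continuousAt
    rw [hev.eq_of_nhds]; exact h0
  have hconst : F =ᶠ[𝓝 x] fun _ => F x := by
    filter_upwards [hm, hmin] with w h3 h4
    exact le_antisymm h3 h4
  have h5 : deriv F =ᶠ[𝓝 x] fun _ => 0 := by
    have := hconst.deriv
    simpa using this
  have h6 : deriv (deriv F) x = 0 := by
    rw [h5.deriv_eq]; simp
  rw [hdd] at h6
  linarith only [hcon, h6]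

/-- Maximum principle on a parabolic window. -/
theorem win_max {y₀ y₁ t₁ B : ℝ} (hy₀ : 0 < y₀) (hy₁ : 0 < y₁) (ht₁ : t₁ < 1)
    {N N1 N2 Nt : ℝ → ℝ → ℝ}
    (hc : ContinuousOn (fun q : ℝ × ℝ => N q.1 q.2) (Win y₀ y₁ t₁))
    (h1 : ∀ q ∈ Win y₀ y₁ t₁, 0 < q.1 → HasDerivAt (N q.1) (N1 q.1 q.2) q.2)
    (h2 : ∀ q ∈ Win y₀ y₁ t₁, 0 < q.1 → HasDerivAt (N1 q.1) (N2 q.1 q.2) q.2)
    (ht : ∀ q ∈ Win y₀ y₁ t₁, 0 < q.1 → HasDerivAt (fun t => N t q.2) (Nt q.1 q.2) q.1)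
    (hb : ∀ q ∈ Win y₀ y₁ t₁, (q.1 = 0 ∨ Real.exp q.2 = y₀ * Real.sqrt (1 - q.1) ∨
      Real.exp q.2 = y₁ * Real.sqrt (1 - q.1)) → N q.1 q.2 ≤ B)
    (hi : ∀ q ∈ Win y₀ y₁ t₁, 0 < q.1 → N1 q.1 q.2 = 0 → N2 q.1 q.2 ≤ 0 → 0 ≤ Nt q.1 q.2 →
      N q.1 q.2 ≤ B) :
    ∀ q ∈ Win y₀ y₁ t₁, N q.1 q.2 ≤ B := by
  intro q hq
  obtain ⟨q₀, hq₀, hmax⟩ := (Win_isCompact hy₀ hy₁ ht₁).exists_isMaxOn ⟨q, hq⟩ hc
  have hle : ∀ q' ∈ Win y₀ y₁ t₁, N q'.1 q'.2 ≤ N q₀.1 q₀.2 := fun q' hq' => hmax hq'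
  refine (hle q hq).trans ?_
  by_cases hbd : q₀.1 = 0 ∨ Real.exp q₀.2 = y₀ * Real.sqrt (1 - q₀.1) ∨
      Real.exp q₀.2 = y₁ * Real.sqrt (1 - q₀.1)
  · exact hb q₀ hq₀ hbd
  · push Not at hbd
    obtain ⟨hb0, hb1, hb2⟩ := hbd
    obtain ⟨⟨ht0, ht1'⟩, hl, hr⟩ := hq₀
    have hpos : 0 < q₀.1 := lt_of_le_of_ne ht0 (Ne.symm hb0)
    have hl' : y₀ * Real.sqrt (1 - q₀.1) < Real.exp q₀.2 := lt_of_le_of_ne hl (Ne.symm hb1)
    have hr' : Real.exp q₀.2 < y₁ * Real.sqrt (1 - q₀.1) := lt_of_le_of_ne hr hb2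
    have hq₀' : q₀ ∈ Win y₀ y₁ t₁ := ⟨⟨ht0, ht1'⟩, hl, hr⟩
    -- nearby points of the slice
    have hev : ∀ᶠ z in 𝓝 q₀.2, (q₀.1, z) ∈ Win y₀ y₁ t₁ := by
      have e1 : ∀ᶠ z in 𝓝 q₀.2, y₀ * Real.sqrt (1 - q₀.1) < Real.exp z :=
        Real.continuous_exp.continuousAt.eventually_const_lt hl'
      have e2 : ∀ᶠ z in 𝓝 q₀.2, Real.exp z < y₁ * Real.sqrt (1 - q₀.1) :=
        Real.continuous_exp.continuousAt.eventually_lt_const hr'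
      filter_upwards [e1, e2] with z hz1 hz2
      exact ⟨⟨ht0, ht1'⟩, hz1.le, hz2.le⟩
    have hlm : IsLocalMax (N q₀.1) q₀.2 := by
      filter_upwards [hev] with z hz using hle _ hz
    have hD := second_deriv_nonpos hlm (F1 := N1 q₀.1)
      (by filter_upwards [hev] with z hz using h1 _ hz hpos) (h2 _ hq₀' hpos)
    have hevt : ∀ᶠ s in 𝓝[<] q₀.1, (s, q₀.2) ∈ Win y₀ y₁ t₁ := by
      have c1 : Continuous fun s : ℝ => y₀ * Real.sqrt (1 - s) := by fun_prop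
      have c2 : Continuous fun s : ℝ => y₁ * Real.sqrt (1 - s) := by fun_prop
      have e1 : ∀ᶠ s in 𝓝 q₀.1, y₀ * Real.sqrt (1 - s) < Real.exp q₀.2 :=
        c1.continuousAt.eventually_lt_const hl'
      have e2 : ∀ᶠ s in 𝓝 q₀.1, Real.exp q₀.2 < y₁ * Real.sqrt (1 - s) :=
        c2.continuousAt.eventually_const_lt hr'
      have e3 : ∀ᶠ s in 𝓝 q₀.1, 0 < s := lt_mem_nhds hpos
      filter_upwards [nhdsWithin_le_nhds e1, nhdsWithin_le_nhds e2, nhdsWithin_le_nhds e3,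
        self_mem_nhdsWithin] with s hs1 hs2 hs3 hs4
      exact ⟨⟨hs3.le, (le_of_lt hs4).trans ht1'⟩, hs1.le, hs2.le⟩
    have hDt : 0 ≤ Nt q₀.1 q₀.2 := deriv_nonneg_of_left_max (ht _ hq₀' hpos)
      (by filter_upwards [hevt] with s hs using hle _ hs)
    exact hi q₀ hq₀' hpos hD.1 hD.2 hDt

end Vale.Agent.P244.ST
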