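import Vale.Agent.P244.ST.Geo
import Vale.Agent.P244.ST.M7Win

/-!
# P244-ST, block M : `r` is bounded by its initial value at the equator (helper568)
-/

open Set Filter Topology
open scoped ContDiff

namespace Vale.Agent.P244.ST

section

variable {w f : Fn} {T : ℝ}

lemma m6_slice_w (h : ConfSol 20 w f T) {t : ℝ} (ht : t ∈ Ico 0 T) :
    ContDiffOn ℝ ∞ (w t) (Icc (-1) 1) :=
  h.smooth_w.comp (f := fun x : ℝ => (t, x)) (by fun_prop) fun x hx => ⟨ht, hx⟩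

lemma m6_slice_f (h : ConfSol 20 w f T) {t : ℝ} (ht : t ∈ Ico 0 T) :
    ContDiffOn ℝ ∞ (f t) (Icc (-1) 1) :=
  h.smooth_f.comp (f := fun x : ℝ => (t, x)) (by fun_prop) fun x hx => ⟨ht, hx⟩

lemma m6_nhds {x : ℝ} (hx : x ∈ Ioo (-1 : ℝ) 1) : Icc (-1 : ℝ) 1 ∈ 𝓝 x :=
  Icc_mem_nhds hx.1 hx.2

lemma m6_hasDerivAt {h : ℝ → ℝ} (hh : ContDiffOn ℝ ∞ h (Icc (-1) 1)) {x : ℝ}
    (hx : x ∈ Ioo (-1 : ℝ) 1) : HasDerivAt h (dx h x) x := by
  have h1 : DifferentiableOn ℝ h (Icc (-1) 1) := hh.differentiableOn (by norm_num)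
  exact ((h1 x (Ioo_subset_Icc_self hx)).hasDerivWithinAt).hasDerivAt (m6_nhds hx)

lemma m6_dx_smooth {h : ℝ → ℝ} (hh : ContDiffOn ℝ ∞ h (Icc (-1) 1)) :
    ContDiffOn ℝ ∞ (dx h) (Icc (-1) 1) := by
  have := hh.derivWithin (m := ∞) (uniqueDiffOn_Icc (by norm_num)) (by norm_num)
  exact this

lemma m6_hasDerivAt_rho (h : ConfSol 20 w f T) {t : ℝ} (ht : t ∈ Ico 0 T) {x : ℝ}
    (hx : x ∈ Ioo (-1 : ℝ) 1) :
    HasDerivAt (rho w f t) ((dx (f t) x + dx (w t) x - x / (1 - x ^ 2)) / 2) x := by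
  have h1 := m6_hasDerivAt (m6_slice_w h ht) hx
  have h2 := m6_hasDerivAt (m6_slice_f h ht) hx
  have h3 : (1 - x ^ 2) ≠ 0 := by nlinarith only [hx, hx.1, hx.2]
  have h4 : HasDerivAt (fun x : ℝ => 1 - x ^ 2) (-(2 * x)) x := by
    have := (hasDerivAt_pow 2 x).const_sub 1
    simpa using this
  have h5 := (h4.log h3).div_const 2
  have h6 := (((h2.add h1).add h5).sub_const (Real.log zeta0)).div_const 2
  refine h6.congr_deriv ?_
  field_simp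
  ring

lemma m6_hasDerivAt_rho2 (h : ConfSol 20 w f T) {t : ℝ} (ht : t ∈ Ico 0 T) :
    HasDerivAt (fun x => (dx (f t) x + dx (w t) x - x / (1 - x ^ 2)) / 2)
      ((dx (dx (f t)) 0 + dx (dx (w t)) 0 - 1) / 2) 0 := by
  have hx : (0 : ℝ) ∈ Ioo (-1 : ℝ) 1 := ⟨by norm_num, by norm_num⟩
  have h1 := m6_hasDerivAt (m6_dx_smooth (m6_slice_w h ht)) hx
  have h2 := m6_hasDerivAt (m6_dx_smooth (m6_slice_f h ht)) hx
  have h4 : HasDerivAt (fun x : ℝ => 1 - x ^ 2) (-(2 * (0 : ℝ))) 0 := by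
    have := (hasDerivAt_pow 2 (0 : ℝ)).const_sub 1
    simpa using this
  have h5 := (hasDerivAt_id (0 : ℝ)).div h4 (by norm_num)
  have h6 := ((h2.add h1).sub h5).div_const 2
  refine h6.congr_deriv ?_
  norm_num

lemma m6_rho_even (h : ConfSol 20 w f T) {t : ℝ} (ht : t ∈ Ico 0 T) {x : ℝ}
    (hx : x ∈ Icc (-1 : ℝ) 1) : rho w f t (-x) = rho w f t x := by
  simp only [rho, h.even_w t ht x hx, h.even_f t ht x hx, neg_sq]

lemma m6_rho_antitone (h : ConfSol 20 w f T) (hr : ∀ t ∈ Ico 0 T, ∀ x ∈ Ioo (0 : ℝ) 1,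
    0 < rs w f t x) {t : ℝ} (ht : t ∈ Ico 0 T) : AntitoneOn (rho w f t) (Ico 0 1) := by
  have hsub : ∀ x ∈ Ico (0 : ℝ) 1, x ∈ Ioo (-1 : ℝ) 1 := fun x hx => ⟨by linarith only [hx, hx.1], hx.2⟩
  refine antitoneOn_of_deriv_nonpos (convex_Ico 0 1) ?_ ?_ ?_
  · intro x hx
    exact (m6_hasDerivAt_rho h ht (hsub x hx)).continuousAt.continuousWithinAt
  · intro x hx
    rw [interior_Ico] at hx
    exact (m6_hasDerivAt_rho h ht (hsub x (Ioo_subset_Ico_self hx))).differentiableAt.differentiableWithinAt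
  · intro x hx
    rw [interior_Ico] at hx
    have h1 := hr t ht x hx
    have h2 : 0 < sx x * Real.exp (-w t x) :=
      mul_pos (Real.sqrt_pos.2 (by nlinarith only [hx, hx.1, hx.2])) (Real.exp_pos _)
    by_contra hc
    push Not at hc
    have h3 : rs w f t x = -(sx x * Real.exp (-w t x)) * deriv (rho w f t) x := rfl
    rw [h3] at h1
    nlinarith only [h1, h2, hc, mul_pos h2 hc]

lemma m6_rho_le_zero (h : ConfSol 20 w f T) (hr : ∀ t ∈ Ico 0 T, ∀ x ∈ Ioo (0 : ℝ) 1,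
    0 < rs w f t x) {t : ℝ} (ht : t ∈ Ico 0 T) {x : ℝ} (hx : x ∈ Ioo (-1 : ℝ) 1) :
    rho w f t x ≤ rho w f t 0 := by
  have h1 : rho w f t |x| ≤ rho w f t 0 :=
    m6_rho_antitone h hr ht ⟨le_rfl, one_pos⟩ ⟨abs_nonneg x, abs_lt.2 hx⟩ (abs_nonneg x)
  rcases abs_choice x with h2 | h2
  · rwa [h2] at h1
  · rw [h2, m6_rho_even h ht (Ioo_subset_Icc_self hx)] at h1
    exact h1

lemma m6_xx_le (h : ConfSol 20 w f T) (hr : ∀ t ∈ Ico 0 T, ∀ x ∈ Ioo (0 : ℝ) 1,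
    0 < rs w f t x) {t : ℝ} (ht : t ∈ Ico 0 T) :
    dx (dx (f t)) 0 + dx (dx (w t)) 0 ≤ 1 := by
  have h0 : (0 : ℝ) ∈ Ioo (-1 : ℝ) 1 := ⟨by norm_num, by norm_num⟩
  have hU : Ioo (-1 : ℝ) 1 ∈ 𝓝 (0 : ℝ) := isOpen_Ioo.mem_nhds h0
  have h1 := second_deriv_nonpos (F := rho w f t)
    (F1 := fun x => (dx (f t) x + dx (w t) x - x / (1 - x ^ 2)) / 2)
    (by filter_upwards [hU] with x hx using m6_rho_le_zero h hr ht hx)
    (by filter_upwards [hU] with x hx using m6_hasDerivAt_rho h ht hx)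
    (m6_hasDerivAt_rho2 h ht)
  linarith only [h1, h1.2]

/-- time derivative of `ρ` at the equator -/
lemma m6_rho_time (h : ConfSol 20 w f T) {t : ℝ} (ht : t ∈ Ico 0 T) :
    HasDerivWithinAt (fun s => rho w f s 0)
      ((Real.exp (-2 * w t 0) * (dx (dx (f t)) 0 + dx (dx (w t)) 0 - 20)
        - 19 * Real.exp (-2 * f t 0)) / 2) (Ico 0 T) t := by
  have hx : (0 : ℝ) ∈ Icc (-1 : ℝ) 1 := ⟨by norm_num, by norm_num⟩
  have h1 := h.eq_w t ht 0 hx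
  have h2 := h.eq_f t ht 0 hx
  have h6 := (((h2.add h1).add_const (Real.log (1 - (0 : ℝ) ^ 2) / 2)).sub_const
    (Real.log zeta0)).div_const 2
  refine h6.congr_deriv ?_
  simp only [rhsW, rhsF, lap, Jf, intervalIntegral.integral_same]
  norm_num
  ring

lemma m6_rho_time_antitone (h : ConfSol 20 w f T) (hr : ∀ t ∈ Ico 0 T, ∀ x ∈ Ioo (0 : ℝ) 1,
    0 < rs w f t x) : AntitoneOn (fun s => rho w f s 0) (Ico 0 T) := by
  refine antitoneOn_of_deriv_nonpos (convex_Ico 0 T) ?_ ?_ ?_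
  · intro t ht
    exact (m6_rho_time h ht).continuousWithinAt
  · intro t ht
    rw [interior_Ico] at ht
    exact ((m6_rho_time h (Ioo_subset_Ico_self ht)).hasDerivAt
      (Ico_mem_nhds ht.1 ht.2)).differentiableAt.differentiableWithinAt
  · intro t ht
    rw [interior_Ico] at ht
    rw [((m6_rho_time h (Ioo_subset_Ico_self ht)).hasDerivAt (Ico_mem_nhds ht.1 ht.2)).deriv]
    have h1 := m6_xx_le h hr (Ioo_subset_Ico_self ht)
    have h2 := Real.exp_pos (-2 * w t 0)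
    have h3 := Real.exp_pos (-2 * f t 0)
    nlinarith only [h1, h2, h3]

/-- `r` is bounded by its initial value at the equator. -/
theorem rr_le_equator (h : ConfSol 20 w f T) (hr : ∀ t ∈ Ico 0 T, ∀ x ∈ Ioo (0 : ℝ) 1,
    0 < rs w f t x) : ∀ t ∈ Ico 0 T, ∀ x ∈ Ico (0 : ℝ) 1, rr w f t x ≤ rr w f 0 0 := by
  intro t ht x hx
  refine Real.exp_le_exp.2 ?_
  refine (m6_rho_le_zero h hr ht (x := x) ⟨by linarith only [hx, hx.1], hx.2⟩).trans ?_
  exact m6_rho_time_antitone h hr ⟨le_rfl, lt_of_le_of_lt ht.1 ht.2⟩ ht ht.1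

end

end Vale.Agent.P244.ST
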