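import Vale.Agent.P244.ST.C2Even
import Vale.Agent.P244.ST.M6Eq
import Vale.Agent.P244.ST.M2Static

/-!
# P244-ST, block C2, part 2: `f t 1 → -∞` (helper264)
-/

open Set Filter Topology
open scoped ContDiff

namespace Vale.Agent.P244.ST.C2

section

variable {w f : Fn} {T t : ℝ}

/-- `F_x ≤ 0` for `x ∈ (0,1)` -/
theorem dxf_nonpos (h : ConfSol 20 w f T) (hQ : Qual w f T) (ht : t ∈ Ico 0 T) {x : ℝ}
    (hx : x ∈ Ioo (0 : ℝ) 1) : dx (f t) x ≤ 0 := by
  have hx' : x ∈ Ioo (-1 : ℝ) 1 := ⟨by linarith only [hx, hx.1], hx.2⟩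
  have hw := JA.smooth_slice h.smooth_w ht
  have hf := JA.smooth_slice h.smooth_f ht
  have e1 := JA.PP_eq hw hf hx'
  have e2 := JA.rs_eq hw hf hx'
  have p1 := hQ.rs_pos t ht x hx
  have p2 := hQ.G_le t ht x hx
  have hk : 0 < sx x * Real.exp (-w t x) :=
    mul_pos (Real.sqrt_pos.2 (by nlinarith only [hx, hx.1, hx.2])) (Real.exp_pos _)
  have p3 : |PP w f t x| ≤ 2 * rs w f t x := by
    unfold GG at p2
    rw [abs_neg, abs_div, abs_of_pos p1, div_le_iff₀ p1] at p2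
    exact p2
  have p4 := (abs_le.1 p3).1
  set k := sx x * Real.exp (-w t x) with hkdef
  have p5 : 0 ≤ k * -dx (f t) x := by
    have : k * -dx (f t) x = rs w f t x + PP w f t x / 2 := by
      rw [e1, e2]
      ring
    rw [this]
    linarith only [p4]
  have p6 := (mul_nonneg_iff_of_pos_left hk).1 p5
  linarith only [p6]

/-- `F` is nonincreasing on `[0,1]` -/
theorem f_antitone (h : ConfSol 20 w f T) (hQ : Qual w f T) (ht : t ∈ Ico 0 T) :
    AntitoneOn (f t) (Icc 0 1) := by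
  have hf := JA.smooth_slice h.smooth_f ht
  refine antitoneOn_of_deriv_nonpos (convex_Icc 0 1) ?_ ?_ ?_
  · exact hf.continuousOn.mono (Icc_subset_Icc_left (by norm_num))
  · rw [interior_Icc]
    intro x hx
    exact (JA.hasDerivAt_dx hf ⟨by linarith only [hx, hx.1], hx.2⟩).differentiableAt.differentiableWithinAt
  · rw [interior_Icc]
    intro x hx
    rw [(JA.hasDerivAt_dx hf ⟨by linarith only [hx, hx.1], hx.2⟩).deriv]
    exact dxf_nonpos h hQ ht hx

/-- `F = ρ + u/2 + log ζ₀ / 2` -/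
theorem f_eq (w f : Fn) (t x : ℝ) :
    f t x = rho w f t x + uu w f t x / 2 + Real.log zeta0 / 2 := by
  unfold rho uu
  ring

theorem log_rr (w f : Fn) (t x : ℝ) : Real.log (rr w f t x) = rho w f t x := by
  unfold rr
  rw [Real.log_exp]

theorem cont_rho_slice (h : ConfSol 20 w f T) (ht : t ∈ Ico 0 T) :
    ContinuousOn (rho w f t) (Ico 0 1) := fun _ hx =>
  (m6_hasDerivAt_rho h ht ⟨by linarith only [hx, hx.1], hx.2⟩).continuousAt.continuousWithinAt

/-- `ρ` is arbitrarily negative near the tip -/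
theorem exists_rho_le (h : ConfSol 20 w f T) (ht : t ∈ Ico 0 T) (A : ℝ) :
    ∃ x ∈ Ico (0 : ℝ) 1, rho w f t x ≤ A := by
  have hw := (JA.smooth_slice h.smooth_w ht).continuousOn
  have hf := (JA.smooth_slice h.smooth_f ht).continuousOn
  obtain ⟨M, hM⟩ := (isCompact_Icc.image_of_continuousOn (hf.add hw)).bddAbove
  have hM' : ∀ x ∈ Icc (-1 : ℝ) 1, f t x + w t x ≤ M := fun x hx =>
    hM (mem_image_of_mem _ hx)
  set K : ℝ := max 1 (M - Real.log zeta0 - 2 * A) with hK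
  have hK1 : 1 ≤ K := le_max_left _ _
  have hK2 : M - Real.log zeta0 - 2 * A ≤ K := le_max_right _ _
  have e1 : Real.exp (-2 * K) < 1 := by
    rw [Real.exp_lt_one_iff]
    linarith only [hK1]
  have e2 := Real.exp_pos (-2 * K)
  refine ⟨Real.sqrt (1 - Real.exp (-2 * K)), ⟨Real.sqrt_nonneg _, ?_⟩, ?_⟩
  · rw [Real.sqrt_lt' one_pos]
    linarith only [e2]
  · have h3 : 1 - Real.sqrt (1 - Real.exp (-2 * K)) ^ 2 = Real.exp (-2 * K) := by
      rw [Real.sq_sqrt (by linarith only [e1])]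
      ring
    have h4 := hM' (Real.sqrt (1 - Real.exp (-2 * K))) ⟨by linarith only [e1, e2, Real.sqrt_nonneg (1 - Real.exp (-2 * K))], by
      rw [Real.sqrt_le_one]
      linarith only [e2]⟩
    unfold rho
    rw [h3, Real.log_exp]
    linarith only [hK2, h4]

/-- there is a point with `y = ρ₀` -/
theorem exists_yv_eq (h : ConfSol 20 w f T) (ht : t ∈ Ico 0 T) (hT : T ≤ 1) {r : ℝ} (hr : 0 < r)
    (h0 : r ≤ yv w f t 0) : ∃ x ∈ Ico (0 : ℝ) 1, yv w f t x = r := by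
  have hτ : 0 < tau t := by unfold tau; linarith only [ht, hT, ht.2]
  have hs := Real.sqrt_pos.2 hτ
  obtain ⟨x₁, hx₁, hx₁'⟩ := exists_rho_le h ht (Real.log (r * Real.sqrt (tau t)))
  have h1 : yv w f t x₁ ≤ r := by
    unfold yv
    rw [div_le_iff₀ hs]
    unfold rr
    calc Real.exp (rho w f t x₁) ≤ Real.exp (Real.log (r * Real.sqrt (tau t))) :=
          Real.exp_le_exp.2 hx₁'
      _ = r * Real.sqrt (tau t) := Real.exp_log (by positivity)
  have hc : ContinuousOn (yv w f t) (Icc 0 x₁) := by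
    have h2 : ContinuousOn (rho w f t) (Icc 0 x₁) := (cont_rho_slice h ht).mono fun x hx =>
      ⟨hx.1, hx.2.trans_lt hx₁.2⟩
    exact h2.rexp.div_const _
  obtain ⟨x, hx, hx'⟩ := intermediate_value_Icc' hx₁.1 hc ⟨h1, h0⟩
  exact ⟨x, ⟨hx.1, hx.2.trans_lt hx₁.2⟩, hx'⟩

end

/-- the size of `F` at the tip -/
theorem f_tip_le {q : Par} {g : ℝ → ℝ} {w f : Fn} {T t : ℝ} (h : ConfSol 20 w f T) (hT : T ≤ 1)
    (hQ : Qual w f T) (ht : t ∈ Ico 0 T) (hB : Boot q g w f t) (hr : 0 < q.rho0)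
    (hr1 : q.rho0 ≤ 1) (hN : 4 ≤ q.N) (hMU : 0 ≤ q.MU) (heps : 0 ≤ q.eps) :
    f t 1 ≤ Real.log (q.rho0 * Real.sqrt (tau t)) + q.MU * q.eps / 2 + Real.log zeta0 / 2 := by
  have hτ : 0 < tau t := by unfold tau; linarith only [hT, ht, ht.2]
  have hτ1 : tau t ≤ 1 := by unfold tau; linarith only [ht, ht.1]
  have hs := Real.sqrt_pos.2 hτ
  have hs1 : Real.sqrt (tau t) ≤ 1 := Real.sqrt_le_one.2 hτ1
  have h0 : q.rho0 ≤ yv w f t 0 := by
    have h1 := hB.b0 t ⟨ht.1, le_rfl⟩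
    unfold yv
    rw [le_div_iff₀ hs]
    nlinarith only [hr, hr1, hN, hs1, h1]
  obtain ⟨x, hx, hy⟩ := exists_yv_eq h ht hT hr h0
  have h2 := ((hB.b5 t ⟨ht.1, le_rfl⟩ x hx).b4 hy.ge (by rw [hy]; linarith only [hr1])).1
  have h3 : q.A t ≤ q.eps := by
    unfold Par.A
    have hl : 0 ≤ lam 3 := by
      have := M2.kap_lt
      unfold lam
      push_cast
      linarith only [this]
    have := Real.rpow_le_one hτ.le hτ1 hl
    nlinarith only [heps, this]
  have h4 : uu w f t x ≤ q.MU * q.eps :=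
    (le_abs_self _).trans (h2.trans (mul_le_mul_of_nonneg_left h3 hMU))
  have h5 : rr w f t x = q.rho0 * Real.sqrt (tau t) := by
    unfold yv at hy
    rw [div_eq_iff hs.ne'] at hy
    exact hy
  have h6 : rho w f t x = Real.log (q.rho0 * Real.sqrt (tau t)) := by
    rw [← log_rr, h5]
  have h7 := f_antitone h hQ ht (⟨hx.1, hx.2.le⟩ : x ∈ Icc (0 : ℝ) 1)
    (⟨zero_le_one, le_rfl⟩ : (1 : ℝ) ∈ Icc (0 : ℝ) 1) hx.2.le
  have h8 := f_eq w f t x
  rw [h6] at h8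
  linarith only [h4, h7, h8]

theorem f_tip_tendsto {q : Par} {g : ℝ → ℝ} {w f : Fn} (h : ConfSol 20 w f 1)
    (hQ : Qual w f 1) (hB : ∀ t ∈ Ico (0 : ℝ) 1, Boot q g w f t) (hr : 0 < q.rho0)
    (hr1 : q.rho0 ≤ 1) (hN : 4 ≤ q.N) (hMU : 0 ≤ q.MU) (heps : 0 ≤ q.eps) (A : ℝ) :
    ∃ t ∈ Ico (0 : ℝ) 1, f t 1 < A := by
  set K : ℝ := max 0 (Real.log q.rho0 + q.MU * q.eps / 2 + Real.log zeta0 / 2 - A + 1) with hK
  have hK0 : 0 ≤ K := le_max_left _ _
  have hK1 : Real.log q.rho0 + q.MU * q.eps / 2 + Real.log zeta0 / 2 - A + 1 ≤ K :=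
    le_max_right _ _
  have e1 := Real.exp_pos (-(2 * K))
  have e2 : Real.exp (-(2 * K)) ≤ 1 := Real.exp_le_one_iff.2 (by linarith only [hK0])
  have ht : 1 - Real.exp (-(2 * K)) ∈ Ico (0 : ℝ) 1 := ⟨by linarith only [e2], by linarith only [e1]⟩
  refine ⟨_, ht, ?_⟩
  have h1 := f_tip_le h le_rfl hQ ht (hB _ ht) hr hr1 hN hMU heps
  have h2 : Real.sqrt (tau (1 - Real.exp (-(2 * K)))) = Real.exp (-K) := by
    unfold tau
    rw [sub_sub_cancel, show -(2 * K) = -K + -K by ring, Real.exp_add,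
      Real.sqrt_mul_self (Real.exp_pos _).le]
  rw [h2, Real.log_mul hr.ne' (Real.exp_pos _).ne', Real.log_exp] at h1
  linarith only [hK1, h1]

end Vale.Agent.P244.ST.C2
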