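import Mathlib

/-!
# P244-ST / block M3 : the closure inequality for `f` in region I (helper288)

Pure inequality at a touching point, all quantities divided by `cosh u`:
`T = tanh u`, `c = cosh u`, `k = g/T`, `g = k T`, `q = 39 - g²/4`, `κ₀ = 1 - 2/k = c₀/c`,
`g₁ = g' = q κ₀`, `z = Z_s/c = 39/q`, `a = 1/20`, `l = h'/h = a/T - T` for
`h = T^a c^{-(1-a)}`.
-/

namespace Vale.Agent.P244.ST.ClF

lemma ab {x y X Y : ℝ} (hx : |x| ≤ X) (hy : |y| ≤ Y) : |x * y| ≤ X * Y := by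
  rw [abs_mul]
  exact mul_le_mul hx hy (abs_nonneg _) ((abs_nonneg _).trans hx)

lemma ad {x y X Y : ℝ} (hx : |x| ≤ X) (hy : |y| ≤ Y) : |x + y| ≤ X + Y :=
  (abs_add_le _ _).trans (add_le_add hx hy)

lemma as {x y X Y : ℝ} (hx : |x| ≤ X) (hy : |y| ≤ Y) : |x - y| ≤ X + Y :=
  (abs_sub _ _).trans (add_le_add hx hy)

/-- the quantities at a point -/
structure Pt where
  T : ℝ
  c : ℝ
  k : ℝ

namespace Pt

variable (P : Pt)

noncomputable section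

def g : ℝ := P.k * P.T
def q : ℝ := 39 - P.g ^ 2 / 4
def ka : ℝ := 1 - 2 / P.k
def g1 : ℝ := P.q * P.ka
def z : ℝ := 39 / P.q
/-- `g h'/h` -/
def gl : ℝ := P.k * (1 / 20 - P.T ^ 2)
def al : ℝ := 4 - 4 * P.g1 / P.k - P.k * P.T ^ 2
def mu : ℝ := P.k ^ 2 * (1 - P.T ^ 2) * (P.T ^ 2 + 1 / 20)
def nu : ℝ := P.k * P.T ^ 2 - 2 + 2 * P.g1 / P.k

end

/-- the constraints -/
structure Ok : Prop where
  T0 : 0 < P.T
  T1 : P.T < 1
  c0 : 0 < P.c
  c2 : P.c ^ 2 * (1 - P.T ^ 2) = 1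
  k2 : 2 < P.k
  kk : P.k < 2.1147
  g2 : P.k * P.T < 2
  mono : P.g1 ≤ P.k * (1 - P.T ^ 2)

variable {P}

theorem Ok.TT (h : P.Ok) : 0 < P.T ^ 2 ∧ P.T ^ 2 < 1 := by
  have h0 := h.T0
  have h1 := h.T1
  constructor
  · positivity
  · nlinarith only [h0, h1]

theorem Ok.gpos (h : P.Ok) : 0 < P.g := mul_pos (by have := h.k2; linarith only [this]) h.T0

theorem Ok.g_lt (h : P.Ok) : P.g < 2 := h.g2

theorem Ok.gsq (h : P.Ok) : 0 < P.g ^ 2 ∧ P.g ^ 2 < 4 := by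
  have h0 := h.gpos
  have h1 := h.g_lt
  constructor
  · positivity
  · nlinarith only [h0, h1]

theorem Ok.q_bd (h : P.Ok) : 38 < P.q ∧ P.q < 39 := by
  have h0 := h.gsq
  simp only [q]
  constructor <;> linarith only [h0]

theorem Ok.ka_bd (h : P.Ok) : 0 < P.ka ∧ P.ka < 0.05424 := by
  have h0 := h.k2
  have h1 := h.kk
  have hk : 0 < P.k := by linarith only [h0, h1]
  simp only [ka]
  constructor
  · rw [sub_pos, div_lt_one hk]; exact h0
  · rw [sub_lt_iff_lt_add, ← sub_lt_iff_lt_add', lt_div_iff₀ hk]; linarith only [h0, h1]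

theorem Ok.g1_bd (h : P.Ok) : 0 < P.g1 ∧ P.g1 < 2.1147 := by
  have h0 := h.q_bd
  have h1 := h.ka_bd
  have h2 := h.mono
  have h3 := h.TT
  have h4 := h.kk
  have h5 := h.k2
  constructor
  · exact mul_pos (by linarith only [h0, h1]) h1.1
  · have : P.k * (1 - P.T ^ 2) ≤ P.k * 1 := by
      apply mul_le_mul_of_nonneg_left <;> linarith only [h3, h1, h5]
    linarith only [h2, h4, this]

/-- `κ₀ ≤ k (1 - T²)/q` -/
theorem Ok.ka_le (h : P.Ok) : P.ka * P.c ^ 2 ≤ 0.05566 := by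
  have h0 := h.q_bd
  have h2 := h.mono
  have h4 := h.kk
  have h5 := h.k2
  have h6 := h.c2
  have hc := h.c0
  have h7 : P.q * P.ka * P.c ^ 2 ≤ P.k := by
    have : P.g1 * P.c ^ 2 ≤ P.k * (1 - P.T ^ 2) * P.c ^ 2 :=
      mul_le_mul_of_nonneg_right h2 (by positivity)
    have e : P.k * (1 - P.T ^ 2) * P.c ^ 2 = P.k := by linear_combination P.k * h6
    rw [e] at this
    exact this
  have h8 : 38 * (P.ka * P.c ^ 2) ≤ P.q * (P.ka * P.c ^ 2) :=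
    mul_le_mul_of_nonneg_right h0.1.le (mul_nonneg h.ka_bd.1.le (by positivity))
  have : P.q * (P.ka * P.c ^ 2) = P.q * P.ka * P.c ^ 2 := by ring
  linarith only [h4, h5, h7, h8]

theorem Ok.z_bd (h : P.Ok) : 1 < P.z ∧ P.z < 1.0264 := by
  have h0 := h.q_bd
  have hq : 0 < P.q := by linarith only [h0]
  simp only [z]
  constructor
  · rw [one_lt_div hq]; exact h0.2
  · rw [div_lt_iff₀ hq]; linarith only [h0]

theorem Ok.gl_abs (h : P.Ok) : |P.gl| ≤ 2.1147 := by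
  have h3 := h.TT
  have h4 := h.kk
  have h5 := h.k2
  rw [gl, abs_mul, abs_of_pos (by linarith only [h4, h5] : 0 < P.k)]
  have : |1 / 20 - P.T ^ 2| ≤ 1 := by rw [abs_le]; constructor <;> linarith only [h3, h4, h5]
  calc P.k * |1 / 20 - P.T ^ 2| ≤ 2.1147 * 1 := by
        apply mul_le_mul h4.le this (abs_nonneg _) (by norm_num)
    _ = _ := by norm_num

theorem Ok.gl_le (h : P.Ok) : P.gl ≤ 2.1147 / 20 := by
  have h3 := h.TT
  have h4 := h.kk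
  have h5 := h.k2
  rw [gl]
  have : P.k * (1 / 20 - P.T ^ 2) ≤ P.k * (1 / 20) :=
    mul_le_mul_of_nonneg_left (by linarith only [h3]) (by linarith only [h4, h5])
  linarith only [h4, this]

theorem Ok.g1k (h : P.Ok) : 0 < P.g1 / P.k ∧ P.g1 / P.k ≤ 1 - P.T ^ 2 := by
  have h2 := h.mono
  have h5 := h.k2
  have hk : 0 < P.k := by linarith only [h5]
  refine ⟨div_pos h.g1_bd.1 hk, ?_⟩
  rw [div_le_iff₀ hk]; linarith only [h2]

theorem Ok.nu_abs (h : P.Ok) : |P.nu| * P.c ^ 2 ≤ 2 := by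
  have h1 := h.g1k
  have h3 := h.TT
  have h4 := h.kk
  have h5 := h.k2
  have hk : 0 < P.k := by linarith only [h4, h5]
  have e : P.nu = P.k * P.T ^ 2 - 2 + 2 * (P.g1 / P.k) := by rw [nu]; ring
  have hlow : -(2 * (1 - P.T ^ 2)) ≤ P.nu := by
    rw [e]
    have : 2 * P.T ^ 2 ≤ P.k * P.T ^ 2 := by nlinarith only [h5]
    linarith only [h1, this, h1.1]
  have hka := h.ka_le
  -- `(k-2) T² = k κ₀ T² = (k/q) g₁ T² ≤ 2 (1-T²)`
  have hup : P.nu ≤ 2 * (1 - P.T ^ 2) := by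
    rw [e]
    have h6 : P.ka * P.k = P.k - 2 := by rw [ka]; field_simp
    have h7 : P.q * P.ka ≤ P.k * (1 - P.T ^ 2) := h.mono
    have h8 : (P.k - 2) * P.T ^ 2 ≤ 2 * (1 - P.T ^ 2) := by
      have h9 : 38 * (P.k - 2) ≤ P.q * (P.k - 2) :=
        mul_le_mul_of_nonneg_right h.q_bd.1.le (by linarith only [h5])
      have h10 : P.q * (P.k - 2) = P.q * P.ka * P.k := by rw [← h6]; ring
      have h11 : P.q * P.ka * P.k ≤ P.k * (1 - P.T ^ 2) * P.k :=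
        mul_le_mul_of_nonneg_right h7 hk.le
      have h12 : P.k * (1 - P.T ^ 2) * P.k ≤ 4.5 * (1 - P.T ^ 2) := by
        have : P.k * P.k ≤ 4.5 := by nlinarith only [h1, h3, h4, h5]
        nlinarith only [h1, this]
      have h13 : (P.k - 2) * P.T ^ 2 ≤ P.k - 2 := by nlinarith only [h1, h5]
      nlinarith only [h1, h9, h10, h11, h12, h13]
    -- now need k T² - 2 + 2 g1/k ≤ (k-2) T²
    have : P.k * P.T ^ 2 - 2 + 2 * (P.g1 / P.k) ≤ (P.k - 2) * P.T ^ 2 := by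
      linarith only [h1, h1.2]
    linarith only [h1, h8]
  have h6 := h.c2
  have hc := h.c0
  have : |P.nu| ≤ 2 * (1 - P.T ^ 2) := abs_le.2 ⟨hlow, hup⟩
  calc |P.nu| * P.c ^ 2 ≤ 2 * (1 - P.T ^ 2) * P.c ^ 2 :=
        mul_le_mul_of_nonneg_right this (by positivity)
    _ = 2 := by linear_combination 2 * h6

theorem Ok.nu_abs' (h : P.Ok) : |P.nu| ≤ 2 := by
  have h1 := h.nu_abs
  have h6 := h.c2
  have hc := h.c0
  have h3 := h.TT
  have : 1 ≤ P.c ^ 2 := by nlinarith only [h6]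
  have h7 := abs_nonneg P.nu
  nlinarith only [h1, h6, h3, this]

theorem Ok.al_abs (h : P.Ok) : |P.al| ≤ 4 := by
  have h1 := h.g1k
  have h3 := h.TT
  have h4 := h.kk
  have h5 := h.k2
  have e : P.al = 4 - 4 * (P.g1 / P.k) - P.k * P.T ^ 2 := by rw [al]; ring
  rw [e, abs_le]
  constructor
  · nlinarith only [h1, h3, h4, h5]
  · nlinarith only [h1, h3, h5]

theorem Ok.mu_bd (h : P.Ok) : 0 ≤ P.mu ∧ P.mu ≤ 2 := by
  have h3 := h.TT
  have h4 := h.kk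
  have h5 := h.k2
  have hk2 : P.k ^ 2 ≤ 4.5 := by nlinarith only [h3, h4, h5]
  rw [mu]
  constructor
  · have : 0 ≤ 1 - P.T ^ 2 := by linarith only [h3]
    positivity
  · have h6 : (1 - P.T ^ 2) * (P.T ^ 2 + 1 / 20) ≤ 0.28 := by nlinarith only [h4, h5, sq_nonneg (P.T ^ 2 - 19 / 40)]
    have h7 : 0 ≤ (1 - P.T ^ 2) * (P.T ^ 2 + 1 / 20) := mul_nonneg (by linarith only [h3]) (by linarith only [h3, h4, h5])
    calc P.k ^ 2 * (1 - P.T ^ 2) * (P.T ^ 2 + 1 / 20)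
        = P.k ^ 2 * ((1 - P.T ^ 2) * (P.T ^ 2 + 1 / 20)) := by ring
      _ ≤ 4.5 * 0.28 := mul_le_mul hk2 h6 h7 (by norm_num)
      _ ≤ 2 := by norm_num

/-- the unperturbed part -/
noncomputable def M (P : Pt) : ℝ :=
  P.gl * (P.z * (2 - P.gl) + 39 * (4 / P.k - 1)) + P.z * (P.g ^ 2 / 2) * (2 - P.gl) +
    P.z * (P.mu - P.g1 * P.gl) + 39 * P.al

theorem Ok.M_ge (h : P.Ok) : 3.86 ≤ P.M := by
  have hk : 0 < P.k := by have := h.k2; linarith only [this]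
  have hq := h.q_bd
  have hq0 : 0 < P.q := by linarith only [hq]
  have h3 := h.TT
  have hw : 0 ≤ P.k * (1 - P.T ^ 2) - P.g1 := by linarith only [h, h.mono]
  have hg1 := h.g1_bd
  -- 39 g X'
  have hX : P.M - 1 / 20 * P.k * (P.z * (2 - P.gl) + 39 * (4 / P.k - 1)) =
      39 * (P.k * (P.k * (1 - P.T ^ 2) - P.g1) * (1 / 20 / P.q + 4 / P.k ^ 2 - P.T ^ 2 / P.q) +
        (2 - 1 / 20 * P.k) * P.k ^ 2 * P.T ^ 2 * P.g1 / (2 * P.q ^ 2) +
        2 * P.k ^ 2 * P.T ^ 2 * (1 - P.T ^ 2) / P.q +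
        P.k ^ 3 * P.T ^ 4 * P.g1 / (2 * P.q ^ 2)) := by
    have hg : P.g1 = P.q * P.ka := rfl
    have hka : P.ka = (P.k - 2) / P.k := by rw [ka]; field_simp
    have hqq : P.q = 39 - (P.k * P.T) ^ 2 / 4 := rfl
    have hqne : P.q ≠ 0 := hq0.ne'
    have hkne : P.k ≠ 0 := hk.ne'
    simp only [M, mu, al, gl, z, g]
    rw [hg, hka]
    generalize P.q = q at hqq hqne ⊢
    have hT2 : P.T ^ 2 = (156 - 4 * q) / P.k ^ 2 := by
      rw [hqq]; field_simp; ring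
    have hT4 : P.T ^ 4 = ((156 - 4 * q) / P.k ^ 2) ^ 2 := by rw [← hT2]; ring
    rw [mul_pow, hT4, hT2]
    field_simp
    ring
  have hpos : 0 ≤ P.k * (P.k * (1 - P.T ^ 2) - P.g1) * (1 / 20 / P.q + 4 / P.k ^ 2 - P.T ^ 2 / P.q) +
        (2 - 1 / 20 * P.k) * P.k ^ 2 * P.T ^ 2 * P.g1 / (2 * P.q ^ 2) +
        2 * P.k ^ 2 * P.T ^ 2 * (1 - P.T ^ 2) / P.q +
        P.k ^ 3 * P.T ^ 4 * P.g1 / (2 * P.q ^ 2) := by
    have h4 := h.kk
    have i1 : P.T ^ 2 / P.q ≤ 1 / 38 := by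
      rw [div_le_div_iff₀ hq0 (by norm_num)]; nlinarith only [hq, h3]
    have i2 : 0.8 ≤ 4 / P.k ^ 2 := by
      rw [le_div_iff₀ (by positivity)]; nlinarith only [hk, hq, h4]
    have i3 : 0 < 1 / 20 / P.q := by positivity
    have i4 : 0 ≤ 1 / 20 / P.q + 4 / P.k ^ 2 - P.T ^ 2 / P.q := by
      have : (1 : ℝ) / 38 ≤ 0.8 := by norm_num
      linarith only [hq, i1, i2, i3]
    have i5 : 0 ≤ 2 - 1 / 20 * P.k := by linarith only [hq, h4]
    have i6 : 0 ≤ 1 - P.T ^ 2 := by linarith only [h3]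
    have j1 := mul_nonneg (mul_nonneg hk.le hw) i4
    have j2 : 0 ≤ (2 - 1 / 20 * P.k) * P.k ^ 2 * P.T ^ 2 * P.g1 / (2 * P.q ^ 2) := by
      have := hg1.1.le
      positivity
    have j3 : 0 ≤ 2 * P.k ^ 2 * P.T ^ 2 * (1 - P.T ^ 2) / P.q := by positivity
    have j4 : 0 ≤ P.k ^ 3 * P.T ^ 4 * P.g1 / (2 * P.q ^ 2) := by
      have := hg1.1.le
      positivity
    linarith only [j1, j2, j3, j4]
  have hlow : 3.86 ≤ 1 / 20 * P.k * (P.z * (2 - P.gl) + 39 * (4 / P.k - 1)) := by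
    have h5 := h.k2
    have h4 := h.kk
    have hz := h.z_bd
    have hgl := h.gl_le
    have e : 1 / 20 * P.k * (P.z * (2 - P.gl) + 39 * (4 / P.k - 1)) =
        1 / 20 * (P.k * (P.z * (2 - P.gl)) + 39 * (4 - P.k)) := by field_simp
    rw [e]
    have i1 : 1.894 ≤ P.z * (2 - P.gl) := by
      have : 1 * (1.894 : ℝ) ≤ P.z * (2 - P.gl) := by
        apply mul_le_mul hz.1.le _ (by norm_num) (by linarith only [hz])
        norm_num at hgl ⊢
        linarith only [hz, hgl]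
      linarith only [this]
    have i2 : 2 * 1.894 ≤ P.k * (P.z * (2 - P.gl)) :=
      mul_le_mul h5.le i1 (by norm_num) hk.le
    norm_num at i2 h4 ⊢
    linarith only [hz, i2, h4]
  linarith only [hX, hpos, hlow]

/-! ## the perturbed expression -/

/-- small quantities at the point: `e`, `θ`, `D_r θ` -/
structure Sm where
  e : ℝ
  th : ℝ
  Dth : ℝ

/-- `g l (Λ + Q) - D_r Λ - (D_r Q - 2 Q)/e`, divided by `c` -/
noncomputable def EE (P : Pt) (S : Sm) : ℝ :=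
  P.M + (P.gl * P.z * ((1 + S.th) * (2 - (1 - S.e) * P.gl) - (2 - P.gl)) +
    P.gl * 39 * P.ka * (S.e ^ 2 + S.th * (1 - S.e) ^ 2) -
    P.z * S.Dth * (2 - (1 - S.e) * P.gl) +
    P.z * (P.g ^ 2 / 2) * ((1 + S.th) * (1 - S.e) * (2 - (1 - S.e) * P.gl) - (2 - P.gl)) +
    P.z * ((1 + S.th) * (1 - S.e) ^ 2 - 1) * (P.mu - P.g1 * P.gl) -
    P.z * (1 + S.th) * P.gl * (S.e * (2 - (1 - S.e) * P.gl)) -
    39 * S.e * P.al +
    39 * (1 - S.e) * P.nu * (S.e + S.th / S.e * (1 - S.e) ^ 2) -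
    39 * P.ka * (2 * (S.e * (2 - (1 - S.e) * P.gl)) + (1 - S.e) ^ 2 * (S.Dth / S.e) -
      2 * (1 - S.e) * (S.th / S.e) * (S.e * (2 - (1 - S.e) * P.gl))) +
    78 * P.ka * (S.e + S.th / S.e * (1 - S.e) ^ 2))

/-- smallness hypotheses: `|e| ≤ 10⁻³`, and `ω = θ/e`, `σ = D_rθ/e` small against `c²` -/
structure SmOk (P : Pt) (S : Sm) : Prop where
  e0 : S.e ≠ 0
  e1 : |S.e| ≤ 1 / 1000
  th1 : |S.th| ≤ 1 / 1000
  D1 : |S.Dth| ≤ 1 / 20
  om : |S.th / S.e| ≤ (1 / 100) * P.c ^ 2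
  sg : |S.Dth / S.e| ≤ (1 / 2) * P.c ^ 2

theorem EE_pos (h : P.Ok) {S : Sm} (hS : SmOk P S) : 0 < EE P S := by
  have hM := h.M_ge
  have he := hS.e1
  have ht := hS.th1
  have hgl := h.gl_abs
  have hz : |P.z| ≤ 1.0264 := by
    rw [abs_of_pos (by linarith only [h, h.z_bd.1])]; exact h.z_bd.2.le
  have h1e : |1 - S.e| ≤ 1.001 := by
    have := as (x := 1) (y := S.e) (X := 1) (by norm_num) he
    refine this.trans (by norm_num)
  have h1t : |1 + S.th| ≤ 1.001 := by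
    have := ad (x := 1) (y := S.th) (X := 1) (by norm_num) ht
    refine this.trans (by norm_num)
  have hGl : |(1 - S.e) * P.gl| ≤ 2.117 := (ab h1e hgl).trans (by norm_num)
  have h2G : |2 - (1 - S.e) * P.gl| ≤ 4.117 :=
    (as (X := 2) (by norm_num) hGl).trans (by norm_num)
  have hka : |P.ka| ≤ 0.05424 := by
    rw [abs_of_pos h.ka_bd.1]; exact h.ka_bd.2.le
  have hg1 : |P.g1| ≤ 2.1147 := by
    rw [abs_of_pos h.g1_bd.1]; exact h.g1_bd.2.le
  have hmu : |P.mu| ≤ 2 := by rw [abs_of_nonneg h.mu_bd.1]; exact h.mu_bd.2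
  have hal := h.al_abs
  have hg2 : |P.g ^ 2 / 2| ≤ 2 := by
    rw [abs_of_pos (by have := h.gsq.1; positivity)]; linarith only [h, h.gsq.2]
  have hc := h.c0
  have hc2 : 0 < P.c ^ 2 := by positivity
  -- bounds of the products with ω, σ
  have hq : |(1 - S.e) ^ 2| ≤ 1.003 := by
    rw [abs_pow]
    calc |1 - S.e| ^ 2 ≤ 1.001 ^ 2 := pow_le_pow_left₀ (abs_nonneg _) h1e 2
      _ ≤ 1.003 := by norm_num
  have hee : |S.e ^ 2| ≤ 0.000001 := by
    rw [abs_pow]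
    calc |S.e| ^ 2 ≤ (1 / 1000) ^ 2 := pow_le_pow_left₀ (abs_nonneg _) he 2
      _ ≤ _ := by norm_num
  have hkc := h.ka_le
  have hnc := h.nu_abs
  have hkom : |P.ka * (S.th / S.e)| ≤ 0.0006 := by
    rw [abs_mul]
    calc |P.ka| * |S.th / S.e| ≤ |P.ka| * ((1 / 100) * P.c ^ 2) :=
          mul_le_mul_of_nonneg_left hS.om (abs_nonneg _)
      _ = (1 / 100) * (P.ka * P.c ^ 2) := by rw [abs_of_pos h.ka_bd.1]; ring
      _ ≤ 0.0006 := by linarith only [hkc]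
  have hksg : |P.ka * (S.Dth / S.e)| ≤ 0.028 := by
    rw [abs_mul]
    calc |P.ka| * |S.Dth / S.e| ≤ |P.ka| * ((1 / 2) * P.c ^ 2) :=
          mul_le_mul_of_nonneg_left hS.sg (abs_nonneg _)
      _ = (1 / 2) * (P.ka * P.c ^ 2) := by rw [abs_of_pos h.ka_bd.1]; ring
      _ ≤ 0.028 := by linarith only [hkc]
  have hnom : |P.nu * (S.th / S.e)| ≤ 0.02 := by
    rw [abs_mul]
    calc |P.nu| * |S.th / S.e| ≤ |P.nu| * ((1 / 100) * P.c ^ 2) :=
          mul_le_mul_of_nonneg_left hS.om (abs_nonneg _)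
      _ = (1 / 100) * (|P.nu| * P.c ^ 2) := by ring
      _ ≤ 0.02 := by linarith only [hnc]
  -- the pieces
  have b1 : |(1 + S.th) * (2 - (1 - S.e) * P.gl) - (2 - P.gl)| ≤ 0.0063 := by
    have e1 : (1 + S.th) * (2 - (1 - S.e) * P.gl) - (2 - P.gl) =
        S.th * (2 - (1 - S.e) * P.gl) + S.e * P.gl := by ring
    rw [e1]
    exact (ad (ab ht h2G) (ab he hgl)).trans (by norm_num)
  have p1 := ab (ab hgl hz) b1
  have b2 : |S.e ^ 2 + S.th * (1 - S.e) ^ 2| ≤ 0.00101 :=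
    (ad hee (ab ht hq)).trans (by norm_num)
  have p2 := ab (ab (ab hgl (y := 39) (Y := 39) (by norm_num)) hka) b2
  have p3 := ab (ab hz hS.D1) h2G
  have b4 : |(1 + S.th) * (1 - S.e) * (2 - (1 - S.e) * P.gl) - (2 - P.gl)| ≤ 0.0105 := by
    have e1 : (1 + S.th) * (1 - S.e) * (2 - (1 - S.e) * P.gl) - (2 - P.gl) =
        (S.th * (1 - S.e) - S.e) * (2 - (1 - S.e) * P.gl) + S.e * P.gl := by ring
    rw [e1]
    exact (ad (ab (as (ab ht h1e) he) h2G) (ab he hgl)).trans (by norm_num)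
  have p4 := ab (ab hz hg2) b4
  have b5 : |(1 + S.th) * (1 - S.e) ^ 2 - 1| ≤ 0.0031 := by
    have e1 : (1 + S.th) * (1 - S.e) ^ 2 - 1 = S.th * (1 - S.e) ^ 2 - S.e * (1 + (1 - S.e)) := by
      ring
    rw [e1]
    exact (as (ab ht hq) (ab he (ad (X := 1) (by norm_num) h1e))).trans (by norm_num)
  have p5 := ab (ab hz b5) (as hmu (ab hg1 hgl))
  have p6 := ab (ab (ab hz h1t) hgl) (ab he h2G)
  have p7 := ab (ab (x := 39) (X := 39) (by norm_num) he) hal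
  have p8 : |39 * (1 - S.e) * P.nu * (S.e + S.th / S.e * (1 - S.e) ^ 2)| ≤ 0.87 := by
    have e1 : 39 * (1 - S.e) * P.nu * (S.e + S.th / S.e * (1 - S.e) ^ 2) =
        39 * (1 - S.e) * (P.nu * S.e + P.nu * (S.th / S.e) * (1 - S.e) ^ 2) := by ring
    rw [e1]
    exact (ab (ab (x := 39) (X := 39) (by norm_num) h1e)
      (ad (ab h.nu_abs' he) (ab hnom hq))).trans (by norm_num)
  have p9 : |39 * P.ka * (2 * (S.e * (2 - (1 - S.e) * P.gl)) + (1 - S.e) ^ 2 * (S.Dth / S.e) -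
      2 * (1 - S.e) * (S.th / S.e) * (S.e * (2 - (1 - S.e) * P.gl)))| ≤ 1.13 := by
    have e1 : 39 * P.ka * (2 * (S.e * (2 - (1 - S.e) * P.gl)) + (1 - S.e) ^ 2 * (S.Dth / S.e) -
      2 * (1 - S.e) * (S.th / S.e) * (S.e * (2 - (1 - S.e) * P.gl))) =
      39 * (P.ka * (2 * (S.e * (2 - (1 - S.e) * P.gl))) +
        (1 - S.e) ^ 2 * (P.ka * (S.Dth / S.e)) -
      2 * (1 - S.e) * (P.ka * (S.th / S.e)) * (S.e * (2 - (1 - S.e) * P.gl))) := by ring
    rw [e1]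
    have i1 := ab hka (ab (x := 2) (X := 2) (by norm_num) (ab he h2G))
    have i2 := ab hq hksg
    have i3 := ab (ab (ab (x := 2) (X := 2) (by norm_num) h1e) hkom) (ab he h2G)
    exact (ab (x := 39) (X := 39) (by norm_num) (as (ad i1 i2) i3)).trans (by norm_num)
  have p10 : |78 * P.ka * (S.e + S.th / S.e * (1 - S.e) ^ 2)| ≤ 0.06 := by
    have e1 : 78 * P.ka * (S.e + S.th / S.e * (1 - S.e) ^ 2) =
        78 * (P.ka * S.e + P.ka * (S.th / S.e) * (1 - S.e) ^ 2) := by ring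
    rw [e1]
    exact (ab (x := 78) (X := 78) (by norm_num)
      (ad (ab hka he) (ab hkom hq))).trans (by norm_num)
  have htot := ad (as (ad (as (as (ad (ad (as (ad p1 p2) p3) p4) p5) p6) p7) p8) p9) p10
  have hfin := (abs_le.1 htot).1
  unfold EE
  have hnum : (2.1147 * 1.0264 * 0.0063 + 2.1147 * 39 * 0.05424 * 0.00101 +
      1.0264 * (1 / 20) * 4.117 + 1.0264 * 2 * 0.0105 +
      1.0264 * 0.0031 * (2 + 2.1147 * 2.1147) + 1.0264 * 1.001 * 2.1147 * (1 / 1000 * 4.117) +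
      39 * (1 / 1000) * 4 + 0.87 + 1.13 + 0.06 : ℝ) < 3.86 := by norm_num
  linarith only [hM, hfin]

end Pt

end Vale.Agent.P244.ST.ClF
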