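import Vale.Agent.P244.ST.Open

/-!
# P244-ST : the `ℝ`-algebra of smooth functions on an open set `Ω ⊆ ℝ × ℝ`

`sO Ω`, `mk H hH`, `toFn h`, derivations `dX`, `dT` (commuting).
-/

open Set Filter TopologicalSpace
open scoped ContDiff Topology

namespace Vale.Agent.P244.ST

noncomputable section

variable (Ω : Opens (ℝ × ℝ))

open Classical in
/-- extension by zero of a function on `Ω` -/
def extF (h : Ω → ℝ) : Fn := fun t x => if hz : (t, x) ∈ Ω then h ⟨(t, x), hz⟩ else 0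

variable {Ω}

lemma extF_mem (h : Ω → ℝ) {t x : ℝ} (hz : (t, x) ∈ Ω) : extF Ω h t x = h ⟨(t, x), hz⟩ := by
  rw [extF, dif_pos hz]

lemma extF_add (h k : Ω → ℝ) (t x : ℝ) : extF Ω (h + k) t x = extF Ω h t x + extF Ω k t x := by
  by_cases hz : (t, x) ∈ Ω
  · simp only [extF_mem _ hz, Pi.add_apply]
  · simp only [extF, dif_neg hz, add_zero]

lemma extF_mul (h k : Ω → ℝ) (t x : ℝ) : extF Ω (h * k) t x = extF Ω h t x * extF Ω k t x := by
  by_cases hz : (t, x) ∈ Ω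
  · simp only [extF_mem _ hz, Pi.mul_apply]
  · simp only [extF, dif_neg hz, mul_zero]

variable (Ω) in
/-- the algebra of smooth functions on `Ω` -/
def sO : Subalgebra ℝ (Ω → ℝ) where
  carrier := {h | Sm (Ω : Set (ℝ × ℝ)) (extF Ω h)}
  mul_mem' {a b} ha hb := by
    have h1 : Sm (Ω : Set (ℝ × ℝ)) fun t x => extF Ω a t x * extF Ω b t x := Sm.mul ha hb
    exact h1.congr fun z _ => extF_mul a b z.1 z.2
  add_mem' {a b} ha hb := by
    have h1 : Sm (Ω : Set (ℝ × ℝ)) fun t x => extF Ω a t x + extF Ω b t x := Sm.add ha hb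
    exact h1.congr fun z _ => extF_add a b z.1 z.2
  algebraMap_mem' c := by
    refine (Sm.const (Ω := (Ω : Set (ℝ × ℝ))) c).congr ?_
    rintro ⟨t, x⟩ hz
    exact extF_mem _ hz

/-- an element as a function of `(t,x)` -/
def toFn (h : sO Ω) : Fn := extF Ω h.1

lemma toFn_sm (h : sO Ω) : Sm (Ω : Set (ℝ × ℝ)) (toFn h) := h.2

/-- the element given by a smooth function -/
def mk (H : Fn) (hH : Sm (Ω : Set (ℝ × ℝ)) H) : sO Ω :=
  ⟨fun z => H z.1.1 z.1.2, hH.congr (by rintro ⟨t, x⟩ hz; exact extF_mem _ hz)⟩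

lemma toFn_mk {H : Fn} (hH : Sm (Ω : Set (ℝ × ℝ)) H) {t x : ℝ} (hz : (t, x) ∈ Ω) :
    toFn (mk H hH) t x = H t x := extF_mem _ hz

lemma sO_ext {h k : sO Ω} (e : ∀ t x, (t, x) ∈ Ω → toFn h t x = toFn k t x) : h = k := by
  apply Subtype.ext
  funext z
  obtain ⟨⟨t, x⟩, hz⟩ := z
  have := e t x hz
  rwa [toFn, toFn, extF_mem _ hz, extF_mem _ hz] at this

lemma mk_toFn (h : sO Ω) : mk (toFn h) (toFn_sm h) = h :=
  sO_ext fun _ _ hz => toFn_mk _ hz

lemma mk_congr {H K : Fn} (hH : Sm (Ω : Set (ℝ × ℝ)) H) (hK : Sm (Ω : Set (ℝ × ℝ)) K)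
    (e : ∀ t x, (t, x) ∈ Ω → H t x = K t x) : mk H hH = mk K hK :=
  sO_ext fun t x hz => by rw [toFn_mk _ hz, toFn_mk _ hz, e t x hz]

lemma toFn_add (h k : sO Ω) (t x : ℝ) : toFn (h + k) t x = toFn h t x + toFn k t x :=
  extF_add h.1 k.1 t x

lemma toFn_mul (h k : sO Ω) (t x : ℝ) : toFn (h * k) t x = toFn h t x * toFn k t x :=
  extF_mul h.1 k.1 t x

/-- evaluation at a point -/
def evO {t x : ℝ} (hz : (t, x) ∈ Ω) : sO Ω →ₐ[ℝ] ℝ :=
  (Pi.evalAlgHom ℝ (fun _ : Ω => ℝ) ⟨(t, x), hz⟩).comp (sO Ω).val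

lemma evO_eq {t x : ℝ} (hz : (t, x) ∈ Ω) (h : sO Ω) : evO hz h = toFn h t x := by
  rw [toFn, extF_mem _ hz]; rfl

lemma evO_mk {t x : ℝ} (hz : (t, x) ∈ Ω) {H : Fn} (hH : Sm (Ω : Set (ℝ × ℝ)) H) :
    evO hz (mk H hH) = H t x := rfl

lemma toFn_neg (h : sO Ω) {t x : ℝ} (hz : (t, x) ∈ Ω) : toFn (-h) t x = -toFn h t x := by
  rw [← evO_eq hz, map_neg, evO_eq hz]

lemma toFn_sub (h k : sO Ω) {t x : ℝ} (hz : (t, x) ∈ Ω) :
    toFn (h - k) t x = toFn h t x - toFn k t x := by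
  rw [← evO_eq hz, map_sub, evO_eq hz, evO_eq hz]

lemma toFn_pow (h : sO Ω) (n : ℕ) {t x : ℝ} (hz : (t, x) ∈ Ω) :
    toFn (h ^ n) t x = toFn h t x ^ n := by
  rw [← evO_eq hz, map_pow, evO_eq hz]

lemma toFn_one {t x : ℝ} (hz : (t, x) ∈ Ω) : toFn (1 : sO Ω) t x = 1 := by
  rw [← evO_eq hz, map_one]

lemma toFn_ofNat (n : ℕ) [n.AtLeastTwo] {t x : ℝ} (hz : (t, x) ∈ Ω) :
    toFn (ofNat(n) : sO Ω) t x = ofNat(n) := by
  rw [← evO_eq hz, map_ofNat]

lemma toFn_algebraMap (c : ℝ) {t x : ℝ} (hz : (t, x) ∈ Ω) :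
    toFn (algebraMap ℝ (sO Ω) c) t x = c := by
  rw [← evO_eq hz]; exact AlgHom.commutes _ c

lemma mk_mul {H K : Fn} (hH : Sm (Ω : Set (ℝ × ℝ)) H) (hK : Sm (Ω : Set (ℝ × ℝ)) K) :
    mk H hH * mk K hK = mk (fun t x => H t x * K t x) (hH.mul hK) := rfl

lemma mk_add {H K : Fn} (hH : Sm (Ω : Set (ℝ × ℝ)) H) (hK : Sm (Ω : Set (ℝ × ℝ)) K) :
    mk H hH + mk K hK = mk (fun t x => H t x + K t x) (hH.add hK) := rfl

lemma mk_sub {H K : Fn} (hH : Sm (Ω : Set (ℝ × ℝ)) H) (hK : Sm (Ω : Set (ℝ × ℝ)) K) :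
    mk H hH - mk K hK = mk (fun t x => H t x - K t x) (hH.sub hK) := rfl

lemma mk_neg {H : Fn} (hH : Sm (Ω : Set (ℝ × ℝ)) H) :
    -mk H hH = mk (fun t x => -H t x) hH.neg := rfl

/-! ### derivations -/

/-- `∂_x` -/
def dX : Derivation ℝ (sO Ω) (sO Ω) :=
  Derivation.mk'
    { toFun := fun h => mk (Dx (toFn h)) ((toFn_sm h).dx Ω.isOpen)
      map_add' := fun h k => by
        refine sO_ext fun t x hz => ?_
        rw [toFn_add, toFn_mk _ hz, toFn_mk _ hz, toFn_mk _ hz]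
        have h1 := (toFn_sm h).hasDeriv_x Ω.isOpen hz
        have h2 := (toFn_sm k).hasDeriv_x Ω.isOpen hz
        have h3 : toFn (h + k) t = toFn h t + toFn k t := by
          funext y; exact toFn_add h k t y
        rw [Dx, h3]
        exact (h1.add h2).deriv
      map_smul' := fun c h => by
        refine sO_ext fun t x hz => ?_
        have h1 := (toFn_sm h).hasDeriv_x Ω.isOpen hz
        have h3 : ∀ y, toFn (c • h) t y = c * toFn h t y := by
          intro y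
          rw [Algebra.smul_def, toFn_mul]
          by_cases hy : (t, y) ∈ Ω
          · rw [toFn_algebraMap _ hy]
          · simp only [toFn, extF, dif_neg hy, mul_zero]
        have h4 : toFn (c • h) t = fun y => c * toFn h t y := funext h3
        simp only [RingHom.id_apply]
        rw [toFn_mk _ hz, Dx, h4, (h1.const_mul c).deriv, Algebra.smul_def, toFn_mul,
          toFn_algebraMap _ hz, toFn_mk _ hz] }
    fun h k => by
      refine sO_ext fun t x hz => ?_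
      have h1 := (toFn_sm h).hasDeriv_x Ω.isOpen hz
      have h2 := (toFn_sm k).hasDeriv_x Ω.isOpen hz
      have h3 : toFn (h * k) t = toFn h t * toFn k t := by
        funext y; exact toFn_mul h k t y
      simp only [LinearMap.coe_mk, AddHom.coe_mk, smul_eq_mul]
      rw [toFn_mk _ hz, Dx, h3, (h1.mul h2).deriv, toFn_add, toFn_mul, toFn_mul, toFn_mk _ hz,
        toFn_mk _ hz]
      ring

/-- `∂_t` -/
def dT : Derivation ℝ (sO Ω) (sO Ω) :=
  Derivation.mk'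
    { toFun := fun h => mk (Dt (toFn h)) ((toFn_sm h).dt Ω.isOpen)
      map_add' := fun h k => by
        refine sO_ext fun t x hz => ?_
        rw [toFn_add, toFn_mk _ hz, toFn_mk _ hz, toFn_mk _ hz]
        have h1 := (toFn_sm h).hasDeriv_t Ω.isOpen hz
        have h2 := (toFn_sm k).hasDeriv_t Ω.isOpen hz
        have h3 : (fun s => toFn (h + k) s x) = fun s => toFn h s x + toFn k s x := by
          funext y; exact toFn_add h k y x
        rw [Dt, h3]
        exact (h1.add h2).deriv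
      map_smul' := fun c h => by
        refine sO_ext fun t x hz => ?_
        have h1 := (toFn_sm h).hasDeriv_t Ω.isOpen hz
        have h3 : ∀ y, toFn (c • h) y x = c * toFn h y x := by
          intro y
          rw [Algebra.smul_def, toFn_mul]
          by_cases hy : (y, x) ∈ Ω
          · rw [toFn_algebraMap _ hy]
          · simp only [toFn, extF, dif_neg hy, mul_zero]
        have h4 : (fun s => toFn (c • h) s x) = fun y => c * toFn h y x := funext h3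
        simp only [RingHom.id_apply]
        rw [toFn_mk _ hz, Dt, h4, (h1.const_mul c).deriv, Algebra.smul_def, toFn_mul,
          toFn_algebraMap _ hz, toFn_mk _ hz] }
    fun h k => by
      refine sO_ext fun t x hz => ?_
      have h1 := (toFn_sm h).hasDeriv_t Ω.isOpen hz
      have h2 := (toFn_sm k).hasDeriv_t Ω.isOpen hz
      have h3 : (fun s => toFn (h * k) s x) = (fun s => toFn h s x) * fun s => toFn k s x := by
        funext y; exact toFn_mul h k y x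
      simp only [LinearMap.coe_mk, AddHom.coe_mk, smul_eq_mul]
      rw [toFn_mk _ hz, Dt, h3, (h1.mul h2).deriv, toFn_add, toFn_mul, toFn_mul, toFn_mk _ hz,
        toFn_mk _ hz]
      ring

lemma dX_toFn (h : sO Ω) {t x : ℝ} (hz : (t, x) ∈ Ω) : toFn (dX h) t x = Dx (toFn h) t x :=
  toFn_mk ((toFn_sm h).dx Ω.isOpen) hz

lemma dT_toFn (h : sO Ω) {t x : ℝ} (hz : (t, x) ∈ Ω) : toFn (dT h) t x = Dt (toFn h) t x :=
  toFn_mk ((toFn_sm h).dt Ω.isOpen) hz

lemma dX_mk {H : Fn} (hH : Sm (Ω : Set (ℝ × ℝ)) H) :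
    dX (mk H hH) = mk (Dx H) (hH.dx Ω.isOpen) := by
  refine sO_ext fun t x hz => ?_
  rw [dX_toFn _ hz, toFn_mk _ hz]
  exact Dx_congr Ω.isOpen (fun z hz' => toFn_mk (t := z.1) (x := z.2) hH hz') hz

lemma dT_mk {H : Fn} (hH : Sm (Ω : Set (ℝ × ℝ)) H) :
    dT (mk H hH) = mk (Dt H) (hH.dt Ω.isOpen) := by
  refine sO_ext fun t x hz => ?_
  rw [dT_toFn _ hz, toFn_mk _ hz]
  exact Dt_congr Ω.isOpen (fun z hz' => toFn_mk (t := z.1) (x := z.2) hH hz') hz

lemma dT_dX (h : sO Ω) : dT (dX h) = dX (dT h) := by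
  conv_lhs => rw [← mk_toFn h]
  conv_rhs => rw [← mk_toFn h]
  rw [dX_mk, dT_mk, dT_mk, dX_mk]
  refine sO_ext fun t x hz => ?_
  rw [toFn_mk _ hz, toFn_mk _ hz]
  exact (toFn_sm h).comm Ω.isOpen hz

/-- `∂_x` of `mk H` from a pointwise derivative -/
lemma dX_mk_eq {H K : Fn} (hH : Sm (Ω : Set (ℝ × ℝ)) H) (hK : Sm (Ω : Set (ℝ × ℝ)) K)
    (e : ∀ t x, (t, x) ∈ Ω → HasDerivAt (H t) (K t x) x) : dX (mk H hH) = mk K hK := by
  rw [dX_mk]
  exact mk_congr _ _ fun t x hz => (e t x hz).deriv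

lemma dT_mk_eq {H K : Fn} (hH : Sm (Ω : Set (ℝ × ℝ)) H) (hK : Sm (Ω : Set (ℝ × ℝ)) K)
    (e : ∀ t x, (t, x) ∈ Ω → HasDerivAt (fun s => H s x) (K t x) t) :
    dT (mk H hH) = mk K hK := by
  rw [dT_mk]
  exact mk_congr _ _ fun t x hz => (e t x hz).deriv

end

end Vale.Agent.P244.ST
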