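import Vale.Agent.P244.ST.ClFSm
import Vale.Agent.P244.ST.OAlg

/-!
# P244-ST / block M3 : calculus of the barrier `fb` (helper288)
-/

open Set Filter
open scoped Topology ContDiff

namespace Vale.Agent.P244.ST.ClF

variable {q : Par}

/-- exponent of `fb` -/
noncomputable def fbL (q : Par) (t u : ℝ) : ℝ :=
  Real.log q.B - (1 + aa * lam 3) * Real.log (tau t) + aa * Real.log (Real.tanh u) -
    aa * (Real.log q.eps - kap * Real.log q.rho0) - (1 - aa) * Real.log (Real.cosh u)

theorem fb_eq (hq : QOk q) {t u : ℝ} (ht : t < 1) (hu : 0 < u) :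
    q.fb t u = Real.exp (fbL q t u) := by
  have h1 : 0 < tau t := by rw [tau]; linarith only [ht]
  have hT := PureF.tanh_pos hu
  have hc := Real.cosh_pos u
  have hB : 0 < q.B := by linarith only [hq, hq.B]
  have hT0 := hq.T0_pos ht
  have e1 : Real.log (q.T0 t) = Real.log q.eps + lam 3 * Real.log (tau t) -
      kap * Real.log q.rho0 := by
    rw [Par.T0, Par.A, Real.log_mul (mul_pos hq.eps (Real.rpow_pos_of_pos h1 _)).ne'
      (Real.rpow_pos_of_pos hq.rho0 _).ne', Real.log_mul hq.eps.ne'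
      (Real.rpow_pos_of_pos h1 _).ne', Real.log_rpow h1, Real.log_rpow hq.rho0]
    ring
  have hpos : 0 < q.fb t u := hq.fb_pos ht hu
  rw [← Real.exp_log hpos]
  congr 1
  rw [Par.fb, Real.log_mul (by positivity) (Real.rpow_pos_of_pos hc _).ne',
    Real.log_mul (by positivity) (Real.rpow_pos_of_pos (div_pos hT hT0) _).ne',
    Real.log_div hB.ne' h1.ne', Real.log_rpow (div_pos hT hT0), Real.log_rpow hc,
    Real.log_div hT.ne' hT0.ne', e1, fbL]
  ring

theorem hasDerivAt_fbL {tf uf : ℝ → ℝ} {s t' u' : ℝ} (h1 : HasDerivAt tf t' s)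
    (h2 : HasDerivAt uf u' s) (ht : tf s < 1) (hu : 0 < uf s) :
    HasDerivAt (fun s => fbL q (tf s) (uf s))
      ((1 + aa * lam 3) / tau (tf s) * t' +
        (aa / Real.tanh (uf s) - Real.tanh (uf s)) * u') s := by
  have h3 : 0 < tau (tf s) := by rw [tau]; linarith only [ht]
  have hT := PureF.tanh_pos hu
  have hc := Real.cosh_pos (uf s)
  have a1 : HasDerivAt (fun s => Real.log (tau (tf s))) (-t' / tau (tf s)) s := by
    have : HasDerivAt (fun s => tau (tf s)) (-t') s := by
      have := h1.const_sub 1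
      exact this
    exact this.log h3.ne'
  have a2 : HasDerivAt (fun s => Real.log (Real.tanh (uf s)))
      ((1 - Real.tanh (uf s) ^ 2) * u' / Real.tanh (uf s)) s :=
    ((PureF.hasDerivAt_tanh (uf s)).comp s h2).log hT.ne'
  have a3 : HasDerivAt (fun s => Real.log (Real.cosh (uf s)))
      (Real.sinh (uf s) * u' / Real.cosh (uf s)) s :=
    ((Real.hasDerivAt_cosh (uf s)).comp s h2).log hc.ne'
  have h := ((((a1.const_mul (1 + aa * lam 3)).const_sub (Real.log q.B)).add
    (a2.const_mul aa)).sub_const (aa * (Real.log q.eps - kap * Real.log q.rho0))).sub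
    (a3.const_mul (1 - aa))
  refine h.congr_deriv ?_
  rw [← PureF.tanh_mul_cosh (uf s)]
  field_simp
  ring

theorem hasDerivAt_fb (hq : QOk q) {tf uf : ℝ → ℝ} {s t' u' : ℝ} (h1 : HasDerivAt tf t' s)
    (h2 : HasDerivAt uf u' s) (ht : tf s < 1) (hu : 0 < uf s) :
    HasDerivAt (fun s => q.fb (tf s) (uf s))
      (q.fb (tf s) (uf s) * ((1 + aa * lam 3) / tau (tf s) * t' +
        (aa / Real.tanh (uf s) - Real.tanh (uf s)) * u')) s := by
  have h := (hasDerivAt_fbL (q := q) h1 h2 ht hu).exp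
  rw [← fb_eq hq ht hu] at h
  refine h.congr_of_eventuallyEq ?_
  filter_upwards [h1.continuousAt.eventually (gt_mem_nhds ht),
    h2.continuousAt.eventually (lt_mem_nhds hu)] with s' hs1 hs2
  exact fb_eq hq hs1 hs2

/-- smoothness of the barrier on open sets -/
theorem sm_fb (hq : QOk q) {Ω : Set (ℝ × ℝ)} {U : Fn} (hU : Sm Ω U)
    (ht : ∀ z ∈ Ω, z.1 < 1) (hu : ∀ z ∈ Ω, 0 < U z.1 z.2) :
    Sm Ω (fun t x => q.fb t (U t x)) := by
  have hL : Sm Ω (fun t x => fbL q t (U t x)) := by
    have s1 : Sm Ω (fun t _ => Real.log (tau t)) := by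
      refine Sm.log ((Sm.const 1).sub Sm.tvar) ?_
      intro z hz
      have := ht z hz
      have : 0 < 1 - z.1 := by linarith only [this]
      exact this.ne'
    have s2 : Sm Ω (fun t x => Real.tanh (U t x)) := by
      have : Sm Ω (fun t x => Real.sinh (U t x) / Real.cosh (U t x)) :=
        Sm.div hU.sinh hU.cosh (fun z _ => (Real.cosh_pos _).ne')
      refine this.congr ?_
      intro z _
      exact Real.tanh_eq_sinh_div_cosh _
    have s3 : Sm Ω (fun t x => Real.log (Real.tanh (U t x))) :=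
      Sm.log s2 (fun z hz => (PureF.tanh_pos (hu z hz)).ne')
    have s4 : Sm Ω (fun t x => Real.log (Real.cosh (U t x))) :=
      Sm.log hU.cosh (fun z _ => (Real.cosh_pos _).ne')
    exact ((((Sm.const _).sub ((Sm.const _).mul s1)).add ((Sm.const _).mul s3)).sub
      (Sm.const _)).sub ((Sm.const _).mul s4)
  refine hL.exp.congr ?_
  intro z hz
  exact fb_eq hq (ht z hz) (hu z hz)

end Vale.Agent.P244.ST.ClF
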