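import Vale.Agent.P244.ST.ClFNum
import Vale.Agent.P244.ST.FrameBub

/-!
# P244-ST / block M3 : the touching point contradiction in a frame (helper288)

`ev : R → ℝ` is the evaluation at the touching point.
-/

namespace Vale.Agent.P244.ST

noncomputable section

open ClF

variable {R : Type*} [CommRing R] [Algebra ℝ R] {A : Frame R} {κ : R}

/-- the barrier `K = (B/τ) (T/T₀)^a cosh^{-(1-a)} u` as an element -/
structure BarF (b : Bub A κ) where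
  T : R
  iT : R
  K : R
  om : R
  T_ch : T * A.ch = A.sh
  T_iT : T * iT = 1
  Ds_K : A.Ds K = (algebraMap ℝ R (1 / 20) * iT - T) * K * A.P
  Dt_K : A.Dt K = K * (om + (algebraMap ℝ R (1 / 20) * iT - T) * A.V)

lemma Frame.Ds_alg (A : Frame R) (r : ℝ) : A.Ds (algebraMap ℝ R r) = 0 := by
  have := A.Ds.map_algebraMap r
  exact this

namespace BarF

variable {b : Bub A κ} (c : BarF b)

/-- `l = a/T - T` -/
def l : R := algebraMap ℝ R (1 / 20) * c.iT - c.T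

/-- `l'` -/
def lu : R := -(1 - c.T ^ 2) * (1 + algebraMap ℝ R (1 / 20) * c.iT ^ 2)

lemma Ds_T : A.Ds c.T = (1 - c.T ^ 2) * A.P := by
  have h1 : A.Ds A.ch = A.sh * A.P := A.Ds_ch
  have h2 : A.Ds A.sh = A.ch * A.P := A.Ds_sh
  have h := congrArg A.Ds c.T_ch
  rw [Frame.Ds_mul, h1, h2] at h
  have h3 := b.ch_ich
  have h4 := c.T_ch
  linear_combination b.ich * h - (A.Ds c.T - (1 - c.T ^ 2) * A.P) * h3 + b.ich * c.T * A.P * h4

lemma Ds_iT : A.Ds c.iT = (-c.iT ^ 2 * (1 - c.T ^ 2)) * A.P := by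
  rw [Bub.inv_Ds c.T_iT c.Ds_T]; ring

lemma Ds_l : A.Ds c.l = c.lu * A.P := by
  rw [l, lu, map_sub, Frame.Ds_mul, A.Ds_alg, c.Ds_iT, c.Ds_T]; ring

lemma Dr_l : A.Dr κ c.l = -c.lu * A.G κ := Bub.Dr_of_u c.Ds_l

lemma Dr_K : A.Dr κ c.K = -(A.G κ * c.l * c.K) := by
  rw [Bub.Dr_of_u (k1 := c.l * c.K) c.Ds_K]; ring

lemma DrDr_K : A.Dr κ (A.Dr κ c.K) =
    c.K * ((A.G κ * c.l) ^ 2 - A.Dr κ (A.G κ) * c.l + A.G κ ^ 2 * c.lu) := by
  have h1 := congrArg (A.Dr κ) c.Dr_K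
  rw [h1, Frame.Dr_neg, Frame.Dr_mul, Frame.Dr_mul, c.Dr_K, c.Dr_l]
  ring

lemma Tr_K : A.Tr κ c.K = c.K * (c.om + c.l * A.Tr κ A.u) := by
  have h3 : A.Tr κ A.u = A.V - A.yt * (κ * A.P) := rfl
  have h4 : A.Ds c.K = c.l * c.K * A.P := c.Ds_K
  have h5 : A.Dt c.K = c.K * (c.om + c.l * A.V) := c.Dt_K
  rw [h3, Frame.Tr, h4, h5]; ring

end BarF

namespace Bub

variable (b : Bub A κ)

/-- `A_s = 39 (4 sinh u / g - cosh u)` -/
def As : R := 39 * (2 * A.sh * b.ih - A.ch)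

/-- `Q = 39 c₀ (e² + th (1-e)²)` -/
def Q : R := 39 * b.c0 * (b.e ^ 2 + b.th * (1 - b.e) ^ 2)

/-- the flux, second form -/
lemma Fl_eq : b.Fl = A.Z * A.Dr κ b.f + (2 * A.Z + b.As) * b.f + b.Q * A.ir := by
  have h1 := b.h1_Zs
  have h2 := b.Z_eq
  have h3 : b.c0 = A.ch - A.sh * b.ih := rfl
  have h4 := A.r2_ir
  have h5 : b.f = b.e * A.ir := rfl
  rw [Fl, AA, As, Q, h5]
  have h6 : 2 * A.Z * b.h1 = 39 * b.c0 * (1 + b.th) := by
    rw [h2]; linear_combination (1 + b.th) * h1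
  linear_combination (-2 * b.e * A.ir + A.r2 * b.e ^ 2 * A.ir ^ 2) * h6 +
    39 * b.c0 * (1 + b.th) * b.e ^ 2 * A.ir * h4 - 78 * b.e * A.ir * h3

lemma Ds_As : A.Ds b.As =
    39 * (2 * A.ch * b.ih - 2 * A.sh * b.ih ^ 2 * b.h1 - A.sh) * A.P := by
  have h1 : A.Ds A.ch = A.sh * A.P := A.Ds_ch
  have h2 : A.Ds A.sh = A.ch * A.P := A.Ds_sh
  rw [As]
  simp only [Frame.Ds_mul, Frame.Ds_ofNat, map_sub, h1, h2, b.Ds_ih]
  ring

lemma Dr_As : A.Dr κ b.As =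
    -(39 * (2 * A.ch * b.ih - 2 * A.sh * b.ih ^ 2 * b.h1 - A.sh)) * A.G κ :=
  Dr_of_u b.Ds_As

lemma Dr_one : A.Dr κ (1 : R) = 0 := by rw [Frame.Dr, Frame.Ds_one, mul_zero]

lemma Dr_Q : A.Dr κ b.Q =
    39 * (-(A.G κ * (A.sh - A.ch * b.ih + A.sh * b.ih ^ 2 * b.h1))) *
      (b.e ^ 2 + b.th * (1 - b.e) ^ 2) +
    39 * b.c0 * (2 * b.e * A.Dr κ b.e + A.Dr κ b.th * (1 - b.e) ^ 2 -
      2 * b.th * (1 - b.e) * A.Dr κ b.e) := by
  rw [Q, Frame.Dr_mul, Frame.Dr_mul, Frame.Dr_ofNat, b.Dr_c0, Frame.Dr_add, Frame.Dr_sq,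
    Frame.Dr_mul, Frame.Dr_sq, Frame.Dr_sub, Dr_one]
  ring

lemma Dr_Z2 : A.Dr κ A.Z = b.Zs * A.Dr κ b.th - (1 + b.th) * (b.h * b.Zs) * A.G κ := by
  have h1 := congrArg (A.Dr κ) b.Z_eq
  rw [h1, Frame.Dr_mul, Frame.Dr_add, Dr_one, b.Dr_Zs]
  ring

/-- (FF) expanded -/
lemma FF' : A.r2 * A.Tr κ b.f = A.Dr κ A.Z * A.Dr κ b.f + A.Z * A.Dr κ (A.Dr κ b.f) +
    (2 * A.Dr κ A.Z + A.Dr κ b.As) * b.f + (2 * A.Z + b.As) * A.Dr κ b.f +
    (A.Dr κ b.Q - 2 * b.Q) * A.ir := by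
  rw [b.FF, Fl_eq, Frame.Dr_add, Frame.Dr_add, Frame.Dr_mul, Frame.Dr_mul, Frame.Dr_add,
    Frame.Dr_mul, Frame.Dr_mul, Frame.Dr_ofNat, A.Dr_ir b.hk]
  ring

end Bub

open Bub in
/-- **no touching in a frame** -/
theorem no_touch_frame {b : Bub A κ} (c : BarF b) (ev : R →+* ℝ) {P : Pt} (hP : P.Ok)
    (hT : ev c.T = P.T) (hch : ev A.ch = P.c) (hh : 2 * ev b.h = P.g)
    (hS : P.SmOk ⟨ev b.e, ev b.th, ev (A.Dr κ b.th)⟩) (hr2 : 0 < ev A.r2) (hK : 0 < ev c.K)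
    (hwt : 0 ≤ ev c.om) {σ : ℝ} (hσ : σ * σ = 1) (h0 : σ * ev b.f = ev c.K)
    (h1 : σ * ev (A.Dr κ b.f) = ev (A.Dr κ c.K))
    (h2 : σ * ev (A.Dr κ (A.Dr κ b.f)) ≤ ev (A.Dr κ (A.Dr κ c.K)))
    (h3 : ev (A.Tr κ c.K) ≤ σ * ev (A.Tr κ b.f)) (halg : ev (algebraMap ℝ R (1 / 20)) = 1 / 20)
    (hZ : 0 ≤ ev A.Z) : False := by
  have hk0 : P.k ≠ 0 := by have := hP.k2; linarith only [this]
  have hT0 : P.T ≠ 0 := hP.T0.ne'
  have hc0 : P.c ≠ 0 := hP.c0.ne'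
  have hg0 : P.g ≠ 0 := hP.gpos.ne'
  have hq0 : P.q ≠ 0 := by have := hP.q_bd.1; linarith only [this]
  have hh' : ev b.h = P.g / 2 := by linarith only [hh]
  have e39 : ev (39 : R) = 39 := map_ofNat ev 39
  have e2 : ev (2 : R) = 2 := map_ofNat ev 2
  have e78 : ev (78 : R) = 78 := map_ofNat ev 78
  have e4 : ev (4 : R) = 4 := map_ofNat ev 4
  have vsh : ev A.sh = P.s := by
    rw [← c.T_ch, map_mul, hT, hch, Pt.s]; ring
  have viT : ev c.iT = 1 / P.T := by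
    have h := congrArg ev c.T_iT
    rw [map_mul, hT, map_one] at h
    field_simp
    linarith only [h]
  have vih : ev b.ih = 2 / P.g := by
    have h := congrArg ev b.h_ih
    rw [map_mul, hh', map_one] at h
    field_simp
    linarith only [h]
  have vq : ev (39 - b.h ^ 2) = P.q := by
    rw [map_sub, map_pow, e39, hh', Pt.q]; ring
  have viq : ev b.iq = 1 / P.q := by
    have h := congrArg ev b.q_iq
    rw [map_mul, vq, map_one] at h
    field_simp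
    linarith only [h]
  have vh1 : ev b.h1 = P.g1 / 2 := by
    have h := congrArg ev b.ode
    rw [map_mul (f := ev) (39 - b.h ^ 2), vq] at h
    simp only [map_mul, map_sub, e2, hh', hch, vsh] at h
    have hg : P.g = P.k * P.T := rfl
    have h5 : P.g * P.c * (2 * ev b.h1) = P.g * P.c * P.g1 := by
      have : P.g * P.c * P.g1 = P.q * (P.g * P.c - 2 * P.s) := by
        rw [Pt.g1, Pt.ka, Pt.s, hg]; field_simp
      rw [this]; linarith only [h]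
    have h6 : 2 * ev b.h1 = P.g1 := mul_left_cancel₀ (mul_ne_zero hg0 hc0) h5
    linarith only [h6]
  have vZs : ev b.Zs = P.Zs := by
    rw [Bub.Zs, map_mul, map_mul, e39, hch, viq, Pt.Zs, Pt.z]; ring
  have vc0 : ev b.c0 = P.c0 := by
    have hg : P.g = P.k * P.T := rfl
    rw [Bub.c0, map_sub, map_mul, hch, vsh, vih, Pt.c0, Pt.ka, Pt.s, hg]; field_simp
  have vAs : ev b.As = P.As := by
    have hg : P.g = P.k * P.T := rfl
    rw [Bub.As, map_mul, map_sub, map_mul, map_mul, e39, e2, hch, vsh, vih, Pt.As, Pt.s, hg]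
    field_simp; ring
  have vl : ev c.l = P.l := by
    rw [BarF.l, map_sub, map_mul, halg, viT, hT, Pt.l]; ring
  have vlu : ev c.lu = P.lu := by
    rw [BarF.lu, map_mul, map_neg, map_sub, map_add, map_mul, map_pow, map_pow, map_one, halg,
      viT, hT, Pt.lu]; ring
  set S : Pt.Sm := ⟨ev b.e, ev b.th, ev (A.Dr κ b.th)⟩ with hSdef
  have vG' : ev (A.G κ) = Pt.vG P S := by
    rw [b.G_eq, map_mul, map_mul, map_sub, map_one, e2, hh', Pt.vG]; ring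
  have vZ' : ev A.Z = Pt.vZ P S := by
    rw [b.Z_eq, map_mul, map_add, map_one, vZs, Pt.vZ]
  set De : ℝ := ev (A.Dr κ b.e) with hDedef
  have vDG' : ev (A.Dr κ (A.G κ)) = Pt.wDG P S De := by
    rw [b.Dr_G]
    simp only [map_sub, map_mul, map_neg, map_pow, map_one, e2, e4, hh', vh1]
    rw [Pt.wDG, Pt.vG]
    ring
  have vDZ' : ev (A.Dr κ A.Z) = Pt.vDZ P S := by
    rw [b.Dr_Z2]
    simp only [map_sub, map_mul, map_add, map_one, vZs, hh', vG']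
    rw [Pt.vDZ]
    ring
  have vDAs' : ev (A.Dr κ b.As) = Pt.vDAs P S := by
    rw [b.Dr_As]
    simp only [map_sub, map_mul, map_neg, map_pow, e2, e39, hch, vsh, vih, vh1, vG']
    rw [Pt.vDAs, Pt.Asu]
    ring
  have vQ' : ev b.Q = Pt.vQ P S := by
    rw [Bub.Q]
    simp only [map_sub, map_mul, map_add, map_pow, map_one, e39, vc0]
    rw [Pt.vQ]
  have vDQ' : ev (A.Dr κ b.Q) = Pt.wDQ P S De := by
    rw [b.Dr_Q]
    simp only [map_sub, map_mul, map_add, map_neg, map_pow, map_one, e2, e39, hch, vsh, vih, vh1,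
      vc0, vG']
    rw [Pt.wDQ, Pt.c0u]
    ring
  have hr20 : ev A.r2 ≠ 0 := hr2.ne'
  have vir : ev A.ir = 1 / ev A.r2 := by
    have h := congrArg ev A.r2_ir
    rw [map_mul, map_one] at h
    field_simp
    linarith only [h]
  have hF : ev b.f * ev A.r2 = S.e := by
    have h := congrArg ev b.e_eq
    rw [map_mul] at h
    change _ = ev b.e
    rw [h]; ring
  have hDe : ev A.r2 * ev (A.Dr κ b.f) = De - 2 * S.e := by
    have h := congrArg ev b.Dr_e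
    rw [map_mul, map_add, map_mul, e2] at h
    rw [hDedef, h, ← hF]; ring
  have hFF : ev A.r2 * ev (A.Tr κ b.f) = Pt.vDZ P S * ev (A.Dr κ b.f) +
      Pt.vZ P S * ev (A.Dr κ (A.Dr κ b.f)) + (2 * Pt.vDZ P S + Pt.vDAs P S) * ev b.f +
      (2 * Pt.vZ P S + P.As) * ev (A.Dr κ b.f) + (Pt.wDQ P S De - 2 * Pt.vQ P S) / ev A.r2 := by
    have h := congrArg ev b.FF'
    simp only [map_mul, map_add, map_sub, e2, vDZ', vZ', vDAs', vAs, vDQ', vQ', vir] at h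
    rw [h]; ring
  have hTru : ev A.r2 * ev (A.Tr κ A.u) = Pt.vZ P S * (-Pt.wDG P S De) +
      39 * P.c * (-Pt.vG P S) + 78 * P.s := by
    have h := congrArg ev (A.E1 b.hk)
    have hu : A.Dr κ A.u = -A.G κ := A.Dr_u κ
    rw [hu, Frame.Dr_neg] at h
    simp only [map_mul, map_add, map_neg, e39, e78, vZ', vDG', vG', hch, vsh] at h
    exact h
  have hTrK : ev (A.Tr κ c.K) = ev c.K * (ev c.om + P.l * ev (A.Tr κ A.u)) := by
    rw [c.Tr_K, map_mul, map_add, map_mul, vl]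
  have hDrrK : ev (A.Dr κ (A.Dr κ c.K)) = ev c.K * ((Pt.vG P S * P.l) ^ 2 -
      Pt.wDG P S De * P.l - Pt.vG P S * (-(Pt.vG P S * P.lu))) := by
    rw [c.DrDr_K]
    simp only [map_mul, map_add, map_sub, map_pow, vG', vl, vDG', vlu]
    ring
  have h1' : σ * ev (A.Dr κ b.f) = -(Pt.vG P S * P.l * ev c.K) := by
    rw [h1, c.Dr_K, map_neg, map_mul, map_mul, vG', vl]
  exact Pt.no_touch hP hS hr2 hK hσ h0 hF hDe hwt hFF hTru hTrK hDrrK h1' h2 h3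
    (by rw [← vZ']; exact hZ)

end

end Vale.Agent.P244.ST
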