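import Vale.Agent.P244.ST.Open
import Vale.Agent.P244.ST.M.Touch

/-!
# P244-ST, block M6 : calculus of powers of `r` and the touching principle for the barriers
`C exp(ct) (r^β - 300 τ r^(β-2))` (helper568)
-/

open Set Filter
open scoped ContDiff Topology

namespace Vale.Agent.P244.ST.M6

open Vale.Agent.P244.ST

noncomputable section

/-- the open domain -/
def Om (T : ℝ) : Set (ℝ × ℝ) := Ioo 0 T ×ˢ Ioo (-1) 1

lemma isOpen_Om (T : ℝ) : IsOpen (Om T) := isOpen_Ioo.prod isOpen_Ioo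

variable {w f H K : Fn} {T t x : ℝ}

lemma sm_w (h : ConfSol 20 w f T) : Sm (Om T) w :=
  h.smooth_w.mono (prod_mono Ioo_subset_Ico_self Ioo_subset_Icc_self)

lemma sm_f (h : ConfSol 20 w f T) : Sm (Om T) f :=
  h.smooth_f.mono (prod_mono Ioo_subset_Ico_self Ioo_subset_Icc_self)

lemma sq_ne {z : ℝ × ℝ} (hz : z ∈ Om T) : 1 - z.2 ^ 2 ≠ 0 := by
  have := hz.2
  nlinarith only [this, this.1, this.2]

lemma sm_one_sub : Sm (Om T) (fun _ x => 1 - x ^ 2) := (Sm.const 1).sub (Sm.xvar.pow 2)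

lemma sm_log : Sm (Om T) (fun _ x => Real.log (1 - x ^ 2)) :=
  sm_one_sub.log fun _ hz => sq_ne hz

lemma sm_sx : Sm (Om T) (fun _ x => sx x) := sm_one_sub.sqrt fun _ hz => sq_ne hz

lemma sm_uu (h : ConfSol 20 w f T) : Sm (Om T) (uu w f) :=
  ((sm_f h).sub (sm_w h)).sub (sm_log.div (Sm.const 2) fun _ _ => two_ne_zero)

lemma sm_rho (h : ConfSol 20 w f T) : Sm (Om T) (rho w f) :=
  ((((sm_f h).add (sm_w h)).add (sm_log.div (Sm.const 2) fun _ _ => two_ne_zero)).sub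
    (Sm.const _)).div (Sm.const 2) fun _ _ => two_ne_zero

lemma sm_rr (h : ConfSol 20 w f T) : Sm (Om T) (rr w f) := (sm_rho h).exp

lemma sm_Ds (h : ConfSol 20 w f T) (hH : Sm (Om T) H) : Sm (Om T) (Ds w H) :=
  ((sm_sx.mul (sm_w h).neg.exp).neg).mul (hH.dx (isOpen_Om T))

lemma sm_rs (h : ConfSol 20 w f T) : Sm (Om T) (rs w f) := sm_Ds h (sm_rho h)

lemma sm_PP (h : ConfSol 20 w f T) : Sm (Om T) (PP w f) := sm_Ds h (sm_uu h)

lemma sm_Lp (h : ConfSol 20 w f T) (hH : Sm (Om T) H) : Sm (Om T) (Lp w f H) :=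
  (sm_Ds h (sm_Ds h hH)).add (((Sm.const 40).mul (sm_Ds h (sm_rho h))).mul (sm_Ds h hH))

lemma sm_VV (h : ConfSol 20 w f T) : Sm (Om T) (VV w f) :=
  (sm_Lp h (sm_uu h)).add ((((Sm.const 78).mul (sm_uu h).sinh)).div ((sm_rr h).pow 2)
    fun _ _ => pow_ne_zero 2 (Real.exp_pos _).ne')

/-! ### linear rules -/

lemma Ds_congr (he : ∀ z ∈ Om T, H z.1 z.2 = K z.1 z.2) (hz : (t, x) ∈ Om T) :
    Ds w H t x = Ds w K t x := by
  simp only [Ds, Dx_congr (isOpen_Om T) he hz]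

lemma Ds_sub (hH : Sm (Om T) H) (hK : Sm (Om T) K) (hz : (t, x) ∈ Om T) :
    Ds w (fun t x => H t x - K t x) t x = Ds w H t x - Ds w K t x := by
  have h1 : HasDerivAt (fun y => H t y - K t y) (Dx H t x - Dx K t x) x :=
    (hH.hasDeriv_x (isOpen_Om T) hz).sub (hK.hasDeriv_x (isOpen_Om T) hz)
  have h2 : Dx (fun t x => H t x - K t x) t x = Dx H t x - Dx K t x := h1.deriv
  simp only [Ds, h2]
  ring

lemma Ds_smul (c : ℝ) (hH : Sm (Om T) H) (hz : (t, x) ∈ Om T) :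
    Ds w (fun t x => c * H t x) t x = c * Ds w H t x := by
  have h1 : HasDerivAt (fun y => c * H t y) (c * Dx H t x) x :=
    (hH.hasDeriv_x (isOpen_Om T) hz).const_mul c
  have h2 : Dx (fun t x => c * H t x) t x = c * Dx H t x := h1.deriv
  simp only [Ds, h2]
  ring

lemma DT_sub (hH : Sm (Om T) H) (hK : Sm (Om T) K) (hz : (t, x) ∈ Om T) :
    DT w f (fun t x => H t x - K t x) t x = DT w f H t x - DT w f K t x := by
  have h1 : HasDerivAt (fun y => H t y - K t y) (Dx H t x - Dx K t x) x :=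
    (hH.hasDeriv_x (isOpen_Om T) hz).sub (hK.hasDeriv_x (isOpen_Om T) hz)
  have h2 : Dx (fun t x => H t x - K t x) t x = Dx H t x - Dx K t x := h1.deriv
  have h3 : HasDerivAt (fun s => H s x - K s x) (Dt H t x - Dt K t x) t :=
    (hH.hasDeriv_t (isOpen_Om T) hz).sub (hK.hasDeriv_t (isOpen_Om T) hz)
  have h4 : Dt (fun t x => H t x - K t x) t x = Dt H t x - Dt K t x := h3.deriv
  simp only [DT, h2, h4]
  ring

lemma DT_smul (c : ℝ) (hH : Sm (Om T) H) (hz : (t, x) ∈ Om T) :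
    DT w f (fun t x => c * H t x) t x = c * DT w f H t x := by
  have h1 : HasDerivAt (fun y => c * H t y) (c * Dx H t x) x :=
    (hH.hasDeriv_x (isOpen_Om T) hz).const_mul c
  have h2 : Dx (fun t x => c * H t x) t x = c * Dx H t x := h1.deriv
  have h3 : HasDerivAt (fun s => c * H s x) (c * Dt H t x) t :=
    (hH.hasDeriv_t (isOpen_Om T) hz).const_mul c
  have h4 : Dt (fun t x => c * H t x) t x = c * Dt H t x := h3.deriv
  simp only [DT, h2, h4]
  ring

lemma Lp_sub (h : ConfSol 20 w f T) (hH : Sm (Om T) H) (hK : Sm (Om T) K) (hz : (t, x) ∈ Om T) :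
    Lp w f (fun t x => H t x - K t x) t x = Lp w f H t x - Lp w f K t x := by
  have h1 : Ds w (Ds w fun t x => H t x - K t x) t x =
      Ds w (fun t x => Ds w H t x - Ds w K t x) t x :=
    Ds_congr (fun z hz' => Ds_sub (t := z.1) (x := z.2) hH hK hz') hz
  rw [Lp, h1, Ds_sub (sm_Ds h hH) (sm_Ds h hK) hz, Ds_sub hH hK hz, Lp, Lp]
  ring

lemma Lp_smul (h : ConfSol 20 w f T) (c : ℝ) (hH : Sm (Om T) H) (hz : (t, x) ∈ Om T) :
    Lp w f (fun t x => c * H t x) t x = c * Lp w f H t x := by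
  have h1 : Ds w (Ds w fun t x => c * H t x) t x =
      Ds w (fun t x => c * Ds w H t x) t x :=
    Ds_congr (fun z hz' => Ds_smul (t := z.1) (x := z.2) c hH hz') hz
  rw [Lp, h1, Ds_smul c (sm_Ds h hH) hz, Ds_smul c hH hz, Lp]
  ring

/-! ### powers of `r` -/

/-- `φ(t) r^β` -/
def pw (w f : Fn) (φ : ℝ → ℝ) (β : ℝ) : Fn := fun t x => φ t * Real.exp (β * rho w f t x)

lemma rr_rpow (β : ℝ) : rr w f t x ^ β = Real.exp (β * rho w f t x) := by
  rw [rr, ← Real.exp_mul, mul_comm]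

lemma sm_pw (h : ConfSol 20 w f T) {φ : ℝ → ℝ} (hφ : ContDiff ℝ ∞ φ) (β : ℝ) :
    Sm (Om T) (pw w f φ β) :=
  (Sm.comp' hφ Sm.tvar).mul ((Sm.const β).mul (sm_rho h)).exp

lemma Ds_pw (h : ConfSol 20 w f T) (φ : ℝ → ℝ) (β : ℝ) (hz : (t, x) ∈ Om T) :
    Ds w (pw w f φ β) t x = β * pw w f φ β t x * rs w f t x := by
  have h0 := (sm_rho h).hasDeriv_x (isOpen_Om T) hz
  have h1 : HasDerivAt (fun y => φ t * Real.exp (β * rho w f t y))
      (φ t * (Real.exp (β * rho w f t x) * (β * Dx (rho w f) t x))) x :=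
    ((h0.const_mul β).exp).const_mul (φ t)
  have h2 : Dx (pw w f φ β) t x = _ := h1.deriv
  rw [Ds, h2, rs, Ds, pw]
  ring

lemma DsDs_pw (h : ConfSol 20 w f T) (φ : ℝ → ℝ) (β : ℝ) (hz : (t, x) ∈ Om T) :
    Ds w (Ds w (pw w f φ β)) t x =
      β * pw w f φ β t x * (β * rs w f t x ^ 2 + Ds w (rs w f) t x) := by
  rw [Ds_congr (K := fun t x => β * pw w f φ β t x * rs w f t x)
    (fun z hz' => Ds_pw (t := z.1) (x := z.2) h φ β hz') hz]
  have h0 := (sm_rho h).hasDeriv_x (isOpen_Om T) hz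
  have h1 : HasDerivAt (fun y => φ t * Real.exp (β * rho w f t y))
      (φ t * (Real.exp (β * rho w f t x) * (β * Dx (rho w f) t x))) x :=
    ((h0.const_mul β).exp).const_mul (φ t)
  have h3 := (sm_rs h).hasDeriv_x (isOpen_Om T) hz
  have h4 : HasDerivAt (fun y => β * (φ t * Real.exp (β * rho w f t y)) * rs w f t y) _ x :=
    (h1.const_mul β).mul h3
  have h5 : Dx (fun t x => β * pw w f φ β t x * rs w f t x) t x = _ := h4.deriv
  have h6 : Ds w (rs w f) t x = -(sx x * Real.exp (-w t x)) * Dx (rs w f) t x := rfl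
  have h7 : rs w f t x = -(sx x * Real.exp (-w t x)) * Dx (rho w f) t x := rfl
  rw [Ds, h5, h6, pw]
  simp only [h7]
  ring

lemma Lp_pw (h : ConfSol 20 w f T) (φ : ℝ → ℝ) (β : ℝ) (hz : (t, x) ∈ Om T) :
    Lp w f (pw w f φ β) t x = β * pw w f φ β t x *
      (β * rs w f t x ^ 2 + Ds w (rs w f) t x + 40 * rs w f t x ^ 2) := by
  have h7 : Ds w (rho w f) t x = rs w f t x := rfl
  rw [Lp, DsDs_pw h φ β hz, Ds_pw h φ β hz, h7]
  ring

lemma DT_pw (h : ConfSol 20 w f T) {φ : ℝ → ℝ} {φ' : ℝ} (hφ : HasDerivAt φ φ' t) (β : ℝ)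
    (hz : (t, x) ∈ Om T) :
    DT w f (pw w f φ β) t x = φ' * Real.exp (β * rho w f t x) +
      β * pw w f φ β t x * DT w f (rho w f) t x := by
  have h0 := (sm_rho h).hasDeriv_x (isOpen_Om T) hz
  have h0t := (sm_rho h).hasDeriv_t (isOpen_Om T) hz
  have h1 : HasDerivAt (fun y => φ t * Real.exp (β * rho w f t y))
      (φ t * (Real.exp (β * rho w f t x) * (β * Dx (rho w f) t x))) x :=
    ((h0.const_mul β).exp).const_mul (φ t)
  have h2 : Dx (pw w f φ β) t x = _ := h1.deriv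
  have h3 : HasDerivAt (fun s => φ s * Real.exp (β * rho w f s x))
      (φ' * Real.exp (β * rho w f t x) +
        φ t * (Real.exp (β * rho w f t x) * (β * Dt (rho w f) t x))) t :=
    hφ.mul ((h0t.const_mul β).exp)
  have h4 : Dt (pw w f φ β) t x = _ := h3.deriv
  rw [DT, h2, h4, DT, pw]
  ring

/-- `(F7)` for powers of `r` -/
lemma op_pw (h : ConfSol 20 w f T) (hρ : DT w f (rho w f) t x = yy w f t x) {φ : ℝ → ℝ} {φ' : ℝ}
    (hφ : HasDerivAt φ φ' t) (β : ℝ) (hz : (t, x) ∈ Om T) :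
    DT w f (pw w f φ β) t x - Lp w f (pw w f φ β) t x =
      φ' * Real.exp (β * rho w f t x) - pw w f φ β t x *
        (39 * β * Real.cosh (uu w f t x) / rr w f t x ^ 2 + β ^ 2 * rs w f t x ^ 2) := by
  have h7 : Ds w (rho w f) t x = rs w f t x := rfl
  have h8 : Ds w (Ds w (rho w f)) t x = Ds w (rs w f) t x := rfl
  rw [DT_pw h hφ β hz, Lp_pw h φ β hz, hρ, yy, Lp, h7, h8]
  ring

/-! ### the barrier -/

/-- `C exp(ct) (r^β - 300 τ r^(β-2))` -/
def bar (w f : Fn) (C c β : ℝ) : Fn := fun t x =>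
  pw w f (fun t => C * Real.exp (c * t)) β t x -
    pw w f (fun t => C * Real.exp (c * t) * (300 * (1 - t))) (β - 2) t x

lemma sm_bar (h : ConfSol 20 w f T) (C c β : ℝ) : Sm (Om T) (bar w f C c β) :=
  (sm_pw h (by fun_prop) β).sub (sm_pw h (by fun_prop) (β - 2))

lemma bar_eq (C c β : ℝ) : bar w f C c β t x =
    C * Real.exp (c * t) * (rr w f t x ^ β - 300 * tau t * rr w f t x ^ (β - 2)) := by
  rw [bar, pw, pw, rr_rpow, rr_rpow, tau]
  ring

lemma op_bar (h : ConfSol 20 w f T) (hρ : DT w f (rho w f) t x = yy w f t x) (C c β : ℝ)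
    (hz : (t, x) ∈ Om T) :
    DT w f (bar w f C c β) t x - Lp w f (bar w f C c β) t x =
      c * bar w f C c β t x + C * Real.exp (c * t) *
      (-(rr w f t x ^ 2 * rr w f t x ^ (β - 2)) * (39 * β * Real.cosh (uu w f t x) /
          rr w f t x ^ 2 + β ^ 2 * rs w f t x ^ 2) -
        300 * (-(rr w f t x ^ (β - 2)) - tau t * rr w f t x ^ (β - 2) *
          (39 * (β - 2) * Real.cosh (uu w f t x) / rr w f t x ^ 2 +
            (β - 2) ^ 2 * rs w f t x ^ 2))) := by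
  have s1 : Sm (Om T) (pw w f (fun t => C * Real.exp (c * t)) β) := sm_pw h (by fun_prop) β
  have s2 : Sm (Om T) (pw w f (fun t => C * Real.exp (c * t) * (300 * (1 - t))) (β - 2)) :=
    sm_pw h (by fun_prop) (β - 2)
  have d1 : HasDerivAt (fun t => C * Real.exp (c * t)) (C * (Real.exp (c * t) * c)) t := by
    have := (((hasDerivAt_id t).const_mul c).exp).const_mul C
    simpa using this
  have d2 : HasDerivAt (fun t => C * Real.exp (c * t) * (300 * (1 - t)))
      (C * (Real.exp (c * t) * c) * (300 * (1 - t)) + C * Real.exp (c * t) * (300 * (-1))) t :=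
    d1.mul (((hasDerivAt_id t).const_sub 1).const_mul 300)
  have e1 := op_pw h hρ d1 β hz
  have e2 := op_pw h hρ d2 (β - 2) hz
  have e3 : DT w f (bar w f C c β) t x = _ := DT_sub s1 s2 hz
  have e4 : Lp w f (bar w f C c β) t x = _ := Lp_sub h s1 s2 hz
  have e5 : Real.exp (β * rho w f t x) = rr w f t x ^ 2 * rr w f t x ^ (β - 2) := by
    rw [rr_rpow, rr, ← Real.exp_nat_mul, ← Real.exp_add]
    congr 1
    push_cast
    ring
  have e6 : Real.exp ((β - 2) * rho w f t x) = rr w f t x ^ (β - 2) := by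
    rw [rr_rpow]
  have e7 : DT w f (bar w f C c β) t x - Lp w f (bar w f C c β) t x =
      (DT w f (pw w f (fun t => C * Real.exp (c * t)) β) t x -
        Lp w f (pw w f (fun t => C * Real.exp (c * t)) β) t x) -
      (DT w f (pw w f (fun t => C * Real.exp (c * t) * (300 * (1 - t))) (β - 2)) t x -
        Lp w f (pw w f (fun t => C * Real.exp (c * t) * (300 * (1 - t))) (β - 2)) t x) := by
    rw [e3, e4]; ring
  rw [e7, e1, e2, bar, pw, pw, e5, e6, tau]
  ring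

end

end Vale.Agent.P244.ST.M6
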