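import Vale.Agent.P244.ST.ClFBar
import Vale.Agent.P244.ST.ClFRing
import Vale.Agent.P244.ST.M6Cal

/-!
# P244-ST / block M3 : the touching argument for `f` over a bridge (helper288)
-/

open Set Filter TopologicalSpace
open scoped Topology ContDiff

namespace Vale.Agent.P244.ST.ClF

variable {Ω : Opens (ℝ × ℝ)}

/-- what is needed from the instance of the frame and of the bubble elements on `Ω` -/
structure Brg (g : ℝ → ℝ) (w f : Fn) (A : Frame (sO Ω)) {κ : sO Ω} (b : Bub A κ) : Prop where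
  aDs : ∀ h : sO Ω, ∀ t x, (t, x) ∈ Ω → toFn (A.Ds h) t x = Ds w (toFn h) t x
  aDt : ∀ h : sO Ω, ∀ t x, (t, x) ∈ Ω → toFn (A.Dt h) t x = DT w f (toFn h) t x
  au : ∀ t x, (t, x) ∈ Ω → toFn A.u t x = uu w f t x
  aρ : ∀ t x, (t, x) ∈ Ω → toFn A.ρ t x = rho w f t x
  ash : ∀ t x, (t, x) ∈ Ω → toFn A.sh t x = Real.sinh (uu w f t x)
  ach : ∀ t x, (t, x) ∈ Ω → toFn A.ch t x = Real.cosh (uu w f t x)
  ar2 : ∀ t x, (t, x) ∈ Ω → toFn A.r2 t x = rr w f t x ^ 2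
  aRs : ∀ t x, (t, x) ∈ Ω → toFn A.Rs t x = RR w f t x
  ae : ∀ t x, (t, x) ∈ Ω → toFn b.e t x = ee g w f t x
  ah : ∀ t x, (t, x) ∈ Ω → toFn b.h t x = g (uu w f t x) / 2

namespace Brg

variable {g : ℝ → ℝ} {w f : Fn} {A : Frame (sO Ω)} {κ : sO Ω} {b : Bub A κ}
  (B : Brg g w f A b) {t x : ℝ} (hz : (t, x) ∈ Ω)
include B hz

theorem vir : toFn A.ir t x = 1 / rr w f t x ^ 2 := by
  have h := congrArg (evO hz) A.r2_ir
  rw [map_mul, map_one, evO_eq, evO_eq, B.ar2 t x hz] at h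
  have : rr w f t x ^ 2 ≠ 0 := by
    intro h0; rw [h0, zero_mul] at h; exact zero_ne_one h
  rw [eq_div_iff this]
  linarith only [h]

theorem vf : toFn b.f t x = ff g w f t x := by
  rw [Bub.f, toFn_mul, B.ae t x hz, B.vir hz, ff]; ring

theorem vρs : toFn A.ρs t x = rs w f t x := by
  have h1 : toFn A.ρs t x = Ds w (toFn A.ρ) t x := B.aDs A.ρ t x hz
  rw [h1]
  have h2 : Dx (toFn A.ρ) t x = Dx (rho w f) t x :=
    Dx_congr Ω.isOpen (fun z hz' => B.aρ z.1 z.2 hz') hz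
  simp only [rs, Ds, h2]

theorem vZ : toFn A.Z t x = ZZ w f t x := by
  rw [Frame.Z, toFn_mul, toFn_pow _ _ hz, B.vρs hz, B.ar2 t x hz, ZZ]

theorem vZs (hg : IsBub g) (hu : 0 < uu w f t x) :
    toFn b.Zs t x = Zs g (uu w f t x) ∧ toFn b.iZs t x = 1 / Zs g (uu w f t x) := by
  have h0 : toFn b.Zs t x * (39 - (g (uu w f t x) / 2) ^ 2) = 39 * Real.cosh (uu w f t x) := by
    have h := congrArg (evO hz) b.Zs_q
    have e39 : evO hz (39 : sO Ω) = 39 := map_ofNat _ 39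
    rw [map_mul, Bub.q, map_sub, map_pow, map_mul, e39, evO_eq, evO_eq, evO_eq, B.ah t x hz,
      B.ach t x hz] at h
    exact h
  have hq : qb g (uu w f t x) = 39 - (g (uu w f t x) / 2) ^ 2 := by rw [qb]; ring
  have hq0 : 0 < qb g (uu w f t x) := by
    have := (ok_of hg hu).q_bd.1
    rw [ptOf_q hu] at this
    linarith only [this]
  have h1 : toFn b.Zs t x = Zs g (uu w f t x) := by
    rw [Zs, eq_div_iff hq0.ne', hq]; exact h0
  refine ⟨h1, ?_⟩
  have h := congrArg (evO hz) b.Zs_iZs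
  rw [map_mul, map_one, evO_eq, evO_eq, h1] at h
  have h2 : Zs g (uu w f t x) ≠ 0 := by
    have := Zs_ge hg hu
    have := Real.cosh_pos (uu w f t x)
    linarith
  rw [eq_div_iff h2]; linarith only [h]

theorem vth (hg : IsBub g) (hu : 0 < uu w f t x) : toFn b.th t x = th g w f t x := by
  rw [Bub.th, toFn_sub _ _ hz, toFn_mul, B.vZ hz, (B.vZs hz hg hu).2, toFn_one hz, th]; ring

/-- (TH) at the point -/
theorem vDth (hg : IsBub g) (hu : 0 < uu w f t x) : 40 * toFn (A.Dr κ b.th) t x =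
    -(40 * th g w f t x * (39 - (g (uu w f t x) / 2) ^ 2 +
      (g (uu w f t x) / 2) ^ 2 * ee g w f t x ^ 2)) -
      40 * (g (uu w f t x) / 2) ^ 2 * ee g w f t x ^ 2 -
      (rr w f t x) ^ 2 * RR w f t x * (1 / Zs g (uu w f t x)) := by
  have h := congrArg (evO hz) b.TH
  have e39 : evO hz (39 : sO Ω) = 39 := map_ofNat _ 39
  have e40 : evO hz (40 : sO Ω) = 40 := map_ofNat _ 40
  simp only [map_mul, map_sub, map_add, map_neg, map_pow, e39, e40] at h
  simp only [evO_eq hz, B.ah t x hz,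
    B.ae t x hz, B.vth hz hg hu, B.ar2 t x hz, B.aRs t x hz, (B.vZs hz hg hu).2] at h
  exact h

end Brg

/-- the barrier as an element -/
noncomputable def mkBar {g : ℝ → ℝ} {w f : Fn} {A : Frame (sO Ω)} {κ : sO Ω} {b : Bub A κ}
    (B : Brg g w f A b) {q : Par} (hq : QOk q) (hU : Sm (Ω : Set (ℝ × ℝ)) (uu w f))
    (h1 : ∀ z ∈ Ω, z.1 < 1) (hu : ∀ z ∈ Ω, 0 < uu w f z.1 z.2) : BarF b := by
  have s2 : Sm (Ω : Set (ℝ × ℝ)) (fun t x => Real.tanh (uu w f t x)) := by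
    have : Sm (Ω : Set (ℝ × ℝ)) (fun t x => Real.sinh (uu w f t x) / Real.cosh (uu w f t x)) :=
      Sm.div hU.sinh hU.cosh (fun z _ => (Real.cosh_pos _).ne')
    refine this.congr ?_
    intro z _
    exact Real.tanh_eq_sinh_div_cosh _
  have s3 : Sm (Ω : Set (ℝ × ℝ)) (fun t x => (Real.tanh (uu w f t x))⁻¹) :=
    s2.inv (fun z hz => (PureF.tanh_pos (hu z hz)).ne')
  have s4 : Sm (Ω : Set (ℝ × ℝ)) (fun t x => q.fb t (uu w f t x)) := sm_fb hq hU h1 hu
  have s5 : Sm (Ω : Set (ℝ × ℝ)) (fun t _ => (1 + aa * lam 3) / tau t) := by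
    refine (Sm.const (1 + aa * lam 3)).div ((Sm.const 1).sub Sm.tvar) ?_
    intro z hz
    have := h1 z hz
    have : 0 < 1 - z.1 := by linarith only [this]
    exact this.ne'
  have hUd : ∀ t x, (t, x) ∈ Ω → HasDerivAt (uu w f t) (Dx (uu w f) t x) x :=
    fun t x hz => hU.hasDeriv_x Ω.isOpen hz
  have hUt : ∀ t x, (t, x) ∈ Ω → HasDerivAt (fun s => uu w f s x) (Dt (uu w f) t x) t :=
    fun t x hz => hU.hasDeriv_t Ω.isOpen hz
  have hPx : ∀ t x, (t, x) ∈ Ω → toFn A.P t x = Ds w (uu w f) t x := by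
    intro t x hz
    have h1 : toFn A.P t x = Ds w (toFn A.u) t x := B.aDs A.u t x hz
    rw [h1]
    have h2 : Dx (toFn A.u) t x = Dx (uu w f) t x :=
      Dx_congr Ω.isOpen (fun z hz' => B.au z.1 z.2 hz') hz
    simp only [Ds, h2]
  have hVx : ∀ t x, (t, x) ∈ Ω → toFn A.V t x = DT w f (uu w f) t x := by
    intro t x hz
    have h1 : toFn A.V t x = DT w f (toFn A.u) t x := B.aDt A.u t x hz
    rw [h1]
    have h2 : Dx (toFn A.u) t x = Dx (uu w f) t x :=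
      Dx_congr Ω.isOpen (fun z hz' => B.au z.1 z.2 hz') hz
    have h3 : Dt (toFn A.u) t x = Dt (uu w f) t x :=
      Dt_congr Ω.isOpen (fun z hz' => B.au z.1 z.2 hz') hz
    simp only [DT, h2, h3]
  exact {
    T := mk _ s2
    iT := mk _ s3
    K := mk _ s4
    om := mk _ s5
    T_ch := by
      refine sO_ext fun t x hz => ?_
      rw [toFn_mul, toFn_mk s2 hz, B.ach t x hz, B.ash t x hz, PureF.tanh_mul_cosh]
    T_iT := by
      refine sO_ext fun t x hz => ?_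
      rw [toFn_mul, toFn_mk s2 hz, toFn_mk s3 hz, toFn_one hz,
        mul_inv_cancel₀ (PureF.tanh_pos (hu _ hz)).ne']
    Ds_K := by
      refine sO_ext fun t x hz => ?_
      have hK : HasDerivAt (fun y => q.fb t (uu w f t y)) (q.fb t (uu w f t x) *
          ((1 + aa * lam 3) / tau t * 0 + (aa / Real.tanh (uu w f t x) -
            Real.tanh (uu w f t x)) * Dx (uu w f) t x)) x :=
        hasDerivAt_fb hq (hasDerivAt_const x t) (hUd t x hz) (h1 _ hz) (hu _ hz)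
      have h2 : Dx (toFn (mk _ s4)) t x = _ :=
        (Dx_congr (K := fun t x => q.fb t (uu w f t x)) Ω.isOpen
          (fun z hz' => toFn_mk (t := z.1) (x := z.2) s4 hz') hz).trans hK.deriv
      have h3 : toFn (A.Ds (mk _ s4)) t x = _ := B.aDs (mk _ s4) t x hz
      rw [h3, Ds, h2]
      rw [toFn_mul, toFn_mul, toFn_sub _ _ hz, toFn_mul, toFn_algebraMap _ hz, toFn_mk s2 hz,
        toFn_mk s3 hz, toFn_mk s4 hz, hPx t x hz, Ds, aa]
      ring
    Dt_K := by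
      refine sO_ext fun t x hz => ?_
      have hK : HasDerivAt (fun y => q.fb t (uu w f t y)) (q.fb t (uu w f t x) *
          ((1 + aa * lam 3) / tau t * 0 + (aa / Real.tanh (uu w f t x) -
            Real.tanh (uu w f t x)) * Dx (uu w f) t x)) x :=
        hasDerivAt_fb hq (hasDerivAt_const x t) (hUd t x hz) (h1 _ hz) (hu _ hz)
      have hKt : HasDerivAt (fun s => q.fb s (uu w f s x)) (q.fb t (uu w f t x) *
          ((1 + aa * lam 3) / tau t * 1 + (aa / Real.tanh (uu w f t x) -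
            Real.tanh (uu w f t x)) * Dt (uu w f) t x)) t :=
        hasDerivAt_fb hq (hasDerivAt_id t) (hUt t x hz) (h1 _ hz) (hu _ hz)
      have h2 : Dx (toFn (mk _ s4)) t x = _ :=
        (Dx_congr (K := fun t x => q.fb t (uu w f t x)) Ω.isOpen
          (fun z hz' => toFn_mk (t := z.1) (x := z.2) s4 hz') hz).trans hK.deriv
      have h2' : Dt (toFn (mk _ s4)) t x = _ :=
        (Dt_congr (K := fun t x => q.fb t (uu w f t x)) Ω.isOpen
          (fun z hz' => toFn_mk (t := z.1) (x := z.2) s4 hz') hz).trans hKt.deriv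
      have h3 : toFn (A.Dt (mk _ s4)) t x = _ := B.aDt (mk _ s4) t x hz
      rw [h3, DT, h2, h2']
      rw [toFn_mul, toFn_add, toFn_mul, toFn_sub _ _ hz, toFn_mul, toFn_algebraMap _ hz,
        toFn_mk s2 hz, toFn_mk s3 hz, toFn_mk s4 hz, toFn_mk s5 hz, hVx t x hz, DT, aa]
      ring }

section

variable {g : ℝ → ℝ} {w f : Fn} {A : Frame (sO Ω)} {κ : sO Ω} {b : Bub A κ} {q : Par}

theorem mkBar_K (B : Brg g w f A b) (hq : QOk q) (hU : Sm (Ω : Set (ℝ × ℝ)) (uu w f))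
    (h1 : ∀ z ∈ Ω, z.1 < 1) (hu : ∀ z ∈ Ω, 0 < uu w f z.1 z.2) :
    (mkBar B hq hU h1 hu).K = mk (fun t x => q.fb t (uu w f t x)) (sm_fb hq hU h1 hu) := rfl

/-- **closure of `f` over a bridge** -/
theorem no_touch_brg (hg : IsBub g) (hq : QOk q) (B : Brg g w f A b) {T t x : ℝ}
    (hz : (t, x) ∈ Ω) (hU : Sm (Ω : Set (ℝ × ℝ)) (uu w f))
    (h1 : ∀ z ∈ Ω, z.1 < 1) (hu : ∀ z ∈ Ω, 0 < uu w f z.1 z.2)
    (hs : ConfSol 20 w f T) (ht : t ∈ Ioo 0 T) (hx : x ∈ Ioo (-1 : ℝ) 1)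
    (hFI : M.FI q g w f t x) (heq : |ff g w f t x| = q.fb t (uu w f t x))
    (hle : ∀ᶠ z : ℝ × ℝ in 𝓝 (t, x), z.1 ≤ t →
      |ff g w f z.1 z.2| ≤ q.fb z.1 (uu w f z.1 z.2)) : False := by
  obtain ⟨σ, hσ2, hσ, hσle⟩ : ∃ σ : ℝ, σ * σ = 1 ∧ σ * ff g w f t x = |ff g w f t x| ∧
      ∀ a : ℝ, σ * a ≤ |a| := by
    rcases le_total 0 (ff g w f t x) with h0 | h0
    · exact ⟨1, by norm_num, by rw [abs_of_nonneg h0, one_mul], fun a => by
        rw [one_mul]; exact le_abs_self a⟩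
    · exact ⟨-1, by norm_num, by rw [abs_of_nonpos h0]; ring, fun a => by
        rw [neg_one_mul]; exact neg_le_abs a⟩
  set c := mkBar B hq hU h1 hu with hc
  have hK : ∀ t x, (t, x) ∈ Ω → toFn c.K t x = q.fb t (uu w f t x) := by
    intro t x hz
    exact toFn_mk (sm_fb hq hU h1 hu) hz
  set d : sO Ω := algebraMap ℝ (sO Ω) σ * b.f - c.K with hd
  have hdv : ∀ t x, (t, x) ∈ Ω → toFn d t x = σ * ff g w f t x - q.fb t (uu w f t x) := by
    intro t x hz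
    rw [hd, toFn_sub _ _ hz, toFn_mul, toFn_algebraMap _ hz, B.vf hz, hK t x hz]
  have hd0 : toFn d t x = 0 := by rw [hdv t x hz, hσ, heq, sub_self]
  have hdle : ∀ᶠ z : ℝ × ℝ in 𝓝 (t, x), z.1 ≤ t → toFn d z.1 z.2 ≤ 0 := by
    filter_upwards [hle, Ω.isOpen.mem_nhds hz] with z hz1 hz2 hz3
    rw [hdv z.1 z.2 hz2]
    have h1 := hz1 hz3
    have h2 := hσle (ff g w f z.1 z.2)
    linarith only [h1, h2]
  have hdC : ContDiffAt ℝ 2 (fun z : ℝ × ℝ => toFn d z.1 z.2) (t, x) :=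
    ((toFn_sm d).at Ω.isOpen hz).of_le (by norm_cast)
  obtain ⟨-, m1, m2, -, -, m3, -⟩ := M.touch hs ht hx hdC hd0 hdle
  -- transfer to the algebra
  have k1 : evO hz (A.Ds d) = 0 := by
    rw [evO_eq, B.aDs d t x hz]; exact m1
  have k2 : evO hz (A.Ds (A.Ds d)) ≤ 0 := by
    rw [evO_eq, B.aDs _ t x hz]
    have : Dx (toFn (A.Ds d)) t x = Dx (Ds w (toFn d)) t x :=
      Dx_congr Ω.isOpen (fun z hz' => B.aDs d z.1 z.2 hz') hz
    have e : Ds w (toFn (A.Ds d)) t x = Ds w (Ds w (toFn d)) t x := by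
      simp only [Ds] at this ⊢
      rw [this]
    rw [e]; exact m2
  have k3 : 0 ≤ evO hz (A.Dt d) := by
    rw [evO_eq, B.aDt d t x hz]; exact m3
  have k4 : evO hz (A.Dr κ d) = 0 := by
    rw [Frame.Dr, map_mul, k1, mul_zero]
  have k5 : evO hz (A.Dr κ (A.Dr κ d)) ≤ 0 := by
    have e : A.Dr κ (A.Dr κ d) = κ * (κ * A.Ds (A.Ds d) + A.Ds d * A.Ds κ) := by
      simp only [Frame.Dr, Frame.Ds_mul]
    rw [e, map_mul, map_add, map_mul, map_mul, k1, zero_mul, add_zero, ← mul_assoc]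
    exact mul_nonpos_of_nonneg_of_nonpos (mul_self_nonneg _) k2
  have k6 : 0 ≤ evO hz (A.Tr κ d) := by
    rw [Frame.Tr, map_sub, map_mul, map_mul, k1, mul_zero, mul_zero, sub_zero]; exact k3
  -- linearity
  have hal : A.Ds (algebraMap ℝ (sO Ω) σ) = 0 := A.Ds_alg σ
  have hal' : A.Dt (algebraMap ℝ (sO Ω) σ) = 0 := A.Dt.map_algebraMap σ
  have l1 : ∀ h : sO Ω, A.Dr κ (algebraMap ℝ (sO Ω) σ * h) =
      algebraMap ℝ (sO Ω) σ * A.Dr κ h := by
    intro h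
    rw [Frame.Dr, Frame.Ds_mul, hal, Frame.Dr]; ring
  have l2 : A.Tr κ (algebraMap ℝ (sO Ω) σ * b.f) = algebraMap ℝ (sO Ω) σ * A.Tr κ b.f := by
    rw [Frame.Tr, Frame.Dt_mul, Frame.Ds_mul, hal, hal', Frame.Tr]; ring
  have hev : evO hz (algebraMap ℝ (sO Ω) σ) = σ := AlgHom.commutes _ σ
  have n1 : σ * evO hz (A.Dr κ b.f) = evO hz (A.Dr κ c.K) := by
    rw [hd, Frame.Dr_sub, l1, map_sub, map_mul, hev] at k4
    linarith only [hz, k4]
  have n2 : σ * evO hz (A.Dr κ (A.Dr κ b.f)) ≤ evO hz (A.Dr κ (A.Dr κ c.K)) := by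
    rw [hd, Frame.Dr_sub, l1, Frame.Dr_sub, l1, map_sub, map_mul, hev] at k5
    linarith only [hz, k5]
  have n3 : evO hz (A.Tr κ c.K) ≤ σ * evO hz (A.Tr κ b.f) := by
    rw [hd, Frame.Tr_sub, l2, map_sub, map_mul, hev] at k6
    linarith only [hz, k6]
  have hu0 := hu (t, x) hz
  have ht1 : t < 1 := h1 (t, x) hz
  have hP := ok_of hg hu0
  refine no_touch_frame (b := b) c (evO hz : sO Ω →+* ℝ) hP ?_ ?_ ?_ ?_ ?_ ?_ ?_ hσ2 ?_ n1 n2 n3
    ?_ ?_
  · exact (evO_eq hz _).trans (toFn_mk _ hz)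
  · exact (evO_eq hz _).trans (B.ach t x hz)
  · have : evO hz b.h = g (uu w f t x) / 2 := (evO_eq hz _).trans (B.ah t x hz)
    rw [ptOf_g hu0]
    change 2 * evO hz b.h = _
    rw [this]; ring
  · have e1 : evO hz b.e = ee g w f t x := (evO_eq hz _).trans (B.ae t x hz)
    have e2 : evO hz b.th = th g w f t x := (evO_eq hz _).trans (B.vth hz hg hu0)
    change (ptOf g (uu w f t x)).SmOk ⟨evO hz b.e, evO hz b.th, evO hz (A.Dr κ b.th)⟩
    rw [e1, e2, evO_eq]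
    exact smOk_of hg hq ht.1.le ht1 hFI heq (B.vDth hz hg hu0)
  · change 0 < evO hz A.r2
    rw [evO_eq, B.ar2 t x hz]
    have : 0 < rr w f t x := Real.exp_pos _
    positivity
  · change 0 < evO hz c.K
    rw [evO_eq, hK t x hz]
    exact hq.fb_pos ht1 hu0
  · change 0 ≤ evO hz c.om
    have : evO hz c.om = (1 + aa * lam 3) / tau t := (evO_eq hz _).trans (toFn_mk _ hz)
    rw [this]
    have h2 : 0 < tau t := by rw [tau]; linarith only [ht1]
    have h3 : 0 ≤ lam 3 := by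
      have := PureF.kap_lt
      rw [lam]; norm_num; linarith only [this]
    have h4 : 0 < aa := by rw [aa]; norm_num
    positivity
  · change σ * evO hz b.f = evO hz c.K
    rw [evO_eq, evO_eq, B.vf hz, hK t x hz, hσ, heq]
  · exact AlgHom.commutes (evO hz) (1 / 20 : ℝ)
  · change 0 ≤ evO hz A.Z
    rw [evO_eq, B.vZ hz, ZZ]
    positivity

end

end Vale.Agent.P244.ST.ClF
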