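import Vale.Agent.P244.ST.ClFFin
import Vale.Agent.P244.ST.Bridge
import Vale.Agent.P244.ST.BubInst

/-!
# P244-ST / block M3 : `m3Statement` (helper288)
-/

open Set Filter TopologicalSpace
open scoped Topology ContDiff

namespace Vale.Agent.P244.ST

namespace ClF

/-- the frame of Bridge.lean consists of the functions of Geo.lean -/
theorem isGeo_fr {w f : Fn} {T : ℝ} {Ω : Opens (ℝ × ℝ)} (hs : ConfSol 20 w f T)
    (hΩ : Ω ≤ Dom T) : IsGeo (fr hs hΩ) w f where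
  u_sm := hs.sm_uu.le hΩ
  rho_sm := hs.sm_rho.le hΩ
  u_eq := fun hz => by rw [fr_u, toFn_mk _ hz]
  rho_eq := fun hz => by rw [fr_ρ, toFn_mk _ hz]
  sh_eq := fun hz => by rw [fr_sh, toFn_mk _ hz]
  ch_eq := fun hz => by rw [fr_ch, toFn_mk _ hz]
  r2_eq := fun hz => by rw [fr_r2, toFn_mk _ hz]
  Ds_eq := fun h t x hz => by
    conv_lhs => rw [← mk_toFn h]
    rw [fr_Ds, toFn_mk _ hz]
  Dt_eq := fun h t x hz => by
    conv_lhs => rw [← mk_toFn h]
    rw [fr_Dt, toFn_mk _ hz]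

theorem brgStatement : BrgStatement := by
  intro g w f T hg hs Ω hΩ1 hu hrs
  have hΩ : Ω ≤ Dom T := fun z hz =>
    ⟨(hΩ1 z hz).1, ⟨by linarith only [hΩ1, hz, (hΩ1 z hz).2.1], (hΩ1 z hz).2.2⟩⟩
  have hA := isGeo_fr hs hΩ
  have hrs' : ∀ z ∈ Ω, rs w f z.1 z.2 ≠ 0 := fun z hz => (hrs z hz).ne'
  exact ⟨fr hs hΩ, kapG hA hrs', bub hA hrs' hg hu, {
    aDs := fun h t x hz => hA.Ds_eq h hz
    aDt := fun h t x hz => hA.Dt_eq h hz
    au := fun t x hz => hA.u_eq hz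
    aρ := fun t x hz => hA.rho_eq hz
    ash := fun t x hz => hA.sh_eq hz
    ach := fun t x hz => hA.ch_eq hz
    ar2 := fun t x hz => hA.r2_eq hz
    aRs := fun t x hz => hA.Rs_eq hz
    ae := fun t x hz => bub_e hA hrs' hg hu hz
    ah := fun t x hz => bub_h hA hrs' hg hu hz }⟩

end ClF

/-- **MODULE M3** -/
theorem m3Statement : M.M3Statement := ClF.m3_of ClF.brgStatement

end Vale.Agent.P244.ST
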