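import Vale.Agent.P244.ST.ClFCore
import Vale.Agent.P244.ST.A.EvLem

/-!
# P244-ST / block M3 : `M3Statement` from the bridge (helper288)
-/

open Set Filter TopologicalSpace
open scoped Topology ContDiff

namespace Vale.Agent.P244.ST.ClF

/-- existence of the bridge on open subsets of `{u > 0}` -/
def BrgStatement : Prop := ∀ (g : ℝ → ℝ) (w f : Fn) (T : ℝ), IsBub g → ConfSol 20 w f T →
  ∀ Ω : Opens (ℝ × ℝ), (∀ z ∈ Ω, z.1 ∈ Ioo 0 T ∧ z.2 ∈ Ioo (0 : ℝ) 1) →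
  (∀ z ∈ Ω, 0 < uu w f z.1 z.2) → (∀ z ∈ Ω, 0 < rs w f z.1 z.2) →
  ∃ (A : Frame (sO Ω)) (κ : sO Ω) (b : Bub A κ), Brg g w f A b

theorem m3_of (hB : BrgStatement) : M.M3Statement := by
  intro g hg
  refine Ev.mono ev_QOk fun q hq w f T t₁ H t ht x hx hy => ?_
  have htT : t ∈ Ioo 0 T := ⟨ht.1, lt_of_le_of_lt ht.2 H.mem.2⟩
  have htc : t ∈ Icc 0 t₁ := ⟨ht.1.le, ht.2⟩
  have hFI := H.fI t htc x hx hy.le
  have hb : ∀ s ∈ Icc 0 t₁, ∀ y ∈ Ioo (0 : ℝ) 1, yv w f s y ≤ q.rho0 →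
      0 < uu w f s y ∧ |ff g w f s y| ≤ q.fb s (uu w f s y) := by
    intro s hs y hy' hyv
    exact (H.boot.b5 s hs y ⟨hy'.1.le, hy'.2⟩).b1 hy'.1 hyv
  obtain ⟨-, hle⟩ := hb t htc x hx hy.le
  rcases lt_or_eq_of_le hle with h | heq
  · exact h
  exfalso
  -- the open set
  have smU := M6.sm_uu H.sol
  have hS : IsOpen {z : ℝ × ℝ | z ∈ M6.Om T ∧ 0 < z.2 ∧ 0 < uu w f z.1 z.2} := by
    have h1 : IsOpen (M6.Om T ∩ {z : ℝ × ℝ | 0 < z.2}) :=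
      (M6.isOpen_Om T).inter (isOpen_lt continuous_const continuous_snd)
    have h2 : ContinuousOn (fun z : ℝ × ℝ => uu w f z.1 z.2) (M6.Om T ∩ {z : ℝ × ℝ | 0 < z.2}) :=
      (ContDiffOn.continuousOn smU).mono inter_subset_left
    have h3 := h2.isOpen_inter_preimage h1 isOpen_Ioi (t := Ioi (0 : ℝ))
    convert h3 using 1
    ext z
    simp only [mem_ofPred_eq, mem_inter_iff, mem_preimage, mem_Ioi, and_assoc]
  set Ω : Opens (ℝ × ℝ) := ⟨_, hS⟩ with hΩ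
  have hmem : ∀ z : ℝ × ℝ, z ∈ Ω → z ∈ M6.Om T ∧ 0 < z.2 ∧ 0 < uu w f z.1 z.2 := fun z hz => hz
  have hz : (t, x) ∈ Ω := ⟨⟨htT, by linarith only [hx, hx.1], hx.2⟩, hx.1, hFI.u_pos⟩
  obtain ⟨A, κ, b, B⟩ := hB g w f T hg H.sol Ω
    (fun z hz => ⟨(hmem z hz).1.1, (hmem z hz).2.1, (hmem z hz).1.2.2⟩)
    (fun z hz => (hmem z hz).2.2)
    (fun z hz => H.qual.rs_pos z.1 ⟨(hmem z hz).1.1.1.le, (hmem z hz).1.1.2⟩ z.2
      ⟨(hmem z hz).2.1, (hmem z hz).1.2.2⟩)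
  refine no_touch_brg hg hq B hz (smU.mono fun z hz => (hmem z hz).1)
    (fun z hz => (hmem z hz).1.1.2.trans_le H.T_le) (fun z hz => (hmem z hz).2.2) H.sol htT
    ⟨by linarith only [hx, hx.1], hx.2⟩ hFI heq ?_
  -- the bootstrap near the point
  have hzO : (t, x) ∈ M6.Om T := hz.1
  have hyc : ContinuousAt (fun z : ℝ × ℝ => yv w f z.1 z.2) (t, x) := by
    have h1 : ContinuousAt (fun z : ℝ × ℝ => rr w f z.1 z.2) (t, x) :=
      ((M6.sm_rr H.sol).at (M6.isOpen_Om T) hzO).continuousAt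
    have hτ : 0 < 1 - t := by
      have h1 := htT.2
      have h2 := H.T_le
      linarith
    have h2 : ContinuousAt (fun z : ℝ × ℝ => Real.sqrt (1 - z.1)) (t, x) := by fun_prop
    exact h1.div h2 (Real.sqrt_pos.2 hτ).ne'
  filter_upwards [hyc.eventually (gt_mem_nhds hy), Ω.isOpen.mem_nhds hz] with z hz1 hz2 hz3
  have hz2' := hmem z hz2
  exact (hb z.1 ⟨hz2'.1.1.1.le, hz3.trans ht.2⟩ z.2 ⟨hz2'.2.1, hz2'.1.2.2⟩ hz1.le).2

end Vale.Agent.P244.ST.ClF
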