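import Vale.Agent.P244.ST.ClF

/-!
# P244-ST / block M3 : the touching point contradiction, real-number form (helper288)
-/

namespace Vale.Agent.P244.ST.ClF

namespace Pt

noncomputable section

variable (P : Pt)

/-- `sinh u` -/
def s : ℝ := P.c * P.T
/-- `Z_s` -/
def Zs : ℝ := P.z * P.c
/-- `c₀` -/
def c0 : ℝ := P.ka * P.c
/-- `A_s` -/
def As : ℝ := 39 * P.c * (4 / P.k - 1)
/-- `l = h'/h` -/
def l : ℝ := 1 / 20 / P.T - P.T
/-- `l'` -/
def lu : ℝ := -(1 - P.T ^ 2) * (1 + 1 / 20 / P.T ^ 2)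
/-- `A_s'` -/
def Asu : ℝ := 39 * (4 * P.c / P.g - 4 * P.s * P.g1 / P.g ^ 2 - P.s)
/-- `c₀'` -/
def c0u : ℝ := P.s - 2 * P.c / P.g + 2 * P.s * P.g1 / P.g ^ 2

variable (S : Sm)

def vG : ℝ := P.g * (1 - S.e)
def vZ : ℝ := P.Zs * (1 + S.th)
/-- `D_r e` at a touching point -/
def vDe : ℝ := S.e * (2 - vG P S * P.l)
def vDG : ℝ := -(vG P S * P.g1 * (1 - S.e)) - P.g * vDe P S
def vDZ : ℝ := P.Zs * S.Dth + (1 + S.th) * (P.g * P.Zs / 2) * (-vG P S)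
def vDAs : ℝ := -(vG P S * P.Asu)
def vQ : ℝ := 39 * P.c0 * (S.e ^ 2 + S.th * (1 - S.e) ^ 2)
def vDQ : ℝ := 39 * (-(vG P S * P.c0u)) * (S.e ^ 2 + S.th * (1 - S.e) ^ 2) +
  39 * P.c0 * (2 * S.e * vDe P S + S.Dth * (1 - S.e) ^ 2 - 2 * S.th * (1 - S.e) * vDe P S)
def vLam : ℝ := 2 * vZ P S + P.As - vZ P S * vG P S * P.l
def vDLam : ℝ := 2 * vDZ P S + vDAs P S - vDZ P S * vG P S * P.l - vZ P S * vDG P S * P.l -
  vZ P S * vG P S * (-(vG P S * P.lu))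

end

variable {P : Pt} {S : Sm}

theorem EE_eq (h : P.Ok) (he : S.e ≠ 0) :
    P.g * P.l * vLam P S + P.g * P.l * vQ P S - vDLam P S - (vDQ P S - 2 * vQ P S) / S.e =
      P.c * EE P S := by
  have hk : P.k ≠ 0 := by have := h.k2; linarith only [this]
  have hT : P.T ≠ 0 := h.T0.ne'
  have hq : P.q ≠ 0 := by have := h.q_bd.1; linarith only [this]
  obtain ⟨T, c, k⟩ := P
  obtain ⟨e, th, Dth⟩ := S
  simp only [Pt.q, Pt.g] at hk hT hq he ⊢
  simp only [EE, Pt.M, vLam, vQ, vDLam, vDQ, vDZ, vDAs, vDG, vDe, vZ, vG, Pt.Zs, Pt.c0, Pt.As,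
    Pt.l, Pt.lu, Pt.Asu, Pt.c0u, Pt.s, Pt.gl, Pt.al, Pt.mu, Pt.nu, Pt.z, Pt.g1, Pt.ka, Pt.q, Pt.g]
  field_simp
  ring

/-- `D_r G` as a function of `D_r e` -/
noncomputable def wDG (P : Pt) (S : Sm) (De : ℝ) : ℝ :=
  -(vG P S * P.g1 * (1 - S.e)) - P.g * De

/-- `D_r Q` as a function of `D_r e` -/
noncomputable def wDQ (P : Pt) (S : Sm) (De : ℝ) : ℝ :=
  39 * (-(vG P S * P.c0u)) * (S.e ^ 2 + S.th * (1 - S.e) ^ 2) +
  39 * P.c0 * (2 * S.e * De + S.Dth * (1 - S.e) ^ 2 - 2 * S.th * (1 - S.e) * De)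

/-- `r² T_r u` -/
theorem Tru_eq (h : P.Ok) : vZ P S * (-vDG P S) + 39 * P.c * (-vG P S) + 78 * P.s =
    P.g * (vLam P S * S.e + vQ P S) := by
  have hk : P.k ≠ 0 := by have := h.k2; linarith only [this]
  have hT : P.T ≠ 0 := h.T0.ne'
  have hq : P.q ≠ 0 := by have := h.q_bd.1; linarith only [this]
  obtain ⟨T, c, k⟩ := P
  obtain ⟨e, th, Dth⟩ := S
  simp only [Pt.q, Pt.g] at hk hT hq ⊢
  simp only [vLam, vQ, vDG, vDe, vZ, vG, Pt.Zs, Pt.c0, Pt.As,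
    Pt.l, Pt.s, Pt.z, Pt.g1, Pt.ka, Pt.q, Pt.g]
  generalize 39 - (k * T) ^ 2 / 4 = q at hq ⊢
  field_simp
  ring

/-- **no touching** -/
theorem no_touch (h : P.Ok) (hS : SmOk P S) {r2 F K σ De DrF DrrF TrF Tru TrK DrrK wt : ℝ}
    (hr2 : 0 < r2) (hK : 0 < K) (hσ : σ * σ = 1) (hKF : σ * F = K) (hF : F * r2 = S.e)
    (hDe : r2 * DrF = De - 2 * S.e) (hwt : 0 ≤ wt)
    (hFF : r2 * TrF = vDZ P S * DrF + vZ P S * DrrF + (2 * vDZ P S + vDAs P S) * F +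
      (2 * vZ P S + P.As) * DrF + (wDQ P S De - 2 * vQ P S) / r2)
    (hTru : r2 * Tru = vZ P S * (-wDG P S De) + 39 * P.c * (-vG P S) + 78 * P.s)
    (hTrK : TrK = K * (wt + P.l * Tru))
    (hDrrK : DrrK = K * ((vG P S * P.l) ^ 2 - wDG P S De * P.l - vG P S * (-(vG P S * P.lu))))
    (h1 : σ * DrF = -(vG P S * P.l * K)) (h2 : σ * DrrF ≤ DrrK) (h3 : TrK ≤ σ * TrF)
    (hZ : 0 ≤ vZ P S) : False := by
  have he := hS.e0
  have hDrF : DrF = -(vG P S * P.l * F) := by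
    calc DrF = (σ * σ) * DrF := by rw [hσ]; ring
      _ = σ * (σ * DrF) := by ring
      _ = -(vG P S * P.l * (σ * (σ * F))) := by rw [h1, ← hKF]; ring
      _ = -(vG P S * P.l * ((σ * σ) * F)) := by ring
      _ = _ := by rw [hσ]; ring
  have hDe' : De = vDe P S := by
    have : r2 * DrF = -(vG P S * P.l * S.e) := by rw [hDrF, ← hF]; ring
    rw [vDe]; linarith only [hDe, this]
  subst hDe'
  have hT := EE_eq h he
  have hP := EE_pos h hS
  have hU := Tru_eq (S := S) h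
  have hu : r2 * Tru = P.g * (vLam P S * S.e + vQ P S) := by
    rw [hTru, ← hU]; rfl
  have hQ : σ * ((wDQ P S (vDe P S) - 2 * vQ P S) / r2) =
      K * ((vDQ P S - 2 * vQ P S) / S.e) := by
    have : wDQ P S (vDe P S) = vDQ P S := rfl
    rw [this, ← hKF, ← hF]
    have hF0 : F ≠ 0 := by rintro rfl; apply he; rw [← hF]; ring
    field_simp
  -- upper bound
  have hup : σ * (r2 * TrF) ≤ K * (vDLam P S - vG P S * P.l * vLam P S +
      (vDQ P S - 2 * vQ P S) / S.e) := by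
    have e1 : σ * (r2 * TrF) = vDZ P S * (σ * DrF) + vZ P S * (σ * DrrF) +
        (2 * vDZ P S + vDAs P S) * (σ * F) + (2 * vZ P S + P.As) * (σ * DrF) +
        σ * ((wDQ P S (vDe P S) - 2 * vQ P S) / r2) := by rw [hFF]; ring
    have e2 : vZ P S * (σ * DrrF) ≤ vZ P S * DrrK := mul_le_mul_of_nonneg_left h2 hZ
    rw [e1, hQ, hKF, h1]
    have e3 : wDG P S (vDe P S) = vDG P S := rfl
    rw [e3] at hDrrK
    rw [hDrrK] at e2
    have e4 : K * (vDLam P S - vG P S * P.l * vLam P S + (vDQ P S - 2 * vQ P S) / S.e) =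
      vDZ P S * -(vG P S * P.l * K) + vZ P S * (K * ((vG P S * P.l) ^ 2 - vDG P S * P.l -
        vG P S * (-(vG P S * P.lu)))) + (2 * vDZ P S + vDAs P S) * K +
        (2 * vZ P S + P.As) * -(vG P S * P.l * K) +
        K * ((vDQ P S - 2 * vQ P S) / S.e) := by
      rw [vDLam, vLam]; ring
    rw [e4]
    linarith only [e2]
  have hlo : K * (r2 * wt + P.l * (P.g * (vLam P S * S.e + vQ P S))) ≤ σ * (r2 * TrF) := by
    have : r2 * TrK ≤ r2 * (σ * TrF) := mul_le_mul_of_nonneg_left h3 hr2.le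
    rw [hTrK] at this
    have e : r2 * (K * (wt + P.l * Tru)) = K * (r2 * wt + P.l * (r2 * Tru)) := by ring
    rw [e, hu] at this
    linarith only [this]
  have hle : r2 * wt + P.l * (P.g * (vLam P S * S.e + vQ P S)) ≤
      vDLam P S - vG P S * P.l * vLam P S + (vDQ P S - 2 * vQ P S) / S.e :=
    le_of_mul_le_mul_left (hlo.trans hup) hK
  have hG : vG P S = P.g * (1 - S.e) := rfl
  rw [hG] at hle
  have hc := mul_pos h.c0 hP
  have hw : 0 ≤ r2 * wt := mul_nonneg hr2.le hwt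
  have : P.c * EE P S ≤ 0 := by
    rw [← hT]
    linarith only [hT, hle, hc, hw]
  linarith only [hT, hle, hc, hw]

end Pt

end Vale.Agent.P244.ST.ClF
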