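import Vale.Agent.P244.ST.ClF
import Vale.Agent.P244.ST.PureF

/-!
# P244-ST / block M3 : the bubble function gives an admissible point (helper288)
-/

open Set Filter Topology

namespace Vale.Agent.P244.ST.ClF

variable {g : ℝ → ℝ}

/-- the point belonging to `u` -/
noncomputable def ptOf (g : ℝ → ℝ) (u : ℝ) : Pt := ⟨Real.tanh u, Real.cosh u, g u / Real.tanh u⟩

theorem ptOf_g {u : ℝ} (hu : 0 < u) : (ptOf g u).g = g u := by
  have h := (PureF.tanh_pos hu).ne'
  simp only [Pt.g, ptOf]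
  field_simp

theorem ptOf_q {u : ℝ} (hu : 0 < u) : (ptOf g u).q = qb g u := by
  rw [Pt.q, ptOf_g hu, qb]

/-- `g₁ = g'` -/
theorem ptOf_g1 (hg : IsBub g) {u : ℝ} (hu : 0 < u) : (ptOf g u).g1 = deriv g u := by
  have h1 := PureF.g_ode hg hu
  have h2 := (PureF.g_pos hg hu).ne'
  have h3 := (PureF.tanh_pos hu).ne'
  rw [Pt.g1, ptOf_q hu, Pt.ka]
  simp only [ptOf]
  have : g u * (qb g u * (1 - 2 / (g u / Real.tanh u))) = g u * deriv g u := by
    rw [h1]; field_simp
  exact mul_left_cancel₀ h2 this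

theorem ptOf_z {u : ℝ} (hu : 0 < u) : (ptOf g u).z * Real.cosh u = Zs g u := by
  rw [Pt.z, ptOf_q hu, Zs]; ring

theorem ptOf_ka (hg : IsBub g) {u : ℝ} (hu : 0 < u) : (ptOf g u).ka * Real.cosh u = c0 g u := by
  have h2 := (PureF.g_pos hg hu).ne'
  have h3 := (PureF.tanh_pos hu).ne'
  rw [Pt.ka, c0, ← PureF.tanh_mul_cosh u]
  simp only [ptOf]
  field_simp

theorem ptOf_As (hg : IsBub g) {u : ℝ} (hu : 0 < u) :
    39 * Real.cosh u * (4 / (ptOf g u).k - 1) = As g u := by
  have h2 := (PureF.g_pos hg hu).ne'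
  have h3 := (PureF.tanh_pos hu).ne'
  rw [As, ← PureF.tanh_mul_cosh u]
  simp only [ptOf]
  field_simp

theorem ok_of (hg : IsBub g) {u : ℝ} (hu : 0 < u) : (ptOf g u).Ok where
  T0 := PureF.tanh_pos hu
  T1 := Real.tanh_lt_one u
  c0 := Real.cosh_pos u
  c2 := by
    have h := Real.cosh_sq u
    have h2 := PureF.tanh_mul_cosh u
    simp only [ptOf]
    have : Real.cosh u ^ 2 * (1 - Real.tanh u ^ 2) =
        Real.cosh u ^ 2 - (Real.tanh u * Real.cosh u) ^ 2 := by ring
    rw [this, h2, h]; ring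
  k2 := PureF.quot_gt hg hu
  kk := (PureF.quot_lt hg hu).trans PureF.kap_lt
  g2 := by
    have := ptOf_g (g := g) hu
    simp only [Pt.g] at this
    rw [this]; exact hg.lt_two u hu
  mono := by
    rw [ptOf_g1 hg hu]
    have h1 := hg.ratio u hu
    have h3 := PureF.tanh_pos hu
    simp only [ptOf]
    have e : g u / Real.tanh u * (1 - Real.tanh u ^ 2) =
        g u * (1 - Real.tanh u ^ 2) / Real.tanh u := by ring
    rw [e, le_div_iff₀ h3]
    exact h1

end Vale.Agent.P244.ST.ClF
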