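import Vale.Agent.P244.ST.ClFPt
import Vale.Agent.P244.ST.M.Skel

/-!
# P244-ST / block M3 : smallness at a touching point from the facts FI (helper288)
-/

open Set

namespace Vale.Agent.P244.ST.ClF

open Vale.Agent.P244.ST.M

/-- the parameter conditions used in M3 -/
structure QOk (q : Par) : Prop where
  B : 1 ≤ q.B
  rho0 : 0 < q.rho0
  N : 100 ≤ q.N
  eps : 0 < q.eps

theorem ev_QOk : Ev QOk := by
  refine ⟨1, fun B hB => ⟨1, one_pos, fun rho0 hr => ⟨0, fun BV _ => ⟨0, fun MU _ => ⟨0, fun MP _ =>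
    ⟨0, fun MV _ => ⟨0, fun CU _ => ⟨0, fun CP _ => ⟨0, fun CV _ => ⟨0, fun GR _ =>
    ⟨1, one_pos, fun sg _ => ⟨1, one_pos, fun d0 _ => ⟨1, one_pos, fun rb _ =>
    ⟨100, fun N hN => ⟨1, one_pos, fun eps he => ?_⟩⟩⟩⟩⟩⟩⟩⟩⟩⟩⟩⟩⟩⟩⟩
  exact ⟨hB, hr.1, hN, he.1⟩

namespace QOk

variable {q : Par} (h : QOk q)
include h

theorem T0_pos {t : ℝ} (ht : t < 1) : 0 < q.T0 t := by
  have : 0 < tau t := by rw [tau]; linarith only [ht]
  have h1 := Real.rpow_pos_of_pos this (lam 3)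
  have h2 := Real.rpow_pos_of_pos h.rho0 (-kap)
  exact mul_pos (mul_pos h.eps h1) h2

theorem fb_pos {t u : ℝ} (ht : t < 1) (hu : 0 < u) : 0 < q.fb t u := by
  have h1 : 0 < tau t := by rw [tau]; linarith only [ht]
  have h2 := h.T0_pos ht
  have h3 := PureF.tanh_pos hu
  have h4 := Real.rpow_pos_of_pos (div_pos h3 h2) aa
  have h5 := Real.rpow_pos_of_pos (Real.cosh_pos u) (-(1 - aa))
  have h6 : 0 < q.B := by linarith only [h, h.B]
  rw [Par.fb]
  positivity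

theorem fb_ge {t u : ℝ} (ht0 : 0 ≤ t) (ht : t < 1) (hT : 9 / 10 * q.T0 t ≤ Real.tanh u) :
    9 / 10 ≤ q.fb t u * Real.cosh u := by
  have h1 : 0 < tau t := by rw [tau]; linarith only [ht]
  have h1' : tau t ≤ 1 := by rw [tau]; linarith only [ht0]
  have h2 := h.T0_pos ht
  have h3 : (9 / 10 : ℝ) ≤ Real.tanh u / q.T0 t := by
    rw [le_div_iff₀ h2]; exact hT
  have h4 : (9 / 10 : ℝ) ≤ (Real.tanh u / q.T0 t) ^ aa := by
    have e1 : (9 / 10 : ℝ) ^ (1 : ℝ) ≤ (9 / 10 : ℝ) ^ aa :=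
      Real.rpow_le_rpow_of_exponent_ge (by norm_num) (by norm_num) (by rw [aa]; norm_num)
    rw [Real.rpow_one] at e1
    exact e1.trans (Real.rpow_le_rpow (by norm_num) h3 (by rw [aa]; norm_num))
  have hc := Real.one_le_cosh u
  have h5 : 1 ≤ Real.cosh u ^ (-(1 - aa)) * Real.cosh u := by
    have e : Real.cosh u ^ (-(1 - aa)) * Real.cosh u = Real.cosh u ^ aa := by
      conv_lhs => rw [← Real.rpow_one (Real.cosh u), ← Real.rpow_mul (by positivity),
        ← Real.rpow_add (Real.cosh_pos u)]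
      congr 1; ring
    rw [e]
    exact Real.one_le_rpow hc (by rw [aa]; norm_num)
  have h6 : 1 ≤ q.B / tau t := by
    rw [le_div_iff₀ h1]; linarith only [h, h1', h.B]
  have h7 : q.fb t u * Real.cosh u = (q.B / tau t) * (Real.tanh u / q.T0 t) ^ aa *
      (Real.cosh u ^ (-(1 - aa)) * Real.cosh u) := by rw [Par.fb]; ring
  rw [h7]
  have h8 : (9 / 10 : ℝ) ≤ (q.B / tau t) * (Real.tanh u / q.T0 t) ^ aa := by
    calc (9 / 10 : ℝ) = 1 * (9 / 10) := by ring
      _ ≤ _ := mul_le_mul h6 h4 (by norm_num) (by linarith only [h6])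
  calc (9 / 10 : ℝ) = 9 / 10 * 1 := by ring
    _ ≤ _ := mul_le_mul h8 h5 (by norm_num) (by linarith only [h8])

end QOk

variable {q : Par} {g : ℝ → ℝ} {w f : Fn} {t x : ℝ}

theorem eta_le (h : QOk q) : 0 < q.eta ∧ q.eta ≤ 1 := by
  have hN := h.N
  have : 0 < q.N := by linarith only [hN]
  rw [Par.eta]
  constructor
  · positivity
  · rw [div_le_one (by positivity)]; nlinarith only [hN]

theorem Zs_ge (hg : IsBub g) {u : ℝ} (hu : 0 < u) : Real.cosh u ≤ Zs g u := by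
  have h1 := (ok_of hg hu).z_bd
  rw [← ptOf_z hu]
  have := Real.cosh_pos u
  nlinarith only [h1, this, h1.1]

/-- **smallness at a touching point** -/
theorem smOk_of (hg : IsBub g) (hq : QOk q) (ht0 : 0 ≤ t) (ht : t < 1) (h : FI q g w f t x)
    (heq : |ff g w f t x| = q.fb t (uu w f t x)) {Dth : ℝ}
    (hD : 40 * Dth = -(40 * th g w f t x * (39 - (g (uu w f t x) / 2) ^ 2 +
      (g (uu w f t x) / 2) ^ 2 * ee g w f t x ^ 2)) -
      40 * (g (uu w f t x) / 2) ^ 2 * ee g w f t x ^ 2 -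
      (rr w f t x) ^ 2 * RR w f t x * (1 / Zs g (uu w f t x))) :
    (ptOf g (uu w f t x)).SmOk ⟨ee g w f t x, th g w f t x, Dth⟩ := by
  set u := uu w f t x with hu
  set e := ee g w f t x with he
  set θ := th g w f t x with hθ
  set r := rr w f t x with hr
  have hu0 : 0 < u := h.u_pos
  have hr0 : 0 < r := Real.exp_pos _
  have hr2 : 0 < r ^ 2 := by positivity
  have hfb := hq.fb_pos ht hu0
  have hebd : eb q w f t x = r ^ 2 * q.fb t u := rfl
  have heb : |e| = eb q w f t x := by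
    rw [hebd, ← heq, ff, abs_div, abs_of_pos hr2]
    change |e| = r ^ 2 * (|e| / r ^ 2)
    field_simp
  have heb0 : 0 < eb q w f t x := by rw [hebd]; positivity
  have hc := Real.one_le_cosh u
  have heb1 : eb q w f t x ≤ 1 / 10 ^ 4 := (le_mul_of_one_le_right heb0.le hc).trans h.eb_le
  have hZs := Zs_ge hg hu0
  have hZs0 : 0 < Zs g u := by linarith only [heb0, hc, heb1, hZs]
  have hok := ok_of hg hu0
  have hgg : g u ^ 2 < 4 := by
    have := hok.gsq.2
    rwa [ptOf_g hu0] at this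
  have hg2 : 0 ≤ g u ^ 2 := sq_nonneg _
  have hη := eta_le hq
  -- `r² η / Zs ≤ (10/9) eb η`
  have hkey : r ^ 2 / Zs g u ≤ 10 / 9 * eb q w f t x := by
    rw [div_le_iff₀ hZs0, hebd]
    have h1 := hq.fb_ge ht0 ht h.T_ge
    have h2 : 9 / 10 ≤ q.fb t u * Zs g u :=
      h1.trans (mul_le_mul_of_nonneg_left hZs hfb.le)
    have h3 : r ^ 2 * (9 / 10) ≤ r ^ 2 * (q.fb t u * Zs g u) :=
      mul_le_mul_of_nonneg_left h2 hr2.le
    linarith only [h3]
  have hθ0 : θ ≤ 0 := h.th_le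
  have hθ1 : -θ ≤ 0.0021 * eb q w f t x := by
    have h1 := h.th_ge
    have h2 : g u ^ 2 * eb q w f t x ^ 2 / 148 ≤ 4 * (1 / 10 ^ 4 * eb q w f t x) / 148 := by
      have : g u ^ 2 * eb q w f t x ^ 2 ≤ 4 * (1 / 10 ^ 4 * eb q w f t x) := by
        apply mul_le_mul hgg.le _ (sq_nonneg _) (by norm_num)
        rw [pow_two]
        exact mul_le_mul_of_nonneg_right heb1 heb0.le
      linarith only [this]
    have h3 : r ^ 2 * (3 * q.eta) / (1640 * Zs g u) = (r ^ 2 / Zs g u) * (3 * q.eta / 1640) := by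
      field_simp
    have h4 : (r ^ 2 / Zs g u) * (3 * q.eta / 1640) ≤ (10 / 9 * eb q w f t x) * (3 / 1640) := by
      apply mul_le_mul hkey (by linarith only [hη, hη.2]) (by linarith only [hη, hη.1]) (by positivity)
    rw [← hr, h3] at h1
    linarith only [heb0, h1, h2, h4]
  have hθabs : |θ| ≤ 0.0021 * eb q w f t x := by rw [abs_of_nonpos hθ0]; exact hθ1
  -- `D_r θ`
  have hDabs : |Dth| ≤ 0.2 * eb q w f t x := by
    have hR0 := h.R_nonneg
    have hR1 : RR w f t x ≤ 3 := h.R_le.trans (by linarith only [hη, hη.2])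
    have h5 : r ^ 2 * RR w f t x * (1 / Zs g u) ≤ (10 / 9 * eb q w f t x) * 3 := by
      have : r ^ 2 * RR w f t x * (1 / Zs g u) = (r ^ 2 / Zs g u) * RR w f t x := by ring
      rw [this]
      exact mul_le_mul hkey hR1 hR0 (by positivity)
    have h6 : 0 ≤ r ^ 2 * RR w f t x * (1 / Zs g u) := by positivity
    have hee : e ^ 2 = eb q w f t x ^ 2 := by rw [← heb, sq_abs]
    have hee1 : e ^ 2 ≤ 1 / 10 ^ 4 * eb q w f t x := by
      rw [hee, pow_two]
      exact mul_le_mul_of_nonneg_right heb1 heb0.le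
    have hee0 : 0 ≤ e ^ 2 := sq_nonneg e
    have h7 : (g u / 2) ^ 2 ≤ 1 := by rw [div_pow]; linarith only [hgg]
    have h7' : 0 ≤ (g u / 2) ^ 2 := sq_nonneg _
    have h8 : (g u / 2) ^ 2 * e ^ 2 ≤ 1 / 10 ^ 4 * eb q w f t x := by
      calc (g u / 2) ^ 2 * e ^ 2 ≤ 1 * e ^ 2 := mul_le_mul_of_nonneg_right h7 hee0
        _ ≤ _ := by linarith only [hee1]
    have h8' : 0 ≤ (g u / 2) ^ 2 * e ^ 2 := by positivity
    have h9 : 0 ≤ 39 - (g u / 2) ^ 2 + (g u / 2) ^ 2 * e ^ 2 := by linarith only [heb0, heb1, hgg, h8']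
    have h10 : 39 - (g u / 2) ^ 2 + (g u / 2) ^ 2 * e ^ 2 ≤ 40 := by linarith only [heb0, heb1, hg2, h8]
    have h11 : -θ * (39 - (g u / 2) ^ 2 + (g u / 2) ^ 2 * e ^ 2) ≤
        0.0021 * eb q w f t x * 40 := mul_le_mul hθ1 h10 h9 (by positivity)
    have h12 : 0 ≤ -θ * (39 - (g u / 2) ^ 2 + (g u / 2) ^ 2 * e ^ 2) :=
      mul_nonneg (by linarith only [hθ0]) h9
    have h13 : 40 * Dth = 40 * (-θ * (39 - (g u / 2) ^ 2 + (g u / 2) ^ 2 * e ^ 2)) -
        40 * ((g u / 2) ^ 2 * e ^ 2) - r ^ 2 * RR w f t x * (1 / Zs g u) := by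
      rw [hD]; ring
    clear hD hkey
    rw [abs_le]
    constructor <;> linarith only [heb0, h5, h8, h12, h13, h6, h8', h11]
  have hc2 : 1 ≤ Real.cosh u ^ 2 := one_le_pow₀ hc
  have he0 : e ≠ 0 := by
    intro h0; rw [h0, abs_zero] at heb; linarith only [heb, heb0]
  refine ⟨he0, ?_, ?_, ?_, ?_, ?_⟩
  · change |e| ≤ _
    rw [heb]; linarith only [heb0, heb1]
  · change |θ| ≤ _
    linarith only [heb0, heb1, hθabs]
  · change |Dth| ≤ _
    linarith only [heb0, heb1, hDabs]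
  · change |θ / e| ≤ 1 / 100 * Real.cosh u ^ 2
    rw [abs_div, heb]
    have : |θ| / eb q w f t x ≤ 1 / 100 := by
      rw [div_le_iff₀ heb0]; linarith only [heb0, hθabs]
    linarith only [hc2, this]
  · change |Dth / e| ≤ 1 / 2 * Real.cosh u ^ 2
    rw [abs_div, heb]
    have : |Dth| / eb q w f t x ≤ 1 / 2 := by
      rw [div_le_iff₀ heb0]; linarith only [heb0, hDabs]
    linarith only [hc2, this]

end Vale.Agent.P244.ST.ClF
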