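import Vale.Agent.P244.ST.PureF

/-!
# P244-ST, closure R : pure inequalities (region I and `y ≥ ρ₀`)

`RB = η (1+t) + K r² (cosh u - 1) S^{-γ}`, `S = τ + r²/100`, `K = GR ε^{-2a}`.
-/

open Set

namespace Vale.Agent.P244.ST.ClR

open Vale.Agent.P244.ST.PureF

noncomputable section

/-- the value of `(D_t - Lap) RB` at a point: `r2 = r²`, `c = cosh u`, `s = sinh u`,
`Z = r² ρ_s²`, `zp = r² ρ_s P`, `p2 = r² P²`. -/
def LRB (η K τ r2 c s Z zp p2 : ℝ) : ℝ :=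
  η + K * ((τ + r2 / 100) ^ (-gam) * (78 * (c - 1) - 4 * Z * (c - 1) - c * p2 - 4 * zp * s)
    + r2 * (c - 1) * (gam * (τ + r2 / 100) ^ (-gam - 1) * (1 + (78 * c + 4 * Z) / 100)
        - gam * (gam + 1) * (τ + r2 / 100) ^ (-gam - 2) * (4 * r2 * Z / 100 ^ 2))
    + 4 * gam / 100 * r2 * (τ + r2 / 100) ^ (-gam - 1) * (2 * Z * (c - 1) + s * zp))

/-- the bracket; `ω = r² / (100 S)` -/
def Br (ω c s Z zp p2 : ℝ) : ℝ :=
  78 * (c - 1) - 4 * Z * (c - 1) - c * p2 - 4 * zp * s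
    + ω * (c - 1) * gam * (100 + 78 * c + 4 * Z)
    - 4 * gam * (gam + 1) * (c - 1) * ω ^ 2 * Z + 4 * gam * ω * (2 * Z * (c - 1) + s * zp)

theorem LRB_eq {η K τ r2 c s Z zp p2 : ℝ} (hS : 0 < τ + r2 / 100) :
    LRB η K τ r2 c s Z zp p2 = η + K * ((τ + r2 / 100) ^ (-gam) *
      Br (r2 / (100 * (τ + r2 / 100))) c s Z zp p2) := by
  unfold LRB Br
  have h1 : (τ + r2 / 100) ^ (-gam - 1) = (τ + r2 / 100) ^ (-gam) / (τ + r2 / 100) :=
    Real.rpow_sub_one hS.ne' _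
  have h2 : (τ + r2 / 100) ^ (-gam - 2) =
      (τ + r2 / 100) ^ (-gam) / (τ + r2 / 100) / (τ + r2 / 100) := by
    rw [← h1, ← Real.rpow_sub_one hS.ne']
    congr 1
    ring
  rw [h1, h2]
  set S := τ + r2 / 100 with hSd
  have hS' : S ≠ 0 := hS.ne'
  field_simp
  ring

theorem gam_lt : gam < 2.1943 := by
  have := kap_gt
  unfold gam aa lam
  push_cast
  linarith only [this]

theorem gam_gt : 2.19 < gam := by
  have := kap_lt
  unfold gam aa lam
  push_cast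
  linarith only [this]

/-- region I: the bracket -/
theorem Br_I {ω c s Z G : ℝ} (hc : 1 ≤ c) (hs : s ^ 2 = c ^ 2 - 1) (hs0 : 0 ≤ s) (hω : 0 ≤ ω)
    (hω1 : ω ≤ 1 / 1000) (hZ0 : 0 ≤ Z) (hωZ : ω * Z ≤ 11 / 10000) (hZ : Z ≤ 39 / 38 * c)
    (hG : |G * c - 2 * s| * c ≤ 0.14 * s) :
    77 * (c - 1) ≤ Br ω c s Z (-(Z * G)) (Z * G ^ 2) := by
  have hc0 : 0 < c := by linarith only [hc]
  have g1 := gam_lt
  have g2 := gam_gt
  have hx : 0 ≤ c - 1 := by linarith only [hc]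
  have hs2 : s ^ 2 = (c - 1) * (c + 1) := by rw [hs]; ring
  -- the square
  have hd : (G * c - 2 * s) ^ 2 * c ^ 2 ≤ 0.14 ^ 2 * s ^ 2 := by
    have h1 : (|G * c - 2 * s| * c) ^ 2 ≤ (0.14 * s) ^ 2 :=
      pow_le_pow_left₀ (mul_nonneg (abs_nonneg _) hc0.le) hG 2
    rw [mul_pow, sq_abs, mul_pow] at h1
    exact h1
  have hdd : Z / c * (G * c - 2 * s) ^ 2 ≤ 0.05 * (c - 1) := by
    have h1 : Z / c ≤ 39 / 38 := by
      rw [div_le_iff₀ hc0]; exact hZ
    have h2 : 0 ≤ Z / c := by positivity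
    have h3 : (G * c - 2 * s) ^ 2 ≤ 0.04 * (c - 1) := by
      have h4 : (G * c - 2 * s) ^ 2 * c ^ 2 ≤ 0.04 * (c - 1) * c ^ 2 := by
        refine hd.trans ?_
        rw [hs2]
        have h5 : (c + 1) ≤ 2 * c ^ 2 := by nlinarith only [hc, hs]
        have h6 : (c - 1) * (c + 1) ≤ (c - 1) * (2 * c ^ 2) := mul_le_mul_of_nonneg_left h5 hx
        nlinarith only [hs, h6, mul_nonneg hx (sq_nonneg c)]
      exact le_of_mul_le_mul_right h4 (by positivity)
    calc Z / c * (G * c - 2 * s) ^ 2 ≤ 39 / 38 * (0.04 * (c - 1)) :=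
          mul_le_mul h1 h3 (sq_nonneg _) (by norm_num)
      _ ≤ 0.05 * (c - 1) := by nlinarith only [hc]
  -- `s G`
  have hsG : s * G ≤ 4.28 * (c - 1) := by
    have h1 : G * c ≤ 2.14 * s := by
      have h2 : G * c - 2 * s ≤ |G * c - 2 * s| := le_abs_self _
      have h3 : |G * c - 2 * s| ≤ |G * c - 2 * s| * c :=
        le_mul_of_one_le_right (abs_nonneg _) hc
      linarith only [hG, h2, h3]
    have h2 : s * G * c ≤ 4.28 * (c - 1) * c := by
      have h3 : s * (G * c) ≤ s * (2.14 * s) := mul_le_mul_of_nonneg_left h1 hs0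
      have h4 : s * (2.14 * s) = 2.14 * ((c - 1) * (c + 1)) := by rw [← hs2]; ring
      nlinarith only [hc, hs, h3]
    exact le_of_mul_le_mul_right h2 hc0
  have e1 : Br ω c s Z (-(Z * G)) (Z * G ^ 2) =
      78 * (c - 1) + 4 * Z * (c - 1) / c - Z / c * (G * c - 2 * s) ^ 2
      + ω * (c - 1) * gam * (100 + 78 * c + 4 * Z)
      - 4 * gam * (gam + 1) * (c - 1) * ω * (ω * Z)
      + 4 * gam * (ω * Z) * (2 * (c - 1) - s * G) := by
    unfold Br
    have hc0' := hc0.ne'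
    field_simp
    linear_combination (4 * Z) * hs2
  rw [e1]
  have t1 : 0 ≤ 4 * Z * (c - 1) / c := by positivity
  have t2 : 0 ≤ ω * (c - 1) * gam * (100 + 78 * c + 4 * Z) := by positivity
  have hωZ0 : 0 ≤ ω * Z := mul_nonneg hω hZ0
  have t3 : 4 * gam * (gam + 1) * (c - 1) * ω * (ω * Z) ≤ 0.001 * (c - 1) := by
    have h1 : 4 * gam * (gam + 1) ≤ 29 := by nlinarith only [g1, g2]
    have h2 : ω * (ω * Z) ≤ 1 / 1000 * (11 / 10000) := mul_le_mul hω1 hωZ hωZ0 (by norm_num)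
    have h3 : 0 ≤ ω * (ω * Z) := mul_nonneg hω hωZ0
    have h4 : 0 ≤ 4 * gam * (gam + 1) := by positivity
    calc 4 * gam * (gam + 1) * (c - 1) * ω * (ω * Z)
        = (4 * gam * (gam + 1)) * (ω * (ω * Z)) * (c - 1) := by ring
      _ ≤ 29 * (1 / 1000 * (11 / 10000)) * (c - 1) :=
          mul_le_mul_of_nonneg_right (mul_le_mul h1 h2 h3 (by norm_num)) hx
      _ ≤ 0.001 * (c - 1) := by nlinarith only [hc]
  have t4 : -(0.03 * (c - 1)) ≤ 4 * gam * (ω * Z) * (2 * (c - 1) - s * G) := by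
    have h1 : -(2.28 * (c - 1)) ≤ 2 * (c - 1) - s * G := by linarith only [hsG]
    have h2 : 4 * gam * (ω * Z) ≤ 4 * 2.1943 * (11 / 10000) :=
      mul_le_mul (by linarith only [g1]) hωZ hωZ0 (by norm_num)
    have h3 : 0 ≤ 4 * gam * (ω * Z) := by positivity
    have h4 : 4 * gam * (ω * Z) * (-(2.28 * (c - 1))) ≤
        4 * gam * (ω * Z) * (2 * (c - 1) - s * G) := mul_le_mul_of_nonneg_left h1 h3
    have h5 : 4 * gam * (ω * Z) * (2.28 * (c - 1)) ≤ 4 * 2.1943 * (11 / 10000) * (2.28 * (c - 1)) :=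
      mul_le_mul_of_nonneg_right h2 (by linarith only [hc])
    nlinarith only [hc, h4, h5]
  linarith only [hc, hdd, t1, t2, t3, t4]

/-- `g - 2 tanh u ≤ 0.118 T (1 - T²)` -/
theorem g_sub_le {g : ℝ → ℝ} (hg : IsBub g) {u : ℝ} (hu : 0 < u) :
    g u - 2 * Real.tanh u ≤ 0.118 * Real.tanh u * (1 - Real.tanh u ^ 2) := by
  have hT := tanh_pos hu
  have hT1 := Real.tanh_lt_one u
  have hg0 := g_pos hg hu
  have hk := kap_lt
  have hq := qb_gt hg hu
  have h1 := g_ode hg hu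
  have h2 := hg.ratio u hu
  have h3 := hg.upper u hu
  have h4 := hg.lower u hu
  have hT2 : 0 < 1 - Real.tanh u ^ 2 := by nlinarith only [hT, hT1]
  -- q (g - 2T) T = g g' T ≤ g² (1 - T²)
  have h5 : qb g u * (g u - 2 * Real.tanh u) * Real.tanh u ≤
      g u * (g u * (1 - Real.tanh u ^ 2)) := by
    rw [← h1, mul_assoc]
    exact mul_le_mul_of_nonneg_left h2 hg0.le
  have h6 : g u ≤ 2.1147 * Real.tanh u := by nlinarith only [hT, hk, h3]
  have h7 : g u * (g u * (1 - Real.tanh u ^ 2)) ≤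
      (2.1147 * Real.tanh u) * ((2.1147 * Real.tanh u) * (1 - Real.tanh u ^ 2)) :=
    mul_le_mul h6 (mul_le_mul_of_nonneg_right h6 hT2.le) (by positivity) (by positivity)
  have h8 : 38 * (g u - 2 * Real.tanh u) * Real.tanh u ≤
      qb g u * (g u - 2 * Real.tanh u) * Real.tanh u := by
    apply mul_le_mul_of_nonneg_right _ hT.le
    exact mul_le_mul_of_nonneg_right hq.le (by linarith only [h4])
  have h9 : 38 * (g u - 2 * Real.tanh u) ≤ 2.1147 * (2.1147 * Real.tanh u) *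
      (1 - Real.tanh u ^ 2) := by
    refine le_of_mul_le_mul_right ?_ hT
    calc 38 * (g u - 2 * Real.tanh u) * Real.tanh u ≤ _ := h8
      _ ≤ _ := h5
      _ ≤ _ := h7
      _ = _ := by ring
  have h10 : 0 ≤ Real.tanh u * (1 - Real.tanh u ^ 2) := by positivity
  nlinarith only [h4, h9]

theorem hG_of {g : ℝ → ℝ} (hg : IsBub g) {u G e : ℝ} (hu : 0 < u) (hG : G = g u * (1 - e))
    (he : |e| * Real.cosh u ≤ 1 / 100) :
    |G * Real.cosh u - 2 * Real.sinh u| * Real.cosh u ≤ 0.14 * Real.sinh u := by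
  have hT := tanh_pos hu
  have hc := Real.cosh_pos u
  have hs : Real.sinh u = Real.tanh u * Real.cosh u := (tanh_mul_cosh u).symm
  have hk := kap_lt
  have h1 := g_sub_le hg hu
  have h2 := hg.lower u hu
  have h3 := hg.upper u hu
  have hg0 := g_pos hg hu
  have h4 : (1 - Real.tanh u ^ 2) * Real.cosh u ^ 2 = 1 := by
    have h5 := Real.cosh_sq u
    have h6 : Real.tanh u ^ 2 * Real.cosh u ^ 2 = Real.sinh u ^ 2 := by rw [hs]; ring
    nlinarith only [h5, h6]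
  have e1 : G * Real.cosh u - 2 * Real.sinh u =
      (g u - 2 * Real.tanh u) * Real.cosh u - g u * e * Real.cosh u := by
    rw [hG, hs]; ring
  have h5 : |G * Real.cosh u - 2 * Real.sinh u| ≤
      (g u - 2 * Real.tanh u) * Real.cosh u + g u * (|e| * Real.cosh u) := by
    rw [e1]
    refine (abs_sub _ _).trans ?_
    rw [abs_of_nonneg (by
      have : 0 ≤ g u - 2 * Real.tanh u := by linarith only [h2]
      positivity : 0 ≤ (g u - 2 * Real.tanh u) * Real.cosh u), abs_mul, abs_mul,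
      abs_of_pos hg0, abs_of_pos hc]
    linarith only [mul_assoc (g u) |e| (Real.cosh u)]
  have h6 : |G * Real.cosh u - 2 * Real.sinh u| * Real.cosh u ≤
      ((g u - 2 * Real.tanh u) * Real.cosh u + g u * (|e| * Real.cosh u)) * Real.cosh u :=
    mul_le_mul_of_nonneg_right h5 hc.le
  refine h6.trans ?_
  have h7 : (g u - 2 * Real.tanh u) * Real.cosh u * Real.cosh u ≤ 0.118 * Real.tanh u := by
    have h8 : (g u - 2 * Real.tanh u) * Real.cosh u ^ 2 ≤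
        0.118 * Real.tanh u * (1 - Real.tanh u ^ 2) * Real.cosh u ^ 2 :=
      mul_le_mul_of_nonneg_right h1 (by positivity)
    have h9 : 0.118 * Real.tanh u * (1 - Real.tanh u ^ 2) * Real.cosh u ^ 2 =
        0.118 * Real.tanh u := by rw [mul_assoc, h4]; ring
    nlinarith only [h8, h9]
  have h8 : g u * (|e| * Real.cosh u) ≤ 2.1147 * Real.tanh u * (1 / 100) := by
    apply mul_le_mul _ he (by positivity) (by positivity)
    nlinarith only [hT, hk, h3]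
  have h9 : Real.tanh u ≤ Real.tanh u * Real.cosh u :=
    le_mul_of_one_le_right hT.le (Real.one_le_cosh u)
  have h10 : g u * (|e| * Real.cosh u) * Real.cosh u ≤
      2.1147 * Real.tanh u * (1 / 100) * Real.cosh u := mul_le_mul_of_nonneg_right h8 hc.le
  rw [hs]
  nlinarith only [hT, h7, h9, h10]

/-- `(1.001)^{-γ} ≥ 0.99` -/
theorem S_lower {τ S : ℝ} (hτ : 0 < τ) (hS : 0 < S) (h : S ≤ 1.001 * τ) :
    0.99 * τ ^ (-gam) ≤ S ^ (-gam) := by
  have g1 := gam_lt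
  have g2 := gam_gt
  have h1 : (1.001 * τ) ^ (-gam) ≤ S ^ (-gam) :=
    Real.rpow_le_rpow_of_nonpos hS h (by linarith only [g1, g2])
  have h2 : (1.001 * τ) ^ (-gam) = 1.001 ^ (-gam) * τ ^ (-gam) :=
    Real.mul_rpow (by norm_num) hτ.le
  have h3 : (0.99:ℝ) ≤ 1.001 ^ (-gam) := by
    have h4 : (1.001:ℝ) ^ (-(3:ℝ)) ≤ 1.001 ^ (-gam) :=
      Real.rpow_le_rpow_of_exponent_le (by norm_num) (by linarith only [g1, g2])
    refine le_trans ?_ h4
    rw [Real.rpow_neg (by norm_num)]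
    norm_num
  have h4 : 0 ≤ τ ^ (-gam) := (Real.rpow_pos_of_pos hτ _).le
  calc 0.99 * τ ^ (-gam) ≤ 1.001 ^ (-gam) * τ ^ (-gam) := mul_le_mul_of_nonneg_right h3 h4
    _ = (1.001 * τ) ^ (-gam) := h2.symm
    _ ≤ _ := h1

/-- `Y = τ^{-1} (T/T₀)^a T (cosh u)^a` -/
def YY (q : Par) (t u : ℝ) : ℝ :=
  1 / tau t * (Real.tanh u / q.T0 t) ^ aa * Real.tanh u * (Real.cosh u) ^ aa

theorem Vb_eq (q : Par) (t u : ℝ) : q.Vb t u = q.BV * YY q t u := by
  unfold Par.Vb YY; ring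

theorem T0_pos {q : Par} {t : ℝ} (ht : t < 1) (hr : 0 < q.rho0) (he : 0 < q.eps) :
    0 < q.T0 t := by
  have h1 : 0 < tau t := by unfold tau; linarith only [ht]
  have h2 := Real.rpow_pos_of_pos h1 (lam 3)
  have h3 := Real.rpow_pos_of_pos hr (-kap)
  unfold Par.T0 Par.A
  positivity

theorem YY_nonneg {q : Par} {t u : ℝ} (ht : t < 1) (hr : 0 < q.rho0) (he : 0 < q.eps)
    (hu : 0 < u) : 0 ≤ YY q t u := by
  have h1 : 0 < tau t := by unfold tau; linarith only [ht]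
  have h2 := T0_pos ht hr he
  have h3 := tanh_pos hu
  have h4 := Real.cosh_pos u
  unfold YY
  positivity

theorem YY_sq {q : Par} {t u : ℝ} (ht : t < 1) (hr : 0 < q.rho0) (hr1 : q.rho0 ≤ 1)
    (he : 0 < q.eps) (hu : 0 < u) :
    YY q t u ^ 2 ≤ 2 * (Real.cosh u - 1) * q.eps ^ (-(2 * aa)) * (tau t) ^ (-gam) := by
  have hτ : 0 < tau t := by unfold tau; linarith only [ht]
  have hT0 := T0_pos ht hr he
  have hT := tanh_pos hu
  have hT1 := Real.tanh_lt_one u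
  have hc := Real.cosh_pos u
  have hc1 := Real.one_le_cosh u
  have h1 : (Real.tanh u / q.T0 t) ^ aa ≤ (q.T0 t) ^ (-aa) := by
    rw [Real.rpow_neg hT0.le, ← Real.inv_rpow hT0.le]
    apply Real.rpow_le_rpow (by positivity) _ (by norm_num [aa])
    rw [div_eq_mul_inv]
    have : 0 < (q.T0 t)⁻¹ := by positivity
    nlinarith only [hT1, this]
  have h2 : ((q.T0 t) ^ (-aa)) ^ 2 ≤ q.eps ^ (-(2 * aa)) * (tau t) ^ (-(2 * aa * lam 3)) := by
    rw [← Real.rpow_natCast ((q.T0 t) ^ (-aa)) 2, ← Real.rpow_mul hT0.le]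
    have e1 : q.T0 t = q.eps * (tau t) ^ (lam 3) * q.rho0 ^ (-kap) := rfl
    have p1 := Real.rpow_pos_of_pos hτ (lam 3)
    have p2 := Real.rpow_pos_of_pos hr (-kap)
    have e2 : (-aa * ((2:ℕ):ℝ)) = -(2 * aa) := by push_cast; ring
    rw [e2, e1, Real.mul_rpow (by positivity) p2.le, Real.mul_rpow he.le p1.le,
      ← Real.rpow_mul hτ.le, ← Real.rpow_mul hr.le]
    have e3 : lam 3 * -(2 * aa) = -(2 * aa * lam 3) := by ring
    have e4 : (q.rho0) ^ (-kap * -(2 * aa)) ≤ 1 := by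
      apply Real.rpow_le_one hr.le hr1
      have := kap_gt
      unfold aa; nlinarith only [hT, hT1, this]
    rw [e3]
    have p3 := Real.rpow_pos_of_pos he (-(2 * aa))
    have p4 := Real.rpow_pos_of_pos hτ (-(2 * aa * lam 3))
    exact mul_le_of_le_one_right (by positivity) e4
  have h3 : (Real.tanh u * (Real.cosh u) ^ aa) ^ 2 ≤ 2 * (Real.cosh u - 1) := by
    have e1 : ((Real.cosh u) ^ aa) ^ 2 ≤ Real.cosh u := by
      rw [← Real.rpow_natCast ((Real.cosh u) ^ aa) 2, ← Real.rpow_mul hc.le]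
      calc (Real.cosh u) ^ (aa * ((2:ℕ):ℝ)) ≤ (Real.cosh u) ^ (1:ℝ) :=
            Real.rpow_le_rpow_of_exponent_le hc1 (by unfold aa; norm_num)
        _ = Real.cosh u := Real.rpow_one _
    have e2 : Real.tanh u ^ 2 * Real.cosh u ^ 2 = (Real.cosh u - 1) * (Real.cosh u + 1) := by
      have h5 := Real.cosh_sq u
      have h6 : Real.tanh u * Real.cosh u = Real.sinh u := tanh_mul_cosh u
      have h7 : Real.tanh u ^ 2 * Real.cosh u ^ 2 = Real.sinh u ^ 2 := by rw [← h6]; ring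
      rw [h7]; nlinarith only [h5]
    have e3 : Real.tanh u ^ 2 * Real.cosh u ≤ 2 * (Real.cosh u - 1) := by
      have e4 : Real.tanh u ^ 2 * Real.cosh u * Real.cosh u ≤
          2 * (Real.cosh u - 1) * Real.cosh u := by
        have : Real.tanh u ^ 2 * Real.cosh u * Real.cosh u =
            (Real.cosh u - 1) * (Real.cosh u + 1) := by rw [← e2]; ring
        rw [this]
        nlinarith only [hT, hT1, hc1]
      exact le_of_mul_le_mul_right e4 hc
    rw [mul_pow]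
    have : Real.tanh u ^ 2 * ((Real.cosh u) ^ aa) ^ 2 ≤ Real.tanh u ^ 2 * Real.cosh u :=
      mul_le_mul_of_nonneg_left e1 (by positivity)
    linarith only [e3, this]
  have e5 : (tau t) ^ (-gam) = (1 / tau t) ^ 2 * (tau t) ^ (-(2 * aa * lam 3)) := by
    have : -gam = -(2 * aa * lam 3) - 1 - 1 := by unfold gam; ring
    rw [this, Real.rpow_sub_one hτ.ne', Real.rpow_sub_one hτ.ne']
    field_simp
  have hY : YY q t u = 1 / tau t * (Real.tanh u / q.T0 t) ^ aa *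
      (Real.tanh u * (Real.cosh u) ^ aa) := by unfold YY; ring
  rw [hY, mul_pow, mul_pow, e5]
  have h4 : ((Real.tanh u / q.T0 t) ^ aa) ^ 2 ≤
      q.eps ^ (-(2 * aa)) * (tau t) ^ (-(2 * aa * lam 3)) :=
    (pow_le_pow_left₀ (by positivity) h1 2).trans h2
  have p3 := Real.rpow_pos_of_pos he (-(2 * aa))
  have p4 := Real.rpow_pos_of_pos hτ (-(2 * aa * lam 3))
  calc (1 / tau t) ^ 2 * ((Real.tanh u / q.T0 t) ^ aa) ^ 2 *
        (Real.tanh u * (Real.cosh u) ^ aa) ^ 2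
      ≤ (1 / tau t) ^ 2 * (q.eps ^ (-(2 * aa)) * (tau t) ^ (-(2 * aa * lam 3))) *
        (2 * (Real.cosh u - 1)) := by
        apply mul_le_mul _ h3 (by positivity) (by positivity)
        exact mul_le_mul_of_nonneg_left h4 (by positivity)
    _ = _ := by ring

/-- bound of `Zs g² fb` -/
theorem Zgf_le {g : ℝ → ℝ} (hg : IsBub g) {q : Par} {t u : ℝ} (ht : t < 1) (hr : 0 < q.rho0)
    (he : 0 < q.eps) (hB : 0 ≤ q.B) (hu : 0 < u) :
    Zs g u * (g u) ^ 2 * q.fb t u ≤ 4.6 * (q.B * YY q t u) := by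
  have hτ : 0 < tau t := by unfold tau; linarith only [ht]
  have hT0 := T0_pos ht hr he
  have hT := tanh_pos hu
  have hT1 := Real.tanh_lt_one u
  have hc := Real.cosh_pos u
  have hq := qb_gt hg hu
  have hg0 := g_pos hg hu
  have hk := kap_lt
  have h3 := hg.upper u hu
  have h1 : Zs g u ≤ 39 / 38 * Real.cosh u := by
    unfold Zs
    rw [div_le_iff₀ (by linarith only [hT, hT1, hq])]
    nlinarith only [hT, hT1, hc, hq]
  have h2 : (g u) ^ 2 ≤ 4.472 * Real.tanh u ^ 2 := by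
    have : g u ≤ 2.1147 * Real.tanh u := by nlinarith only [hT, hk, h3]
    have h4 : (g u) ^ 2 ≤ (2.1147 * Real.tanh u) ^ 2 := pow_le_pow_left₀ hg0.le this 2
    nlinarith only [h4, sq_nonneg (Real.tanh u)]
  have hZ0 : 0 ≤ Zs g u := by unfold Zs; have : 0 < qb g u := by linarith only [hT, hT1, hq]
                              positivity
  have h4 : Zs g u * (g u) ^ 2 ≤ 4.6 * (Real.cosh u * Real.tanh u ^ 2) := by
    calc Zs g u * (g u) ^ 2 ≤ (39 / 38 * Real.cosh u) * (4.472 * Real.tanh u ^ 2) :=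
          mul_le_mul h1 h2 (by positivity) (by positivity)
      _ ≤ _ := by
          have : 0 ≤ Real.cosh u * Real.tanh u ^ 2 := by positivity
          nlinarith only [this]
  have hfb : 0 ≤ q.fb t u := by
    unfold Par.fb; positivity
  have h5 : Zs g u * (g u) ^ 2 * q.fb t u ≤ 4.6 * (Real.cosh u * Real.tanh u ^ 2) * q.fb t u :=
    mul_le_mul_of_nonneg_right h4 hfb
  have h6 : Real.cosh u * (Real.cosh u) ^ (-(1 - aa)) = (Real.cosh u) ^ aa := by
    rw [show (aa : ℝ) = -(1 - aa) + 1 by ring]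
    rw [Real.rpow_add hc, Real.rpow_one]
    ring_nf
  have h7 : Real.cosh u * Real.tanh u ^ 2 * q.fb t u = q.B * YY q t u * Real.tanh u := by
    unfold Par.fb YY
    rw [← h6]
    ring
  have h8 : 0 ≤ q.B * YY q t u := mul_nonneg hB (YY_nonneg ht hr he hu)
  calc Zs g u * (g u) ^ 2 * q.fb t u ≤ 4.6 * (Real.cosh u * Real.tanh u ^ 2) * q.fb t u := h5
    _ = 4.6 * (Real.cosh u * Real.tanh u ^ 2 * q.fb t u) := by ring
    _ = 4.6 * (q.B * YY q t u * Real.tanh u) := by rw [h7]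
    _ ≤ 4.6 * (q.B * YY q t u) := by nlinarith only [hT1, h8]

/-- the source in region I -/
theorem src_I {η B BV Y E0 R V : ℝ} (hη : 0 < η)
    (hE : |E0| ≤ 3.3 * η + 51 * (B * Y)) (hV : |V| ≤ BV * Y) (hR0 : 0 ≤ R) (hR : R ≤ 3 * η) :
    2 * E0 ^ 2 + (R - E0) ^ 2 / 20 + 20 * V ^ 2 ≤
      46.7 * η ^ 2 + 38 * (60 ^ 2 * B ^ 2 + BV ^ 2) * Y ^ 2 := by
  have hV2 : V ^ 2 ≤ BV ^ 2 * Y ^ 2 := by
    have h1 : |V| ^ 2 ≤ (BV * Y) ^ 2 := pow_le_pow_left₀ (abs_nonneg _) hV 2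
    rwa [sq_abs, mul_pow] at h1
  have hE2 : E0 ^ 2 ≤ 2 * (3.3 * η) ^ 2 + 2 * (51 * (B * Y)) ^ 2 := by
    have h2 : |E0| ^ 2 ≤ (3.3 * η + 51 * (B * Y)) ^ 2 :=
      pow_le_pow_left₀ (abs_nonneg _) hE 2
    rw [sq_abs] at h2
    nlinarith only [h2, sq_nonneg (3.3 * η - 51 * (B * Y))]
  have hsrc : 2 * E0 ^ 2 + (R - E0) ^ 2 / 20 ≤ 2.1 * E0 ^ 2 + 0.1 * R ^ 2 := by
    nlinarith only [sq_nonneg (R + E0)]
  have hR2 : R ^ 2 ≤ 9 * η ^ 2 := by nlinarith only [hη, hR0, hR]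
  have h3 : 0 ≤ B ^ 2 * Y ^ 2 := by positivity
  have h4 : 0 ≤ BV ^ 2 * Y ^ 2 := by positivity
  have h5 : (51 * (B * Y)) ^ 2 = 2601 * (B ^ 2 * Y ^ 2) := by ring
  have h6 : 38 * (60 ^ 2 * B ^ 2 + BV ^ 2) * Y ^ 2 =
      136800 * (B ^ 2 * Y ^ 2) + 38 * (BV ^ 2 * Y ^ 2) := by ring
  rw [h6]
  rw [h5] at hE2
  have h7 : (3.3 * η) ^ 2 = 10.89 * η ^ 2 := by ring
  rw [h7] at hE2
  linarith only [hV2, hE2, hsrc, hR2, h3, h4, mul_nonneg (by norm_num : (0:ℝ) ≤ 1) (sq_nonneg η)]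

theorem om_I {τ r2 c Z : ℝ} (hτ : 0 < τ) (hr2 : 0 ≤ r2) (hc1 : 1 ≤ c) (hZ0 : 0 ≤ Z)
    (hZ : Z ≤ 39 / 38 * c) (hD3 : r2 * c ≤ τ / 10) :
    0 ≤ r2 / (100 * (τ + r2 / 100)) ∧ r2 / (100 * (τ + r2 / 100)) ≤ 1 / 1000 ∧
      r2 / (100 * (τ + r2 / 100)) * Z ≤ 11 / 10000 ∧ τ + r2 / 100 ≤ 1.001 * τ := by
  have hr2τ : r2 ≤ τ / 10 := le_trans (le_mul_of_one_le_right hr2 hc1) hD3
  have hS : 0 < τ + r2 / 100 := by positivity
  have hω0 : 0 ≤ r2 / (100 * (τ + r2 / 100)) := by positivity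
  have hωτ : r2 / (100 * (τ + r2 / 100)) ≤ r2 / (100 * τ) := by
    apply div_le_div_of_nonneg_left hr2 (by positivity)
    linarith only [hr2]
  refine ⟨hω0, ?_, ?_, by linarith only [hr2τ]⟩
  · refine hωτ.trans ?_
    rw [div_le_div_iff₀ (by positivity) (by norm_num)]
    linarith only [hr2τ]
  · have hc0 : 0 < c := by linarith only [hc1]
    have h1 : r2 / (100 * (τ + r2 / 100)) * Z ≤ r2 / (100 * τ) * (39 / 38 * c) :=
      mul_le_mul hωτ hZ hZ0 (by positivity)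
    refine h1.trans ?_
    have h2 : r2 / (100 * τ) * (39 / 38 * c) = (39 / 38) * (r2 * c) / (100 * τ) := by
      ring
    rw [h2, div_le_div_iff₀ (by positivity) (by norm_num)]
    linarith only [hτ, hD3]

/-- **closure R, region I** -/
theorem closeR_I {g : ℝ → ℝ} (hg : IsBub g) {q : Par} {t u r Z G e E0 R V : ℝ} (ht : t < 1)
    (hu : 0 < u) (hr : 0 < q.rho0) (hr1 : q.rho0 ≤ 1) (he0 : 0 < q.eps)
    (hB : 0 ≤ q.B) (hBV : 0 ≤ q.BV) (hGR : 60 ^ 2 * q.B ^ 2 + q.BV ^ 2 ≤ q.GR)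
    (hη : 0 < q.eta) (hη1 : q.eta < 1 / 50) (hZ0 : 0 ≤ Z) (hZ : Z ≤ 39 / 38 * Real.cosh u)
    (hG : G = g u * (1 - e)) (he : |e| * Real.cosh u ≤ 1 / 100)
    (hD3 : r ^ 2 * Real.cosh u ≤ tau t / 10)
    (hE : |E0| ≤ 3.3 * q.eta + 11 * (Zs g u * (g u) ^ 2 * q.fb t u))
    (hV : |V| ≤ q.Vb t u) (hR0 : 0 ≤ R) (hR : R ≤ 3 * q.eta) :
    2 * E0 ^ 2 + (R - E0) ^ 2 / 20 + 20 * V ^ 2 <
      LRB q.eta (q.GR * q.eps ^ (-(2 * aa))) (tau t) (r ^ 2) (Real.cosh u) (Real.sinh u) Z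
        (-(Z * G)) (Z * G ^ 2) := by
  have hτ : 0 < tau t := by unfold tau; linarith only [ht]
  have hc1 := Real.one_le_cosh u
  have hx : 0 ≤ Real.cosh u - 1 := by linarith only [hc1]
  have hs : Real.sinh u ^ 2 = Real.cosh u ^ 2 - 1 := by
    have := Real.cosh_sq u; linarith only [this]
  have hs0 : 0 ≤ Real.sinh u := (Real.sinh_pos_iff.2 hu).le
  have hS : 0 < tau t + r ^ 2 / 100 := by positivity
  obtain ⟨hω0, hω1, hωZ, hS1⟩ := om_I hτ (sq_nonneg r) hc1 hZ0 hZ hD3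
  have hBr := Br_I hc1 hs hs0 hω0 hω1 hZ0 hωZ hZ (hG_of hg hu hG he)
  rw [LRB_eq hS]
  have hY0 : 0 ≤ YY q t u := YY_nonneg ht hr he0 hu
  have hY2 := YY_sq ht hr hr1 he0 hu
  have h1 : |E0| ≤ 3.3 * q.eta + 51 * (q.B * YY q t u) := by
    have h2 := Zgf_le hg ht hr he0 hB hu
    have h3 : 0 ≤ q.B * YY q t u := mul_nonneg hB hY0
    linarith only [hE, h2, h3]
  rw [Vb_eq] at hV
  have hsrc := src_I hη h1 hV hR0 hR
  have hη2 : 46.7 * q.eta ^ 2 < q.eta := by nlinarith only [hη, hη1]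
  have hSl := S_lower hτ hS hS1
  have hGR0 : 0 ≤ q.GR := le_trans (by positivity) hGR
  have p1 := Real.rpow_pos_of_pos he0 (-(2 * aa))
  have p2 := Real.rpow_pos_of_pos hτ (-gam)
  have hK : 0 ≤ q.GR * q.eps ^ (-(2 * aa)) := mul_nonneg hGR0 p1.le
  have h4 : (tau t) ^ (-gam) * (76 * (Real.cosh u - 1)) ≤
      (tau t + r ^ 2 / 100) ^ (-gam) * Br (r ^ 2 / (100 * (tau t + r ^ 2 / 100))) (Real.cosh u)
        (Real.sinh u) Z (-(Z * G)) (Z * G ^ 2) := by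
    have h5 := mul_le_mul hSl hBr (by positivity) (Real.rpow_pos_of_pos hS _).le
    refine le_trans ?_ h5
    have : 0 ≤ (tau t) ^ (-gam) * (Real.cosh u - 1) := by positivity
    linarith only [this]
  have h6 := mul_le_mul_of_nonneg_left h4 hK
  have h7 : 38 * (60 ^ 2 * q.B ^ 2 + q.BV ^ 2) * YY q t u ^ 2 ≤
      q.GR * q.eps ^ (-(2 * aa)) * ((tau t) ^ (-gam) * (76 * (Real.cosh u - 1))) := by
    have h8 : 38 * (60 ^ 2 * q.B ^ 2 + q.BV ^ 2) * YY q t u ^ 2 ≤ 38 * q.GR * YY q t u ^ 2 :=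
      mul_le_mul_of_nonneg_right (by linarith only [hGR]) (sq_nonneg _)
    have h9 := mul_le_mul_of_nonneg_left hY2 (by positivity : 0 ≤ 38 * q.GR)
    linarith only [h8, h9]
  linarith only [hsrc, hη2, h6, h7]

end

end Vale.Agent.P244.ST.ClR
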