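import Mathlib
import Vale.Agent.P244.ST.Geo

/-!
# P244-ST : smooth functions of `(t,x)` on an open set

`Sm Ω H` : `H : Fn` is `C^∞` on the open set `Ω ⊆ ℝ × ℝ` (time first).  Calculus rules for
the operators `Dx`, `Dt` of Geo.lean on such functions; smoothness of the geometric quantities.
-/

open Set Filter
open scoped ContDiff Topology

namespace Vale.Agent.P244.ST

noncomputable section

/-- `H` is smooth on `Ω` -/
def Sm (Ω : Set (ℝ × ℝ)) (H : Fn) : Prop := ContDiffOn ℝ ∞ (fun z : ℝ × ℝ => H z.1 z.2) Ω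

section

variable {Ω : Set (ℝ × ℝ)} (hΩ : IsOpen Ω) {H K : Fn}

lemma Sm.mono {Ω' : Set (ℝ × ℝ)} (h : Sm Ω H) (hs : Ω' ⊆ Ω) : Sm Ω' H := ContDiffOn.mono h hs

lemma Sm.congr (h : Sm Ω H) (he : ∀ z ∈ Ω, K z.1 z.2 = H z.1 z.2) : Sm Ω K :=
  ContDiffOn.congr h he

include hΩ

lemma Sm.at (h : Sm Ω H) {t x : ℝ} (hz : (t, x) ∈ Ω) :
    ContDiffAt ℝ ∞ (fun z : ℝ × ℝ => H z.1 z.2) (t, x) :=
  ContDiffOn.contDiffAt h (hΩ.mem_nhds hz)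

lemma Sm.at_x (h : Sm Ω H) {t x : ℝ} (hz : (t, x) ∈ Ω) : ContDiffAt ℝ ∞ (H t) x := by
  have h1 : ContDiffAt ℝ ∞ (fun y : ℝ => ((t, y) : ℝ × ℝ)) x :=
    contDiffAt_const.prodMk contDiffAt_id
  exact ContDiffAt.comp x (f := fun y : ℝ => ((t, y) : ℝ × ℝ))
    (g := fun z : ℝ × ℝ => H z.1 z.2) (h.at hΩ hz) h1

lemma Sm.at_t (h : Sm Ω H) {t x : ℝ} (hz : (t, x) ∈ Ω) :
    ContDiffAt ℝ ∞ (fun s => H s x) t := by
  have h1 : ContDiffAt ℝ ∞ (fun s : ℝ => ((s, x) : ℝ × ℝ)) t :=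
    contDiffAt_id.prodMk contDiffAt_const
  exact ContDiffAt.comp t (f := fun s : ℝ => ((s, x) : ℝ × ℝ))
    (g := fun z : ℝ × ℝ => H z.1 z.2) (h.at hΩ hz) h1

lemma Sm.hasDeriv_x (h : Sm Ω H) {t x : ℝ} (hz : (t, x) ∈ Ω) :
    HasDerivAt (H t) (Dx H t x) x :=
  ((h.at_x hΩ hz).differentiableAt (by norm_num)).hasDerivAt

lemma Sm.hasDeriv_t (h : Sm Ω H) {t x : ℝ} (hz : (t, x) ∈ Ω) :
    HasDerivAt (fun s => H s x) (Dt H t x) t :=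
  ((h.at_t hΩ hz).differentiableAt (by norm_num)).hasDerivAt

lemma Sm.Dx_eq (h : Sm Ω H) {t x : ℝ} (hz : (t, x) ∈ Ω) :
    Dx H t x = fderiv ℝ (fun z : ℝ × ℝ => H z.1 z.2) (t, x) (0, 1) := by
  have h1 : HasDerivAt (fun y : ℝ => ((t, y) : ℝ × ℝ)) (0, 1) x :=
    (hasDerivAt_const x t).prodMk (hasDerivAt_id x)
  have h2 := ((h.at hΩ hz).differentiableAt (by norm_num)).hasFDerivAt
  exact (HasFDerivAt.comp_hasDerivAt x (f := fun y : ℝ => ((t, y) : ℝ × ℝ)) h2 h1).deriv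

lemma Sm.Dt_eq (h : Sm Ω H) {t x : ℝ} (hz : (t, x) ∈ Ω) :
    Dt H t x = fderiv ℝ (fun z : ℝ × ℝ => H z.1 z.2) (t, x) (1, 0) := by
  have h1 : HasDerivAt (fun s : ℝ => ((s, x) : ℝ × ℝ)) (1, 0) t :=
    (hasDerivAt_id t).prodMk (hasDerivAt_const t x)
  have h2 := ((h.at hΩ hz).differentiableAt (by norm_num)).hasFDerivAt
  exact (HasFDerivAt.comp_hasDerivAt t (f := fun s : ℝ => ((s, x) : ℝ × ℝ)) h2 h1).deriv

lemma Sm.dx (h : Sm Ω H) : Sm Ω (Dx H) := by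
  have h1 : ContDiffOn ℝ ∞ (fun z => fderiv ℝ (fun z : ℝ × ℝ => H z.1 z.2) z (0, 1)) Ω :=
    (ContDiffOn.fderiv_of_isOpen h hΩ (m := ∞) (by simp)).clm_apply contDiffOn_const
  refine ContDiffOn.congr h1 ?_
  rintro ⟨t, x⟩ hz
  exact h.Dx_eq hΩ hz

lemma Sm.dt (h : Sm Ω H) : Sm Ω (Dt H) := by
  have h1 : ContDiffOn ℝ ∞ (fun z => fderiv ℝ (fun z : ℝ × ℝ => H z.1 z.2) z (1, 0)) Ω :=
    (ContDiffOn.fderiv_of_isOpen h hΩ (m := ∞) (by simp)).clm_apply contDiffOn_const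
  refine ContDiffOn.congr h1 ?_
  rintro ⟨t, x⟩ hz
  exact h.Dt_eq hΩ hz

/-- `∂_t ∂_x = ∂_x ∂_t` -/
lemma Sm.comm (h : Sm Ω H) {t x : ℝ} (hz : (t, x) ∈ Ω) :
    Dt (Dx H) t x = Dx (Dt H) t x := by
  have hF := h.at hΩ hz
  set F : ℝ × ℝ → ℝ := fun z => H z.1 z.2 with hFdef
  have hsym : IsSymmSndFDerivAt ℝ F (t, x) := by
    refine ContDiffAt.isSymmSndFDerivAt hF ?_
    rw [minSmoothness_of_isRCLikeNormedField]
    norm_cast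
  have hd : DifferentiableAt ℝ (fderiv ℝ F) (t, x) :=
    (hF.fderiv_right (m := 1) (by norm_cast)).differentiableAt (by norm_num)
  rw [h.dx hΩ |>.Dt_eq hΩ hz, h.dt hΩ |>.Dx_eq hΩ hz]
  have e1 : (fun z : ℝ × ℝ => Dx H z.1 z.2) =ᶠ[𝓝 (t, x)] fun z => fderiv ℝ F z (0, 1) := by
    filter_upwards [hΩ.mem_nhds hz] with z hz'
    exact h.Dx_eq hΩ (t := z.1) (x := z.2) hz'
  have e2 : (fun z : ℝ × ℝ => Dt H z.1 z.2) =ᶠ[𝓝 (t, x)] fun z => fderiv ℝ F z (1, 0) := by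
    filter_upwards [hΩ.mem_nhds hz] with z hz'
    exact h.Dt_eq hΩ (t := z.1) (x := z.2) hz'
  rw [e1.fderiv_eq, e2.fderiv_eq]
  have e3 : ∀ v : ℝ × ℝ, fderiv ℝ (fun z => fderiv ℝ F z v) (t, x) =
      (fderiv ℝ (fderiv ℝ F) (t, x)).flip v := by
    intro v
    have h4 : HasFDerivAt (fun z => fderiv ℝ F z v)
        ((fderiv ℝ (fderiv ℝ F) (t, x)).flip v) (t, x) := by
      have := hd.hasFDerivAt.clm_apply (hasFDerivAt_const v (t, x))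
      simpa using this
    exact h4.fderiv
  rw [e3, e3]
  exact hsym.eq (1, 0) (0, 1)

/-- locality of `Dx` and `Dt` on open sets -/
lemma Dx_congr (he : ∀ z ∈ Ω, H z.1 z.2 = K z.1 z.2) {t x : ℝ} (hz : (t, x) ∈ Ω) :
    Dx H t x = Dx K t x := by
  have hc : ContinuousAt (fun y : ℝ => ((t, y) : ℝ × ℝ)) x := by fun_prop
  have h1 : ∀ᶠ y in 𝓝 x, H t y = K t y := by
    filter_upwards [hc.eventually (hΩ.mem_nhds hz)] with y hy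
    exact he (t, y) hy
  exact Filter.EventuallyEq.deriv_eq h1

lemma Dt_congr (he : ∀ z ∈ Ω, H z.1 z.2 = K z.1 z.2) {t x : ℝ} (hz : (t, x) ∈ Ω) :
    Dt H t x = Dt K t x := by
  have hc : ContinuousAt (fun s : ℝ => ((s, x) : ℝ × ℝ)) t := by fun_prop
  have h1 : ∀ᶠ s in 𝓝 t, H s x = K s x := by
    filter_upwards [hc.eventually (hΩ.mem_nhds hz)] with y hy
    exact he (y, x) hy
  exact Filter.EventuallyEq.deriv_eq h1

end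

/-! ### algebraic operations -/

section

variable {Ω : Set (ℝ × ℝ)} {H K : Fn}

lemma Sm.const (c : ℝ) : Sm Ω (fun _ _ => c) := contDiffOn_const

lemma Sm.tvar : Sm Ω (fun t _ => t) := contDiffOn_fst

lemma Sm.xvar : Sm Ω (fun _ x => x) := contDiffOn_snd

lemma Sm.add (h : Sm Ω H) (k : Sm Ω K) : Sm Ω (fun t x => H t x + K t x) := ContDiffOn.add h k

lemma Sm.sub (h : Sm Ω H) (k : Sm Ω K) : Sm Ω (fun t x => H t x - K t x) := ContDiffOn.sub h k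

lemma Sm.neg (h : Sm Ω H) : Sm Ω (fun t x => -H t x) := ContDiffOn.neg h

lemma Sm.mul (h : Sm Ω H) (k : Sm Ω K) : Sm Ω (fun t x => H t x * K t x) := ContDiffOn.mul h k

lemma Sm.pow (h : Sm Ω H) (n : ℕ) : Sm Ω (fun t x => H t x ^ n) := ContDiffOn.pow h n

lemma Sm.exp (h : Sm Ω H) : Sm Ω (fun t x => Real.exp (H t x)) := ContDiffOn.exp h

lemma Sm.div (h : Sm Ω H) (k : Sm Ω K) (h0 : ∀ z ∈ Ω, K z.1 z.2 ≠ 0) :
    Sm Ω (fun t x => H t x / K t x) := ContDiffOn.div h k h0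

lemma Sm.inv (k : Sm Ω K) (h0 : ∀ z ∈ Ω, K z.1 z.2 ≠ 0) :
    Sm Ω (fun t x => (K t x)⁻¹) := ContDiffOn.inv k h0

lemma Sm.log (k : Sm Ω K) (h0 : ∀ z ∈ Ω, K z.1 z.2 ≠ 0) :
    Sm Ω (fun t x => Real.log (K t x)) := ContDiffOn.log k h0

lemma Sm.sqrt (k : Sm Ω K) (h0 : ∀ z ∈ Ω, K z.1 z.2 ≠ 0) :
    Sm Ω (fun t x => Real.sqrt (K t x)) := ContDiffOn.sqrt k h0

/-- composition with a function smooth on a set `S` -/
lemma Sm.comp {h : ℝ → ℝ} {S : Set ℝ} (hh : ContDiffOn ℝ ∞ h S) (k : Sm Ω K)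
    (hS : ∀ z ∈ Ω, K z.1 z.2 ∈ S) : Sm Ω (fun t x => h (K t x)) := by
  have : ContDiffOn ℝ ∞ (h ∘ fun z : ℝ × ℝ => K z.1 z.2) Ω := hh.comp k hS
  exact this

lemma Sm.comp' {h : ℝ → ℝ} (hh : ContDiff ℝ ∞ h) (k : Sm Ω K) :
    Sm Ω (fun t x => h (K t x)) := by
  have : ContDiffOn ℝ ∞ (h ∘ fun z : ℝ × ℝ => K z.1 z.2) Ω := hh.comp_contDiffOn k
  exact this

lemma Sm.rpow_const (k : Sm Ω K) (c : ℝ) (h0 : ∀ z ∈ Ω, K z.1 z.2 ≠ 0) :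
    Sm Ω (fun t x => (K t x) ^ c) := ContDiffOn.rpow_const_of_ne k h0

lemma Sm.cosh (k : Sm Ω K) : Sm Ω (fun t x => Real.cosh (K t x)) := Sm.comp' Real.contDiff_cosh k

lemma Sm.sinh (k : Sm Ω K) : Sm Ω (fun t x => Real.sinh (K t x)) := Sm.comp' Real.contDiff_sinh k

end

end

end Vale.Agent.P244.ST
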