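import Vale.Agent.P244.ST.ClR
import Vale.Agent.P244.ST.Open

/-!
# P244-ST, closure R : jet calculus and the value of `(D_t - Lap) RB`

`JetAt w f Ω H t x v s l` : `H` is smooth on the open set `Ω`, `H t x = v`, `H_s = s`,
`(D_t - Lap) H = l` at the point `(t,x) ∈ Ω`.
-/

open Set Filter
open scoped ContDiff Topology

namespace Vale.Agent.P244.ST.ClR

open Vale.Agent.P244.ST

noncomputable section

section jets

variable {w f : Fn} {Ω : Set (ℝ × ℝ)} {H K : Fn} {t x : ℝ}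

lemma ds_add (hΩ : IsOpen Ω) (hH : Sm Ω H) (hK : Sm Ω K) (hz : (t, x) ∈ Ω) :
    Ds w (fun t x => H t x + K t x) t x = Ds w H t x + Ds w K t x := by
  have h1 : Dx (fun t x => H t x + K t x) t x = Dx H t x + Dx K t x :=
    ((hH.hasDeriv_x hΩ hz).add (hK.hasDeriv_x hΩ hz)).deriv
  simp only [Ds, h1]
  ring

lemma ds_mul (hΩ : IsOpen Ω) (hH : Sm Ω H) (hK : Sm Ω K) (hz : (t, x) ∈ Ω) :
    Ds w (fun t x => H t x * K t x) t x = H t x * Ds w K t x + K t x * Ds w H t x := by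
  have h1 : Dx (fun t x => H t x * K t x) t x = Dx H t x * K t x + H t x * Dx K t x :=
    ((hH.hasDeriv_x hΩ hz).mul (hK.hasDeriv_x hΩ hz)).deriv
  simp only [Ds, h1]
  ring

lemma ds_comp (hΩ : IsOpen Ω) (hH : Sm Ω H) (hz : (t, x) ∈ Ω) {h : ℝ → ℝ} {h' : ℝ}
    (hh : HasDerivAt h h' (H t x)) :
    Ds w (fun t x => h (H t x)) t x = h' * Ds w H t x := by
  have h1 : Dx (fun t x => h (H t x)) t x = h' * Dx H t x :=
    (hh.comp x (hH.hasDeriv_x hΩ hz)).deriv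
  simp only [Ds, h1]
  ring

lemma dt_add' (hΩ : IsOpen Ω) (hH : Sm Ω H) (hK : Sm Ω K) (hz : (t, x) ∈ Ω) :
    DT w f (fun t x => H t x + K t x) t x = DT w f H t x + DT w f K t x := by
  have h1 : Dx (fun t x => H t x + K t x) t x = Dx H t x + Dx K t x :=
    ((hH.hasDeriv_x hΩ hz).add (hK.hasDeriv_x hΩ hz)).deriv
  have h2 : Dt (fun t x => H t x + K t x) t x = Dt H t x + Dt K t x :=
    ((hH.hasDeriv_t hΩ hz).add (hK.hasDeriv_t hΩ hz)).deriv
  simp only [DT, h1, h2]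
  ring

lemma dt_mul' (hΩ : IsOpen Ω) (hH : Sm Ω H) (hK : Sm Ω K) (hz : (t, x) ∈ Ω) :
    DT w f (fun t x => H t x * K t x) t x = H t x * DT w f K t x + K t x * DT w f H t x := by
  have h1 : Dx (fun t x => H t x * K t x) t x = Dx H t x * K t x + H t x * Dx K t x :=
    ((hH.hasDeriv_x hΩ hz).mul (hK.hasDeriv_x hΩ hz)).deriv
  have h2 : Dt (fun t x => H t x * K t x) t x = Dt H t x * K t x + H t x * Dt K t x :=
    ((hH.hasDeriv_t hΩ hz).mul (hK.hasDeriv_t hΩ hz)).deriv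
  simp only [DT, h1, h2]
  ring

lemma dt_comp' (hΩ : IsOpen Ω) (hH : Sm Ω H) (hz : (t, x) ∈ Ω) {h : ℝ → ℝ} {h' : ℝ}
    (hh : HasDerivAt h h' (H t x)) :
    DT w f (fun t x => h (H t x)) t x = h' * DT w f H t x := by
  have h1 : Dx (fun t x => h (H t x)) t x = h' * Dx H t x :=
    (hh.comp x (hH.hasDeriv_x hΩ hz)).deriv
  have h2 : Dt (fun t x => h (H t x)) t x = h' * Dt H t x :=
    (hh.comp t (hH.hasDeriv_t hΩ hz)).deriv
  simp only [DT, h1, h2]
  ring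

lemma ds_congr (hΩ : IsOpen Ω) (he : ∀ z ∈ Ω, H z.1 z.2 = K z.1 z.2) (hz : (t, x) ∈ Ω) :
    Ds w H t x = Ds w K t x := by
  simp only [Ds, Dx_congr hΩ he hz]

/-- smoothness of `H_s` -/
lemma sm_ds (hΩ : IsOpen Ω) (hΩx : ∀ z ∈ Ω, z.2 ∈ Ioo (-1 : ℝ) 1) (hw : Sm Ω w)
    (hH : Sm Ω H) : Sm Ω (Ds w H) := by
  have h1 : Sm Ω (fun _ x => sx x) := by
    unfold sx
    refine Sm.sqrt (K := fun _ x => 1 - x ^ 2) ((Sm.const 1).sub (Sm.xvar.pow 2)) ?_
    intro z hz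
    have := hΩx z hz
    have h3 : 0 < (1 - z.2) * (1 + z.2) := mul_pos (by linarith only [this, this.2]) (by linarith only [this, this.1])
    exact ne_of_gt (by nlinarith only [h3])
  exact ((h1.mul hw.neg.exp).neg).mul (hH.dx hΩ)

variable (w f Ω)

/-- jets: value, `∂_s`, `D_t - Lap` -/
structure JetAt (H : Fn) (t x v s l : ℝ) : Prop where
  sm : Sm Ω H
  val : H t x = v
  ds : Ds w H t x = s
  lo : DT w f H t x - Lp w f H t x = l

variable {w f Ω}

theorem JetAt.congr_val {v s l v' s' l' : ℝ} (h : JetAt w f Ω H t x v s l) (hv : v = v')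
    (hs : s = s') (hl : l = l') : JetAt w f Ω H t x v' s' l' := by
  subst hv; subst hs; subst hl; exact h

theorem JetAt.add (hΩ : IsOpen Ω) (hΩx : ∀ z ∈ Ω, z.2 ∈ Ioo (-1 : ℝ) 1) (hw : Sm Ω w)
    (hz : (t, x) ∈ Ω) {v s l v' s' l' : ℝ} (h : JetAt w f Ω H t x v s l)
    (k : JetAt w f Ω K t x v' s' l') :
    JetAt w f Ω (fun t x => H t x + K t x) t x (v + v') (s + s') (l + l') := by
  refine ⟨h.sm.add k.sm, by rw [h.val, k.val], ?_, ?_⟩
  · rw [ds_add hΩ h.sm k.sm hz, h.ds, k.ds]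
  · have h1 : Ds w (Ds w (fun t x => H t x + K t x)) t x =
        Ds w (Ds w H) t x + Ds w (Ds w K) t x := by
      rw [ds_congr hΩ (K := fun t x => Ds w H t x + Ds w K t x)
        (fun z hz' => ds_add hΩ h.sm k.sm (t := z.1) (x := z.2) hz') hz]
      exact ds_add hΩ (sm_ds hΩ hΩx hw h.sm) (sm_ds hΩ hΩx hw k.sm) hz
    have h2 := h.lo
    have h3 := k.lo
    unfold Lp at h2 h3 ⊢
    rw [h1, dt_add' hΩ h.sm k.sm hz, ds_add hΩ h.sm k.sm hz, ← h2, ← h3]
    ring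

theorem JetAt.mul (hΩ : IsOpen Ω) (hΩx : ∀ z ∈ Ω, z.2 ∈ Ioo (-1 : ℝ) 1) (hw : Sm Ω w)
    (hz : (t, x) ∈ Ω) {v s l v' s' l' : ℝ} (h : JetAt w f Ω H t x v s l)
    (k : JetAt w f Ω K t x v' s' l') :
    JetAt w f Ω (fun t x => H t x * K t x) t x (v * v') (v * s' + v' * s)
      (v * l' + v' * l - 2 * s * s') := by
  refine ⟨h.sm.mul k.sm, by rw [h.val, k.val], ?_, ?_⟩
  · rw [ds_mul hΩ h.sm k.sm hz, h.ds, k.ds, h.val, k.val]
  · have hsH := sm_ds hΩ hΩx hw h.sm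
    have hsK := sm_ds hΩ hΩx hw k.sm
    have h1 : Ds w (Ds w (fun t x => H t x * K t x)) t x =
        H t x * Ds w (Ds w K) t x + Ds w K t x * Ds w H t x +
          (K t x * Ds w (Ds w H) t x + Ds w H t x * Ds w K t x) := by
      rw [ds_congr hΩ (K := fun t x => H t x * Ds w K t x + K t x * Ds w H t x)
        (fun z hz' => ds_mul hΩ h.sm k.sm (t := z.1) (x := z.2) hz') hz]
      rw [ds_add hΩ (h.sm.mul hsK) (k.sm.mul hsH) hz, ds_mul hΩ h.sm hsK hz,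
        ds_mul hΩ k.sm hsH hz]
    have h2 := h.lo
    have h3 := k.lo
    unfold Lp at h2 h3 ⊢
    rw [h1, dt_mul' hΩ h.sm k.sm hz, ds_mul hΩ h.sm k.sm hz, ← h2, ← h3, ← h.val, ← k.val,
      ← h.ds, ← k.ds]
    ring

theorem JetAt.comp (hΩ : IsOpen Ω) (hΩx : ∀ z ∈ Ω, z.2 ∈ Ioo (-1 : ℝ) 1) (hw : Sm Ω w)
    (hz : (t, x) ∈ Ω) {v s l : ℝ} (h : JetAt w f Ω H t x v s l) {φ φ1 : ℝ → ℝ} {φ2 : ℝ}
    (hs0 : Sm Ω (fun t x => φ (H t x))) (hs1 : Sm Ω (fun t x => φ1 (H t x)))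
    (hd : ∀ z ∈ Ω, HasDerivAt φ (φ1 (H z.1 z.2)) (H z.1 z.2)) (hd2 : HasDerivAt φ1 φ2 v) :
    JetAt w f Ω (fun t x => φ (H t x)) t x (φ v) (φ1 v * s) (φ1 v * l - φ2 * s ^ 2) := by
  have hd0 : HasDerivAt φ (φ1 (H t x)) (H t x) := hd (t, x) hz
  have hd2' : HasDerivAt φ1 φ2 (H t x) := by rw [h.val]; exact hd2
  refine ⟨hs0, by rw [h.val], ?_, ?_⟩
  · rw [ds_comp hΩ h.sm hz hd0, h.ds, h.val]
  · have hsH := sm_ds hΩ hΩx hw h.sm
    have h1 : Ds w (Ds w (fun t x => φ (H t x))) t x =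
        φ1 (H t x) * Ds w (Ds w H) t x + Ds w H t x * (φ2 * Ds w H t x) := by
      rw [ds_congr hΩ (K := fun t x => φ1 (H t x) * Ds w H t x)
        (fun z hz' => ds_comp hΩ h.sm (t := z.1) (x := z.2) hz' (hd z hz')) hz]
      rw [ds_mul hΩ hs1 hsH hz, ds_comp hΩ h.sm hz hd2']
    have h2 := h.lo
    unfold Lp at h2 ⊢
    rw [h1, dt_comp' hΩ h.sm hz hd0, ds_comp hΩ h.sm hz hd0, ← h2, ← h.val, ← h.ds]
    ring

theorem JetAt.const (c : ℝ) : JetAt w f Ω (fun _ _ => c) t x c 0 0 := by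
  have h1 : ∀ t x, Dx (fun _ _ => c) t x = 0 := fun t x => deriv_const x c
  have h2 : Dt (fun _ _ => c) t x = 0 := deriv_const t c
  have h3 : ∀ t x, Ds w (fun _ _ => c) t x = 0 := fun t x => by
    unfold Ds; rw [h1]; ring
  refine ⟨Sm.const c, rfl, h3 t x, ?_⟩
  have h4 : Ds w (Ds w fun _ _ => c) t x = 0 := by
    have : Ds w (fun _ _ => c) = fun _ _ => 0 := by funext t x; exact h3 t x
    rw [this]
    have h5 : Dx (fun _ _ => (0:ℝ)) t x = 0 := deriv_const x 0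
    unfold Ds; rw [h5]; ring
  unfold DT Lp
  rw [h4, h1, h2, h3]
  ring

theorem JetAt.time : JetAt w f Ω (fun t _ => t) t x t 0 1 := by
  have h1 : ∀ t x, Dx (fun t _ => t) t x = 0 := fun t x => deriv_const x t
  have h2 : Dt (fun t _ => t) t x = 1 := deriv_id t
  have h3 : ∀ t x, Ds w (fun t _ => t) t x = 0 := fun t x => by
    unfold Ds; rw [h1]; ring
  refine ⟨Sm.tvar, rfl, h3 t x, ?_⟩
  have h4 : Ds w (Ds w fun t _ => t) t x = 0 := by
    have : Ds w (fun t _ => t) = fun _ _ => 0 := by funext t x; exact h3 t x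
    rw [this]
    have h5 : Dx (fun _ _ => (0:ℝ)) t x = 0 := deriv_const x 0
    unfold Ds; rw [h5]; ring
  unfold DT Lp
  rw [h4, h1, h2, h3]
  ring

end jets

/-- the open domain -/
abbrev Om (T : ℝ) : Set (ℝ × ℝ) := Ioo 0 T ×ˢ Ioo (-1 : ℝ) 1

lemma Om_open (T : ℝ) : IsOpen (Om T) := isOpen_Ioo.prod isOpen_Ioo

lemma Om_x (T : ℝ) : ∀ z ∈ Om T, z.2 ∈ Ioo (-1 : ℝ) 1 := fun _ hz => hz.2

section

variable {w f : Fn} {T : ℝ}

lemma sm_w (hs : ConfSol 20 w f T) : Sm (Om T) w :=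
  hs.smooth_w.mono (prod_mono Ioo_subset_Ico_self Ioo_subset_Icc_self)

lemma sm_f (hs : ConfSol 20 w f T) : Sm (Om T) f :=
  hs.smooth_f.mono (prod_mono Ioo_subset_Ico_self Ioo_subset_Icc_self)

lemma sm_log : Sm (Om T) (fun _ x => Real.log (1 - x ^ 2)) := by
  refine Sm.log (K := fun _ x => 1 - x ^ 2) ((Sm.const 1).sub (Sm.xvar.pow 2)) ?_
  intro z hz
  have := hz.2
  have h3 : 0 < (1 - z.2) * (1 + z.2) := mul_pos (by linarith only [this, this.2]) (by linarith only [this, this.1])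
  exact ne_of_gt (by nlinarith only [h3])

lemma sm_uu (hs : ConfSol 20 w f T) : Sm (Om T) (uu w f) := by
  have h1 := ((sm_f hs).sub (sm_w hs)).sub (sm_log.mul (Sm.const (1 / 2)))
  refine h1.congr fun z _ => ?_
  simp only [uu]
  ring

lemma sm_rho (hs : ConfSol 20 w f T) : Sm (Om T) (rho w f) := by
  have h1 := (((sm_f hs).add (sm_w hs)).add (sm_log.mul (Sm.const (1 / 2)))).sub
    (Sm.const (Real.log zeta0))
  have h2 := h1.mul (Sm.const (1 / 2))
  refine h2.congr fun z _ => ?_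
  simp only [rho]
  ring

/-- `RB` as a function of `(t,x)` -/
def RBf (q : Par) (w f : Fn) : Fn := fun t x => q.RB t (rr w f t x) (uu w f t x)

/-- **the value of `(D_t - Lap) RB`** -/
theorem jet_RB {q : Par} (hs : ConfSol 20 w f T) (hT1 : T ≤ 1) {t x : ℝ} (hz : (t, x) ∈ Om T)
    (hu : DT w f (uu w f) t x = VV w f t x) (hρ : DT w f (rho w f) t x = yy w f t x) :
    Sm (Om T) (RBf q w f) ∧ DT w f (RBf q w f) t x - Lp w f (RBf q w f) t x =
      LRB q.eta (q.GR * q.eps ^ (-(2 * aa))) (tau t) (rr w f t x ^ 2)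
        (Real.cosh (uu w f t x)) (Real.sinh (uu w f t x)) (ZZ w f t x)
        (rr w f t x ^ 2 * rs w f t x * PP w f t x) (rr w f t x ^ 2 * PP w f t x ^ 2) := by
  have hΩ := Om_open T
  have hΩx := Om_x T
  have hw := sm_w hs
  have hr0 : ∀ t x, 0 < rr w f t x := fun t x => Real.exp_pos _
  -- the basic jets
  have ju : JetAt w f (Om T) (uu w f) t x (uu w f t x) (PP w f t x)
      (78 * Real.sinh (uu w f t x) / rr w f t x ^ 2) := by
    refine ⟨sm_uu hs, rfl, rfl, ?_⟩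
    rw [hu, VV]; ring
  have jρ : JetAt w f (Om T) (rho w f) t x (rho w f t x) (rs w f t x)
      (-(39 * Real.cosh (uu w f t x) / rr w f t x ^ 2)) := by
    refine ⟨sm_rho hs, rfl, rfl, ?_⟩
    rw [hρ, yy]; ring
  -- `r²`
  have jr : JetAt w f (Om T) (fun t x => Real.exp (rho w f t x) ) t x (rr w f t x)
      (rr w f t x * rs w f t x)
      (rr w f t x * (-(39 * Real.cosh (uu w f t x) / rr w f t x ^ 2)) -
        rr w f t x * rs w f t x ^ 2) :=
    jρ.comp hΩ hΩx hw hz (φ := Real.exp) (φ1 := Real.exp) (sm_rho hs).exp (sm_rho hs).exp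
      (fun z _ => Real.hasDerivAt_exp _) (Real.hasDerivAt_exp _)
  have hr := hr0 t x
  have jr2 : JetAt w f (Om T) (fun t x => Real.exp (rho w f t x) * Real.exp (rho w f t x)) t x
      (rr w f t x ^ 2) (2 * rr w f t x ^ 2 * rs w f t x)
      (-(78 * Real.cosh (uu w f t x)) - 4 * ZZ w f t x) := by
    refine (jr.mul hΩ hΩx hw hz jr).congr_val (by ring) (by ring) ?_
    unfold ZZ
    field_simp
    ring
  -- `cosh u - 1`
  have jc : JetAt w f (Om T) (fun t x => Real.cosh (uu w f t x) - 1) t x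
      (Real.cosh (uu w f t x) - 1) (Real.sinh (uu w f t x) * PP w f t x)
      (Real.sinh (uu w f t x) * (78 * Real.sinh (uu w f t x) / rr w f t x ^ 2) -
        Real.cosh (uu w f t x) * PP w f t x ^ 2) :=
    ju.comp hΩ hΩx hw hz (φ := fun y => Real.cosh y - 1) (φ1 := Real.sinh)
      ((sm_uu hs).cosh.sub (Sm.const 1)) (sm_uu hs).sinh
      (fun z _ => (Real.hasDerivAt_cosh _).sub_const 1) (Real.hasDerivAt_sinh _)
  have jA := jr2.mul hΩ hΩx hw hz jc
  -- `S`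
  have jτ : JetAt w f (Om T) (fun t _ => 1 + -1 * t) t x (tau t) 0 (-1) :=
    ((JetAt.const 1).add hΩ hΩx hw hz ((JetAt.const (-1)).mul hΩ hΩx hw hz JetAt.time)).congr_val
      (by unfold tau; ring) (by ring) (by ring)
  have jS : JetAt w f (Om T)
      (fun t x => (1 + -1 * t) + (1 / 100) * (Real.exp (rho w f t x) * Real.exp (rho w f t x))) t x
      (tau t + rr w f t x ^ 2 / 100) (2 * rr w f t x ^ 2 * rs w f t x / 100)
      (-1 + (-(78 * Real.cosh (uu w f t x)) - 4 * ZZ w f t x) / 100) :=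
    (jτ.add hΩ hΩx hw hz ((JetAt.const (1 / 100)).mul hΩ hΩx hw hz jr2)).congr_val
      (by ring) (by ring) (by ring)
  have hSpos : ∀ z ∈ Om T, 0 < (1 + -1 * z.1) +
      (1 / 100) * (Real.exp (rho w f z.1 z.2) * Real.exp (rho w f z.1 z.2)) := by
    intro z hz'
    have h1 : z.1 < 1 := lt_of_lt_of_le hz'.1.2 hT1
    have h2 := Real.exp_pos (rho w f z.1 z.2)
    have h3 : 0 < (1 / 100) * (Real.exp (rho w f z.1 z.2) * Real.exp (rho w f z.1 z.2)) := by
      positivity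
    linarith only [h1, h3]
  have hS0 : 0 < tau t + rr w f t x ^ 2 / 100 := by
    have := hSpos (t, x) hz
    simp only at this
    unfold tau rr
    nlinarith only [this]
  have jB : JetAt w f (Om T) (fun t x => ((1 + -1 * t) +
      (1 / 100) * (Real.exp (rho w f t x) * Real.exp (rho w f t x))) ^ (-gam)) t x _ _ _ :=
    jS.comp hΩ hΩx hw hz (φ := fun y => y ^ (-gam)) (φ1 := fun y => -gam * y ^ (-gam - 1))
      (φ2 := -gam * ((-gam - 1) * (tau t + rr w f t x ^ 2 / 100) ^ (-gam - 1 - 1)))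
      (jS.sm.rpow_const _ (fun z hz' => (hSpos z hz').ne'))
      ((Sm.const _).mul (jS.sm.rpow_const _ (fun z hz' => (hSpos z hz').ne')))
      (fun z hz' => Real.hasDerivAt_rpow_const (Or.inl (hSpos z hz').ne'))
      ((Real.hasDerivAt_rpow_const (Or.inl hS0.ne')).const_mul (-gam))
  have jAB := jA.mul hΩ hΩx hw hz jB
  have jfin := ((JetAt.const q.eta).mul hΩ hΩx hw hz
    ((JetAt.const 1).add hΩ hΩx hw hz JetAt.time)).add hΩ hΩx hw hz
    ((JetAt.const (q.GR * q.eps ^ (-(2 * aa)))).mul hΩ hΩx hw hz jAB)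
  have hfun : (fun t x => q.eta * (1 + t) + q.GR * q.eps ^ (-(2 * aa)) *
      (Real.exp (rho w f t x) * Real.exp (rho w f t x) * (Real.cosh (uu w f t x) - 1) *
      ((1 + -1 * t) + (1 / 100) * (Real.exp (rho w f t x) * Real.exp (rho w f t x))) ^ (-gam))) =
      RBf q w f := by
    funext t x
    unfold RBf Par.RB rr tau
    have e1 : (1 + -1 * t) + (1 / 100) * (Real.exp (rho w f t x) * Real.exp (rho w f t x)) =
        1 - t + Real.exp (rho w f t x) ^ 2 / 100 := by ring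
    rw [e1]
    ring
  rw [hfun] at jfin
  refine ⟨jfin.sm, ?_⟩
  rw [jfin.lo]
  unfold LRB
  have e2 : (-gam - 1 - 1 : ℝ) = -gam - 2 := by ring
  rw [e2]
  set S1 := (tau t + rr w f t x ^ 2 / 100) ^ (-gam) with hS1
  set S2 := (tau t + rr w f t x ^ 2 / 100) ^ (-gam - 1) with hS2
  set S3 := (tau t + rr w f t x ^ 2 / 100) ^ (-gam - 2) with hS3
  have hc2 := Real.cosh_sq (uu w f t x)
  set c := Real.cosh (uu w f t x) with hc
  set s := Real.sinh (uu w f t x) with hs'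
  set r := rr w f t x with hrd
  have hZ : ZZ w f t x = r ^ 2 * rs w f t x ^ 2 := rfl
  rw [hZ]
  have hr' : r ≠ 0 := hr.ne'
  have e3 : s * (78 * s / r ^ 2) = 78 * (c ^ 2 - 1) / r ^ 2 := by
    rw [hc2]; ring
  rw [e3]
  field_simp
  ring

end

end

end Vale.Agent.P244.ST.ClR
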