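import Vale.Agent.P244.ST.M.Skel
import Vale.Agent.P244.ST.M.Touch
import Vale.Agent.P244.ST.Open
import Vale.Agent.P244.ST.ClR
import Vale.Agent.P244.ST.A.EvLem

/-!
# P244-ST, closure of (b3) (module M5): the touching argument
-/

open Set Filter
open scoped ContDiff Topology

namespace Vale.Agent.P244.ST.M5F

open Vale.Agent.P244.ST

noncomputable section

/-- the open space-time domain -/
def Om (T : ℝ) : Set (ℝ × ℝ) := Ioo 0 T ×ˢ Ioo (-1) 1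

lemma isOpen_Om (T : ℝ) : IsOpen (Om T) := isOpen_Ioo.prod isOpen_Ioo

lemma mem_Om {T t x : ℝ} (ht : t ∈ Ioo 0 T) (hx : x ∈ Ioo (-1 : ℝ) 1) : (t, x) ∈ Om T := ⟨ht, hx⟩

variable {w f : Fn} {T : ℝ}

lemma sm_w (hs : ConfSol 20 w f T) : Sm (Om T) w := fun z hz =>
  (M.smooth_w_at hs hz.1 hz.2).contDiffWithinAt

lemma sm_f (hs : ConfSol 20 w f T) : Sm (Om T) f := fun z hz =>
  (M.smooth_f_at hs hz.1 hz.2).contDiffWithinAt

lemma sm_one_sub : Sm (Om T) (fun _ x => 1 - x ^ 2) := (Sm.const 1).sub (Sm.xvar.pow 2)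

lemma one_sub_ne {z : ℝ × ℝ} (hz : z ∈ Om T) : 1 - z.2 ^ 2 ≠ 0 := by
  have := M.one_sub_sq_pos hz.2
  exact this.ne'

lemma sm_sx : Sm (Om T) (fun _ x => sx x) := Sm.sqrt sm_one_sub fun _ hz => one_sub_ne hz

lemma sm_log : Sm (Om T) (fun _ x => Real.log (1 - x ^ 2)) := sm_one_sub.log fun _ hz => one_sub_ne hz

lemma sm_uu (hs : ConfSol 20 w f T) : Sm (Om T) (uu w f) := by
  unfold uu
  exact ((sm_f hs).sub (sm_w hs)).sub (sm_log.div (Sm.const 2) fun _ _ => by norm_num)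

lemma sm_rho (hs : ConfSol 20 w f T) : Sm (Om T) (rho w f) := by
  unfold rho
  exact ((((sm_f hs).add (sm_w hs)).add (sm_log.div (Sm.const 2) fun _ _ => by norm_num)).sub
    (Sm.const _)).div (Sm.const 2) fun _ _ => by norm_num

lemma sm_rr (hs : ConfSol 20 w f T) : Sm (Om T) (rr w f) := (sm_rho hs).exp

lemma sm_Ds (hs : ConfSol 20 w f T) {H : Fn} (hH : Sm (Om T) H) : Sm (Om T) (Ds w H) := by
  unfold Ds
  exact ((sm_sx.mul (sm_w hs).neg.exp).neg).mul (hH.dx (isOpen_Om T))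

lemma sm_Lp (hs : ConfSol 20 w f T) {H : Fn} (hH : Sm (Om T) H) : Sm (Om T) (Lp w f H) := by
  unfold Lp
  exact (sm_Ds hs (sm_Ds hs hH)).add (((Sm.const 40).mul (sm_Ds hs (sm_rho hs))).mul (sm_Ds hs hH))

lemma rr_ne (w f : Fn) (t x : ℝ) : rr w f t x ^ 2 ≠ 0 := by unfold rr; positivity

lemma sm_yy (hs : ConfSol 20 w f T) : Sm (Om T) (yy w f) := by
  unfold yy
  exact (sm_Lp hs (sm_rho hs)).sub (((Sm.const 39).mul (sm_uu hs).cosh).div ((sm_rr hs).pow 2)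
    fun z _ => rr_ne w f z.1 z.2)

lemma sm_E0 (hs : ConfSol 20 w f T) : Sm (Om T) (E0 w f) := by
  unfold E0 rs PP
  exact (((Sm.const 40).mul (sm_Ds hs (sm_Ds hs (sm_rho hs)))).neg.sub ((Sm.const 40).mul
    ((sm_Ds hs (sm_rho hs)).pow 2))).sub ((Sm.const 10).mul ((sm_Ds hs (sm_uu hs)).pow 2))

lemma sm_RR (hs : ConfSol 20 w f T) : Sm (Om T) (RR w f) := by
  unfold RR
  exact (sm_E0 hs).sub ((Sm.const 40).mul (sm_yy hs))

/-! ### linearity -/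

lemma Dx_sub {H K : Fn} (hH : Sm (Om T) H) (hK : Sm (Om T) K) {t x : ℝ} (hz : (t, x) ∈ Om T) :
    Dx (fun t x => H t x - K t x) t x = Dx H t x - Dx K t x :=
  ((hH.hasDeriv_x (isOpen_Om T) hz).sub (hK.hasDeriv_x (isOpen_Om T) hz)).deriv

lemma Dt_sub {H K : Fn} (hH : Sm (Om T) H) (hK : Sm (Om T) K) {t x : ℝ} (hz : (t, x) ∈ Om T) :
    Dt (fun t x => H t x - K t x) t x = Dt H t x - Dt K t x :=
  ((hH.hasDeriv_t (isOpen_Om T) hz).sub (hK.hasDeriv_t (isOpen_Om T) hz)).deriv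

lemma Ds_sub {H K : Fn} (hH : Sm (Om T) H) (hK : Sm (Om T) K) {t x : ℝ} (hz : (t, x) ∈ Om T) :
    Ds w (fun t x => H t x - K t x) t x = Ds w H t x - Ds w K t x := by
  unfold Ds
  rw [Dx_sub hH hK hz]
  ring

lemma Ds_congr {H K : Fn} (he : ∀ z ∈ Om T, H z.1 z.2 = K z.1 z.2) {t x : ℝ}
    (hz : (t, x) ∈ Om T) : Ds w H t x = Ds w K t x := by
  unfold Ds
  rw [Dx_congr (isOpen_Om T) he hz]

lemma Lp_sub (hs : ConfSol 20 w f T) {H K : Fn} (hH : Sm (Om T) H) (hK : Sm (Om T) K) {t x : ℝ}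
    (hz : (t, x) ∈ Om T) :
    Lp w f (fun t x => H t x - K t x) t x = Lp w f H t x - Lp w f K t x := by
  unfold Lp
  rw [Ds_sub hH hK hz]
  have e : Ds w (Ds w fun t x => H t x - K t x) t x =
      Ds w (fun t x => Ds w H t x - Ds w K t x) t x :=
    Ds_congr (T := T) (fun z hz' => Ds_sub (t := z.1) (x := z.2) hH hK hz') hz
  rw [e, Ds_sub (sm_Ds hs hH) (sm_Ds hs hK) hz]
  ring

lemma DT_sub {H K : Fn} (hH : Sm (Om T) H) (hK : Sm (Om T) K) {t x : ℝ}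
    (hz : (t, x) ∈ Om T) :
    DT w f (fun t x => H t x - K t x) t x = DT w f H t x - DT w f K t x := by
  unfold DT
  rw [Dx_sub hH hK hz, Dt_sub hH hK hz]
  ring

/-- the touching lemma for a difference -/
theorem touch_sub (hs : ConfSol 20 w f T) {H K : Fn} (hH : Sm (Om T) H) (hK : Sm (Om T) K)
    {t x : ℝ} (ht : t ∈ Ioo 0 T) (hx : x ∈ Ioo (-1 : ℝ) 1) (h0 : H t x = K t x)
    (hle : ∀ᶠ z : ℝ × ℝ in 𝓝 (t, x), z.1 ≤ t → H z.1 z.2 ≤ K z.1 z.2) :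
    DT w f K t x - Lp w f K t x ≤ DT w f H t x - Lp w f H t x := by
  have hz := mem_Om ht hx
  have h1 := M.touch (H := fun t x => H t x - K t x) hs ht hx
    (((hH.sub hK).at (isOpen_Om T) hz).of_le (by norm_cast)) (sub_eq_zero.2 h0)
    (hle.mono fun z h hz' => sub_nonpos.2 (h hz'))
  have h2 := h1.2.2.2.2.2.2
  rw [DT_sub hH hK hz, Lp_sub hs hH hK hz] at h2
  linarith only [h2]

/-- the barrier `RB` as a function of `(t,x)` -/
def RBf (q : Par) (w f : Fn) : Fn := fun t x => q.RB t (rr w f t x) (uu w f t x)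

/-- (F2) for the functions of Geo.lean -/
def F2Prop : Prop := ∀ (w f : Fn) (T : ℝ), ConfSol 20 w f T → ∀ t ∈ Ioo 0 T, ∀ x ∈ Ioo (-1 : ℝ) 1,
  DT w f (RR w f) t x - Lp w f (RR w f) t x =
    2 * E0 w f t x ^ 2 + (RR w f t x - E0 w f t x) ^ 2 / 20 + 20 * VV w f t x ^ 2

/-- the identity for the barrier -/
def RBProp : Prop := ∀ (q : Par) (w f : Fn) (T : ℝ), ConfSol 20 w f T → T ≤ 1 →
  Sm (Om T) (RBf q w f) ∧ ∀ t ∈ Ioo 0 T, ∀ x ∈ Ioo (-1 : ℝ) 1,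
  DT w f (RBf q w f) t x - Lp w f (RBf q w f) t x =
    ClR.LRB q.eta (q.GR * q.eps ^ (-(2 * aa))) (tau t) (rr w f t x ^ 2) (Real.cosh (uu w f t x))
      (Real.sinh (uu w f t x)) (ZZ w f t x) (rr w f t x ^ 2 * rs w f t x * PP w f t x)
      (rr w f t x ^ 2 * PP w f t x ^ 2)

/-- parity -/
def EvenProp : Prop := ∀ (w f : Fn) (T : ℝ), ConfSol 20 w f T → ∀ t ∈ Ico 0 T,
  ∀ x ∈ Ioo (-1 : ℝ) 1, RR w f t (-x) = RR w f t x ∧ rr w f t (-x) = rr w f t x ∧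
    uu w f t (-x) = uu w f t x

/-- the pure inequalities -/
def PureProp : Prop := ∀ g : ℝ → ℝ, IsBub g → Ev fun q => 4 * q.rho0 ≤ q.N ∧
  ∀ (w f : Fn) (t x : ℝ), t ∈ Ico (0 : ℝ) 1 →
  ((FI' q g w f t x ∨ (M.FO q w f t x ∧ q.rho0 ≤ yv w f t x ∧ rr w f t x ≤ q.N)) →
    2 * E0 w f t x ^ 2 + (RR w f t x - E0 w f t x) ^ 2 / 20 + 20 * VV w f t x ^ 2 <
    ClR.LRB q.eta (q.GR * q.eps ^ (-(2 * aa))) (tau t) (rr w f t x ^ 2) (Real.cosh (uu w f t x))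
      (Real.sinh (uu w f t x)) (ZZ w f t x) (rr w f t x ^ 2 * rs w f t x * PP w f t x)
      (rr w f t x ^ 2 * PP w f t x ^ 2))
where
  FI' (q : Par) (g : ℝ → ℝ) (w f : Fn) (t x : ℝ) : Prop :=
    M.FI q g w f t x ∧ |VV w f t x| ≤ q.Vb t (uu w f t x)

/-- **M5 from its four ingredients** -/
theorem m5_of (hF2 : F2Prop) (hRB : RBProp) (hev : EvenProp) (hp : PureProp) :
    M.M5Statement := by
  intro g hg
  refine (hp g hg).mono fun q hq w f T t₁ H t ht x hx => ?_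
  obtain ⟨hN, hq⟩ := hq
  have hT := H.T_le
  have hs := H.sol
  have htT : t ∈ Ioo 0 T := ⟨ht.1, ht.2.trans_lt H.mem.2⟩
  have hx1 : x ∈ Ioo (-1 : ℝ) 1 := ⟨by linarith only [hx, hx.1], hx.2⟩
  have htI : t ∈ Icc 0 t₁ := ⟨ht.1.le, ht.2⟩
  have ht1 : t ∈ Ico (0 : ℝ) 1 := ⟨ht.1.le, htT.2.trans_le hT⟩
  have hboot : ∀ s ∈ Icc 0 t₁, ∀ y ∈ Ico (0 : ℝ) 1, RR w f s y ≤ RBf q w f s y :=
    fun s hs y hy => (H.boot.b5 s hs y hy).b3
  by_contra hlt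
  push Not at hlt
  have heq : RR w f t x = RBf q w f t x := le_antisymm (hboot t htI x hx) hlt
  have hle : ∀ᶠ z : ℝ × ℝ in 𝓝 (t, x), z.1 ≤ t → RR w f z.1 z.2 ≤ RBf q w f z.1 z.2 := by
    filter_upwards [(isOpen_Om T).mem_nhds (mem_Om htT hx1)] with z hz hzt
    have hz1 : z.1 ∈ Icc 0 t₁ := ⟨hz.1.1.le, hzt.trans ht.2⟩
    rcases le_or_gt 0 z.2 with h | h
    · exact hboot z.1 hz1 z.2 ⟨h, hz.2.2⟩
    · have h1 := hev w f T hs z.1 ⟨hz.1.1.le, hz.1.2⟩ z.2 hz.2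
      have h2 := hboot z.1 hz1 (-z.2) ⟨by linarith only [h], by linarith only [hz, hz.2.1]⟩
      rw [RBf, h1.1, h1.2.1, h1.2.2] at h2
      exact h2
  obtain ⟨hsm, hid⟩ := hRB q w f T hs hT
  have h1 := touch_sub hs (sm_RR hs) hsm htT hx1 heq hle
  rw [hid t htT x hx1, hF2 w f T hs t htT x hx1] at h1
  refine absurd (hq w f t x ht1 ?_) (not_lt.2 h1)
  rcases le_or_gt q.rho0 (yv w f t x) with h | h
  · exact Or.inr ⟨H.fO t htI x hx h, h, H.r_le t htI x hx⟩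
  · left
    have hx0 : 0 < x := by
      rcases hx.1.lt_or_eq with h' | h'
      · exact h'
      · exfalso
        rw [← h'] at h
        have h2 := H.boot.b0 t htI
        have hτ0 : 0 < tau t := by unfold tau; linarith only [ht1, ht1.2]
        have hτ1 : tau t ≤ 1 := by unfold tau; linarith only [ht1, ht1.1]
        have h3 : Real.sqrt (tau t) ≤ 1 := Real.sqrt_le_one.2 hτ1
        have h4 : 0 < Real.sqrt (tau t) := Real.sqrt_pos.2 hτ0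
        have h5 : 0 < rr w f t 0 := Real.exp_pos _
        have h6 : rr w f t 0 ≤ yv w f t 0 := by
          unfold yv
          rw [le_div_iff₀ h4]
          nlinarith only [h3, h5]
        linarith only [hN, h, h2, h6]
    exact ⟨H.fI t htI x ⟨hx0, hx.2⟩ h.le, (H.boot.b5 t htI x hx).b2 hx0 h.le⟩

end

end Vale.Agent.P244.ST.M5F
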