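import Vale.Agent.P244.ST.ClRO
import Vale.Agent.P244.ST.ClR2
import Vale.Agent.P244.ST.M5Fin

/-!
# P244-ST, closure R : `PureProp` and `RBProp` of M5Fin.lean
-/

open Set Filter
open scoped ContDiff Topology

namespace Vale.Agent.P244.ST.ClR

open Vale.Agent.P244.ST Vale.Agent.P244.ST.PureF

noncomputable section

theorem pure_I {g : ℝ → ℝ} (hg : IsBub g) {q : Par} (hq : CondR q) {w f : Fn} {t x : ℝ}
    (ht : t ∈ Ico (0 : ℝ) 1) (h : M.FI q g w f t x) (hV : |VV w f t x| ≤ q.Vb t (uu w f t x)) :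
    2 * E0 w f t x ^ 2 + (RR w f t x - E0 w f t x) ^ 2 / 20 + 20 * VV w f t x ^ 2 <
    LRB q.eta (q.GR * q.eps ^ (-(2 * aa))) (tau t) (rr w f t x ^ 2) (Real.cosh (uu w f t x))
      (Real.sinh (uu w f t x)) (ZZ w f t x) (rr w f t x ^ 2 * rs w f t x * PP w f t x)
      (rr w f t x ^ 2 * PP w f t x ^ 2) := by
  have hu := h.u_pos
  have hrs := h.rs_pos
  have hg0 := g_pos hg hu
  have hq0 := qb_gt hg hu
  have hc := Real.cosh_pos (uu w f t x)
  have hτ : 0 < tau t := by unfold tau; linarith only [ht, ht.2]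
  have e1 : rr w f t x ^ 2 * rs w f t x * PP w f t x = -(ZZ w f t x * GG w f t x) := by
    unfold ZZ GG
    field_simp
  have e2 : rr w f t x ^ 2 * PP w f t x ^ 2 = ZZ w f t x * GG w f t x ^ 2 := by
    unfold ZZ GG
    field_simp
  rw [e1, e2]
  have hZ0 : 0 ≤ ZZ w f t x := by unfold ZZ; positivity
  have hZs : 0 < Zs g (uu w f t x) := by unfold Zs; have := hq0; positivity
  have hZ : ZZ w f t x ≤ 39 / 38 * Real.cosh (uu w f t x) := by
    have h1 : ZZ w f t x ≤ Zs g (uu w f t x) := by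
      have h2 := h.th_le
      unfold th at h2
      have h3 : ZZ w f t x / Zs g (uu w f t x) ≤ 1 := by linarith only [h2]
      rwa [div_le_one hZs] at h3
    refine h1.trans ?_
    unfold Zs
    rw [div_le_iff₀ (by linarith only [hq0])]
    nlinarith only [hq0, hc]
  have hG : GG w f t x = g (uu w f t x) * (1 - ee g w f t x) := by
    unfold ee
    field_simp
    ring
  have he : |ee g w f t x| * Real.cosh (uu w f t x) ≤ 1 / 100 := by
    have h1 := mul_le_mul_of_nonneg_right h.e_le hc.le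
    have h2 := h.eb_le
    have h3 : (1:ℝ) / 10 ^ 4 ≤ 1 / 100 := by norm_num
    linarith only [h1, h2]
  have hD3 : rr w f t x ^ 2 * Real.cosh (uu w f t x) ≤ tau t / 10 := by
    refine h.r2cosh.trans ?_
    have h1 := hq.rho_pos
    have h2 := hq.rho_le
    have h3 : q.rho0 ^ 2 ≤ 1 / 16 := by nlinarith only [h1, h2]
    nlinarith only [hτ, h1, h2, h3]
  have hE : |E0 w f t x| ≤ 3.3 * q.eta + 11 * (Zs g (uu w f t x) * g (uu w f t x) ^ 2 *
      q.fb t (uu w f t x)) := by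
    refine h.E0_le.trans (le_of_eq ?_)
    ring
  have hr1 : q.rho0 ≤ 1 := hq.rho_le.trans (by norm_num)
  exact closeR_I hg ht.2 hu hq.rho_pos hr1 hq.eps_pos hq.B_nn hq.BV_nn hq.GR_ge hq.eta_pos
    hq.eta_lt hZ0 hZ hG he hD3 hE hV h.R_nonneg h.R_le

theorem pure_O {q : Par} (hq : CondR q) {w f : Fn} {t x : ℝ}
    (ht : t ∈ Ico (0 : ℝ) 1) (h : M.FO q w f t x) (hrN : rr w f t x ≤ q.N) :
    2 * E0 w f t x ^ 2 + (RR w f t x - E0 w f t x) ^ 2 / 20 + 20 * VV w f t x ^ 2 <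
    LRB q.eta (q.GR * q.eps ^ (-(2 * aa))) (tau t) (rr w f t x ^ 2) (Real.cosh (uu w f t x))
      (Real.sinh (uu w f t x)) (ZZ w f t x) (rr w f t x ^ 2 * rs w f t x * PP w f t x)
      (rr w f t x ^ 2 * PP w f t x ^ 2) := by
  have hτ : 0 < tau t := by unfold tau; linarith only [ht, ht.2]
  have hr : 0 < rr w f t x := Real.exp_pos _
  refine closeR_O hq hτ hr hrN h.xi_le h.u_le h.P_le h.V_le ?_ h.Z_le ?_ h.R_nonneg h.R_le h.E0_le
  · unfold ZZ; positivity
  · unfold ZZ; ring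

/-- the pure inequalities -/
theorem pureProp : M5F.PureProp := by
  intro g hg
  refine ev_condR.mono fun q hq => ⟨?_, fun w f t x ht h => ?_⟩
  · linarith only [hq, hq.rho_le, hq.N_ge]
  · rcases h with h | h
    · exact pure_I hg hq ht h.1 h.2
    · exact pure_O hq ht h.1 h.2.2

/-- the two basic evolution equations -/
def BasicProp : Prop := ∀ (w f : Fn) (T : ℝ), ConfSol 20 w f T → ∀ t ∈ Ioo 0 T,
  ∀ x ∈ Ioo (-1 : ℝ) 1, DT w f (uu w f) t x = VV w f t x ∧ DT w f (rho w f) t x = yy w f t x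

theorem rbProp_of (h : BasicProp) : M5F.RBProp := by
  intro q w f T hs hT
  have key : ∀ t ∈ Ioo 0 T, ∀ x ∈ Ioo (-1 : ℝ) 1, _ := fun t ht x hx =>
    jet_RB (q := q) hs hT (⟨ht, hx⟩ : (t, x) ∈ Om T) (h w f T hs t ht x hx).1
      (h w f T hs t ht x hx).2
  refine ⟨?_, fun t ht x hx => (key t ht x hx).2⟩
  by_cases hT0 : 0 < T
  · exact (key (T / 2) ⟨by linarith only [hT0], by linarith only [hT0]⟩ 0 ⟨by norm_num, by norm_num⟩).1
  · have : M5F.Om T = ∅ := by
      unfold M5F.Om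
      rw [Ioo_eq_empty (by linarith only [hT0]), empty_prod]
    rw [this]
    exact contDiffOn_empty

end

end Vale.Agent.P244.ST.ClR
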