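import Vale.Agent.P244.ST.ClR
import Vale.Agent.P244.ST.M.Skel

/-!
# P244-ST, closure R : pure inequality in the outer region, parameter conditions
-/

open Set

namespace Vale.Agent.P244.ST.ClR

open Vale.Agent.P244.ST.PureF Vale.Agent.P244.ST.M

noncomputable section

/-- outer region: the bracket -/
theorem Br_O {ω c s Z zp p2 ξ : ℝ} (hc : 1 ≤ c) (hc2 : c ≤ 2) (hs : |s| ≤ 1.1 * ξ)
    (hξ : 0 ≤ ξ) (hω : 0 ≤ ω) (hω1 : ω ≤ 1) (hZ0 : 0 ≤ Z) (hZ : Z ≤ 1.1)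
    (hzp : |zp| ≤ 1.1 * ξ) (hp2 : p2 ≤ ξ ^ 2) :
    -(20 * ξ ^ 2) ≤ Br ω c s Z zp p2 := by
  have g1 := gam_lt
  have g2 := gam_gt
  have hx : 0 ≤ c - 1 := by linarith only [hc]
  have h1 : |zp * s| ≤ 1.21 * ξ ^ 2 := by
    rw [abs_mul]
    calc |zp| * |s| ≤ (1.1 * ξ) * (1.1 * ξ) := mul_le_mul hzp hs (abs_nonneg _) (by positivity)
      _ = _ := by ring
  have h2 : c * p2 ≤ 2 * ξ ^ 2 := by
    have h3 : c * p2 ≤ c * ξ ^ 2 := mul_le_mul_of_nonneg_left hp2 (by linarith only [hc, g1, g2])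
    have h4 : c * ξ ^ 2 ≤ 2 * ξ ^ 2 := mul_le_mul_of_nonneg_right hc2 (sq_nonneg ξ)
    linarith only [h3, h4]
  have e1 : Br ω c s Z zp p2 =
      (c - 1) * (78 - 4 * Z - 4 * gam * (gam + 1) * ω ^ 2 * Z)
      + ω * (c - 1) * gam * (100 + 78 * c + 4 * Z) + 8 * gam * ω * (Z * (c - 1))
      - c * p2 - 4 * (zp * s) + 4 * gam * ω * (zp * s) := by
    unfold Br; ring
  have h3 : 0 ≤ 78 - 4 * Z - 4 * gam * (gam + 1) * ω ^ 2 * Z := by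
    have h4 : 4 * gam * (gam + 1) ≤ 29 := by nlinarith only [g1, g2]
    have h5 : ω ^ 2 ≤ 1 := by nlinarith only [hω, hω1]
    have h6 : ω ^ 2 * Z ≤ 1 * 1.1 := mul_le_mul h5 hZ hZ0 (by norm_num)
    have h7 : 0 ≤ ω ^ 2 * Z := by positivity
    have h8 : 4 * gam * (gam + 1) * (ω ^ 2 * Z) ≤ 29 * (1 * 1.1) :=
      mul_le_mul h4 h6 h7 (by norm_num)
    have h9 : 4 * gam * (gam + 1) * ω ^ 2 * Z = 4 * gam * (gam + 1) * (ω ^ 2 * Z) := by ring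
    rw [h9]; linarith only [hZ, g1, g2, h8]
  have h4 : 0 ≤ ω * (c - 1) * gam * (100 + 78 * c + 4 * Z) := by positivity
  have h5 : 0 ≤ 8 * gam * ω * (Z * (c - 1)) := by positivity
  have h6 : |4 * gam * ω * (zp * s)| ≤ 8.8 * (1.21 * ξ ^ 2) := by
    rw [abs_mul]
    apply mul_le_mul _ h1 (abs_nonneg _) (by norm_num)
    rw [abs_of_nonneg (by positivity)]
    nlinarith only [hω, hω1, g1, g2]
  have h7 := abs_le.1 h6
  have h8 := abs_le.1 h1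
  have h9 := mul_nonneg hx h3
  rw [e1]
  nlinarith only [h2, h4, h5, h7, h8, h9, sq_nonneg ξ]

theorem sinh_le_of {u ξ : ℝ} (hu : |u| ≤ ξ) (hξ : ξ ≤ 1 / 10 ^ 6) :
    |Real.sinh u| ≤ 1.1 * ξ ∧ Real.cosh u ≤ 2 := by
  have hξ0 : 0 ≤ ξ := (abs_nonneg _).trans hu
  have hc : Real.cosh u ≤ 1.1 := by
    have h1 : Real.cosh u ≤ Real.exp (u ^ 2 / 2) := Real.cosh_le_exp_half_sq u
    have h2 : u ^ 2 / 2 ≤ 1 / 100 := by
      have : u ^ 2 ≤ ξ ^ 2 := by rw [← sq_abs]; exact pow_le_pow_left₀ (abs_nonneg _) hu 2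
      nlinarith only [hξ, hξ0, this]
    have h3 : Real.exp (u ^ 2 / 2) ≤ Real.exp (1 / 100) := Real.exp_le_exp.2 h2
    have h4 : Real.exp (1 / 100) ≤ 1.1 := by
      have h5 := Real.exp_bound' (x := 1 / 100) (by norm_num) (by norm_num) (n := 2) (by norm_num)
      norm_num [Finset.sum_range_succ, Nat.factorial] at h5
      linarith only [h5]
    linarith only [h1, h3, h4]
  refine ⟨?_, by linarith only [hc]⟩
  -- |sinh u| ≤ |u| cosh u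
  have h1 : |Real.sinh u| ≤ |u| * Real.cosh u := by
    wlog hu0 : 0 ≤ u with H
    · have := H (u := -u) (ξ := ξ) (by rwa [abs_neg]) hξ hξ0 (by rwa [Real.cosh_neg])
        (by linarith only [hu0])
      rwa [Real.sinh_neg, abs_neg, abs_neg, Real.cosh_neg] at this
    · rw [abs_of_nonneg (Real.sinh_nonneg_iff.2 hu0), abs_of_nonneg hu0]
      rcases eq_or_lt_of_le hu0 with h | h
      · rw [← h]; simp
      · obtain ⟨z, hz, hz2⟩ := exists_deriv_eq_slope Real.sinh h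
          Real.continuous_sinh.continuousOn Real.differentiable_sinh.differentiableOn
        rw [Real.deriv_sinh, Real.sinh_zero, sub_zero, sub_zero] at hz2
        have h3 : Real.cosh z ≤ Real.cosh u := by
          rw [Real.cosh_le_cosh, abs_of_pos hz.1, abs_of_pos h]; exact hz.2.le
        rw [hz2, div_le_iff₀ h] at h3
        linarith only [h3]
  calc |Real.sinh u| ≤ |u| * Real.cosh u := h1
    _ ≤ ξ * 1.1 := mul_le_mul hu hc (Real.cosh_pos u).le hξ0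
    _ = 1.1 * ξ := by ring

/-- conditions on the parameters used in closure R -/
structure CondR (q : Par) : Prop where
  rho_pos : 0 < q.rho0
  rho_le : q.rho0 ≤ 1 / 4
  eps_pos : 0 < q.eps
  eps_le : q.eps ≤ 1
  B_nn : 0 ≤ q.B
  BV_nn : 0 ≤ q.BV
  GR_ge : 60 ^ 2 * q.B ^ 2 + q.BV ^ 2 ≤ q.GR
  N_ge : 1000 ≤ q.N
  small : 10 ^ 8 * (1 + q.GR) * K1 q ^ 2 * q.N ^ 6 * q.eps ≤ 1

theorem CondR.GR_nn {q : Par} (h : CondR q) : 0 ≤ q.GR := le_trans (by positivity) h.GR_ge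

theorem CondR.eta_pos {q : Par} (h : CondR q) : 0 < q.eta := by
  have := h.N_ge
  unfold Par.eta
  positivity

theorem CondR.eta_lt {q : Par} (h : CondR q) : q.eta < 1 / 50 := by
  have := h.N_ge
  unfold Par.eta
  rw [div_lt_div_iff₀ (by positivity) (by norm_num)]
  nlinarith only [this]

theorem ev_condR : Ev CondR := by
  refine ⟨0, fun B hB => ⟨1 / 4, by norm_num, fun rho0 hr => ⟨0, fun BV hBV => ⟨0, fun MU _ =>
    ⟨0, fun MP _ => ⟨0, fun MV _ => ⟨0, fun CU _ => ⟨0, fun CP _ => ⟨0, fun CV _ =>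
    ⟨60 ^ 2 * B ^ 2 + BV ^ 2, fun GR hGR => ⟨1, one_pos, fun sg _ => ⟨1, one_pos, fun d0 _ =>
    ⟨1, one_pos, fun rb _ => ⟨1000, fun N hN => ?_⟩⟩⟩⟩⟩⟩⟩⟩⟩⟩⟩⟩⟩⟩
  set k : ℝ := (MU + 25 * MP + 625 * MV + CU + CP + 3 * CV) / rho0 ^ 4 with hk
  set C : ℝ := 10 ^ 8 * (1 + GR) * k ^ 2 * N ^ 6 with hC
  have hGR0 : 0 ≤ GR := le_trans (by positivity) hGR
  have hN0 : (0:ℝ) < N := by linarith only [hN]
  have hC0 : 0 ≤ C := by rw [hC]; positivity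
  refine ⟨min 1 (1 / (C + 1)), lt_min one_pos (by positivity), fun eps heps => ?_⟩
  refine ⟨hr.1, hr.2, heps.1, heps.2.trans (min_le_left _ _), hB, hBV, hGR, hN, ?_⟩
  have h1 : eps ≤ 1 / (C + 1) := heps.2.trans (min_le_right _ _)
  have h2 : C * eps ≤ C * (1 / (C + 1)) := mul_le_mul_of_nonneg_left h1 hC0
  have h3 : C * (1 / (C + 1)) ≤ 1 := by
    rw [mul_one_div, div_le_one (by positivity)]
    linarith only []
  exact h2.trans h3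

/-- size of `ξ² / r⁴` and `K ξ² S^{-γ}` -/
theorem xi_bounds {q : Par} (h : CondR q) {r τ : ℝ} (hr : 0 < r) (hrN : r ≤ q.N) (hτ : 0 < τ) :
    21 * (xi q r ^ 2 / r ^ 4) + 20 * (q.GR * q.eps ^ (-(2 * aa))) *
      ((τ + r ^ 2 / 100) ^ (-gam) * xi q r ^ 2) ≤ q.eta / 2 := by
  have g1 := gam_lt
  have g2 := gam_gt
  have k1 := kap_lt
  have k2 := kap_gt
  have hN := h.N_ge
  have hN0 : 0 < q.N := by linarith only [k1, k2, hN]
  have hN1 : 1 ≤ q.N := by linarith only [k1, k2, hN]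
  have he := h.eps_pos
  have he1 := h.eps_le
  have hGR0 := h.GR_nn
  have hpow : ∀ a : ℝ, 0 ≤ a → a ≤ 4 → r ^ a ≤ q.N ^ 4 := by
    intro a ha ha4
    calc r ^ a ≤ q.N ^ a := Real.rpow_le_rpow hr.le hrN ha
      _ ≤ q.N ^ (4:ℝ) := Real.rpow_le_rpow_of_exponent_le hN1 ha4
      _ = q.N ^ 4 := by norm_cast
  have hxi2 : xi q r ^ 2 = K1 q ^ 2 * q.eps ^ 2 * r ^ (2 * bb) := by
    unfold xi
    rw [mul_pow, mul_pow]
    congr 1
    rw [← Real.rpow_natCast (r ^ bb) 2, ← Real.rpow_mul hr.le]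
    congr 1
    push_cast; ring
  have hb : bb = 6 - kap := rfl
  have t1 : xi q r ^ 2 / r ^ 4 ≤ K1 q ^ 2 * q.eps ^ 2 * q.N ^ 4 := by
    rw [hxi2, mul_div_assoc]
    apply mul_le_mul_of_nonneg_left _ (by positivity)
    have h1 : r ^ (2 * bb) / r ^ 4 = r ^ (2 * bb - 4) := by
      rw [Real.rpow_sub hr]
      norm_cast
    rw [h1]
    exact hpow _ (by rw [hb]; linarith only [k1, k2]) (by rw [hb]; linarith only [k1, k2])
  have t2 : (τ + r ^ 2 / 100) ^ (-gam) * xi q r ^ 2 ≤ 10 ^ 6 * (K1 q ^ 2 * q.eps ^ 2 * q.N ^ 4) := by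
    have h1 : (τ + r ^ 2 / 100) ^ (-gam) ≤ (r ^ 2 / 100) ^ (-gam) :=
      Real.rpow_le_rpow_of_nonpos (by positivity) (by linarith only [hτ]) (by linarith only [g2, k1, k2])
    have h2 : (r ^ 2 / 100) ^ (-gam) = r ^ (-(2 * gam)) * 100 ^ gam := by
      rw [Real.div_rpow (by positivity) (by norm_num), Real.rpow_neg (by norm_num : (0:ℝ) ≤ 100),
        div_inv_eq_mul]
      congr 1
      rw [← Real.rpow_natCast r 2, ← Real.rpow_mul hr.le]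
      congr 1
      push_cast; ring
    have h3 : (100:ℝ) ^ gam ≤ 10 ^ 6 := by
      calc (100:ℝ) ^ gam ≤ 100 ^ (3:ℝ) :=
            Real.rpow_le_rpow_of_exponent_le (by norm_num) (by linarith only [g1, k1, k2])
        _ = 10 ^ 6 := by norm_num
    have h4 : (r ^ 2 / 100) ^ (-gam) ≤ 10 ^ 6 * r ^ (-(2 * gam)) := by
      rw [h2, mul_comm]
      exact mul_le_mul_of_nonneg_right h3 (Real.rpow_pos_of_pos hr _).le
    calc (τ + r ^ 2 / 100) ^ (-gam) * xi q r ^ 2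
        ≤ (10 ^ 6 * r ^ (-(2 * gam))) * xi q r ^ 2 :=
          mul_le_mul_of_nonneg_right (h1.trans h4) (sq_nonneg _)
      _ = 10 ^ 6 * (K1 q ^ 2 * q.eps ^ 2 * (r ^ (2 * bb) * r ^ (-(2 * gam)))) := by
          rw [hxi2]; ring
      _ ≤ 10 ^ 6 * (K1 q ^ 2 * q.eps ^ 2 * q.N ^ 4) := by
          apply mul_le_mul_of_nonneg_left _ (by norm_num)
          apply mul_le_mul_of_nonneg_left _ (by positivity)
          rw [← Real.rpow_add hr]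
          exact hpow _ (by rw [hb]; linarith only [g1, k1, k2]) (by rw [hb]; linarith only [g2, k1, k2])
  have t3 : q.eps ^ (-(2 * aa)) * q.eps ^ 2 ≤ q.eps := by
    have h1 : q.eps ^ (-(2 * aa)) * q.eps ^ 2 = q.eps ^ (-(2 * aa) + 2) := by
      rw [Real.rpow_add he]; norm_cast
    rw [h1]
    calc q.eps ^ (-(2 * aa) + 2) ≤ q.eps ^ (1:ℝ) :=
          Real.rpow_le_rpow_of_exponent_ge he he1 (by unfold aa; norm_num)
      _ = q.eps := Real.rpow_one _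
  have t4 : q.eps ^ 2 ≤ q.eps := by nlinarith only [k1, k2, he, he1]
  have p1 := Real.rpow_pos_of_pos he (-(2 * aa))
  have hM : 0 ≤ K1 q ^ 2 * q.N ^ 4 := by positivity
  have e1 : 21 * (xi q r ^ 2 / r ^ 4) ≤ 21 * (K1 q ^ 2 * q.N ^ 4 * q.eps) := by
    have h1 : K1 q ^ 2 * q.eps ^ 2 * q.N ^ 4 = K1 q ^ 2 * q.N ^ 4 * q.eps ^ 2 := by ring
    rw [h1] at t1
    have h2 := mul_le_mul_of_nonneg_left t4 hM
    linarith only [t1, h2]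
  have e2 : 20 * (q.GR * q.eps ^ (-(2 * aa))) *
      ((τ + r ^ 2 / 100) ^ (-gam) * xi q r ^ 2) ≤
      20 * 10 ^ 6 * q.GR * (K1 q ^ 2 * q.N ^ 4 * q.eps) := by
    calc 20 * (q.GR * q.eps ^ (-(2 * aa))) * ((τ + r ^ 2 / 100) ^ (-gam) * xi q r ^ 2)
        ≤ 20 * (q.GR * q.eps ^ (-(2 * aa))) * (10 ^ 6 * (K1 q ^ 2 * q.eps ^ 2 * q.N ^ 4)) :=
          mul_le_mul_of_nonneg_left t2 (by positivity)
      _ = 20 * 10 ^ 6 * q.GR * (K1 q ^ 2 * q.N ^ 4 * (q.eps ^ (-(2 * aa)) * q.eps ^ 2)) := by ring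
      _ ≤ _ := by
          apply mul_le_mul_of_nonneg_left _ (by positivity)
          exact mul_le_mul_of_nonneg_left t3 hM
  have hs := h.small
  have hη : q.eta / 2 = 5000 / q.N ^ 2 := by unfold Par.eta; ring
  rw [hη, le_div_iff₀ (by positivity)]
  have h5 : (21 * (xi q r ^ 2 / r ^ 4) + 20 * (q.GR * q.eps ^ (-(2 * aa))) *
      ((τ + r ^ 2 / 100) ^ (-gam) * xi q r ^ 2)) * q.N ^ 2 ≤
      (21 * (K1 q ^ 2 * q.N ^ 4 * q.eps) + 20 * 10 ^ 6 * q.GR * (K1 q ^ 2 * q.N ^ 4 * q.eps)) *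
        q.N ^ 2 := mul_le_mul_of_nonneg_right (by linarith only [e1, e2]) (by positivity)
  have h6 : (21 * (K1 q ^ 2 * q.N ^ 4 * q.eps) + 20 * 10 ^ 6 * q.GR *
      (K1 q ^ 2 * q.N ^ 4 * q.eps)) * q.N ^ 2 =
      (21 + 20 * 10 ^ 6 * q.GR) * (K1 q ^ 2 * q.N ^ 6 * q.eps) := by ring
  have h7 : 0 ≤ K1 q ^ 2 * q.N ^ 6 * q.eps := by positivity
  have h8 : (21 + 20 * 10 ^ 6 * q.GR) * (K1 q ^ 2 * q.N ^ 6 * q.eps) ≤
      (10 ^ 8 * (1 + q.GR)) * (K1 q ^ 2 * q.N ^ 6 * q.eps) :=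
    mul_le_mul_of_nonneg_right (by linarith only [k1, k2, hGR0]) h7
  have h9 : (10 ^ 8 * (1 + q.GR)) * (K1 q ^ 2 * q.N ^ 6 * q.eps) =
      10 ^ 8 * (1 + q.GR) * K1 q ^ 2 * q.N ^ 6 * q.eps := by ring
  linarith only [k1, k2, hs, h5, h7]

/-- the source in the outer region -/
theorem src_O {η ξ r E0 R V : ℝ} (hη : 0 < η) (hr : 0 < r) (hξ0 : 0 ≤ ξ) (hξ : ξ ≤ 1 / 10 ^ 6)
    (hV : r ^ 2 * |V| ≤ ξ) (hR0 : 0 ≤ R) (hR : R ≤ 3 * η)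
    (hE : |E0| ≤ 3 / 2 * η + 3000 * ξ ^ 2 / r ^ 2) :
    2 * E0 ^ 2 + (R - E0) ^ 2 / 20 + 20 * V ^ 2 ≤ 10.4 * η ^ 2 + 21 * (ξ ^ 2 / r ^ 4) := by
  have hr2 : 0 < r ^ 2 := by positivity
  have hV2 : V ^ 2 ≤ ξ ^ 2 / r ^ 4 := by
    rw [le_div_iff₀ (by positivity)]
    have h2 : (r ^ 2 * |V|) ^ 2 ≤ ξ ^ 2 := pow_le_pow_left₀ (by positivity) hV 2
    rw [mul_pow, sq_abs] at h2
    calc V ^ 2 * r ^ 4 = (r ^ 2) ^ 2 * V ^ 2 := by ring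
      _ ≤ _ := h2
  have hX : 0 ≤ ξ ^ 2 / r ^ 4 := by positivity
  have hE2 : E0 ^ 2 ≤ 4.5 * η ^ 2 + 0.1 * (ξ ^ 2 / r ^ 4) := by
    have h2 : |E0| ^ 2 ≤ (3 / 2 * η + 3000 * ξ ^ 2 / r ^ 2) ^ 2 :=
      pow_le_pow_left₀ (abs_nonneg _) hE 2
    rw [sq_abs] at h2
    have h3 : (3000 * ξ ^ 2 / r ^ 2) ^ 2 = 9 * 10 ^ 6 * ξ ^ 2 * (ξ ^ 2 / r ^ 4) := by
      field_simp
      ring
    have h4 : 9 * 10 ^ 6 * ξ ^ 2 * (ξ ^ 2 / r ^ 4) ≤ 0.05 * (ξ ^ 2 / r ^ 4) := by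
      apply mul_le_mul_of_nonneg_right _ hX
      have : ξ ^ 2 ≤ (1 / 10 ^ 6) ^ 2 := pow_le_pow_left₀ hξ0 hξ 2
      linarith only [this]
    have h5 : (3 / 2 * η + 3000 * ξ ^ 2 / r ^ 2) ^ 2 ≤
        2 * (3 / 2 * η) ^ 2 + 2 * (3000 * ξ ^ 2 / r ^ 2) ^ 2 := by
      have := sq_nonneg (3 / 2 * η - 3000 * ξ ^ 2 / r ^ 2)
      linarith only [this, sq_nonneg (3 / 2 * η - 3000 * ξ ^ 2 / r ^ 2)]
    have h6 : 2 * (3 / 2 * η) ^ 2 = 4.5 * η ^ 2 := by ring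
    linarith only [h2, h3, h4, h5]
  have hsrc : 2 * E0 ^ 2 + (R - E0) ^ 2 / 20 ≤ 2.1 * E0 ^ 2 + 0.1 * R ^ 2 := by
    nlinarith only [sq_nonneg (R + E0)]
  have hR2 : R ^ 2 ≤ 9 * η ^ 2 := by nlinarith only [hη, hR0, hR]
  linarith only [hV2, hX, hE2, hsrc, hR2, sq_nonneg η]

/-- **closure R, outer region** -/
theorem closeR_O {q : Par} (h : CondR q) {τ r u Z zp P E0 R V : ℝ} (hτ : 0 < τ) (hr : 0 < r)
    (hrN : r ≤ q.N) (hξ : xi q r ≤ 1 / 10 ^ 6) (hu : |u| ≤ xi q r) (hP : r * |P| ≤ xi q r)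
    (hV : r ^ 2 * |V| ≤ xi q r) (hZ0 : 0 ≤ Z) (hZ : Z - 1 ≤ 2 * xi q r ^ 2)
    (hzp : zp ^ 2 = Z * (r ^ 2 * P ^ 2)) (hR0 : 0 ≤ R) (hR : R ≤ 3 * q.eta)
    (hE : |E0| ≤ 3 / 2 * q.eta + 3000 * xi q r ^ 2 / r ^ 2) :
    2 * E0 ^ 2 + (R - E0) ^ 2 / 20 + 20 * V ^ 2 <
      LRB q.eta (q.GR * q.eps ^ (-(2 * aa))) τ (r ^ 2) (Real.cosh u) (Real.sinh u) Z
        zp (r ^ 2 * P ^ 2) := by
  have hη := h.eta_pos
  have hη1 := h.eta_lt
  have hS : 0 < τ + r ^ 2 / 100 := by positivity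
  have hξ0 : 0 ≤ xi q r := (abs_nonneg _).trans hu
  obtain ⟨hs, hc2⟩ := sinh_le_of hu hξ
  have hξ2 : xi q r ^ 2 ≤ (1 / 10 ^ 6) ^ 2 := pow_le_pow_left₀ hξ0 hξ 2
  have hZ1 : Z ≤ 1.1 := by linarith only [hZ, hη, hη1, hξ2]
  have hp2 : r ^ 2 * P ^ 2 ≤ xi q r ^ 2 := by
    have h1 : (r * |P|) ^ 2 ≤ xi q r ^ 2 := pow_le_pow_left₀ (by positivity) hP 2
    rwa [mul_pow, sq_abs] at h1
  have hzp1 : |zp| ≤ 1.1 * xi q r := by
    apply abs_le_of_sq_le_sq _ (by positivity)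
    rw [hzp]
    have h1 : Z * (r ^ 2 * P ^ 2) ≤ 1.1 * xi q r ^ 2 :=
      mul_le_mul hZ1 hp2 (by positivity) (by norm_num)
    have h2 : (1.1 * xi q r) ^ 2 = 1.21 * xi q r ^ 2 := by ring
    rw [h2]
    linarith only [h1, sq_nonneg (xi q r)]
  have hω0 : 0 ≤ r ^ 2 / (100 * (τ + r ^ 2 / 100)) := by positivity
  have hω1 : r ^ 2 / (100 * (τ + r ^ 2 / 100)) ≤ 1 := by
    rw [div_le_one (by positivity)]; linarith only [hτ]
  have hBr := Br_O (Real.one_le_cosh u) hc2 hs hξ0 hω0 hω1 hZ0 hZ1 hzp1 hp2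
  rw [LRB_eq hS]
  have hxb := xi_bounds h hr hrN hτ
  have p1 := Real.rpow_pos_of_pos h.eps_pos (-(2 * aa))
  have p2 := Real.rpow_pos_of_pos hS (-gam)
  have hK : 0 ≤ q.GR * q.eps ^ (-(2 * aa)) := mul_nonneg h.GR_nn p1.le
  have h1 := mul_le_mul_of_nonneg_left (mul_le_mul_of_nonneg_left hBr p2.le) hK
  have hsrc := src_O hη hr hξ0 hξ hV hR0 hR hE
  have hη2 : 10.4 * q.eta ^ 2 < q.eta / 2 := by nlinarith only [hR0, hR, hη, hη1]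
  have h2 : q.GR * q.eps ^ (-(2 * aa)) * ((τ + r ^ 2 / 100) ^ (-gam) * -(20 * xi q r ^ 2)) =
      -(20 * (q.GR * q.eps ^ (-(2 * aa))) * ((τ + r ^ 2 / 100) ^ (-gam) * xi q r ^ 2)) := by
    ring
  rw [h2] at h1
  linarith only [hxb, h1, hsrc, hη2]

end

end Vale.Agent.P244.ST.ClR
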