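import Vale.Agent.P244.ST.Frame

/-!
# P244-ST : from the coordinate form of the system to a `Frame` (abstract algebra)
-/

namespace Vale.Agent.P244.ST

/-- coordinate description of the conformal gauge system in an abstract differential ring:
`X` the coordinate, `s = sqrt(1-X²)`, `i = 1/s`, `e = exp(-W)`, `H = exp(-2F)`. -/
structure Conf0 (R : Type*) [CommRing R] [Algebra ℝ R] where
  D : Derivation ℝ R R
  D' : Derivation ℝ R R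
  X : R
  s : R
  i : R
  e : R
  H : R
  J : R
  W : R
  F : R
  u : R
  ρ : R
  sh : R
  ch : R
  r2 : R
  ir : R
  comm : ∀ h, D' (D h) = D (D' h)
  s2 : s ^ 2 = 1 - X ^ 2
  si : s * i = 1
  DX : D X = 1
  TX : D' X = 0
  Ds : D s = -(X * i)
  Ts : D' s = 0
  De : D e = -(e * D W)
  Te : D' e = -(e * D' W)
  DJ : D J = e ^ 2 * (19 * D W ^ 2 + 20 * D F ^ 2)
  eqW : D' W = e ^ 2 * ((1 - X ^ 2) * D (D W) - 21 * X * D W - 20) + (X - (1 - X ^ 2) * D W) * J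
  eqF : D' F = e ^ 2 * ((1 - X ^ 2) * D (D F) - 21 * X * D F) - 19 * H - (1 - X ^ 2) * D F * J
  Du : D u = D F - D W + X * i ^ 2
  Tu : D' u = D' F - D' W
  Dρ : 2 * D ρ = D F + D W - X * i ^ 2
  Tρ : 2 * D' ρ = D' F + D' W
  ch_sh : ch ^ 2 - sh ^ 2 = 1
  Dsh : D sh = ch * D u
  Dch : D ch = sh * D u
  Tsh : D' sh = ch * D' u
  Tch : D' ch = sh * D' u
  r2_ir : r2 * ir = 1
  Dr2 : D r2 = 2 * r2 * D ρ
  Tr2 : D' r2 = 2 * r2 * D' ρ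
  chi : 78 * ch * ir = 19 * (e ^ 2 * i ^ 2 + H)
  shi : 78 * sh * ir = 19 * (e ^ 2 * i ^ 2 - H)

namespace Conf0

variable {R : Type*} [CommRing R] [Algebra ℝ R] (C : Conf0 R)

/-- `a = 19 W_x + 20 F_x` -/
def a : R := 19 * C.D C.W + 20 * C.D C.F

/-- arclength derivative -/
noncomputable def dS : Derivation ℝ R R := (-(C.s * C.e)) • C.D

/-- material derivative -/
noncomputable def dM : Derivation ℝ R R := C.D' + (C.s ^ 2 * (C.e ^ 2 * C.a + C.J)) • C.D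

lemma dS_apply (h : R) : C.dS h = -(C.s * C.e) * C.D h := rfl

lemma dM_apply (h : R) : C.dM h = C.D' h + C.s ^ 2 * (C.e ^ 2 * C.a + C.J) * C.D h := rfl

lemma D_mul (h k : R) : C.D (h * k) = h * C.D k + k * C.D h := C.D.leibniz h k
lemma T_mul (h k : R) : C.D' (h * k) = h * C.D' k + k * C.D' h := C.D'.leibniz h k
lemma D_ofNat (n : ℕ) [n.AtLeastTwo] : C.D (ofNat(n) : R) = 0 := C.D.map_natCast n
lemma D_one : C.D (1 : R) = 0 := C.D.map_one_eq_zero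
lemma D_sq (h : R) : C.D (h ^ 2) = 2 * h * C.D h := by rw [pow_two, D_mul]; ring

lemma Ki : C.i ^ 2 * (1 - C.X ^ 2) = 1 := by
  have h1 := C.s2
  have h2 := C.si
  linear_combination (-C.i ^ 2) * h1 + (C.s * C.i + 1) * h2

lemma Di : C.D C.i = C.X * C.i ^ 3 := by
  have h := congrArg C.D C.si
  rw [D_mul, C.Ds, D_one] at h
  linear_combination C.i * h - (C.D C.i) * C.si

lemma DDu : C.D (C.D C.u) = C.D (C.D C.F) - C.D (C.D C.W) + C.i ^ 2 +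
    2 * C.X ^ 2 * C.i ^ 4 := by
  rw [C.Du, map_add, map_sub, D_mul, D_sq, C.Di, C.DX]; ring

lemma DDρ : 2 * C.D (C.D C.ρ) = C.D (C.D C.F) + C.D (C.D C.W) - C.i ^ 2 -
    2 * C.X ^ 2 * C.i ^ 4 := by
  have h := congrArg C.D C.Dρ
  rw [D_mul, D_ofNat, map_sub, map_add, D_mul, D_sq, C.Di, C.DX] at h
  linear_combination h

lemma dSdS (h : R) : C.dS (C.dS h) = C.e ^ 2 * ((1 - C.X ^ 2) * C.D (C.D h) - C.X * C.D h -
    (1 - C.X ^ 2) * C.D C.W * C.D h) := by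
  rw [dS_apply, dS_apply, D_mul, map_neg, D_mul, C.Ds, C.De]
  linear_combination (-C.X * C.e ^ 2 * C.D h) * C.si +
    (C.e ^ 2 * C.D (C.D h) - C.e ^ 2 * C.D C.W * C.D h) * C.s2

lemma dS_mul_dS (h k : R) : C.dS h * C.dS k = C.e ^ 2 * (1 - C.X ^ 2) * (C.D h * C.D k) := by
  rw [dS_apply, dS_apply]
  linear_combination (C.e ^ 2 * C.D h * C.D k) * C.s2

lemma A2 : C.dM C.u = C.dS (C.dS C.u) + 40 * C.dS C.ρ * C.dS C.u + 78 * C.sh * C.ir := by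
  have e1 : 40 * C.dS C.ρ * C.dS C.u =
      20 * C.e ^ 2 * (1 - C.X ^ 2) * ((C.D C.F + C.D C.W - C.X * C.i ^ 2) * C.D C.u) := by
    rw [mul_assoc, dS_mul_dS]
    linear_combination (20 * C.e ^ 2 * (1 - C.X ^ 2) * C.D C.u) * C.Dρ
  rw [dSdS, e1, C.shi, dM_apply, C.Tu, C.DDu, C.Du, C.eqW, C.eqF, a]
  linear_combination ((C.e ^ 2 * (19 * C.D C.W + 20 * C.D C.F) + C.J) *
      (C.D C.F - C.D C.W + C.X * C.i ^ 2)) * C.s2 +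
    (C.X * (C.e ^ 2 * (19 * C.D C.W + 20 * C.D C.F) + C.J) -
      (20 * C.e ^ 2 - 18 * C.X ^ 2 * C.i ^ 2 * C.e ^ 2 + 39 * C.X * C.e ^ 2 * C.D C.W)) * C.Ki

lemma A1' : 2 * C.dM C.ρ = 2 * (C.dS (C.dS C.ρ) + 40 * C.dS C.ρ ^ 2 - 39 * C.ch * C.ir) := by
  have e1 : 80 * C.dS C.ρ ^ 2 =
      20 * C.e ^ 2 * (1 - C.X ^ 2) * (C.D C.F + C.D C.W - C.X * C.i ^ 2) ^ 2 := by
    rw [pow_two, dS_mul_dS]
    linear_combination (20 * C.e ^ 2 * (1 - C.X ^ 2) *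
      (2 * C.D C.ρ + (C.D C.F + C.D C.W - C.X * C.i ^ 2))) * C.Dρ
  have e2 : 2 * C.dS (C.dS C.ρ) = C.e ^ 2 * ((1 - C.X ^ 2) * (C.D (C.D C.F) + C.D (C.D C.W) -
      C.i ^ 2 - 2 * C.X ^ 2 * C.i ^ 4) - C.X * (C.D C.F + C.D C.W - C.X * C.i ^ 2) -
      (1 - C.X ^ 2) * C.D C.W * (C.D C.F + C.D C.W - C.X * C.i ^ 2)) := by
    rw [dSdS]
    linear_combination (C.e ^ 2 * (1 - C.X ^ 2)) * C.DDρ -
      (C.e ^ 2 * (C.X + (1 - C.X ^ 2) * C.D C.W)) * C.Dρ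
  have e3 : 2 * C.dM C.ρ = C.D' C.F + C.D' C.W + C.s ^ 2 * (C.e ^ 2 * C.a + C.J) *
      (C.D C.F + C.D C.W - C.X * C.i ^ 2) := by
    rw [dM_apply]
    linear_combination C.Tρ + (C.s ^ 2 * (C.e ^ 2 * C.a + C.J)) * C.Dρ
  have e4 : 2 * (C.dS (C.dS C.ρ) + 40 * C.dS C.ρ ^ 2 - 39 * C.ch * C.ir) =
      2 * C.dS (C.dS C.ρ) + 80 * C.dS C.ρ ^ 2 - 78 * C.ch * C.ir := by ring
  rw [e3, e4, e2, e1, C.chi, C.eqW, C.eqF, a]
  linear_combination ((C.e ^ 2 * (19 * C.D C.W + 20 * C.D C.F) + C.J) *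
      (C.D C.F + C.D C.W - C.X * C.i ^ 2)) * C.s2 +
    (-C.X * (C.e ^ 2 * (19 * C.D C.W + 20 * C.D C.F) + C.J) -
      C.e ^ 2 * (-20 + 18 * C.X ^ 2 * C.i ^ 2 + C.X * C.D C.W -
        40 * C.X * (C.D C.F + C.D C.W))) * C.Ki

lemma A1 : C.dM C.ρ = C.dS (C.dS C.ρ) + 40 * C.dS C.ρ ^ 2 - 39 * C.ch * C.ir :=
  two_cancel C.A1'

/-- the curvature term -/
lemma E_eq : -40 * C.dS (C.dS C.ρ) - 40 * C.dS C.ρ ^ 2 - 10 * C.dS C.u ^ 2 =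
    -(C.e ^ 2 * (20 * (1 - C.X ^ 2) * (C.D (C.D C.F) + C.D (C.D C.W)) - 20 -
      20 * C.X * C.D C.F - 40 * C.X * C.D C.W - 20 * (1 - C.X ^ 2) * C.D C.W * C.D C.F +
      20 * (1 - C.X ^ 2) * C.D C.F ^ 2)) := by
  have e1 : 40 * C.dS C.ρ ^ 2 =
      10 * C.e ^ 2 * (1 - C.X ^ 2) * (C.D C.F + C.D C.W - C.X * C.i ^ 2) ^ 2 := by
    rw [pow_two, dS_mul_dS]
    linear_combination (10 * C.e ^ 2 * (1 - C.X ^ 2) *
      (2 * C.D C.ρ + (C.D C.F + C.D C.W - C.X * C.i ^ 2))) * C.Dρ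
  have e2 : 2 * C.dS (C.dS C.ρ) = C.e ^ 2 * ((1 - C.X ^ 2) * (C.D (C.D C.F) + C.D (C.D C.W) -
      C.i ^ 2 - 2 * C.X ^ 2 * C.i ^ 4) - C.X * (C.D C.F + C.D C.W - C.X * C.i ^ 2) -
      (1 - C.X ^ 2) * C.D C.W * (C.D C.F + C.D C.W - C.X * C.i ^ 2)) := by
    rw [dSdS]
    linear_combination (C.e ^ 2 * (1 - C.X ^ 2)) * C.DDρ -
      (C.e ^ 2 * (C.X + (1 - C.X ^ 2) * C.D C.W)) * C.Dρ
  have e3 : C.dS C.u ^ 2 = C.e ^ 2 * (1 - C.X ^ 2) * (C.D C.F - C.D C.W + C.X * C.i ^ 2) ^ 2 := by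
    rw [pow_two, dS_mul_dS, C.Du]; ring
  linear_combination (-20) * e2 - e1 - 10 * e3 +
    (C.e ^ 2 * (20 - 20 * C.X * C.D C.W + 40 * C.X ^ 2 * C.i ^ 2 + 40 * C.X * C.D C.W -
      20 * C.X ^ 2 * C.i ^ 2)) * C.Ki

lemma Da : C.D C.a = 19 * C.D (C.D C.W) + 20 * C.D (C.D C.F) := by
  rw [a, map_add, D_mul, D_mul, D_ofNat, D_ofNat]; ring

/-- the commutator -/
lemma A3 (h : R) : C.dM (C.dS h) = C.dS (C.dM h) +
    (-40 * C.dS (C.dS C.ρ) - 40 * C.dS C.ρ ^ 2 - 10 * C.dS C.u ^ 2) * C.dS h := by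
  rw [E_eq, dM_apply, dS_apply, dS_apply, dM_apply]
  have e1 : C.D' (-(C.s * C.e) * C.D h) = -(C.s * C.e) * C.D (C.D' h) +
      C.s * C.e * C.D' C.W * C.D h := by
    rw [T_mul, map_neg, T_mul, C.Te, C.Ts, C.comm]; ring
  have e2 : C.D (-(C.s * C.e) * C.D h) = -(C.s * C.e) * C.D (C.D h) +
      (C.X * C.i * C.e + C.s * C.e * C.D C.W) * C.D h := by
    rw [D_mul, map_neg, D_mul, C.De, C.Ds]; ring
  have e3 : C.D (C.D' h + C.s ^ 2 * (C.e ^ 2 * C.a + C.J) * C.D h) = C.D (C.D' h) +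
      C.s ^ 2 * (C.e ^ 2 * C.a + C.J) * C.D (C.D h) +
      (-2 * C.s * C.X * C.i * (C.e ^ 2 * C.a + C.J) + C.s ^ 2 * (-2 * C.e ^ 2 * C.D C.W * C.a +
        C.e ^ 2 * (19 * C.D (C.D C.W) + 20 * C.D (C.D C.F)) +
        C.e ^ 2 * (19 * C.D C.W ^ 2 + 20 * C.D C.F ^ 2))) * C.D h := by
    rw [map_add, D_mul, D_mul, D_sq, map_add, D_mul, D_sq, C.De, C.Ds, C.DJ, C.Da]; ring
  rw [e1, e2, e3, C.eqW, a]
  linear_combination (-(C.s * C.X * (C.e ^ 2 * (19 * C.D C.W + 20 * C.D C.F) + C.J) * C.e *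
      C.D h)) * C.si +
    (C.s * C.e * C.D h * (C.D C.W * (C.e ^ 2 * (19 * C.D C.W + 20 * C.D C.F) + C.J) +
      C.e ^ 2 * (-2 * C.D C.W * (19 * C.D C.W + 20 * C.D C.F) + 19 * C.D (C.D C.W) +
        20 * C.D (C.D C.F) + 19 * C.D C.W ^ 2 + 20 * C.D C.F ^ 2))) * C.s2

/-- the frame -/
noncomputable def frame : Frame R where
  Ds := C.dS
  Dt := C.dM
  u := C.u
  ρ := C.ρ
  sh := C.sh
  ch := C.ch
  r2 := C.r2
  ir := C.ir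
  ch_sh := C.ch_sh
  Ds_sh := by rw [dS_apply, dS_apply, C.Dsh]; ring
  Ds_ch := by rw [dS_apply, dS_apply, C.Dch]; ring
  Dt_sh := by rw [dM_apply, dM_apply, C.Dsh, C.Tsh]; ring
  Dt_ch := by rw [dM_apply, dM_apply, C.Dch, C.Tch]; ring
  r2_ir := C.r2_ir
  Ds_r2 := by rw [dS_apply, dS_apply, C.Dr2]; ring
  Dt_r2 := by rw [dM_apply, dM_apply, C.Dr2, C.Tr2]; ring
  A1 := C.A1
  A2 := C.A2
  A3 := C.A3

end Conf0

end Vale.Agent.P244.ST
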