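import Mathlib

/-!
# P244-ST : the doubly warped Ricci flow in an abstract differential ring (`p = 20`, `m = 40`)

Two derivations `Ds` (arclength) and `Dt` (material time derivative) of a commutative `ℝ`-algebra,
elements `u = log(φ/ψ)`, `ρ = log r`, `sinh u`, `cosh u`, `r²`, `r⁻²`.
Note P244-0: identities (F2)-(F7), (E1)-(E4), (TH), (ET), (FF).
-/

set_option linter.unusedSimpArgs false

namespace Vale.Agent.P244.ST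

/-- the frame -/
structure Frame (R : Type*) [CommRing R] [Algebra ℝ R] where
  Ds : Derivation ℝ R R
  Dt : Derivation ℝ R R
  u : R
  ρ : R
  sh : R
  ch : R
  r2 : R
  ir : R
  ch_sh : ch ^ 2 - sh ^ 2 = 1
  Ds_sh : Ds sh = ch * Ds u
  Ds_ch : Ds ch = sh * Ds u
  Dt_sh : Dt sh = ch * Dt u
  Dt_ch : Dt ch = sh * Dt u
  r2_ir : r2 * ir = 1
  Ds_r2 : Ds r2 = 2 * r2 * Ds ρ
  Dt_r2 : Dt r2 = 2 * r2 * Dt ρ
  A1 : Dt ρ = Ds (Ds ρ) + 40 * Ds ρ ^ 2 - 39 * ch * ir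
  A2 : Dt u = Ds (Ds u) + 40 * Ds ρ * Ds u + 78 * sh * ir
  A3 : ∀ h, Dt (Ds h) = Ds (Dt h) + (-40 * Ds (Ds ρ) - 40 * Ds ρ ^ 2 - 10 * Ds u ^ 2) * Ds h

lemma two_cancel {R : Type*} [CommRing R] [Algebra ℝ R] {a b : R} (h : 2 * a = 2 * b) : a = b := by
  have h1 : algebraMap ℝ R (1 / 2) * 2 = 1 := by
    have : (2 : R) = algebraMap ℝ R 2 := (map_ofNat _ 2).symm
    rw [this, ← map_mul]
    norm_num
  linear_combination algebraMap ℝ R (1 / 2) * h - (a - b) * h1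

namespace Frame

variable {R : Type*} [CommRing R] [Algebra ℝ R] (A : Frame R)

/-- `Ric(∂_s,∂_s)` -/
def E0 : R := -40 * A.Ds (A.Ds A.ρ) - 40 * A.Ds A.ρ ^ 2 - 10 * A.Ds A.u ^ 2

/-- `D_t ρ` -/
def yt : R := A.Dt A.ρ

/-- `D_t u` -/
def V : R := A.Dt A.u

/-- `u_s` -/
def P : R := A.Ds A.u

/-- `ρ_s` -/
def ρs : R := A.Ds A.ρ

/-- scalar curvature -/
def Rs : R := A.E0 - 40 * A.yt

/-- Laplacian -/
def Lap (h : R) : R := A.Ds (A.Ds h) + 40 * A.ρs * A.Ds h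

lemma Ds_mul (h k : R) : A.Ds (h * k) = h * A.Ds k + k * A.Ds h := A.Ds.leibniz h k
lemma Dt_mul (h k : R) : A.Dt (h * k) = h * A.Dt k + k * A.Dt h := A.Dt.leibniz h k

lemma Ds_sq (h : R) : A.Ds (h ^ 2) = 2 * h * A.Ds h := by
  rw [pow_two, Ds_mul]; ring

lemma Dt_sq (h : R) : A.Dt (h ^ 2) = 2 * h * A.Dt h := by
  rw [pow_two, Dt_mul]; ring

lemma Ds_cube (h : R) : A.Ds (h ^ 3) = 3 * h ^ 2 * A.Ds h := by
  rw [pow_succ, Ds_mul, Ds_sq]; ring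

lemma Dt_cube (h : R) : A.Dt (h ^ 3) = 3 * h ^ 2 * A.Dt h := by
  rw [pow_succ, Dt_mul, Dt_sq]; ring

lemma Ds_ofNat (n : ℕ) [n.AtLeastTwo] : A.Ds (ofNat(n) : R) = 0 := A.Ds.map_natCast n
lemma Dt_ofNat (n : ℕ) [n.AtLeastTwo] : A.Dt (ofNat(n) : R) = 0 := A.Dt.map_natCast n
lemma Ds_one : A.Ds (1 : R) = 0 := A.Ds.map_one_eq_zero
lemma Dt_one : A.Dt (1 : R) = 0 := A.Dt.map_one_eq_zero

lemma Ds_ir : A.Ds A.ir = -2 * A.ir * A.Ds A.ρ := by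
  have h := congrArg A.Ds A.r2_ir
  rw [Ds_mul, A.Ds_r2, Ds_one] at h
  have h2 := A.r2_ir
  linear_combination A.ir * h - (A.Ds A.ir + 2 * A.ir * A.Ds A.ρ) * h2

lemma Dt_ir : A.Dt A.ir = -2 * A.ir * A.Dt A.ρ := by
  have h := congrArg A.Dt A.r2_ir
  rw [Dt_mul, A.Dt_r2, Dt_one] at h
  have h2 := A.r2_ir
  linear_combination A.ir * h - (A.Dt A.ir + 2 * A.ir * A.Dt A.ρ) * h2

/-- commutator -/
lemma comm (h : R) : A.Dt (A.Ds h) = A.Ds (A.Dt h) + A.E0 * A.Ds h := A.A3 h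

lemma yt_eq : A.yt = A.Ds A.ρs + 40 * A.ρs ^ 2 - 39 * A.ch * A.ir := A.A1

lemma V_eq : A.V = A.Ds A.P + 40 * A.ρs * A.P + 78 * A.sh * A.ir := A.A2

lemma E0_eq : A.E0 = -40 * A.Ds A.ρs - 40 * A.ρs ^ 2 - 10 * A.P ^ 2 := rfl

lemma Rs_eq : A.Rs = -80 * A.Ds A.ρs - 1640 * A.ρs ^ 2 - 10 * A.P ^ 2 + 1560 * A.ch * A.ir := by
  rw [Rs, E0_eq, yt_eq]; ring

/-- `(F3)`, multiplied by two -/
lemma F3 : 2 * A.Ds A.E0 + 82 * A.ρs * A.E0 + 20 * A.P * A.V = A.Ds A.Rs + 2 * A.ρs * A.Rs := by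
  have e1 : A.Ds A.ch = A.sh * A.P := A.Ds_ch
  have e2 : A.Ds A.ir = -2 * A.ir * A.ρs := A.Ds_ir
  rw [Rs_eq, E0_eq, V_eq]
  simp only [map_add, map_sub, map_neg, Ds_mul, Ds_sq, Ds_ofNat, e1, e2]
  ring

/-- `(F4)` -/
lemma F4 (h : R) : A.Dt (A.Lap h) = A.Lap (A.Dt h) + 2 * A.E0 * A.Lap h +
    (2 * A.Ds A.E0 - A.Ds A.Rs) * A.Ds h := by
  have e1 : A.Dt A.ρs = A.Ds A.yt + A.E0 * A.ρs := A.comm A.ρ
  simp only [Lap, map_add, Dt_mul, comm, Ds_mul, Dt_ofNat, e1, Rs, map_sub, Ds_ofNat]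
  ring

/-- evolution of `ρ_s`, `(F6)` -/
lemma F6ρ : A.Dt A.ρs = A.Lap A.ρs + (78 * A.ch * A.ir - 40 * A.ρs ^ 2 - 10 * A.P ^ 2) * A.ρs -
    39 * A.sh * A.ir * A.P := by
  have e1 : A.Ds A.ch = A.sh * A.P := A.Ds_ch
  have e2 : A.Ds A.ir = -2 * A.ir * A.ρs := A.Ds_ir
  have e3 : A.Dt A.ρs = A.Ds A.yt + A.E0 * A.ρs := A.comm A.ρ
  rw [e3, yt_eq, E0_eq]
  simp only [Lap, map_add, map_sub, Ds_mul, Ds_sq, Ds_ofNat, e1, e2]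
  ring

/-- evolution of `P = u_s`, `(F6)` -/
lemma F6P : A.Dt A.P = A.Lap A.P + (78 * A.ch * A.ir - 40 * A.ρs ^ 2 - 10 * A.P ^ 2) * A.P -
    156 * A.sh * A.ir * A.ρs := by
  have e1 : A.Ds A.sh = A.ch * A.P := A.Ds_sh
  have e2 : A.Ds A.ir = -2 * A.ir * A.ρs := A.Ds_ir
  have e3 : A.Dt A.P = A.Ds A.V + A.E0 * A.P := A.comm A.u
  rw [e3, V_eq, E0_eq]
  simp only [Lap, map_add, map_sub, Ds_mul, Ds_sq, Ds_ofNat, e1, e2]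
  ring

/-- `20 b`, `b = [-r² ρ_s P - (78/40) sinh u]/r²` -/
def b20 : R := -20 * A.ρs * A.P - 39 * A.sh * A.ir

/-- `(F5)`, multiplied by ten -/
lemma F5 : 10 * A.Dt A.V = 10 * A.Lap A.V +
    10 * (78 * A.ch * A.ir - 20 * A.P ^ 2 + 2 * A.E0) * A.V + A.b20 * (41 * A.E0 - A.Rs) := by
  have e1 : A.V = A.Lap A.u + 78 * A.sh * A.ir := A.V_eq
  have e2 : A.Dt A.ir = -2 * A.ir * A.yt := A.Dt_ir
  have e3 : A.Dt A.sh = A.ch * A.V := A.Dt_sh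
  have e4 : A.Dt A.V = A.Dt (A.Lap A.u) + 78 * A.Dt A.sh * A.ir + 78 * A.sh * A.Dt A.ir := by
    conv_lhs => rw [e1]
    simp only [map_add, Dt_mul, Dt_ofNat]; ring
  have e5 := A.F4 A.u
  have e6 : A.Lap A.u = A.V - 78 * A.sh * A.ir := by rw [e1]; ring
  have e7 := A.F3
  have e8 : A.Rs = A.E0 - 40 * A.yt := rfl
  have e9 : A.Ds A.u = A.P := rfl
  have e10 : A.Dt A.u = A.V := rfl
  rw [e4, e5, e6, e2, e3, e9, e10, b20]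
  linear_combination 10 * A.P * e7 - (39 * A.sh * A.ir) * e8

/-- `(F2)`, multiplied by `20`: `20 (D_t R - Lap R) = 20 · 2|Ric|²` -/
lemma F2 : 20 * (A.Dt A.Rs - A.Lap A.Rs) =
    40 * A.E0 ^ 2 + (A.Rs - A.E0) ^ 2 + 400 * A.V ^ 2 := by
  have c1 : A.Ds A.ch = A.sh * A.P := A.Ds_ch
  have c2 : A.Ds A.sh = A.ch * A.P := A.Ds_sh
  have c3 : A.Ds A.ir = -2 * A.ir * A.ρs := A.Ds_ir
  have c4 : A.Dt A.ir = -2 * A.ir * A.yt := A.Dt_ir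
  have c5 : A.Dt A.ch = A.sh * A.V := A.Dt_ch
  have e1 : A.Dt A.Rs = -80 * A.Dt (A.Ds A.ρs) - 3280 * A.ρs * A.Dt A.ρs - 20 * A.P * A.Dt A.P +
      1560 * A.sh * A.V * A.ir - 3120 * A.ch * A.ir * A.yt := by
    rw [Rs_eq]
    simp only [map_add, map_sub, map_neg, Dt_mul, Dt_sq, Dt_ofNat, c4, c5]
    ring
  have e2 : A.Ds A.Rs = -80 * A.Ds (A.Ds A.ρs) - 3280 * A.ρs * A.Ds A.ρs - 20 * A.P * A.Ds A.P +
      1560 * A.sh * A.P * A.ir - 3120 * A.ch * A.ir * A.ρs := by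
    rw [Rs_eq]
    simp only [map_add, map_sub, map_neg, Ds_mul, Ds_sq, Ds_ofNat, c1, c3]
    ring
  have e3 : A.Dt (A.Ds A.ρs) = A.Ds (A.Dt A.ρs) + A.E0 * A.Ds A.ρs := A.comm _
  rw [Lap, e1, e3, e2]
  simp only [F6ρ, F6P, Lap, E0_eq, V_eq, yt_eq, Rs_eq, map_add, map_sub, map_neg, Ds_mul, Ds_sq,
    Ds_cube, Ds_ofNat, c1, c2, c3]
  ring

/-! ### general functions of `ρ` and of `u` -/

/-- `(F7)`: `h` a function of `u` -/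
lemma F7u {h h1 h2 : R} (hs : A.Ds h = h1 * A.P) (ht : A.Dt h = h1 * A.V)
    (hs1 : A.Ds h1 = h2 * A.P) :
    A.Dt h - A.Lap h = 78 * A.sh * A.ir * h1 - h2 * A.P ^ 2 := by
  rw [Lap, hs, ht, Ds_mul, hs1, V_eq]; ring

/-- `(F7)`: `h = r^b` -/
lemma F7r {h b : R} (hs : A.Ds h = b * h * A.ρs) (ht : A.Dt h = b * h * A.yt)
    (hb : A.Ds b = 0) :
    A.Dt h - A.Lap h = -h * (39 * b * A.ch * A.ir + b ^ 2 * A.ρs ^ 2) := by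
  rw [Lap, hs, ht]
  simp only [Ds_mul, hs, hb, yt_eq]
  ring

lemma Lap_mul (h k : R) : A.Lap (h * k) = h * A.Lap k + k * A.Lap h + 2 * (A.Ds h * A.Ds k) := by
  simp only [Lap, Ds_mul, map_add]; ring

lemma Lap_add (h k : R) : A.Lap (h + k) = A.Lap h + A.Lap k := by
  simp only [Lap, map_add]; ring

lemma Lap_sub (h k : R) : A.Lap (h - k) = A.Lap h - A.Lap k := by
  simp only [Lap, map_sub]; ring

/-! ### the `r`-gauge: `κ` is the inverse of `ρ_s` -/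

section Gauge

variable (κ : R)

/-- `r ∂_r` at fixed time -/
def Dr (h : R) : R := κ * A.Ds h

/-- `∂_t` at fixed `r` -/
def Tr (h : R) : R := A.Dt h - A.yt * (κ * A.Ds h)

/-- `G = -Dr u` -/
def G : R := -(κ * A.P)

/-- `Z = r_s²` -/
def Z : R := A.r2 * A.ρs ^ 2

lemma Dr_mul (h k : R) : A.Dr κ (h * k) = h * A.Dr κ k + k * A.Dr κ h := by
  simp only [Dr, Ds_mul]; ring

lemma Dr_add (h k : R) : A.Dr κ (h + k) = A.Dr κ h + A.Dr κ k := by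
  simp only [Dr, map_add]; ring

lemma Dr_sub (h k : R) : A.Dr κ (h - k) = A.Dr κ h - A.Dr κ k := by
  simp only [Dr, map_sub]; ring

lemma Dr_neg (h : R) : A.Dr κ (-h) = -A.Dr κ h := by
  simp only [Dr, map_neg]; ring

lemma Dr_sq (h : R) : A.Dr κ (h ^ 2) = 2 * h * A.Dr κ h := by
  simp only [Dr, Ds_sq]; ring

lemma Dr_ofNat (n : ℕ) [n.AtLeastTwo] : A.Dr κ (ofNat(n) : R) = 0 := by
  rw [Dr, Ds_ofNat, mul_zero]

lemma Tr_mul (h k : R) : A.Tr κ (h * k) = h * A.Tr κ k + k * A.Tr κ h := by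
  simp only [Tr, Ds_mul, Dt_mul]; ring

lemma Tr_add (h k : R) : A.Tr κ (h + k) = A.Tr κ h + A.Tr κ k := by
  simp only [Tr, map_add]; ring

lemma Tr_sub (h k : R) : A.Tr κ (h - k) = A.Tr κ h - A.Tr κ k := by
  simp only [Tr, map_sub]; ring

lemma Dr_u : A.Dr κ A.u = -A.G κ := by
  simp only [Dr, G, P]; ring

variable {κ}

lemma P_eq (hκ : κ * A.ρs = 1) : A.P = -A.G κ * A.ρs := by
  rw [G]; linear_combination -A.P * hκ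

lemma Dr_rho (hκ : κ * A.ρs = 1) : A.Dr κ A.ρ = 1 := hκ

lemma Dr_r2 (hκ : κ * A.ρs = 1) : A.Dr κ A.r2 = 2 * A.r2 := by
  have h : A.Ds A.r2 = 2 * A.r2 * A.ρs := A.Ds_r2
  rw [Dr, h]; linear_combination 2 * A.r2 * hκ

lemma Dr_ir (hκ : κ * A.ρs = 1) : A.Dr κ A.ir = -2 * A.ir := by
  have h : A.Ds A.ir = -2 * A.ir * A.ρs := A.Ds_ir
  rw [Dr, h]; linear_combination -2 * A.ir * hκ

lemma Tr_r2 (hκ : κ * A.ρs = 1) : A.Tr κ A.r2 = 0 := by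
  have h : A.Ds A.r2 = 2 * A.r2 * A.ρs := A.Ds_r2
  have h2 : A.Dt A.r2 = 2 * A.r2 * A.yt := A.Dt_r2
  rw [Tr, h, h2]; linear_combination -2 * A.r2 * A.yt * hκ

lemma Tr_ir (hκ : κ * A.ρs = 1) : A.Tr κ A.ir = 0 := by
  have h : A.Ds A.ir = -2 * A.ir * A.ρs := A.Ds_ir
  have h2 : A.Dt A.ir = -2 * A.ir * A.yt := A.Dt_ir
  rw [Tr, h, h2]; linear_combination 2 * A.ir * A.yt * hκ

lemma Ds_kap (hκ : κ * A.ρs = 1) : A.Ds κ = -κ ^ 2 * A.Ds A.ρs := by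
  have h1 := congrArg A.Ds hκ
  rw [Ds_mul, Ds_one] at h1
  linear_combination κ * h1 - A.Ds κ * hκ

lemma Dt_kap (hκ : κ * A.ρs = 1) : A.Dt κ = -κ ^ 2 * A.Dt A.ρs := by
  have h1 := congrArg A.Dt hκ
  rw [Dt_mul, Dt_one] at h1
  linear_combination κ * h1 - A.Dt κ * hκ

/-- the derivatives `Dr`, `Tr` commute -/
lemma Tr_Dr (hκ : κ * A.ρs = 1) (h : R) : A.Tr κ (A.Dr κ h) = A.Dr κ (A.Tr κ h) := by
  have e3 : A.Dt A.ρs = A.Ds A.yt + A.E0 * A.ρs := A.comm A.ρ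
  simp only [Tr, Dr, Dt_mul, Ds_mul, map_sub, comm, A.Dt_kap hκ, A.Ds_kap hκ, e3]
  linear_combination (-κ * A.E0 * A.Ds h) * hκ

/-- `h_s = ρ_s Dr h` -/
lemma Ds_eq (hκ : κ * A.ρs = 1) (h : R) : A.Ds h = A.ρs * A.Dr κ h := by
  rw [Dr]; linear_combination -A.Ds h * hκ

lemma Dr_Z (hκ : κ * A.ρs = 1) : A.Dr κ A.Z = 2 * A.Z + 2 * A.r2 * A.Ds A.ρs := by
  have h : A.Ds A.r2 = 2 * A.r2 * A.ρs := A.Ds_r2
  rw [Dr, Z, Ds_mul, Ds_sq, h]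
  linear_combination (2 * A.r2 * A.ρs ^ 2 + 2 * A.r2 * A.Ds A.ρs) * hκ

/-- `(E2)` -/
lemma E2 (hκ : κ * A.ρs = 1) (h : R) : 2 * A.r2 * A.Lap h =
    2 * A.Z * A.Dr κ (A.Dr κ h) + (A.Dr κ A.Z + 78 * A.Z) * A.Dr κ h := by
  rw [A.Dr_Z hκ]
  simp only [Dr, Lap, Z, Ds_mul, A.Ds_kap hκ]
  linear_combination (-(2 * A.r2 * A.Ds (A.Ds h)) * (κ * A.ρs + 1) -
    80 * A.r2 * A.ρs * A.Ds h + 2 * A.r2 * A.Ds A.ρs * κ * A.Ds h * (κ * A.ρs + 1)) * hκ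

/-- `(E2)`, second part -/
lemma E2y (hκ : κ * A.ρs = 1) : 2 * A.r2 * A.yt = A.Dr κ A.Z + 78 * A.Z - 78 * A.ch := by
  rw [A.Dr_Z hκ, yt_eq, Z]
  linear_combination (-78 * A.ch) * A.r2_ir

/-- `(E1)` -/
lemma E1 (hκ : κ * A.ρs = 1) : A.r2 * A.Tr κ A.u = A.Z * A.Dr κ (A.Dr κ A.u) +
    39 * A.ch * A.Dr κ A.u + 78 * A.sh := by
  have h1 := A.E2 hκ A.u
  have h2 := A.E2y hκ
  have h3 : A.V = A.Lap A.u + 78 * A.sh * A.ir := A.V_eq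
  have h4 : A.Tr κ A.u = A.V - A.yt * A.Dr κ A.u := rfl
  refine two_cancel ?_
  rw [h4]
  linear_combination 2 * A.r2 * h3 + h1 - A.Dr κ A.u * h2 + 156 * A.sh * A.r2_ir

/-- `(E3)` -/
lemma E3 (hκ : κ * A.ρs = 1) : A.r2 * A.Rs =
    40 * (39 * (A.ch - A.Z) - A.Dr κ A.Z) - 10 * A.Z * A.G κ ^ 2 := by
  have h1 := A.P_eq hκ
  rw [A.Dr_Z hκ, Rs_eq, Z]
  rw [h1]
  linear_combination (1560 * A.ch) * A.r2_ir

/-- `(E3)`, second part -/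
lemma E3' (hκ : κ * A.ρs = 1) : A.r2 * (2 * A.E0 - A.Rs) =
    1560 * (A.Z - A.ch) - 10 * A.Z * A.G κ ^ 2 := by
  have h1 := A.P_eq hκ
  rw [E0_eq, Rs_eq, Z, h1]
  linear_combination (-1560 * A.ch) * A.r2_ir

end Gauge

end Frame

end Vale.Agent.P244.ST
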