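import Vale.Agent.P244.ST.OAlg
import Vale.Agent.P244.ST.Conf0
import Vale.Agent.P244.ST.Sys

/-!
# P244-ST : a solution of the conformal gauge system gives a `Frame` on every open subset of
`(0,T) × (-1,1)`; dictionary between the `Frame` operators and the functions of Geo.lean.
-/

open Set Filter TopologicalSpace
open scoped ContDiff Topology

namespace Vale.Agent.P244.ST

open Vale.Agent.P244.BB

set_option linter.unusedSimpArgs false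

noncomputable section

variable {w f : Fn} {T : ℝ}

/-- the open set `(0,T) × (-1,1)` -/
def Dom (T : ℝ) : Opens (ℝ × ℝ) := ⟨Ioo 0 T ×ˢ Ioo (-1) 1, isOpen_Ioo.prod isOpen_Ioo⟩

lemma mem_Dom {t x : ℝ} : (t, x) ∈ Dom T ↔ t ∈ Ioo 0 T ∧ x ∈ Ioo (-1 : ℝ) 1 := Iff.rfl

lemma ConfSol.sm_w (hs : ConfSol 20 w f T) : Sm (Dom T : Set (ℝ × ℝ)) w :=
  hs.smooth_w.mono (prod_mono Ioo_subset_Ico_self Ioo_subset_Icc_self)

lemma ConfSol.sm_f (hs : ConfSol 20 w f T) : Sm (Dom T : Set (ℝ × ℝ)) f :=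
  hs.smooth_f.mono (prod_mono Ioo_subset_Ico_self Ioo_subset_Icc_self)

lemma ConfSol.ext_J' (h : ConfSol 20 w f T) {x t : ℝ} (hx : x ∈ Icc (-1 : ℝ) 1)
    (ht : t ∈ Ico 0 T) : ext h.sys.J (x, t) = Jf 20 (w t) (f t) x := by
  have key : ∀ {y s : ℝ}, y ∈ Icc (-1 : ℝ) 1 → s ∈ Ico 0 T →
      ext h.sys.W (y, s) = w s y ∧ ext h.sys.F (y, s) = f s y := fun hy hs =>
    ⟨ext_el h.smooth_w (mem_dom hy hs), ext_el h.smooth_f (mem_dom hy hs)⟩
  have kW : ∀ {y : ℝ}, y ∈ Icc (-1 : ℝ) 1 → dx (w t) y = ext (dz h.sys.W) (y, t) := fun hy =>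
    dx_eq_ext _ hy ht fun z hz => (key hz ht).1.symm
  have kF : ∀ {y : ℝ}, y ∈ Icc (-1 : ℝ) 1 → dx (f t) y = ext (dz h.sys.F) (y, t) := fun hy =>
    dx_eq_ext _ hy ht fun z hz => (key hz ht).2.symm
  rw [Sys.J, ext_primS _ (mem_dom hx ht), Jf]
  refine intervalIntegral.integral_congr fun y hy => ?_
  have hy' : y ∈ Icc (-1 : ℝ) 1 := by
    rcases le_total 0 x with h1 | h1
    · rw [uIcc_of_le h1] at hy; exact ⟨by linarith only [hy, hy.1], hy.2.trans hx.2⟩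
    · rw [uIcc_of_ge h1] at hy; exact ⟨hx.1.trans hy.1, by linarith only [hy, hy.2]⟩
  have hp := mem_dom hy' ht
  simp only [Jd, Sys.E]
  rw [kW hy', kF hy']
  simp only [ext_add, ext_sub, ext_mul, ext_neg, ext_natCast 20 hp, ext_one hp, ext_expS _ hp,
    (key hy' ht).1]
  rw [show -w t y - w t y = -2 * w t y by ring]
  ring

lemma ConfSol.sm_J (hs : ConfSol 20 w f T) :
    Sm (Dom T : Set (ℝ × ℝ)) (fun t x => Jf 20 (w t) (f t) x) := by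
  have h1 : ContDiffOn ℝ ∞ (fun z : ℝ × ℝ => ext hs.sys.J (z.2, z.1))
      (Ioo 0 T ×ˢ Ioo (-1) 1) := by
    refine (ext_contDiffOn hs.sys.J).comp (f := fun z : ℝ × ℝ => (z.2, z.1))
      (contDiff_snd.prodMk contDiff_fst).contDiffOn ?_
    rintro ⟨t, x⟩ hz
    exact ⟨Ioo_subset_Icc_self hz.2, Ioo_subset_Ico_self hz.1⟩
  refine h1.congr ?_
  rintro ⟨t, x⟩ hz
  exact (hs.ext_J' (Ioo_subset_Icc_self hz.2) (Ioo_subset_Ico_self hz.1)).symm

lemma dx_eq_deriv (h : ℝ → ℝ) {x : ℝ} (hx : x ∈ Ioo (-1 : ℝ) 1) : dx h x = deriv h x :=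
  derivWithin_of_mem_nhds (Icc_mem_nhds hx.1 hx.2)

lemma dxx_eq_deriv (h : ℝ → ℝ) {x : ℝ} (hx : x ∈ Ioo (-1 : ℝ) 1) :
    dx (dx h) x = deriv (deriv h) x := by
  rw [dx_eq_deriv _ hx]
  refine Filter.EventuallyEq.deriv_eq ?_
  filter_upwards [Ioo_mem_nhds hx.1 hx.2] with y hy
  exact dx_eq_deriv h hy

lemma hasDeriv_J (hs : ConfSol 20 w f T) {t x : ℝ} (ht : t ∈ Ioo 0 T) (hx : x ∈ Ioo (-1 : ℝ) 1) :
    HasDerivAt (Jf 20 (w t) (f t))
      (Real.exp (-w t x) ^ 2 * (19 * Dx w t x ^ 2 + 20 * Dx f t x ^ 2)) x := by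
  have ht' := Ioo_subset_Ico_self ht
  have hx' := Ioo_subset_Icc_self hx
  have hp := mem_dom hx' ht'
  have h1 : dx (Jf 20 (w t) (f t)) x = ext (dz hs.sys.J) (x, t) :=
    dx_eq_ext _ hx' ht' fun y hy => (hs.ext_J' hy ht').symm
  have h2 := (hs.sm_J.hasDeriv_x (Dom T).isOpen (mem_Dom.mpr ⟨ht, hx⟩))
  have h3 : Dx (fun t x => Jf 20 (w t) (f t) x) t x = dx (Jf 20 (w t) (f t)) x := by
    rw [dx_eq_deriv _ hx]; rfl
  rw [h3, h1, hs.sys.dz_J] at h2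
  have kW : dx (w t) x = ext (dz hs.sys.W) (x, t) :=
    dx_eq_ext _ hx' ht' fun z hz => (ext_el hs.smooth_w (mem_dom hz ht')).symm
  have kF : dx (f t) x = ext (dz hs.sys.F) (x, t) :=
    dx_eq_ext _ hx' ht' fun z hz => (ext_el hs.smooth_f (mem_dom hz ht')).symm
  rw [dx_eq_deriv _ hx] at kW kF
  have hW : ext hs.sys.W (x, t) = w t x := ext_el hs.smooth_w hp
  simp only [Sys.E, ext_add, ext_sub, ext_mul, ext_neg, ext_natCast 20 hp, ext_one hp,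
    ext_expS _ hp, hW, ← kW, ← kF] at h2
  have e1 : Real.exp (-w t x) ^ 2 = Real.exp (-w t x - w t x) := by
    rw [← Real.exp_nat_mul]; congr 1; push_cast; ring
  have e2 : (fun y => Jf 20 (w t) (f t) y) = Jf 20 (w t) (f t) := rfl
  rw [e1]
  convert h2 using 1
  simp only [Dx]
  push_cast
  ring

lemma dt_w_eq (hs : ConfSol 20 w f T) {t x : ℝ} (ht : t ∈ Ioo 0 T) (hx : x ∈ Ioo (-1 : ℝ) 1) :
    Dt w t x = Real.exp (-w t x) ^ 2 * ((1 - x ^ 2) * Dx (Dx w) t x - 21 * x * Dx w t x - 20) +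
      (x - (1 - x ^ 2) * Dx w t x) * Jf 20 (w t) (f t) x := by
  have h1 := (hs.eq_w t (Ioo_subset_Ico_self ht) x (Ioo_subset_Icc_self hx)).hasDerivAt
    (Ico_mem_nhds ht.1 ht.2)
  have e1 : Real.exp (-w t x) ^ 2 = Real.exp (-2 * w t x) := by
    rw [← Real.exp_nat_mul]; congr 1; push_cast; ring
  have e2 : Dx (Dx w) t x = deriv (deriv (w t)) x := rfl
  have e3 : Dx w t x = deriv (w t) x := rfl
  rw [Dt, h1.deriv, rhsW, lap, dxx_eq_deriv _ hx, dx_eq_deriv _ hx, e1, e2, e3]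
  push_cast
  ring

lemma dt_f_eq (hs : ConfSol 20 w f T) {t x : ℝ} (ht : t ∈ Ioo 0 T) (hx : x ∈ Ioo (-1 : ℝ) 1) :
    Dt f t x = Real.exp (-w t x) ^ 2 * ((1 - x ^ 2) * Dx (Dx f) t x - 21 * x * Dx f t x) -
      19 * Real.exp (-2 * f t x) - (1 - x ^ 2) * Dx f t x * Jf 20 (w t) (f t) x := by
  have h1 := (hs.eq_f t (Ioo_subset_Ico_self ht) x (Ioo_subset_Icc_self hx)).hasDerivAt
    (Ico_mem_nhds ht.1 ht.2)
  have e1 : Real.exp (-w t x) ^ 2 = Real.exp (-2 * w t x) := by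
    rw [← Real.exp_nat_mul]; congr 1; push_cast; ring
  have e2 : Dx (Dx f) t x = deriv (deriv (f t)) x := rfl
  have e3 : Dx f t x = deriv (f t) x := rfl
  rw [Dt, h1.deriv, rhsF, lap, dxx_eq_deriv _ hx, dx_eq_deriv _ hx, e1, e2, e3]
  push_cast
  ring

/-! ### smoothness of the quantities -/

lemma sx_pos {x : ℝ} (hx : x ∈ Ioo (-1 : ℝ) 1) : 0 < sx x := by
  refine Real.sqrt_pos.mpr ?_
  nlinarith only [hx, hx.1, hx.2]

lemma sx_sq {x : ℝ} (hx : x ∈ Ioo (-1 : ℝ) 1) : sx x ^ 2 = 1 - x ^ 2 := by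
  refine Real.sq_sqrt ?_
  nlinarith only [hx, hx.1, hx.2]

lemma hasDeriv_sx {x : ℝ} (hx : x ∈ Ioo (-1 : ℝ) 1) : HasDerivAt sx (-(x * (sx x)⁻¹)) x := by
  have h0 : (1 - x ^ 2) ≠ 0 := by nlinarith only [hx, hx.1, hx.2]
  have h1 : HasDerivAt (fun y : ℝ => 1 - y ^ 2) (-(2 * x)) x := by
    have := (hasDerivAt_pow 2 x).const_sub 1
    simpa using this
  have h2 := h1.sqrt h0
  have h3 : sx = fun y => Real.sqrt (1 - y ^ 2) := rfl
  rw [h3]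
  convert h2 using 1
  have h4 : Real.sqrt (1 - x ^ 2) ≠ 0 := (sx_pos hx).ne'
  field_simp

lemma sm_sx : Sm (Dom T : Set (ℝ × ℝ)) (fun _ x => sx x) := by
  have h1 : Sm (Dom T : Set (ℝ × ℝ)) (fun _ x => 1 - x ^ 2) := (Sm.const 1).sub (Sm.xvar.pow 2)
  refine h1.sqrt ?_
  rintro ⟨t, x⟩ hz
  have := hz.2
  simp only
  nlinarith only [this, this.1, this.2]

lemma sm_isx : Sm (Dom T : Set (ℝ × ℝ)) (fun _ x => (sx x)⁻¹) :=
  sm_sx.inv fun _ hz => (sx_pos hz.2).ne'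

lemma sm_logS : Sm (Dom T : Set (ℝ × ℝ)) (fun _ x => Real.log (1 - x ^ 2)) := by
  have h1 : Sm (Dom T : Set (ℝ × ℝ)) (fun _ x => 1 - x ^ 2) := (Sm.const 1).sub (Sm.xvar.pow 2)
  refine h1.log ?_
  rintro ⟨t, x⟩ hz
  have := hz.2
  simp only
  nlinarith only [this, this.1, this.2]

lemma ConfSol.sm_uu (hs : ConfSol 20 w f T) : Sm (Dom T : Set (ℝ × ℝ)) (uu w f) := by
  have h1 : Sm (Dom T : Set (ℝ × ℝ)) (fun t x => f t x - w t x - Real.log (1 - x ^ 2) * (1 / 2)) :=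
    (hs.sm_f.sub hs.sm_w).sub (sm_logS.mul (Sm.const _))
  exact h1.congr fun z _ => by simp only [uu]; ring

lemma ConfSol.sm_rho (hs : ConfSol 20 w f T) : Sm (Dom T : Set (ℝ × ℝ)) (rho w f) := by
  have h1 : Sm (Dom T : Set (ℝ × ℝ)) (fun t x =>
      (f t x + w t x + Real.log (1 - x ^ 2) * (1 / 2) - Real.log zeta0) * (1 / 2)) :=
    (((hs.sm_f.add hs.sm_w).add (sm_logS.mul (Sm.const _))).sub (Sm.const _)).mul (Sm.const _)
  exact h1.congr fun z _ => by simp only [rho]; ring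

lemma ConfSol.sm_rr (hs : ConfSol 20 w f T) : Sm (Dom T : Set (ℝ × ℝ)) (rr w f) := hs.sm_rho.exp

lemma ConfSol.sm_ew (hs : ConfSol 20 w f T) :
    Sm (Dom T : Set (ℝ × ℝ)) (fun t x => Real.exp (-w t x)) := hs.sm_w.neg.exp

lemma rr_pos (w f : Fn) (t x : ℝ) : 0 < rr w f t x := Real.exp_pos _

lemma hasDeriv_logS {x : ℝ} (hx : x ∈ Ioo (-1 : ℝ) 1) :
    HasDerivAt (fun y : ℝ => Real.log (1 - y ^ 2)) (-(2 * x * ((sx x)⁻¹) ^ 2)) x := by
  have h0 : (1 - x ^ 2) ≠ 0 := by nlinarith only [hx, hx.1, hx.2]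
  have h1 : HasDerivAt (fun y : ℝ => 1 - y ^ 2) (-(2 * x)) x := by
    have := (hasDerivAt_pow 2 x).const_sub 1
    simpa using this
  have h2 := h1.log h0
  convert h2 using 1
  rw [inv_pow, sx_sq hx]
  ring

lemma zeta0_pos : 0 < zeta0 := by norm_num [zeta0]

/-- `e^{-2ρ} = ζ₀ e^{-f-w} / sqrt(1-x²)` -/
lemma rr_inv_sq {t x : ℝ} (hx : x ∈ Ioo (-1 : ℝ) 1) : ((rr w f t x) ^ 2)⁻¹ =
    zeta0 * (Real.exp (-f t x) * Real.exp (-w t x)) * (sx x)⁻¹ := by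
  have h0 : 0 < 1 - x ^ 2 := by nlinarith only [hx, hx.1, hx.2]
  have h1 : (sx x)⁻¹ = Real.exp (-(Real.log (1 - x ^ 2) / 2)) := by
    rw [Real.exp_neg, Real.exp_half, Real.exp_log h0]; rfl
  have h2 : zeta0 = Real.exp (Real.log zeta0) := (Real.exp_log zeta0_pos).symm
  rw [h1]
  conv_rhs => rw [h2]
  rw [rr, ← Real.exp_nat_mul, ← Real.exp_neg, ← Real.exp_add, ← Real.exp_add, ← Real.exp_add]
  congr 1
  simp only [rho]
  push_cast
  ring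

lemma exp_uu_inst {t x : ℝ} (hx : x ∈ Ioo (-1 : ℝ) 1) : Real.exp (uu w f t x) =
    (Real.exp (-f t x))⁻¹ * Real.exp (-w t x) * (sx x)⁻¹ := by
  have h0 : 0 < 1 - x ^ 2 := by nlinarith only [hx, hx.1, hx.2]
  have h1 : (sx x)⁻¹ = Real.exp (-(Real.log (1 - x ^ 2) / 2)) := by
    rw [Real.exp_neg, Real.exp_half, Real.exp_log h0]; rfl
  rw [h1, ← Real.exp_neg, ← Real.exp_add, ← Real.exp_add]
  congr 1
  simp only [uu]
  ring

lemma chi_eq {t x : ℝ} (hx : x ∈ Ioo (-1 : ℝ) 1) :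
    78 * Real.cosh (uu w f t x) * ((rr w f t x) ^ 2)⁻¹ =
      19 * (Real.exp (-w t x) ^ 2 * ((sx x)⁻¹) ^ 2 + Real.exp (-2 * f t x)) := by
  have e1 := exp_uu_inst (w := w) (f := f) (t := t) hx
  have e2 := rr_inv_sq (w := w) (f := f) (t := t) hx
  have h3 : Real.exp (-2 * f t x) = Real.exp (-f t x) ^ 2 := by
    rw [← Real.exp_nat_mul]; congr 1; push_cast; ring
  have h4 : Real.exp (-uu w f t x) = Real.exp (-f t x) * (Real.exp (-w t x))⁻¹ * sx x := by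
    rw [Real.exp_neg, e1]
    have := Real.exp_pos (-f t x)
    have := Real.exp_pos (-w t x)
    have := sx_pos hx
    field_simp
  rw [Real.cosh_eq, e1, h4, e2, h3, zeta0]
  have := Real.exp_pos (-f t x)
  have := Real.exp_pos (-w t x)
  have := sx_pos hx
  field_simp
  ring

lemma shi_eq {t x : ℝ} (hx : x ∈ Ioo (-1 : ℝ) 1) :
    78 * Real.sinh (uu w f t x) * ((rr w f t x) ^ 2)⁻¹ =
      19 * (Real.exp (-w t x) ^ 2 * ((sx x)⁻¹) ^ 2 - Real.exp (-2 * f t x)) := by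
  have e1 := exp_uu_inst (w := w) (f := f) (t := t) hx
  have e2 := rr_inv_sq (w := w) (f := f) (t := t) hx
  have h3 : Real.exp (-2 * f t x) = Real.exp (-f t x) ^ 2 := by
    rw [← Real.exp_nat_mul]; congr 1; push_cast; ring
  have h4 : Real.exp (-uu w f t x) = Real.exp (-f t x) * (Real.exp (-w t x))⁻¹ * sx x := by
    rw [Real.exp_neg, e1]
    have := Real.exp_pos (-f t x)
    have := Real.exp_pos (-w t x)
    have := sx_pos hx
    field_simp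
  rw [Real.sinh_eq, e1, h4, e2, h3, zeta0]
  have := Real.exp_pos (-f t x)
  have := Real.exp_pos (-w t x)
  have := sx_pos hx
  field_simp
  ring

/-! ### the frame of a solution -/

section Frame

variable {Ω : Opens (ℝ × ℝ)} (hs : ConfSol 20 w f T) (hΩ : Ω ≤ Dom T)

lemma Sm.le {Ω Ω' : Opens (ℝ × ℝ)} {H : Fn} (h : Sm (Ω' : Set (ℝ × ℝ)) H) (hle : Ω ≤ Ω') :
    Sm (Ω : Set (ℝ × ℝ)) H := h.mono hle

include hs hΩ in
lemma uu_x {t x : ℝ} (hz : (t, x) ∈ Ω) :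
    HasDerivAt (uu w f t) (Dx f t x - Dx w t x + x * ((sx x)⁻¹) ^ 2) x := by
  have hz' := hΩ hz
  have h1 := (hs.sm_f.hasDeriv_x (Dom T).isOpen hz').sub
    (hs.sm_w.hasDeriv_x (Dom T).isOpen hz')
  have h2 : HasDerivAt (uu w f t) _ x := h1.sub ((hasDeriv_logS hz'.2).div_const 2)
  exact h2.congr_deriv (by ring)

include hs hΩ in
lemma uu_t {t x : ℝ} (hz : (t, x) ∈ Ω) :
    HasDerivAt (fun s => uu w f s x) (Dt f t x - Dt w t x) t := by
  have hz' := hΩ hz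
  have h1 := (hs.sm_f.hasDeriv_t (Dom T).isOpen hz').sub
    (hs.sm_w.hasDeriv_t (Dom T).isOpen hz')
  exact h1.sub_const (Real.log (1 - x ^ 2) / 2)

include hs hΩ in
lemma rho_x {t x : ℝ} (hz : (t, x) ∈ Ω) :
    HasDerivAt (rho w f t) ((Dx f t x + Dx w t x - x * ((sx x)⁻¹) ^ 2) / 2) x := by
  have hz' := hΩ hz
  have h1 := (hs.sm_f.hasDeriv_x (Dom T).isOpen hz').add
    (hs.sm_w.hasDeriv_x (Dom T).isOpen hz')
  have h2 : HasDerivAt (rho w f t) _ x :=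
    ((h1.add ((hasDeriv_logS hz'.2).div_const 2)).sub_const (Real.log zeta0)).div_const 2
  exact h2.congr_deriv (by ring)

include hs hΩ in
lemma rho_t {t x : ℝ} (hz : (t, x) ∈ Ω) :
    HasDerivAt (fun s => rho w f s x) ((Dt f t x + Dt w t x) / 2) t := by
  have hz' := hΩ hz
  have h1 := (hs.sm_f.hasDeriv_t (Dom T).isOpen hz').add
    (hs.sm_w.hasDeriv_t (Dom T).isOpen hz')
  exact ((h1.add_const (Real.log (1 - x ^ 2) / 2)).sub_const (Real.log zeta0)).div_const 2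

/-- the coordinate data of a solution on `Ω` -/
def conf0 : Conf0 (sO Ω) where
  D := dX
  D' := dT
  X := mk (fun _ x => x) Sm.xvar
  s := mk (fun _ x => sx x) (sm_sx.le hΩ)
  i := mk (fun _ x => (sx x)⁻¹) (sm_isx.le hΩ)
  e := mk (fun t x => Real.exp (-w t x)) (hs.sm_ew.le hΩ)
  H := mk (fun t x => Real.exp (-2 * f t x)) (((Sm.const (-2)).mul (hs.sm_f.le hΩ)).exp)
  J := mk (fun t x => Jf 20 (w t) (f t) x) (hs.sm_J.le hΩ)
  W := mk w (hs.sm_w.le hΩ)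
  F := mk f (hs.sm_f.le hΩ)
  u := mk (uu w f) (hs.sm_uu.le hΩ)
  ρ := mk (rho w f) (hs.sm_rho.le hΩ)
  sh := mk (fun t x => Real.sinh (uu w f t x)) (hs.sm_uu.le hΩ).sinh
  ch := mk (fun t x => Real.cosh (uu w f t x)) (hs.sm_uu.le hΩ).cosh
  r2 := mk (fun t x => (rr w f t x) ^ 2) ((hs.sm_rr.le hΩ).pow 2)
  ir := mk (fun t x => ((rr w f t x) ^ 2)⁻¹) (((hs.sm_rr.le hΩ).pow 2).inv
    fun z _ => (pow_pos (rr_pos w f z.1 z.2) 2).ne')
  comm := dT_dX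
  s2 := by
    refine sO_ext fun t x hz => ?_
    rw [toFn_pow _ _ hz, toFn_mk _ hz, toFn_sub _ _ hz, toFn_one hz, toFn_pow _ _ hz,
      toFn_mk _ hz]
    exact sx_sq (hΩ hz).2
  si := by
    refine sO_ext fun t x hz => ?_
    rw [toFn_mul, toFn_mk _ hz, toFn_mk _ hz, toFn_one hz]
    exact mul_inv_cancel₀ (sx_pos (hΩ hz).2).ne'
  DX := by
    rw [dX_mk_eq (H := fun _ x => x) (K := fun _ _ => 1) Sm.xvar (Sm.const 1)
      fun t x _ => hasDerivAt_id x]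
    refine sO_ext fun t x hz => ?_
    rw [toFn_mk _ hz, toFn_one hz]
  TX := by
    rw [dT_mk_eq (H := fun _ x => x) (K := fun _ _ => 0) Sm.xvar (Sm.const 0)
      fun t x _ => hasDerivAt_const t x]
    refine sO_ext fun t x hz => ?_
    rw [toFn_mk _ hz]
    exact (by rw [← evO_eq hz, map_zero] : (0 : ℝ) = toFn (0 : sO Ω) t x)
  Ds := by
    rw [mk_mul, mk_neg]
    exact dX_mk_eq _ _ fun t x hz => hasDeriv_sx (hΩ hz).2
  Ts := by
    rw [dT_mk_eq (H := fun _ x => sx x) (K := fun _ _ => 0) (sm_sx.le hΩ) (Sm.const 0)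
      fun t x _ => hasDerivAt_const t (sx x)]
    refine sO_ext fun t x hz => ?_
    rw [toFn_mk _ hz]
    exact (by rw [← evO_eq hz, map_zero] : (0 : ℝ) = toFn (0 : sO Ω) t x)
  De := by
    rw [dX_mk (hs.sm_w.le hΩ), mk_mul, mk_neg]
    refine dX_mk_eq _ _ fun t x hz => ?_
    have h1 : HasDerivAt (fun y => Real.exp (-w t y)) (Real.exp (-w t x) * -Dx w t x) x :=
      ((hs.sm_w.hasDeriv_x (Dom T).isOpen (hΩ hz)).neg).exp
    exact h1.congr_deriv (by ring)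
  Te := by
    rw [dT_mk (hs.sm_w.le hΩ), mk_mul, mk_neg]
    refine dT_mk_eq _ _ fun t x hz => ?_
    have h1 : HasDerivAt (fun s => Real.exp (-w s x)) (Real.exp (-w t x) * -Dt w t x) t :=
      ((hs.sm_w.hasDeriv_t (Dom T).isOpen (hΩ hz)).neg).exp
    exact h1.congr_deriv (by ring)
  DJ := by
    refine sO_ext fun t x hz => ?_
    rw [dX_mk (hs.sm_w.le hΩ), dX_mk (hs.sm_f.le hΩ), dX_toFn _ hz, toFn_mul, toFn_add,
      toFn_mul, toFn_mul, toFn_pow _ _ hz, toFn_pow _ _ hz, toFn_pow _ _ hz, toFn_ofNat _ hz,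
      toFn_ofNat _ hz, toFn_mk _ hz, toFn_mk _ hz, toFn_mk _ hz,
      Dx_congr Ω.isOpen (K := fun t x => Jf 20 (w t) (f t) x)
        (fun z hz' => toFn_mk (t := z.1) (x := z.2) (hs.sm_J.le hΩ) hz') hz]
    exact (hasDeriv_J hs (hΩ hz).1 (hΩ hz).2).deriv
  eqW := by
    refine sO_ext fun t x hz => ?_
    rw [dT_mk (hs.sm_w.le hΩ), dX_mk (hs.sm_w.le hΩ), dX_mk ((hs.sm_w.le hΩ).dx Ω.isOpen)]
    simp only [toFn_mk _ hz, toFn_mul, toFn_add, toFn_sub _ _ hz, toFn_pow _ _ hz,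
      toFn_ofNat _ hz, toFn_one hz]
    exact dt_w_eq hs (hΩ hz).1 (hΩ hz).2
  eqF := by
    refine sO_ext fun t x hz => ?_
    rw [dT_mk (hs.sm_f.le hΩ), dX_mk (hs.sm_f.le hΩ), dX_mk ((hs.sm_f.le hΩ).dx Ω.isOpen)]
    simp only [toFn_mk _ hz, toFn_mul, toFn_add, toFn_sub _ _ hz, toFn_pow _ _ hz,
      toFn_ofNat _ hz, toFn_one hz]
    exact dt_f_eq hs (hΩ hz).1 (hΩ hz).2
  Du := by
    refine sO_ext fun t x hz => ?_
    rw [dX_mk (hs.sm_uu.le hΩ), dX_mk (hs.sm_w.le hΩ), dX_mk (hs.sm_f.le hΩ)]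
    simp only [toFn_mk _ hz, toFn_mul, toFn_add, toFn_sub _ _ hz, toFn_pow _ _ hz]
    exact (uu_x hs hΩ hz).deriv
  Tu := by
    refine sO_ext fun t x hz => ?_
    rw [dT_mk (hs.sm_uu.le hΩ), dT_mk (hs.sm_w.le hΩ), dT_mk (hs.sm_f.le hΩ)]
    simp only [toFn_mk _ hz, toFn_mul, toFn_add, toFn_sub _ _ hz, toFn_pow _ _ hz]
    exact (uu_t hs hΩ hz).deriv
  Dρ := by
    refine sO_ext fun t x hz => ?_
    rw [dX_mk (hs.sm_rho.le hΩ), dX_mk (hs.sm_w.le hΩ), dX_mk (hs.sm_f.le hΩ)]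
    simp only [toFn_mk _ hz, toFn_mul, toFn_add, toFn_sub _ _ hz, toFn_pow _ _ hz,
      toFn_ofNat _ hz]
    have h1 : Dx (rho w f) t x = _ := (rho_x hs hΩ hz).deriv
    rw [h1]; ring
  Tρ := by
    refine sO_ext fun t x hz => ?_
    rw [dT_mk (hs.sm_rho.le hΩ), dT_mk (hs.sm_w.le hΩ), dT_mk (hs.sm_f.le hΩ)]
    simp only [toFn_mk _ hz, toFn_mul, toFn_add, toFn_sub _ _ hz, toFn_pow _ _ hz,
      toFn_ofNat _ hz]
    have h1 : Dt (rho w f) t x = _ := (rho_t hs hΩ hz).deriv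
    rw [h1]; ring
  ch_sh := by
    refine sO_ext fun t x hz => ?_
    simp only [toFn_mk _ hz, toFn_sub _ _ hz, toFn_pow _ _ hz, toFn_one hz]
    exact Real.cosh_sq_sub_sinh_sq _
  Dsh := by
    rw [dX_mk (hs.sm_uu.le hΩ), mk_mul]
    exact dX_mk_eq _ _ fun t x hz => ((hs.sm_uu.hasDeriv_x (Dom T).isOpen (hΩ hz)).sinh)
  Dch := by
    rw [dX_mk (hs.sm_uu.le hΩ), mk_mul]
    exact dX_mk_eq _ _ fun t x hz => ((hs.sm_uu.hasDeriv_x (Dom T).isOpen (hΩ hz)).cosh)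
  Tsh := by
    rw [dT_mk (hs.sm_uu.le hΩ), mk_mul]
    exact dT_mk_eq _ _ fun t x hz => ((hs.sm_uu.hasDeriv_t (Dom T).isOpen (hΩ hz)).sinh)
  Tch := by
    rw [dT_mk (hs.sm_uu.le hΩ), mk_mul]
    exact dT_mk_eq _ _ fun t x hz => ((hs.sm_uu.hasDeriv_t (Dom T).isOpen (hΩ hz)).cosh)
  r2_ir := by
    refine sO_ext fun t x hz => ?_
    simp only [toFn_mk _ hz, toFn_mul, toFn_one hz]
    exact mul_inv_cancel₀ (pow_pos (rr_pos w f t x) 2).ne'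
  Dr2 := by
    refine sO_ext fun t x hz => ?_
    rw [dX_mk ((hs.sm_rr.le hΩ).pow 2), dX_mk (hs.sm_rho.le hΩ)]
    simp only [toFn_mk _ hz, toFn_mul, toFn_ofNat _ hz]
    have h1 := ((hs.sm_rho.hasDeriv_x (Dom T).isOpen (hΩ hz)).exp).pow 2
    have h2 : Dx (fun t x => rr w f t x ^ 2) t x = _ := h1.deriv
    rw [h2, rr]
    push_cast
    ring
  Tr2 := by
    refine sO_ext fun t x hz => ?_
    rw [dT_mk ((hs.sm_rr.le hΩ).pow 2), dT_mk (hs.sm_rho.le hΩ)]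
    simp only [toFn_mk _ hz, toFn_mul, toFn_ofNat _ hz]
    have h1 := ((hs.sm_rho.hasDeriv_t (Dom T).isOpen (hΩ hz)).exp).pow 2
    have h2 : Dt (fun t x => rr w f t x ^ 2) t x = _ := h1.deriv
    rw [h2, rr]
    push_cast
    ring
  chi := by
    refine sO_ext fun t x hz => ?_
    simp only [toFn_mk _ hz, toFn_mul, toFn_add, toFn_pow _ _ hz, toFn_ofNat _ hz]
    exact chi_eq (hΩ hz).2
  shi := by
    refine sO_ext fun t x hz => ?_
    simp only [toFn_mk _ hz, toFn_mul, toFn_sub _ _ hz, toFn_pow _ _ hz, toFn_ofNat _ hz]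
    exact shi_eq (hΩ hz).2

end Frame

end

end Vale.Agent.P244.ST
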