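import Mathlib

/-! P244 team S (helper558): polynomials are dense in `L²(μ)` for a finite measure on `ℝ` with an
exponential moment, and Parseval for orthonormal polynomials. -/

open MeasureTheory ProbabilityTheory Filter Topology Set
open scoped ENNReal Polynomial

namespace Vale.Agent.P244.ST

/-- two finite measures with exponential moments and the same moments are equal -/
theorem ext_of_moments {μ ν : Measure ℝ} [IsFiniteMeasure μ] [IsFiniteMeasure ν] {δ : ℝ}
    (hδ : 0 < δ) (hμ : Integrable (fun z => Real.exp (δ * |z|)) μ)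
    (hν : Integrable (fun z => Real.exp (δ * |z|)) ν)
    (h : ∀ k : ℕ, ∫ z, z ^ k ∂μ = ∫ z, z ^ k ∂ν) : μ = ν := by
  have hset : ∀ (μ : Measure ℝ), Integrable (fun z => Real.exp (δ * |z|)) μ →
      Ioo (-δ) δ ⊆ integrableExpSet id μ := by
    intro μ hμ t ht
    refine hμ.mono (by fun_prop) (Eventually.of_forall fun z => ?_)
    rw [Real.norm_eq_abs, Real.norm_eq_abs, abs_of_pos (Real.exp_pos _),
      abs_of_pos (Real.exp_pos _)]
    apply Real.exp_le_exp.2
    have h1 : |t| ≤ δ := abs_le.2 ⟨ht.1.le, ht.2.le⟩
    calc t * id z ≤ |t * z| := le_abs_self _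
      _ = |t| * |z| := abs_mul _ _
      _ ≤ δ * |z| := mul_le_mul_of_nonneg_right h1 (abs_nonneg _)
  have hint : ∀ (μ : Measure ℝ), Integrable (fun z => Real.exp (δ * |z|)) μ →
      Ioo (-δ) δ ⊆ interior (integrableExpSet id μ) := fun μ hμ =>
    interior_maximal (hset μ hμ) isOpen_Ioo
  have h0 : (0 : ℝ) ∈ Ioo (-δ) δ := ⟨by linarith only [hδ], hδ⟩
  -- the mgf's agree near 0
  have h1 : ∀ᶠ t in 𝓝 (0 : ℝ), mgf id μ t = mgf id ν t := by
    have p1 := hasFPowerSeriesAt_mgf (hint μ hμ h0)
    have p2 := hasFPowerSeriesAt_mgf (hint ν hν h0)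
    have e : ∀ n : ℕ, (∫ x, id x ^ n * Real.exp (0 * id x) ∂μ) = ∫ x, id x ^ n * Real.exp (0 * id x) ∂ν := by
      intro n
      simpa using h n
    simp_rw [e] at p1
    have p3 := p1.sub p2
    rw [sub_self] at p3
    filter_upwards [p3.eventually_eq_zero] with t ht
    exact sub_eq_zero.1 ht
  -- analytic continuation to the strip
  have hstrip : Set.EqOn (complexMGF id μ) (complexMGF id ν)
      {z : ℂ | z.re ∈ Ioo (-δ) δ} := by
    have hX : AnalyticOnNhd ℂ (complexMGF id μ) {z : ℂ | z.re ∈ Ioo (-δ) δ} := fun z hz =>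
      analyticAt_complexMGF (hint μ hμ hz)
    have hY : AnalyticOnNhd ℂ (complexMGF id ν) {z : ℂ | z.re ∈ Ioo (-δ) δ} := fun z hz =>
      analyticAt_complexMGF (hint ν hν hz)
    refine AnalyticOnNhd.eqOn_of_preconnected_of_frequently_eq hX hY
      (((convex_Ioo (-δ) δ).linear_preimage Complex.reLm).isPreconnected)
      (z₀ := (0 : ℂ)) (by simpa using hδ) ?_
    have h_real : ∃ᶠ (x : ℝ) in 𝓝[≠] 0, complexMGF id μ x = complexMGF id ν x := by
      refine Eventually.frequently ?_
      filter_upwards [mem_nhdsWithin_of_mem_nhds h1] with x hx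
      rw [complexMGF_ofReal, complexMGF_ofReal, hx]
    rw [frequently_iff_seq_forall] at h_real ⊢
    obtain ⟨xs, hx_tendsto, hx_eq⟩ := h_real
    refine ⟨fun n ↦ xs n, ?_, fun n ↦ ?_⟩
    · rw [tendsto_nhdsWithin_iff] at hx_tendsto ⊢
      constructor
      · have := (Complex.continuous_ofReal.tendsto 0).comp hx_tendsto.1
        simpa [Function.comp_def] using this
      · simpa using hx_tendsto.2
    · simp [hx_eq]
  refine Measure.ext_of_charFun (funext fun t => ?_)
  rw [← complexMGF_id_mul_I, ← complexMGF_id_mul_I]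
  exact hstrip (by simpa using hδ)

section L2

variable {μ : Measure ℝ} {δ : ℝ}

/-- functions bounded by `C exp(δ|z|/2)` are in `L²` -/
theorem memLp_of_exp (hμ : Integrable (fun z => Real.exp (δ * |z|)) μ) {f : ℝ → ℝ}
    (hf : AEStronglyMeasurable f μ) {C : ℝ} (hb : ∀ z, |f z| ≤ C * Real.exp (δ / 2 * |z|)) :
    MemLp f 2 μ := by
  rw [memLp_two_iff_integrable_sq hf]
  refine (hμ.const_mul (C ^ 2)).mono (hf.pow 2) (Eventually.of_forall fun z => ?_)
  rw [Real.norm_eq_abs, Real.norm_eq_abs, abs_pow]
  have h1 := hb z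
  have e : Real.exp (δ * |z|) = Real.exp (δ / 2 * |z|) ^ 2 := by
    rw [← Real.exp_nat_mul]
    congr 1
    push_cast
    ring
  rw [abs_of_nonneg (by positivity : 0 ≤ C ^ 2 * Real.exp (δ * |z|)), e, ← mul_pow]
  exact pow_le_pow_left₀ (abs_nonneg _) h1 2

theorem memLp_pow (hδ : 0 < δ) (hμ : Integrable (fun z => Real.exp (δ * |z|)) μ) (k : ℕ) :
    MemLp (fun z : ℝ => z ^ k) 2 μ := by
  refine memLp_of_exp hμ (by fun_prop) (C := k.factorial / (δ / 2) ^ k) fun z => ?_
  have h1 := Real.pow_div_factorial_le_exp (δ / 2 * |z|) (by positivity) k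
  rw [div_le_iff₀ (by positivity), mul_pow] at h1
  rw [abs_pow, div_mul_eq_mul_div, le_div_iff₀ (by positivity)]
  linarith only [h1]

theorem memLp_poly (hδ : 0 < δ) (hμ : Integrable (fun z => Real.exp (δ * |z|)) μ)
    (p : ℝ[X]) : MemLp (fun z : ℝ => p.eval z) 2 μ := by
  have e : (fun z : ℝ => p.eval z) = fun z => ∑ i ∈ Finset.range (p.natDegree + 1),
      p.coeff i * z ^ i := by
    funext z
    exact Polynomial.eval_eq_sum_range z
  rw [e]
  exact memLp_finsetSum _ fun i _ => (memLp_pow hδ hμ i).const_mul _

/-- **completeness**: an `L²` function with vanishing moments is zero -/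
theorem ae_zero_of_moments [IsFiniteMeasure μ] (hδ : 0 < δ) (hμ : Integrable (fun z => Real.exp (δ * |z|)) μ)
    {h : ℝ → ℝ} (hh : MemLp h 2 μ) (h0 : ∀ k : ℕ, ∫ z, h z * z ^ k ∂μ = 0) : h =ᵐ[μ] 0 := by
  have hi : Integrable h μ := hh.integrable one_le_two
  have hexp : MemLp (fun z : ℝ => Real.exp (δ / 2 * |z|)) 2 μ := by
    refine memLp_of_exp hμ (by fun_prop) (C := 1) fun z => ?_
    rw [abs_of_pos (Real.exp_pos _), one_mul]
  have fin1 : IsFiniteMeasure (μ.withDensity fun z => ENNReal.ofReal (h z)) :=
    isFiniteMeasure_withDensity_ofReal hi.2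
  have fin2 : IsFiniteMeasure (μ.withDensity fun z => ENNReal.ofReal (-h z)) :=
    isFiniteMeasure_withDensity_ofReal hi.neg.2
  have m1 : AEMeasurable (fun z => ENNReal.ofReal (h z)) μ :=
    hi.aestronglyMeasurable.aemeasurable.ennreal_ofReal
  have m2 : AEMeasurable (fun z => ENNReal.ofReal (-h z)) μ :=
    hi.neg.aestronglyMeasurable.aemeasurable.ennreal_ofReal
  have key : ∀ g : ℝ → ℝ, MemLp g 2 μ → Integrable (fun z => h z * g z) μ := fun g hg =>
    hh.integrable_mul hg
  have keyp : ∀ g : ℝ → ℝ, MemLp g 2 μ → Integrable (fun z => max (h z) 0 * g z) μ := by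
    intro g hg
    refine (key g hg).mono ((hi.pos_part.aestronglyMeasurable).mul hg.1)
      (Eventually.of_forall fun z => ?_)
    rw [norm_mul, norm_mul]
    refine mul_le_mul_of_nonneg_right ?_ (norm_nonneg _)
    rw [Real.norm_eq_abs, Real.norm_eq_abs, abs_of_nonneg (le_max_right _ _)]
    exact max_le (le_abs_self _) (abs_nonneg _)
  have keym : ∀ g : ℝ → ℝ, MemLp g 2 μ → Integrable (fun z => max (-h z) 0 * g z) μ := by
    intro g hg
    refine (key g hg).mono ((hi.neg.pos_part.aestronglyMeasurable).mul hg.1)
      (Eventually.of_forall fun z => ?_)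
    rw [norm_mul, norm_mul]
    refine mul_le_mul_of_nonneg_right ?_ (norm_nonneg _)
    rw [Real.norm_eq_abs, Real.norm_eq_abs, abs_of_nonneg (le_max_right _ _)]
    exact max_le (neg_le_abs _) (abs_nonneg _)
  have heq : μ.withDensity (fun z => ENNReal.ofReal (h z))
      = μ.withDensity fun z => ENNReal.ofReal (-h z) := by
    refine ext_of_moments (δ := δ / 2) (by linarith only [hδ]) ?_ ?_ fun k => ?_
    · rw [integrable_withDensity_iff_integrable_smul₀' m1
        (Eventually.of_forall fun z => ENNReal.ofReal_lt_top)]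
      simpa [ENNReal.toReal_ofReal'] using keyp _ hexp
    · rw [integrable_withDensity_iff_integrable_smul₀' m2
        (Eventually.of_forall fun z => ENNReal.ofReal_lt_top)]
      simpa [ENNReal.toReal_ofReal'] using keym _ hexp
    · rw [integral_withDensity_eq_integral_toReal_smul₀ m1
        (Eventually.of_forall fun z => ENNReal.ofReal_lt_top),
        integral_withDensity_eq_integral_toReal_smul₀ m2
        (Eventually.of_forall fun z => ENNReal.ofReal_lt_top)]
      simp only [ENNReal.toReal_ofReal', smul_eq_mul]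
      rw [← sub_eq_zero, ← integral_sub (keyp _ (memLp_pow hδ hμ k))
        (keym _ (memLp_pow hδ hμ k))]
      refine Eq.trans ?_ (h0 k)
      refine integral_congr_ae (Eventually.of_forall fun z => ?_)
      change max (h z) 0 * z ^ k - max (-h z) 0 * z ^ k = h z * z ^ k
      rw [← sub_mul]
      congr 1
      rcases le_total 0 (h z) with hz | hz
      · rw [max_eq_left hz, max_eq_right (by linarith only [hz])]; ring
      · rw [max_eq_right hz, max_eq_left (by linarith only [hz])]; ring
  have hne : ∫⁻ z, ENNReal.ofReal (h z) ∂μ ≠ ∞ := by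
    have := measure_lt_top (μ.withDensity fun z => ENNReal.ofReal (h z)) univ
    rw [withDensity_apply _ MeasurableSet.univ, setLIntegral_univ] at this
    exact this.ne
  have hae := (withDensity_eq_iff m1 m2 hne).1 heq
  filter_upwards [hae] with z hz
  change h z = 0
  rcases lt_trichotomy (h z) 0 with h1 | h1 | h1
  · rw [ENNReal.ofReal_of_nonpos h1.le] at hz
    have := ENNReal.ofReal_eq_zero.1 hz.symm
    linarith only [h1, this]
  · exact h1
  · rw [ENNReal.ofReal_of_nonpos (p := -h z) (by linarith only [h1])] at hz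
    have := ENNReal.ofReal_eq_zero.1 hz
    linarith only [h1, this]

theorem inner_toLp {f g : ℝ → ℝ} (hf : MemLp f 2 μ) (hg : MemLp g 2 μ) :
    inner ℝ (hf.toLp f) (hg.toLp g) = ∫ z, f z * g z ∂μ := by
  rw [L2.inner_def]
  refine integral_congr_ae ?_
  filter_upwards [hf.coeFn_toLp, hg.coeFn_toLp] with z h1 h2
  rw [h1, h2]
  simp [mul_comm]

/-- **Parseval** for orthonormal polynomials -/
theorem parseval [IsFiniteMeasure μ] (hδ : 0 < δ) (hμ : Integrable (fun z => Real.exp (δ * |z|)) μ)
    {e : ℕ → ℝ[X]} (hdeg : ∀ i, (e i).natDegree = i)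
    (horth : ∀ i j, ∫ z, (e i).eval z * (e j).eval z ∂μ = if i = j then 1 else 0)
    {f g : ℝ → ℝ} (hf : MemLp f 2 μ) (hg : MemLp g 2 μ) :
    HasSum (fun i => (∫ z, f z * (e i).eval z ∂μ) * ∫ z, g z * (e i).eval z ∂μ)
      (∫ z, f z * g z ∂μ) := by
  have hm : ∀ i, MemLp (fun z : ℝ => (e i).eval z) 2 μ := fun i => memLp_poly hδ hμ (e i)
  set E : ℕ → Lp ℝ 2 μ := fun i => (hm i).toLp _ with hE
  have hon : Orthonormal ℝ E := by
    rw [orthonormal_iff_ite]
    intro i j
    rw [hE]
    change inner ℝ ((hm i).toLp _) ((hm j).toLp _) = _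
    rw [inner_toLp, horth]
  have hne : ∀ i, e i ≠ 0 := by
    intro i hi
    have := horth i i
    rw [hi] at this
    simp at this
  have hsp : (Submodule.span ℝ (Set.range E))ᗮ = ⊥ := by
    rw [Submodule.eq_bot_iff]
    intro x hx
    have hx' : ∀ i, ∫ z, x z * (e i).eval z ∂μ = 0 := by
      intro i
      have h1 := (Submodule.mem_orthogonal _ _).1 hx (E i) (Submodule.subset_span ⟨i, rfl⟩)
      rw [hE] at h1
      change inner ℝ ((hm i).toLp _) x = 0 at h1
      have h2 : x = (Lp.memLp x).toLp x := (Lp.toLp_coeFn x (Lp.memLp x)).symm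
      rw [h2, inner_toLp] at h1
      rw [← h1]
      refine integral_congr_ae (Eventually.of_forall fun z => ?_)
      exact mul_comm _ _
    have hpoly : ∀ n : ℕ, ∀ p : ℝ[X], p.natDegree < n → ∫ z, x z * p.eval z ∂μ = 0 := by
      intro n
      induction n with
      | zero => intro p hp; omega
      | succ n ih =>
        intro p hp
        set k := p.natDegree with hk
        set c : ℝ := p.leadingCoeff / (e k).leadingCoeff with hc
        have hl : (e k).leadingCoeff ≠ 0 := Polynomial.leadingCoeff_ne_zero.2 (hne k)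
        set q : ℝ[X] := p - Polynomial.C c * e k with hq
        have hpq : p = q + Polynomial.C c * e k := by rw [hq]; ring
        have hq0 : ∫ z, x z * q.eval z ∂μ = 0 := by
          by_cases hk0 : k = 0
          · -- constants
            have h1 : q = 0 := by
              have h2 : p = Polynomial.C (p.coeff 0) :=
                Polynomial.eq_C_of_natDegree_eq_zero (by rw [← hk, hk0])
              have h3 : e 0 = Polynomial.C ((e 0).coeff 0) :=
                Polynomial.eq_C_of_natDegree_eq_zero (hdeg 0)
              have h4 : p.leadingCoeff = p.coeff 0 := by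
                rw [Polynomial.leadingCoeff, ← hk, hk0]
              have h5 : (e k).leadingCoeff = (e 0).coeff 0 := by
                rw [hk0, Polynomial.leadingCoeff, hdeg 0]
              rw [h5] at hl
              rw [hq, hc, h4, h5, hk0, h3, ← Polynomial.C_mul, Polynomial.coeff_C_zero,
                div_mul_cancel₀ _ hl, ← h2, sub_self]
            rw [h1]
            simp
          · apply ih
            have hdl : q.degree < p.degree := by
              apply Polynomial.degree_sub_lt_left
              · have hc0 : c ≠ 0 := by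
                  rw [hc]
                  refine div_ne_zero (Polynomial.leadingCoeff_ne_zero.2 ?_) hl
                  intro hp0
                  rw [hp0] at hk
                  simp at hk
                  exact hk0 hk
                rw [Polynomial.degree_C_mul hc0]
                rw [Polynomial.degree_eq_natDegree (hne k), hdeg k, hk]
                refine Polynomial.degree_eq_natDegree ?_
                intro hp0
                rw [hp0] at hk
                simp at hk
                exact hk0 hk
              · intro hp0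
                rw [hp0] at hk
                simp at hk
                exact hk0 hk
              · rw [Polynomial.leadingCoeff_mul, Polynomial.leadingCoeff_C, hc,
                  div_mul_cancel₀ _ hl]
            by_cases hq1 : q = 0
            · rw [hq1]; simp; omega
            · have := Polynomial.natDegree_lt_natDegree hq1 hdl
              omega
        have hint : ∀ r : ℝ[X], Integrable (fun z => x z * r.eval z) μ := fun r =>
          (Lp.memLp x).integrable_mul (memLp_poly hδ hμ r)
        have e1 : ∀ z, x z * p.eval z = x z * q.eval z + c * (x z * (e k).eval z) := by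
          intro z
          conv_lhs => rw [hpq]
          rw [Polynomial.eval_add, Polynomial.eval_mul, Polynomial.eval_C]
          ring
        simp_rw [e1]
        rw [integral_add (hint q) ((hint (e k)).const_mul c), integral_const_mul, hq0, hx' k,
          mul_zero, add_zero]
    have h0 : ∀ k : ℕ, ∫ z, x z * z ^ k ∂μ = 0 := by
      intro k
      have := hpoly (k + 1) (Polynomial.X ^ k) (by rw [Polynomial.natDegree_X_pow]; omega)
      simpa using this
    have h1 := ae_zero_of_moments hδ hμ (Lp.memLp x) h0
    exact Lp.eq_zero_iff_ae_eq_zero.2 h1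
  set b := HilbertBasis.mkOfOrthogonalEqBot hon hsp with hb
  have h1 := b.hasSum_inner_mul_inner (hf.toLp f) (hg.toLp g)
  rw [inner_toLp hf hg] at h1
  have h2 : ∀ i, inner ℝ (hf.toLp f) (b i) * inner ℝ (b i) (hg.toLp g)
      = (∫ z, f z * (e i).eval z ∂μ) * ∫ z, g z * (e i).eval z ∂μ := by
    intro i
    have e1 : b i = (hm i).toLp _ := by
      rw [hb, HilbertBasis.coe_mkOfOrthogonalEqBot]
    rw [e1, inner_toLp hf (hm i), inner_toLp (hm i) hg]
    congr 1
    refine integral_congr_ae (Eventually.of_forall fun z => ?_)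
    exact mul_comm _ _
  simp_rw [h2] at h1
  exact h1

end L2

end Vale.Agent.P244.ST
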