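import Vale.Agent.P244.ST.MIface
import Vale.Agent.P244.ST.BubHyp

/-!
# P244-ST, block M : assembly of `MStatement` from the closures
-/

open Set Filter
open scoped ContDiff Topology

namespace Vale.Agent.P244.ST

noncomputable section

/-- facts on the parameters used in the assembly -/
structure ParAsm (q : Par) : Prop where
  rho0 : 0 < q.rho0
  rho1 : q.rho0 ≤ 1
  eps : 0 < q.eps
  MU : 0 < q.MU
  MP : 0 < q.MP
  MV : 0 < q.MV
  CU : q.MU ≤ q.CU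
  CP : q.MP ≤ q.CP
  CV : q.MV ≤ q.CV

theorem ev_parAsm : Ev ParAsm := by
  refine ⟨0, fun B hB => ?_⟩
  refine ⟨1, one_pos, fun rho0 h1 => ?_⟩
  refine ⟨0, fun BV h2 => ?_⟩
  refine ⟨1, fun MU h3 => ?_⟩
  refine ⟨1, fun MP h4 => ?_⟩
  refine ⟨1, fun MV h5 => ?_⟩
  refine ⟨MU, fun CU h6 => ?_⟩
  refine ⟨MP, fun CP h7 => ?_⟩
  refine ⟨MV, fun CV h8 => ?_⟩
  refine ⟨0, fun GR h9 => ?_⟩
  refine ⟨1, one_pos, fun sg h10 => ?_⟩
  refine ⟨1, one_pos, fun d0 h11 => ?_⟩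
  refine ⟨1, one_pos, fun rb h12 => ?_⟩
  refine ⟨0, fun N h13 => ?_⟩
  refine ⟨1, one_pos, fun eps h14 => ?_⟩
  exact ⟨h1.1, h1.2, h14.1, lt_of_lt_of_le one_pos h3, lt_of_lt_of_le one_pos h4,
    lt_of_lt_of_le one_pos h5, h6, h7, h8⟩

theorem MHyp.tau_pos {q : Par} {g : ℝ → ℝ} {b : Fin 3 → ℝ} {w f : Fn} {T t₁ t : ℝ}
    (h : MHyp q g b w f T t₁) (ht : t ∈ Icc 0 t₁) : 0 < tau t := by
  unfold tau
  have h1 := ht.2
  have h2 := h.ht₁.2
  have h3 := h.hT1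
  linarith only [h1, h2, h3]

theorem bb_eq : bb / 2 = lam 3 := by
  unfold bb lam
  push_cast
  ring

theorem A_pos {q : Par} {t : ℝ} (he : 0 < q.eps) (ht : 0 < tau t) : 0 < q.A t := by
  unfold Par.A
  exact mul_pos he (Real.rpow_pos_of_pos ht _)

/-- powers of `r = 25 √τ` -/
theorem r_rpow {τ : ℝ} (hτ : 0 < τ) (e : ℝ) :
    (25 * Real.sqrt τ) ^ e = 25 ^ e * τ ^ (e / 2) := by
  rw [Real.mul_rpow (by norm_num) (Real.sqrt_nonneg _), Real.sqrt_eq_rpow, ← Real.rpow_mul hτ.le]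
  congr 2
  ring

theorem rpow25 {e : ℝ} (he : -1 ≤ e) : 1 / 25 ≤ (25 : ℝ) ^ e := by
  calc (1 : ℝ) / 25 = (25 : ℝ) ^ (-1 : ℝ) := by rw [Real.rpow_neg_one]; norm_num
    _ ≤ (25 : ℝ) ^ e := Real.rpow_le_rpow_of_exponent_le (by norm_num) he

/-- The boundary `y = 25`. -/
theorem bd25 {q : Par} (hq : ParAsm q) {t r u P V : ℝ} (ht0 : 0 ≤ t) (hτ : 0 < tau t)
    (hr : r = 25 * Real.sqrt (tau t)) (hu : |u| < q.MU * q.A t)
    (hP : |P| < q.MP * q.A t / Real.sqrt (tau t)) (hV : |V| < q.MV * q.A t / tau t) :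
    |u| < q.UB t r ∧ |P| < q.PB t r ∧ |V| < q.VB t r := by
  have hk1 := M.kap_lt
  have hk2 := M.kap_gt
  have hA := A_pos hq.eps hτ
  have hs : 0 < Real.sqrt (tau t) := Real.sqrt_pos.2 hτ
  set τ := tau t with hτd
  have hAe : q.A t = q.eps * τ ^ (bb / 2) := by rw [bb_eq]; rfl
  have hss : Real.sqrt τ = τ ^ ((1 : ℝ) / 2) := Real.sqrt_eq_rpow τ
  -- splitting of the powers of τ
  have p1 : τ ^ ((bb - 2) / 2) * τ = τ ^ (bb / 2) := by
    nth_rewrite 2 [← Real.rpow_one τ]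
    rw [← Real.rpow_add hτ]
    congr 1; ring
  have p2 : τ ^ ((bb - 1) / 2) = τ ^ (bb / 2) / Real.sqrt τ := by
    rw [hss, ← Real.rpow_sub hτ]
    congr 1; ring
  have p3 : τ ^ ((bb - 3) / 2) * τ = τ ^ ((bb - 1) / 2) := by
    nth_rewrite 2 [← Real.rpow_one τ]
    rw [← Real.rpow_add hτ]
    congr 1; ring
  have p4 : τ ^ ((bb - 4) / 2) * τ = τ ^ ((bb - 2) / 2) := by
    nth_rewrite 2 [← Real.rpow_one τ]
    rw [← Real.rpow_add hτ]
    congr 1; ring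
  have p5 : τ ^ ((bb - 2) / 2) = τ ^ (bb / 2) / τ := by
    rw [← p1]; field_simp
  have q1 : (25 : ℝ) ^ bb = 625 * 25 ^ (bb - 2) := by
    nth_rewrite 1 [show bb = (bb - 2) + 2 by ring]
    rw [Real.rpow_add (by norm_num)]
    norm_num
    ring
  have q2 : (25 : ℝ) ^ (bb - 1) = 625 * 25 ^ (bb - 3) := by
    rw [show bb - 1 = (bb - 3) + 2 by ring, Real.rpow_add (by norm_num)]
    norm_num
    ring
  have q3 : (25 : ℝ) ^ (bb - 2) = 625 * 25 ^ (bb - 4) := by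
    rw [show bb - 2 = (bb - 4) + 2 by ring, Real.rpow_add (by norm_num)]
    norm_num
    ring
  have b2 : 1 / 25 ≤ (25 : ℝ) ^ (bb - 2) := rpow25 (by unfold bb; linarith only [hk1, hk2])
  have b3 : 1 / 25 ≤ (25 : ℝ) ^ (bb - 3) := rpow25 (by unfold bb; linarith only [hk1, hk2])
  have b4 : 1 / 25 ≤ (25 : ℝ) ^ (bb - 4) := rpow25 (by unfold bb; linarith only [hk1, hk2])
  have hCU : 0 < q.CU := lt_of_lt_of_le hq.MU hq.CU
  have hCP : 0 < q.CP := lt_of_lt_of_le hq.MP hq.CP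
  have hCV : 0 < q.CV := lt_of_lt_of_le hq.MV hq.CV
  refine ⟨?_, ?_, ?_⟩
  · have e1 : q.UB t r = q.CU * q.A t * (325 * 25 ^ (bb - 2)) := by
      unfold Par.UB
      rw [hr, r_rpow hτ, r_rpow hτ, ← hτd, q1, hAe, ← p1]
      ring
    rw [e1]
    have h1 : q.MU * q.A t ≤ q.CU * q.A t := mul_le_mul_of_nonneg_right hq.CU hA.le
    have h2 : 0 < q.CU * q.A t := mul_pos hCU hA
    have h3 : q.CU * q.A t ≤ q.CU * q.A t * (325 * 25 ^ (bb - 2)) :=
      le_mul_of_one_le_right h2.le (by linarith only [hk1, hk2, q3, b4])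
    linarith only [hu, h1, h3]
  · have e1 : q.PB t r = q.CP * (q.A t / Real.sqrt τ) * (325 * 25 ^ (bb - 3)) := by
      unfold Par.PB
      rw [hr, r_rpow hτ, r_rpow hτ, ← hτd, q2, hAe]
      have : q.eps * τ ^ (bb / 2) / Real.sqrt τ = q.eps * τ ^ ((bb - 1) / 2) := by rw [p2]; ring
      rw [this, ← p3]
      ring
    rw [e1]
    have hAs : 0 < q.A t / Real.sqrt τ := div_pos hA hs
    have h0 : q.MP * q.A t / Real.sqrt τ = q.MP * (q.A t / Real.sqrt τ) := by ring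
    rw [h0] at hP
    have h1 := mul_le_mul_of_nonneg_right hq.CP hAs.le
    have h2 : 0 < q.CP * (q.A t / Real.sqrt τ) := mul_pos hCP hAs
    have h3 : q.CP * (q.A t / Real.sqrt τ) ≤ q.CP * (q.A t / Real.sqrt τ) * (325 * 25 ^ (bb - 3)) :=
      le_mul_of_one_le_right h2.le (by linarith only [hk1, hk2, b3])
    linarith only [hP, h1, h3]
  · have e1 : q.VB t r = q.CV * (q.A t / τ) * Real.exp t * (325 * 25 ^ (bb - 4)) := by
      unfold Par.VB
      rw [hr, r_rpow hτ, r_rpow hτ, ← hτd, q3, hAe]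
      have : q.eps * τ ^ (bb / 2) / τ = q.eps * τ ^ ((bb - 2) / 2) := by rw [p5]; ring
      rw [this, ← p4]
      ring
    rw [e1]
    have hAs : 0 < q.A t / τ := div_pos hA hτ
    have h0 : q.MV * q.A t / τ = q.MV * (q.A t / τ) := by ring
    rw [h0] at hV
    have hexp : 1 ≤ Real.exp t := Real.one_le_exp ht0
    have h1 := mul_le_mul_of_nonneg_right hq.CV hAs.le
    have h2 : 0 < q.CV * (q.A t / τ) := mul_pos hCV hAs
    have h3 : q.CV * (q.A t / τ) ≤ q.CV * (q.A t / τ) * Real.exp t :=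
      le_mul_of_one_le_right h2.le hexp
    have h4 : 0 < q.CV * (q.A t / τ) * Real.exp t := mul_pos h2 (Real.exp_pos _)
    have h5 : q.CV * (q.A t / τ) * Real.exp t ≤
        q.CV * (q.A t / τ) * Real.exp t * (325 * 25 ^ (bb - 4)) :=
      le_mul_of_one_le_right h4.le (by linarith only [hk1, hk2, b4])
    linarith only [hV, h1, h3, h5]

/-- Assembly of `MStatement`. -/
theorem mstatement_of (h3 : M3Int) (h3b : M3Bd) (h4 : M4Int) (h4b : M4Bd) (h5 : M5Fin)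
    (h6 : M6Int) (h7 : M7Fin) (he : MEq) : MStatement := by
  intro g hg
  have hall := ((((((((h3 g hg).and (h3b g hg)).and (h4 g hg)).and (h4b g hg)).and
    (h5 g hg)).and (h6 g hg)).and (h7 g hg)).and (he g hg)).and ev_parAsm
  refine hall.mono ?_
  rintro q ⟨⟨⟨⟨⟨⟨⟨⟨c3, c3b⟩, c4⟩, c4b⟩, c5⟩, c6⟩, c7⟩, ce⟩, hq⟩
  intro b w f T hT0 hT1 hsol hqual hinit t₁ ht₁ hboot hclose
  have hM : MHyp q g b w f T t₁ := ⟨hg, hT0, hT1, hsol, hqual, hinit, ht₁, hboot, hclose⟩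
  have d3 := c3 b w f T t₁ hM
  have d3b := c3b b w f T t₁ hM
  have d4 := c4 b w f T t₁ hM
  have d4b := c4b b w f T t₁ hM
  have d5 := c5 b w f T t₁ hM
  have d6 := c6 b w f T t₁ hM
  have d7 := c7 b w f T t₁ hM
  refine ⟨?_, ce b w f T t₁ hM⟩
  intro t ht x hx
  rcases eq_or_lt_of_le ht.1 with h0 | h0
  · rw [← h0]; exact hinit.boot x hx
  have htc : t ∈ Ioc 0 t₁ := ⟨h0, ht.2⟩
  have hB := hboot.b5 t ht x hx
  have hτ := hM.tau_pos ht
  refine ⟨fun hx0 hy => ?_, fun hx0 hy => ?_, d5 t htc x hx, fun hy1 hy2 => d7 t ht x hx hy1 hy2,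
    fun hy => ?_⟩
  · refine ⟨(hB.b1 hx0 hy).1, ?_⟩
    rcases lt_or_eq_of_le hy with h | h
    · exact d3 t htc x ⟨hx0, hx.2⟩ h
    · exact d3b t ht x ⟨hx0, hx.2⟩ h
  · rcases lt_or_eq_of_le hy with h | h
    · exact d4 t htc x ⟨hx0, hx.2⟩ h
    · exact d4b t ht x ⟨hx0, hx.2⟩ h
  · rcases lt_or_eq_of_le hy with h | h
    · exact d6 t htc x hx h
    · have h25 := d7 t ht x hx (by rw [← h]; linarith only [hq, hq.rho1]) h.symm.le
      have hs : 0 < Real.sqrt (tau t) := Real.sqrt_pos.2 hτ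
      have hr : rr w f t x = 25 * Real.sqrt (tau t) := by
        have : yv w f t x = rr w f t x / Real.sqrt (tau t) := rfl
        rw [this] at h
        field_simp at h
        linarith only [h]
      exact bd25 hq ht.1 hτ hr h25.1 h25.2.1 h25.2.2

end

end Vale.Agent.P244.ST
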