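import Vale.Agent.P244.ST.MIface
import Vale.Agent.P244.ST.M6Eq
import Vale.Agent.P244.ST.M2Static
import Vale.Agent.P244.ST.BubHyp

/-!
# P244-ST, block M : the equator stays away (`MEq`)
-/

open Set Filter
open scoped ContDiff Topology

namespace Vale.Agent.P244.ST

noncomputable section

variable {w f : Fn} {T : ℝ}

lemma meq_dx_even {h : ℝ → ℝ} (hh : ContDiffOn ℝ ∞ h (Icc (-1) 1))
    (he : ∀ x ∈ Icc (-1 : ℝ) 1, h (-x) = h x) : dx h 0 = 0 := by
  have h0 : (0 : ℝ) ∈ Ioo (-1 : ℝ) 1 := ⟨by norm_num, by norm_num⟩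
  have h1 := m6_hasDerivAt hh h0
  have h2 : HasDerivAt (fun x : ℝ => h (-x)) (dx h 0 * (-1)) 0 := by
    have h3 : HasDerivAt (fun x : ℝ => -x) (-1) (0 : ℝ) := hasDerivAt_neg 0
    have h4 : HasDerivAt h (dx h 0) (-(0 : ℝ)) := by simpa using h1
    exact HasDerivAt.comp (0 : ℝ) h4 h3
  have h3 : (fun x : ℝ => h (-x)) =ᶠ[𝓝 0] h := by
    filter_upwards [isOpen_Ioo.mem_nhds h0] with x hx
    exact he x (Ioo_subset_Icc_self hx)
  have h4 := (h2.congr_of_eventuallyEq h3.symm).unique h1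
  linarith only [h4]

lemma meq_rho_x0 (h : ConfSol 20 w f T) {t : ℝ} (ht : t ∈ Ico 0 T) :
    deriv (rho w f t) 0 = 0 := by
  have h0 : (0 : ℝ) ∈ Ioo (-1 : ℝ) 1 := ⟨by norm_num, by norm_num⟩
  rw [(m6_hasDerivAt_rho h ht h0).deriv, meq_dx_even (m6_slice_w h ht) (h.even_w t ht),
    meq_dx_even (m6_slice_f h ht) (h.even_f t ht)]
  norm_num

lemma meq_uu_x0 (h : ConfSol 20 w f T) {t : ℝ} (ht : t ∈ Ico 0 T) :
    deriv (uu w f t) 0 = 0 := by
  have h0 : (0 : ℝ) ∈ Ioo (-1 : ℝ) 1 := ⟨by norm_num, by norm_num⟩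
  have h1 := m6_hasDerivAt (m6_slice_w h ht) h0
  have h2 := m6_hasDerivAt (m6_slice_f h ht) h0
  rw [meq_dx_even (m6_slice_w h ht) (h.even_w t ht)] at h1
  rw [meq_dx_even (m6_slice_f h ht) (h.even_f t ht)] at h2
  have h3 : HasDerivAt (fun x : ℝ => Real.log (1 - x ^ 2)) 0 0 := by
    have h4 : HasDerivAt (fun x : ℝ => 1 - x ^ 2) 0 (0 : ℝ) := by
      simpa using ((hasDerivAt_id (0 : ℝ)).pow 2).const_sub 1
    have := h4.log (by norm_num)
    simpa using this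
  have h4 : HasDerivAt (uu w f t) (0 - 0 - 0 / 2) 0 := (h2.sub h1).sub (h3.div_const 2)
  rw [h4.deriv]; norm_num

lemma meq_rs0 (h : ConfSol 20 w f T) {t : ℝ} (ht : t ∈ Ico 0 T) : rs w f t 0 = 0 := by
  show -(sx 0 * Real.exp (-w t 0)) * deriv (rho w f t) 0 = 0
  rw [meq_rho_x0 h ht, mul_zero]

lemma meq_PP0 (h : ConfSol 20 w f T) {t : ℝ} (ht : t ∈ Ico 0 T) : PP w f t 0 = 0 := by
  show -(sx 0 * Real.exp (-w t 0)) * deriv (uu w f t) 0 = 0
  rw [meq_uu_x0 h ht, mul_zero]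

lemma sx_zero : sx 0 = 1 := by unfold sx; norm_num

lemma meq_Dsrs (h : ConfSol 20 w f T) {t : ℝ} (ht : t ∈ Ico 0 T) :
    Ds w (rs w f) t 0 = Real.exp (-2 * w t 0) *
      ((dx (dx (f t)) 0 + dx (dx (w t)) 0 - 1) / 2) := by
  have h0 : (0 : ℝ) ∈ Ioo (-1 : ℝ) 1 := ⟨by norm_num, by norm_num⟩
  have hS := M2.slice_of_confSol h ht
  have hk := M2.hasDerivAt_of_smooth (M2.smooth_kk hS) h0
  have hev : deriv (rho w f t) =ᶠ[𝓝 0]
      fun x => (dx (f t) x + dx (w t) x - x / (1 - x ^ 2)) / 2 := by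
    filter_upwards [isOpen_Ioo.mem_nhds h0] with x hx
    exact (m6_hasDerivAt_rho h ht hx).deriv
  have hr : HasDerivAt (deriv (rho w f t)) ((dx (dx (f t)) 0 + dx (dx (w t)) 0 - 1) / 2) 0 :=
    (m6_hasDerivAt_rho2 h ht).congr_of_eventuallyEq hev
  have h1 : HasDerivAt (rs w f t) (deriv (M2.kk w t) 0 * deriv (rho w f t) 0 +
      M2.kk w t 0 * ((dx (dx (f t)) 0 + dx (dx (w t)) 0 - 1) / 2)) 0 := hk.mul hr
  have h2 : Ds w (rs w f) t 0 = M2.kk w t 0 * deriv (rs w f t) 0 := rfl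
  rw [h2, h1.deriv, meq_rho_x0 h ht]
  have h3 : M2.kk w t 0 = -Real.exp (-w t 0) := by unfold M2.kk; rw [sx_zero]; ring
  have h4 : Real.exp (-2 * w t 0) = Real.exp (-w t 0) * Real.exp (-w t 0) := by
    rw [← Real.exp_add]; congr 1; ring
  rw [h3, h4]
  ring

lemma meq_cosh (w f : Fn) (t : ℝ) : Real.cosh (uu w f t 0) / (rr w f t 0) ^ 2 =
    19 / 78 * (Real.exp (-2 * w t 0) + Real.exp (-2 * f t 0)) := by
  have h1 : uu w f t 0 = f t 0 - w t 0 := by unfold uu; norm_num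
  have h2 : (rr w f t 0) ^ 2 = Real.exp (f t 0 + w t 0) * (39 / 19) := by
    have hz : Real.exp (-Real.log zeta0) = 39 / 19 := by
      rw [Real.exp_neg, Real.exp_log (by unfold zeta0; norm_num)]
      unfold zeta0; norm_num
    rw [← hz, ← Real.exp_add]
    unfold rr rho
    rw [← Real.exp_nat_mul]
    congr 1
    norm_num
    ring
  rw [h1, h2, Real.cosh_eq]
  have e1 : Real.exp (f t 0 - w t 0) = Real.exp (f t 0 + w t 0) * Real.exp (-2 * w t 0) := by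
    rw [← Real.exp_add]; congr 1; ring
  have e2 : Real.exp (-(f t 0 - w t 0)) = Real.exp (f t 0 + w t 0) * Real.exp (-2 * f t 0) := by
    rw [← Real.exp_add]; congr 1; ring
  rw [e1, e2]
  have := Real.exp_pos (f t 0 + w t 0)
  field_simp
  ring

/-- the time derivative of `ρ` at the equator -/
lemma meq_rho_t (h : ConfSol 20 w f T) {t : ℝ} (ht : t ∈ Ico 0 T) :
    HasDerivWithinAt (fun s => rho w f s 0)
      (-(RR w f t 0) / 80 - 39 / 2 * (Real.cosh (uu w f t 0) / (rr w f t 0) ^ 2)) (Ico 0 T) t := by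
  refine (m6_rho_time h ht).congr_deriv ?_
  have h1 := meq_rs0 h ht
  have h2 := meq_PP0 h ht
  have h3 := meq_Dsrs h ht
  have h4 := meq_cosh w f t
  have h5 : Ds w (Ds w (rho w f)) t 0 = Ds w (rs w f) t 0 := rfl
  have h6 : Ds w (rho w f) t 0 = rs w f t 0 := rfl
  have h7 : RR w f t 0 = -(80 * Ds w (rs w f) t 0) +
      1560 * (Real.cosh (uu w f t 0) / (rr w f t 0) ^ 2) := by
    simp only [RR, E0, yy, Lp, h5, h6, h1, h2]
    ring
  rw [h7, h4, h3]
  ring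

/-- facts on the parameters -/
structure ParEq (q : Par) : Prop where
  N : 100 ≤ q.N
  CU : 0 < q.CU
  GR : 0 ≤ q.GR
  eps : 0 < q.eps
  eps1 : q.eps ≤ 1
  small : q.CU * q.eps * q.N ^ bb ≤ 1
  small2 : q.GR * q.N ^ 2 * (q.CU * q.N ^ bb) ^ 2 * q.eps ≤ q.eta

theorem ev_parEq : Ev ParEq := by
  refine ⟨0, fun B hB => ?_⟩
  refine ⟨1, one_pos, fun rho0 h1 => ?_⟩
  refine ⟨0, fun BV h2 => ?_⟩
  refine ⟨1, fun MU h3 => ?_⟩
  refine ⟨1, fun MP h4 => ?_⟩
  refine ⟨1, fun MV h5 => ?_⟩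
  refine ⟨1, fun CU h6 => ?_⟩
  refine ⟨1, fun CP h7 => ?_⟩
  refine ⟨1, fun CV h8 => ?_⟩
  refine ⟨0, fun GR h9 => ?_⟩
  refine ⟨1, one_pos, fun sg h10 => ?_⟩
  refine ⟨1, one_pos, fun d0 h11 => ?_⟩
  refine ⟨1, one_pos, fun rb h12 => ?_⟩
  refine ⟨100, fun N h13 => ?_⟩
  have hCU : 0 < CU := lt_of_lt_of_le one_pos h6
  have hGR : 0 ≤ GR := h9
  have hN : 0 < N := by linarith only [h13]
  have hNb : 0 < N ^ bb := Real.rpow_pos_of_pos hN _
  set X := CU * N ^ bb with hX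
  have hXp : 0 < X := mul_pos hCU hNb
  set Y := GR * N ^ 2 * X ^ 2 with hY
  have hYp : 0 ≤ Y := by positivity
  refine ⟨min 1 (min (1 / X) (10 ^ 4 / N ^ 2 / (Y + 1))), by positivity, fun eps h14 => ?_⟩
  have e1 : eps ≤ 1 := h14.2.trans (min_le_left _ _)
  have e2 : eps ≤ 1 / X := h14.2.trans ((min_le_right _ _).trans (min_le_left _ _))
  have e3 : eps ≤ 10 ^ 4 / N ^ 2 / (Y + 1) :=
    h14.2.trans ((min_le_right _ _).trans (min_le_right _ _))
  refine ⟨h13, hCU, hGR, h14.1, e1, ?_, ?_⟩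
  · show CU * eps * N ^ bb ≤ 1
    rw [le_div_iff₀ hXp] at e2
    calc CU * eps * N ^ bb = eps * X := by rw [hX]; ring
      _ ≤ 1 := e2
  · show GR * N ^ 2 * (CU * N ^ bb) ^ 2 * eps ≤ 10 ^ 4 / N ^ 2
    rw [le_div_iff₀ (by positivity)] at e3
    have : Y * eps ≤ eps * (Y + 1) := by nlinarith only [h14, h14.1]
    exact this.trans e3

theorem cosh_sub_one_le {u : ℝ} (hu : |u| ≤ 1) : Real.cosh u - 1 ≤ u ^ 2 := by
  have h1 : Real.cosh u ≤ Real.exp (u ^ 2 / 2) := Real.cosh_le_exp_half_sq u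
  have h2 : u ^ 2 ≤ 1 := by
    rw [← sq_abs]; nlinarith only [hu, abs_nonneg u]
  have h3 : Real.exp (u ^ 2 / 2) ≤ 1 / (1 - u ^ 2 / 2) := Real.exp_bound_div_one_sub_of_interval
    (by positivity) (by linarith only [h2])
  have h4 : 1 / (1 - u ^ 2 / 2) ≤ 1 + u ^ 2 := by
    rw [div_le_iff₀ (by linarith only [h2])]
    nlinarith only [h2, sq_nonneg u]
  linarith only [h1, h3, h4]

theorem gam_pos : 0 < gam := by
  have := M.kap_lt
  unfold gam lam aa
  push_cast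
  linarith only [this]

theorem bb_pos' : 0 < bb := by
  have := M.kap_lt
  unfold bb
  linarith only [this]

/-- `R ≤ 3η` at large radii -/
theorem RB_le {q : Par} (hq : ParEq q) {t r u : ℝ} (ht0 : 0 ≤ t) (ht1 : t < 1)
    (hr1 : q.N / 4 ≤ r) (hr2 : r ≤ q.N) (hu : |u| ≤ q.UB t r) : q.RB t r u ≤ 3 * q.eta := by
  have hN := hq.N
  have hNp : 0 < q.N := by linarith only [hN]
  have hrp : 0 < r := by linarith only [hr1, hN]
  have hτ : 0 < tau t := by unfold tau; linarith only [ht1]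
  have hη : 0 < q.eta := by unfold Par.eta; positivity
  have hUB : q.UB t r ≤ q.CU * q.eps * q.N ^ bb := by
    unfold Par.UB
    refine mul_le_mul_of_nonneg_left ?_ (mul_pos hq.CU hq.eps).le
    have h1 : 0 ≤ 300 * tau t * r ^ (bb - 2) := by positivity
    have h2 : r ^ bb ≤ q.N ^ bb := Real.rpow_le_rpow hrp.le hr2 bb_pos'.le
    linarith only [h1, h2]
  have hu1 : |u| ≤ q.CU * q.eps * q.N ^ bb := hu.trans hUB
  have hu2 : |u| ≤ 1 := hu1.trans hq.small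
  have hc := cosh_sub_one_le hu2
  have hu3 : u ^ 2 ≤ (q.CU * q.eps * q.N ^ bb) ^ 2 := by
    rw [← sq_abs u]
    exact pow_le_pow_left₀ (abs_nonneg _) hu1 2
  have hS : 1 ≤ tau t + r ^ 2 / 100 := by
    have : (25 : ℝ) ^ 2 ≤ r ^ 2 := pow_le_pow_left₀ (by norm_num) (by linarith only [hr1, hN]) 2
    linarith only [hτ, this]
  have hS2 : (tau t + r ^ 2 / 100) ^ (-gam) ≤ 1 :=
    Real.rpow_le_one_of_one_le_of_nonpos hS (by linarith only [gam_pos])
  have hS0 : 0 ≤ (tau t + r ^ 2 / 100) ^ (-gam) := Real.rpow_nonneg (by linarith only [hS]) _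
  have he : q.eps ^ 2 * q.eps ^ (-(2 * aa)) ≤ q.eps := by
    have h1 : q.eps ^ 2 * q.eps ^ (-(2 * aa)) = q.eps ^ (2 - 2 * aa) := by
      rw [← Real.rpow_natCast, ← Real.rpow_add hq.eps]; congr 1
    rw [h1]
    calc q.eps ^ (2 - 2 * aa) ≤ q.eps ^ (1 : ℝ) :=
          Real.rpow_le_rpow_of_exponent_ge hq.eps hq.eps1 (by unfold aa; norm_num)
      _ = q.eps := Real.rpow_one _
  have hep : 0 < q.eps ^ (-(2 * aa)) := Real.rpow_pos_of_pos hq.eps _
  have hmain : q.GR * r ^ 2 * (Real.cosh u - 1) * q.eps ^ (-(2 * aa))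
      * (tau t + r ^ 2 / 100) ^ (-gam) ≤ q.eta := by
    have hc0 : 0 ≤ Real.cosh u - 1 := by linarith only [Real.one_le_cosh u]
    have hr4 : r ^ 2 ≤ q.N ^ 2 := pow_le_pow_left₀ hrp.le hr2 2
    have s1 : q.GR * r ^ 2 ≤ q.GR * q.N ^ 2 := mul_le_mul_of_nonneg_left hr4 hq.GR
    have s2 : Real.cosh u - 1 ≤ (q.CU * q.eps * q.N ^ bb) ^ 2 := hc.trans hu3
    have s3 : q.GR * r ^ 2 * (Real.cosh u - 1) ≤
        q.GR * q.N ^ 2 * (q.CU * q.eps * q.N ^ bb) ^ 2 :=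
      mul_le_mul s1 s2 hc0 (mul_nonneg hq.GR (by positivity))
    have s4 : q.GR * r ^ 2 * (Real.cosh u - 1) * q.eps ^ (-(2 * aa)) ≤
        q.GR * q.N ^ 2 * (q.CU * q.eps * q.N ^ bb) ^ 2 * q.eps ^ (-(2 * aa)) :=
      mul_le_mul_of_nonneg_right s3 hep.le
    have s5 : q.GR * q.N ^ 2 * (q.CU * q.eps * q.N ^ bb) ^ 2 * q.eps ^ (-(2 * aa)) =
        q.GR * q.N ^ 2 * (q.CU * q.N ^ bb) ^ 2 * (q.eps ^ 2 * q.eps ^ (-(2 * aa))) := by ring
    have hcoef : 0 ≤ q.GR * q.N ^ 2 * (q.CU * q.N ^ bb) ^ 2 :=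
      mul_nonneg (mul_nonneg hq.GR (by positivity)) (by positivity)
    have s6 := mul_le_mul_of_nonneg_left he hcoef
    have s7 : q.GR * r ^ 2 * (Real.cosh u - 1) * q.eps ^ (-(2 * aa)) ≤ q.eta := by
      linarith only [hq, s4, s6, hq.small2]
    have s8 : 0 ≤ q.GR * r ^ 2 * (Real.cosh u - 1) * q.eps ^ (-(2 * aa)) :=
      mul_nonneg (mul_nonneg (mul_nonneg hq.GR (by positivity)) hc0) hep.le
    calc _ ≤ q.GR * r ^ 2 * (Real.cosh u - 1) * q.eps ^ (-(2 * aa)) * 1 :=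
          mul_le_mul_of_nonneg_left hS2 s8
      _ ≤ q.eta := by rw [mul_one]; exact s7
  unfold Par.RB
  have : q.eta * (1 + t) ≤ 2 * q.eta := by nlinarith only [ht1, hη]
  linarith only [hmain, this]

/-- the equator stays away -/
theorem mEq : MEq := by
  intro g hg
  refine ev_parEq.mono ?_
  intro q hq b w f T t₁ hM
  have hN := hq.N
  have hNp : 0 < q.N := by linarith only [hN]
  have hsub : ∀ t ∈ Icc 0 t₁, t ∈ Ico 0 T := fun t ht => ⟨ht.1, lt_of_le_of_lt ht.2 hM.ht₁.2⟩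
  have hη : q.N ^ 2 * q.eta = 10 ^ 4 := by
    unfold Par.eta
    field_simp
  -- lower bound of the derivative of r²
  have hder : ∀ t ∈ Icc 0 t₁, HasDerivWithinAt (fun s => (rr w f s 0) ^ 2)
      ((rr w f t 0) ^ 2 * (-(RR w f t 0) / 40) - 39 * Real.cosh (uu w f t 0)) (Icc 0 t₁) t := by
    intro t ht
    have h1 := ((meq_rho_t hM.sol (hsub t ht)).exp.pow 2).mono (fun s hs => hsub s hs)
    refine (h1.congr_deriv ?_).congr (fun s _ => rfl) rfl
    have hr := (M2.rr_pos (w := w) (f := f) (t := t) 0)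
    have e : Real.exp (rho w f t 0) = rr w f t 0 := rfl
    rw [e]
    field_simp
    push_cast
    ring
  have hlow : ∀ t ∈ Icc 0 t₁, -830 ≤
      (rr w f t 0) ^ 2 * (-(RR w f t 0) / 40) - 39 * Real.cosh (uu w f t 0) := by
    intro t ht
    have hx0 : (0 : ℝ) ∈ Ico (0 : ℝ) 1 := ⟨le_rfl, one_pos⟩
    have hB := hM.boot.b5 t ht 0 hx0
    have h0 := hM.boot.b0 t ht
    have hτ1 : tau t ≤ 1 := by unfold tau; linarith only [ht, ht.1]
    have hτ : 0 < tau t := by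
      unfold tau
      have := hM.ht₁.2
      have := hM.hT1
      linarith [ht.2]
    have ht1 : t < 1 := by
      have := hM.ht₁.2
      have := hM.hT1
      linarith [ht.2]
    have hs : 0 < Real.sqrt (tau t) := Real.sqrt_pos.2 hτ
    have hs1 : Real.sqrt (tau t) ≤ 1 := Real.sqrt_le_one.2 hτ1
    have hy : 25 ≤ yv w f t 0 := by
      unfold yv
      rw [le_div_iff₀ hs]
      nlinarith only [hN, h0, hs1]
    have hr2 : rr w f t 0 ≤ q.N := (hM.qual.r_le t (hsub t ht) 0 hx0).trans hM.init.equator_le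
    have hu := (hB.b5 hy).1
    have hR := hB.b3.trans (RB_le hq ht.1 ht1 h0 hr2 hu)
    have hRn := hM.qual.R_nonneg t (hsub t ht) 0 hx0
    have hu1 : |uu w f t 0| ≤ 1 := by
      refine hu.trans ((le_trans ?_ hq.small))
      unfold Par.UB
      refine mul_le_mul_of_nonneg_left ?_ (mul_pos hq.CU hq.eps).le
      have hrp : 0 < rr w f t 0 := M2.rr_pos 0
      have h1 : 0 ≤ 300 * tau t * (rr w f t 0) ^ (bb - 2) := by positivity
      have h2 : (rr w f t 0) ^ bb ≤ q.N ^ bb := Real.rpow_le_rpow hrp.le hr2 bb_pos'.le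
      linarith only [h1, h2]
    have hc := cosh_sub_one_le hu1
    -- cosh u ≤ 1 + u² with |u| ≤ 1 is too weak: use cosh 1 directly
    have hcc : Real.cosh (uu w f t 0) ≤ 2 := by
      have : (uu w f t 0) ^ 2 ≤ 1 := by rw [← sq_abs]; nlinarith only [hu1, abs_nonneg (uu w f t 0)]
      linarith only [hc, this]
    have hrr : (rr w f t 0) ^ 2 ≤ q.N ^ 2 :=
      pow_le_pow_left₀ (M2.rr_pos (w := w) (f := f) (t := t) 0).le hr2 2
    have h5 : (rr w f t 0) ^ 2 * (RR w f t 0) ≤ q.N ^ 2 * (3 * q.eta) :=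
      mul_le_mul hrr hR hRn (by positivity)
    have h6 : q.N ^ 2 * (3 * q.eta) = 3 * 10 ^ 4 := by rw [← hη]; ring
    nlinarith only [hη, hcc, h5]
  intro t ht
  -- monotonicity of r² + 830 t
  have hmono : MonotoneOn (fun s => (rr w f s 0) ^ 2 + 830 * s) (Icc 0 t₁) := by
    refine monotoneOn_of_deriv_nonneg (convex_Icc 0 t₁) ?_ ?_ ?_
    · intro s hs
      exact ((hder s hs).continuousWithinAt.add (by fun_prop))
    · intro s hs
      have hs' := interior_subset hs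
      have hn : Icc 0 t₁ ∈ 𝓝 s := mem_interior_iff_mem_nhds.1 hs
      exact (((hder s hs').hasDerivAt hn).add ((hasDerivAt_id s).const_mul 830)).differentiableAt.differentiableWithinAt
    · intro s hs
      have hs' := interior_subset hs
      have hn : Icc 0 t₁ ∈ 𝓝 s := mem_interior_iff_mem_nhds.1 hs
      have h1 := ((hder s hs').hasDerivAt hn).add ((hasDerivAt_id s).const_mul 830)
      have h2 : deriv (fun s => (rr w f s 0) ^ 2 + 830 * s) s = _ := h1.deriv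
      rw [h2]
      have := hlow s hs'
      linarith only [this]
  have h0m : (0 : ℝ) ∈ Icc 0 t₁ := ⟨le_rfl, hM.ht₁.1⟩
  have h1 := hmono h0m ht ht.1
  simp only [mul_zero, add_zero] at h1
  have h2 : (q.N / 2) ^ 2 ≤ (rr w f 0 0) ^ 2 := pow_le_pow_left₀ (by positivity) hM.init.equator 2
  have ht1 : t ≤ 1 := by
    have := hM.ht₁.2
    have := hM.hT1
    linarith [ht.2]
  have h3 : (q.N / 4) ^ 2 < (rr w f t 0) ^ 2 := by nlinarith only [hN, h1, h2, ht1]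
  exact lt_of_pow_lt_pow_left₀ 2 (M2.rr_pos 0).le h3

end

end Vale.Agent.P244.ST
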