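import Vale.Agent.P244.ST.M.Touch

/-!
# P244-ST, block M4 : heat operator of `(t,x) ↦ K t (U t x)`
-/

open Set Filter
open scoped ContDiff Topology

namespace Vale.Agent.P244.ST.M4c

open Vale.Agent.P244.ST

noncomputable section

lemma Dx_comp {U K K1 : Fn} {t x : ℝ} (hU : DifferentiableAt ℝ (U t) x)
    (hK : HasDerivAt (K t) (K1 t (U t x)) (U t x)) :
    Dx (fun t x => K t (U t x)) t x = K1 t (U t x) * Dx U t x := by
  have h := HasDerivAt.comp x (h₂ := K t) (h := U t) hK hU.hasDerivAt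
  exact h.deriv

lemma Ds_comp {w U K K1 : Fn} {t x : ℝ} (hU : DifferentiableAt ℝ (U t) x)
    (hK : HasDerivAt (K t) (K1 t (U t x)) (U t x)) :
    Ds w (fun t x => K t (U t x)) t x = K1 t (U t x) * Ds w U t x := by
  rw [Ds, Dx_comp hU hK, Ds]
  ring

lemma Dt_comp {U K K1 : Fn} {Kt t x : ℝ} (hU : DifferentiableAt ℝ (fun s => U s x) t)
    (hKd : DifferentiableAt ℝ (fun z : ℝ × ℝ => K z.1 z.2) (t, U t x))
    (hK : HasDerivAt (K t) (K1 t (U t x)) (U t x))
    (hKt : HasDerivAt (fun s => K s (U t x)) Kt t) :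
    Dt (fun t x => K t (U t x)) t x = Kt + K1 t (U t x) * Dt U t x := by
  have hF := hKd.hasFDerivAt
  set L := fderiv ℝ (fun z : ℝ × ℝ => K z.1 z.2) (t, U t x) with hL
  have h1 : L (0, 1) = K1 t (U t x) := by
    have h2 : HasDerivAt (fun y : ℝ => ((t, y) : ℝ × ℝ)) (0, 1) (U t x) :=
      (hasDerivAt_const _ t).prodMk (hasDerivAt_id _)
    have h3 := HasFDerivAt.comp_hasDerivAt (U t x) (f := fun y : ℝ => ((t, y) : ℝ × ℝ)) hF h2
    exact h3.unique hK
  have h2 : L (1, 0) = Kt := by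
    have h2 : HasDerivAt (fun s : ℝ => ((s, U t x) : ℝ × ℝ)) (1, 0) t :=
      (hasDerivAt_id _).prodMk (hasDerivAt_const _ _)
    have h3 := HasFDerivAt.comp_hasDerivAt t (f := fun s : ℝ => ((s, U t x) : ℝ × ℝ)) hF h2
    exact h3.unique hKt
  have h3 : HasDerivAt (fun s : ℝ => ((s, U s x) : ℝ × ℝ)) (1, Dt U t x) t :=
    (hasDerivAt_id _).prodMk hU.hasDerivAt
  have h4 := HasFDerivAt.comp_hasDerivAt t (f := fun s : ℝ => ((s, U s x) : ℝ × ℝ)) hF h3
  have h5 : L (1, Dt U t x) = Kt + K1 t (U t x) * Dt U t x := by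
    have : ((1, Dt U t x) : ℝ × ℝ) = (1, 0) + Dt U t x • ((0, 1) : ℝ × ℝ) := by
      ext <;> simp
    rw [this, map_add, map_smul, h1, h2, smul_eq_mul]
    ring
  rw [h5] at h4
  exact h4.deriv

/-- second arclength derivative of a composition -/
lemma DsDs_comp {w U K K1 K2 : Fn} {t x : ℝ} (hU : ∀ᶠ y in 𝓝 x, DifferentiableAt ℝ (U t) y)
    (hU2 : DifferentiableAt ℝ (Ds w U t) x)
    (hK : ∀ᶠ v in 𝓝 (U t x), HasDerivAt (K t) (K1 t v) v)
    (hK1 : HasDerivAt (K1 t) (K2 t (U t x)) (U t x)) :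
    Ds w (Ds w (fun t x => K t (U t x))) t x =
      K1 t (U t x) * Ds w (Ds w U) t x + K2 t (U t x) * (Ds w U t x) ^ 2 := by
  have hUx : DifferentiableAt ℝ (U t) x := hU.self_of_nhds
  have e1 : Ds w (fun t x => K t (U t x)) t =ᶠ[𝓝 x] fun y => K1 t (U t y) * Ds w U t y := by
    filter_upwards [hU, hUx.continuousAt.eventually hK] with y hy1 hy2
    exact Ds_comp hy1 hy2
  have h1 := HasDerivAt.comp x (h₂ := K1 t) (h := U t) hK1 hUx.hasDerivAt
  have h2 : HasDerivAt (fun y => K1 t (U t y) * Ds w U t y)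
      (K2 t (U t x) * deriv (U t) x * Ds w U t x + K1 t (U t x) * deriv (Ds w U t) x) x :=
    h1.mul hU2.hasDerivAt
  have h3 : Dx (Ds w (fun t x => K t (U t x))) t x =
      K2 t (U t x) * deriv (U t) x * Ds w U t x + K1 t (U t x) * deriv (Ds w U t) x := by
    rw [Dx, e1.deriv_eq, h2.deriv]
  rw [Ds, h3]
  simp only [Ds, Dx]
  ring

/-- the heat operator on a composition -/
theorem heat_comp {w f U K K1 K2 : Fn} {Kt t x : ℝ}
    (hU : ContDiffAt ℝ 2 (fun z : ℝ × ℝ => U z.1 z.2) (t, x))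
    (hU2 : DifferentiableAt ℝ (Ds w U t) x)
    (hKd : DifferentiableAt ℝ (fun z : ℝ × ℝ => K z.1 z.2) (t, U t x))
    (hK : ∀ᶠ v in 𝓝 (U t x), HasDerivAt (K t) (K1 t v) v)
    (hK1 : HasDerivAt (K1 t) (K2 t (U t x)) (U t x))
    (hKt : HasDerivAt (fun s => K s (U t x)) Kt t) :
    DT w f (fun t x => K t (U t x)) t x - Lp w f (fun t x => K t (U t x)) t x =
      Kt + K1 t (U t x) * (DT w f U t x - Lp w f U t x) - K2 t (U t x) * (Ds w U t x) ^ 2 := by
  have hUx := M.sec_x hU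
  have hUt := M.sec_t hU
  have hev : ∀ᶠ y in 𝓝 x, DifferentiableAt ℝ (U t) y := by
    have : ∀ᶠ y in 𝓝 x, ContDiffAt ℝ 2 (U t) y := hUx.eventually (by simp)
    filter_upwards [this] with y hy using hy.differentiableAt (by norm_num)
  have hUx' := hUx.differentiableAt (by norm_num)
  rw [DT, Lp, DT, Lp, DsDs_comp hev hU2 hK hK1,
    Dt_comp (hUt.differentiableAt (by norm_num)) hKd hK.self_of_nhds hKt,
    Dx_comp hUx' hK.self_of_nhds, Ds_comp hUx' hK.self_of_nhds]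
  ring

end

end Vale.Agent.P244.ST.M4c
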