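import Vale.Agent.P244.ST.M4V
import Vale.Agent.P244.ST.M4Chain
import Vale.Agent.P244.ST.M.Skel
import Vale.Agent.P244.ST.A.EvLem

/-!
# P244-ST, block M4 : closure of (b2) in the interior of region I
-/

open Set Filter
open scoped ContDiff Topology

namespace Vale.Agent.P244.ST.M4c

open Vale.Agent.P244.ST

noncomputable section

/-! ### linearity of the heat operator -/

lemma diff_Dx {A : Fn} {t x : ℝ} (hA : ContDiffAt ℝ 2 (fun z : ℝ × ℝ => A z.1 z.2) (t, x)) :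
    DifferentiableAt ℝ (Dx A t) x := by
  have hsec := M.sec_x hA
  have h1 : ContDiffAt ℝ 1 (deriv (A t)) x := by
    have h2 : ContDiffAt ℝ 1 (fun y => fderiv ℝ (A t) y 1) x := by
      have h3 : ContDiffAt ℝ 1 (fderiv ℝ (A t)) x :=
        hsec.fderiv_right (m := 1) (by norm_num)
      exact h3.clm_apply contDiffAt_const
    exact h2
  exact h1.differentiableAt (by norm_num)

lemma diff_kk {w : Fn} {t x : ℝ} (hw : DifferentiableAt ℝ (w t) x) (hx : x ∈ Ioo (-1 : ℝ) 1) :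
    DifferentiableAt ℝ (fun y => -(sx y * Real.exp (-w t y))) x := by
  have hsx : DifferentiableAt ℝ sx x := by
    unfold sx
    exact DifferentiableAt.sqrt (by fun_prop) (M.one_sub_sq_pos hx).ne'
  exact (hsx.mul hw.neg.exp).neg

lemma diff_Ds {w A : Fn} {t x : ℝ} (hw : DifferentiableAt ℝ (w t) x) (hx : x ∈ Ioo (-1 : ℝ) 1)
    (hA : ContDiffAt ℝ 2 (fun z : ℝ × ℝ => A z.1 z.2) (t, x)) :
    DifferentiableAt ℝ (Ds w A t) x := (diff_kk hw hx).mul (diff_Dx hA)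

lemma ev_diff {A : Fn} {t x : ℝ} (hA : ContDiffAt ℝ 2 (fun z : ℝ × ℝ => A z.1 z.2) (t, x)) :
    ∀ᶠ y in 𝓝 x, DifferentiableAt ℝ (A t) y := by
  have : ∀ᶠ y in 𝓝 x, ContDiffAt ℝ 2 (A t) y := (M.sec_x hA).eventually (by simp)
  filter_upwards [this] with y hy using hy.differentiableAt (by norm_num)

lemma heat_sub {w f A B : Fn} {t x : ℝ} (c : ℝ) (hw : DifferentiableAt ℝ (w t) x)
    (hx : x ∈ Ioo (-1 : ℝ) 1)
    (hA : ContDiffAt ℝ 2 (fun z : ℝ × ℝ => A z.1 z.2) (t, x))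
    (hB : ContDiffAt ℝ 2 (fun z : ℝ × ℝ => B z.1 z.2) (t, x)) :
    DT w f (fun t x => c * A t x - B t x) t x - Lp w f (fun t x => c * A t x - B t x) t x =
      c * (DT w f A t x - Lp w f A t x) - (DT w f B t x - Lp w f B t x) := by
  have hDx : ∀ᶠ y in 𝓝 x, Dx (fun t x => c * A t x - B t x) t y = c * Dx A t y - Dx B t y := by
    filter_upwards [ev_diff hA, ev_diff hB] with y h1 h2
    have h3 : HasDerivAt (fun y => c * A t y - B t y) (c * deriv (A t) y - deriv (B t) y) y :=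
      (h1.hasDerivAt.const_mul c).sub h2.hasDerivAt
    exact h3.deriv
  have hDs : ∀ᶠ y in 𝓝 x, Ds w (fun t x => c * A t x - B t x) t y =
      c * Ds w A t y - Ds w B t y := by
    filter_upwards [hDx] with y hy
    rw [Ds, hy, Ds, Ds]; ring
  have hDsDs : Ds w (Ds w (fun t x => c * A t x - B t x)) t x =
      c * Ds w (Ds w A) t x - Ds w (Ds w B) t x := by
    have h1 := (diff_Ds hw hx hA).hasDerivAt
    have h2 := (diff_Ds hw hx hB).hasDerivAt
    have h3 : HasDerivAt (fun y => c * Ds w A t y - Ds w B t y)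
        (c * deriv (Ds w A t) x - deriv (Ds w B t) x) x := (h1.const_mul c).sub h2
    have h4 : Dx (Ds w (fun t x => c * A t x - B t x)) t x =
        c * deriv (Ds w A t) x - deriv (Ds w B t) x := by
      rw [Dx, Filter.EventuallyEq.deriv_eq hDs, h3.deriv]
    rw [Ds, h4, Ds, Ds, Dx, Dx]; ring
  have hDt : Dt (fun t x => c * A t x - B t x) t x = c * Dt A t x - Dt B t x := by
    have h1 := ((M.sec_t hA).differentiableAt (by norm_num)).hasDerivAt
    have h2 := ((M.sec_t hB).differentiableAt (by norm_num)).hasDerivAt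
    have h3 : HasDerivAt (fun s => c * A s x - B s x)
        (c * deriv (fun s => A s x) t - deriv (fun s => B s x) t) t := (h1.const_mul c).sub h2
    exact h3.deriv
  rw [DT, Lp, DT, Lp, DT, Lp, hDt, hDx.self_of_nhds, hDsDs, hDs.self_of_nhds]
  ring

/-! ### smoothness of the barrier -/

lemma smooth_Vb {q : Par} {t u : ℝ} (hr : 0 < q.rho0) (he : 0 < q.eps) (ht : t < 1)
    (hu : 0 < u) : ContDiffAt ℝ 2 (fun z : ℝ × ℝ => q.Vb z.1 z.2) (t, u) := by
  have htau : 0 < tau t := by unfold tau; linarith only [ht]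
  have hT0 := T0_pos (q := q) hr he ht
  have h1 : ContDiffAt ℝ 2 (fun z : ℝ × ℝ => tau z.1) (t, u) := by
    unfold tau; fun_prop
  have h2 : ContDiffAt ℝ 2 (fun z : ℝ × ℝ => q.T0 z.1) (t, u) := by
    unfold Par.T0 Par.A
    exact (contDiffAt_const.mul (h1.rpow_const_of_ne htau.ne')).mul contDiffAt_const
  have h3 : ContDiffAt ℝ 2 (fun z : ℝ × ℝ => Real.tanh z.2) (t, u) := by
    have : (fun z : ℝ × ℝ => Real.tanh z.2) = fun z : ℝ × ℝ => Real.sinh z.2 / Real.cosh z.2 := by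
      funext z; rw [Real.tanh_eq_sinh_div_cosh]
    rw [this]
    refine ContDiffAt.div ?_ ?_ (Real.cosh_pos u).ne'
    · exact Real.contDiff_sinh.contDiffAt.comp _ contDiffAt_snd
    · exact Real.contDiff_cosh.contDiffAt.comp _ contDiffAt_snd
  have h4 : ContDiffAt ℝ 2 (fun z : ℝ × ℝ => Real.cosh z.2) (t, u) :=
    Real.contDiff_cosh.contDiffAt.comp _ contDiffAt_snd
  unfold Par.Vb
  refine ((((contDiffAt_const.div h1 htau.ne').mul ?_).mul h3).mul ?_)
  · exact (h3.div h2 hT0.ne').rpow_const_of_ne (div_pos (tanh_pos hu) hT0).ne'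
  · exact h4.rpow_const_of_ne (Real.cosh_pos u).ne'

/-! ### the closure -/

/-- conditions on the parameters -/
structure ParV (q : Par) : Prop where
  B : 0 < q.B
  rho0 : 0 < q.rho0
  rho1 : q.rho0 ≤ 1
  BV : 1000 * q.B ≤ q.BV
  BV1 : 1 ≤ q.BV
  eps : 0 < q.eps
  N : 10 ^ 4 ≤ q.N

/-- The identities needed at the point. -/
structure IdV (w f : Fn) (t x : ℝ) : Prop where
  su : ContDiffAt ℝ 2 (fun z : ℝ × ℝ => uu w f z.1 z.2) (t, x)
  sV : ContDiffAt ℝ 2 (fun z : ℝ × ℝ => VV w f z.1 z.2) (t, x)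
  sy : ContinuousAt (fun z : ℝ × ℝ => yv w f z.1 z.2) (t, x)
  DTu : DT w f (uu w f) t x = VV w f t x
  F5 : DT w f (VV w f) t x - Lp w f (VV w f) t x =
    ((78 * Real.cosh (uu w f t x) - 20 * (ZZ w f t x * GG w f t x ^ 2)) / rr w f t x ^ 2
      + 2 * E0 w f t x) * VV w f t x
      + 2 * ((ZZ w f t x * GG w f t x - 39 / 20 * Real.sinh (uu w f t x)) / rr w f t x ^ 2)
        * (41 * E0 w f t x - RR w f t x)

lemma fb_pos {q : Par} (hq : ParV q) {t u : ℝ} (ht : t < 1) (hu : 0 < u) : 0 < q.fb t u := by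
  have htau : 0 < tau t := by unfold tau; linarith only [ht]
  have hT0 := T0_pos (q := q) hq.rho0 hq.eps ht
  have := hq.B
  have := tanh_pos hu
  have := Real.cosh_pos u
  unfold Par.fb
  positivity

lemma Vb_pos {q : Par} (hq : ParV q) {t u : ℝ} (ht : t < 1) (hu : 0 < u) : 0 < q.Vb t u := by
  have htau : 0 < tau t := by unfold tau; linarith only [ht]
  have hT0 := T0_pos (q := q) hq.rho0 hq.eps ht
  have : 0 < q.BV := by linarith only [hq, hq.BV1]
  have := tanh_pos hu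
  have := Real.cosh_pos u
  unfold Par.Vb
  positivity

lemma rel_fb_Vb {q : Par} {t u : ℝ} :
    Real.cosh u * q.fb t u * Real.tanh u * q.BV = q.B * q.Vb t u := by
  have hc := Real.cosh_pos u
  unfold Par.fb Par.Vb
  have h1 : Real.cosh u ^ (-(1 - aa)) = Real.cosh u ^ aa / Real.cosh u := by
    rw [show -(1 - aa) = aa - 1 by ring, Real.rpow_sub_one hc.ne']
  rw [h1]
  have := hc.ne'
  field_simp

lemma Vb_lower {q : Par} (hq : ParV q) {t u : ℝ} (ht0 : 0 ≤ t) (ht : t < 1) (hu : 0 < u)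
    (hT : 9 / 10 * q.T0 t ≤ Real.tanh u) : 9 / 10 * q.BV * Real.tanh u ≤ q.Vb t u := by
  have htau : 0 < tau t := by unfold tau; linarith only [ht]
  have htau1 : tau t ≤ 1 := by unfold tau; linarith only [ht0]
  have hT0 := T0_pos (q := q) hq.rho0 hq.eps ht
  have hBV : 0 < q.BV := by linarith only [hq, hq.BV1]
  have hTp := tanh_pos hu
  have hC := Real.one_le_cosh u
  have hx : 9 / 10 ≤ Real.tanh u / q.T0 t := by rw [le_div_iff₀ hT0]; exact hT
  have hpow : (9 / 10 : ℝ) ≤ (Real.tanh u / q.T0 t) ^ aa := by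
    have h1 : ((9 / 10 : ℝ)) ^ (1 : ℝ) ≤ (9 / 10 : ℝ) ^ aa :=
      Real.rpow_le_rpow_of_exponent_ge (by norm_num) (by norm_num) (by unfold aa; norm_num)
    rw [Real.rpow_one] at h1
    exact h1.trans (Real.rpow_le_rpow (by norm_num) hx (by unfold aa; norm_num))
  have hC1 : 1 ≤ Real.cosh u ^ aa := Real.one_le_rpow hC (by unfold aa; norm_num)
  have h1 : q.BV ≤ q.BV / tau t := by
    rw [le_div_iff₀ htau]; nlinarith only [htau1, hBV]
  unfold Par.Vb
  calc 9 / 10 * q.BV * Real.tanh u = q.BV * (9 / 10) * Real.tanh u * 1 := by ring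
    _ ≤ q.BV / tau t * (Real.tanh u / q.T0 t) ^ aa * Real.tanh u * Real.cosh u ^ aa := by
      gcongr

lemma eta_small {q : Par} (hN : 10 ^ 4 ≤ q.N) : 3 * q.eta ≤ 1 / 10 ^ 3 := by
  unfold Par.eta
  have : (10 : ℝ) ^ 4 / q.N ^ 2 ≤ 1 / 10 ^ 4 := by
    rw [div_le_div_iff₀ (by positivity) (by norm_num)]
    nlinarith only [hN]
  linarith only [this]

lemma r2_small {q : Par} {w f : Fn} {t x : ℝ} (hq : ParV q) (ht0 : 0 ≤ t) (ht1 : t < 1)
    (hy : yv w f t x ≤ q.rho0) : rr w f t x ^ 2 ≤ 1 := by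
  have htau : 0 < tau t := by unfold tau; linarith only [ht1]
  have hr : 0 < rr w f t x := Real.exp_pos _
  have h1 : rr w f t x ≤ q.rho0 * Real.sqrt (tau t) := by
    have h2 : rr w f t x / Real.sqrt (tau t) ≤ q.rho0 := hy
    rwa [div_le_iff₀ (Real.sqrt_pos.2 htau)] at h2
  have h3 : Real.sqrt (tau t) ≤ 1 := Real.sqrt_le_one.2 (by unfold tau; linarith only [ht0])
  have h4 : q.rho0 * Real.sqrt (tau t) ≤ 1 * 1 :=
    mul_le_mul hq.rho1 h3 (Real.sqrt_nonneg _) zero_le_one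
  exact pow_le_one₀ hr.le (h1.trans (by linarith only [h4]))

lemma Zs_ge_one {g : ℝ → ℝ} (hg : IsBub g) {u : ℝ} (hu : 0 < u) :
    38 ≤ qb g u ∧ qb g u ≤ 39 ∧ 1 ≤ Zs g u := by
  have hTp := tanh_pos hu
  have hg2 := hg.lt_two u hu
  have hgpos : 0 < g u := by linarith only [hg, hu, hTp, hg.lower u hu]
  have hQ1 : 38 ≤ qb g u := by unfold qb; nlinarith only [hg2, hgpos]
  have hQ2 : qb g u ≤ 39 := by unfold qb; nlinarith only [sq_nonneg (g u)]
  refine ⟨hQ1, hQ2, ?_⟩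
  unfold Zs
  rw [le_div_iff₀ (by linarith only [hQ1])]
  linarith only [hQ2, Real.one_le_cosh u]

lemma th_small {q : Par} {g : ℝ → ℝ} {w f : Fn} {t x : ℝ} (hg : IsBub g) (hq : ParV q)
    (ht1 : t < 1) (hr1 : rr w f t x ^ 2 ≤ 1) (hFI : M.FI q g w f t x) :
    M.eb q w f t x ≤ 1 / 10 ^ 4 ∧ |th g w f t x| ≤ 1 / 10 ^ 3 := by
  have hu := hFI.u_pos
  have hφ := fb_pos hq ht1 hu
  have heb0 : 0 ≤ M.eb q w f t x := by
    unfold M.eb; positivity
  have heb : M.eb q w f t x ≤ 1 / 10 ^ 4 := by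
    have h2 : M.eb q w f t x ≤ M.eb q w f t x * Real.cosh (uu w f t x) :=
      le_mul_of_one_le_right heb0 (Real.one_le_cosh _)
    exact h2.trans hFI.eb_le
  refine ⟨heb, ?_⟩
  rw [abs_of_nonpos hFI.th_le]
  refine hFI.th_ge.trans ?_
  obtain ⟨-, -, hZ1⟩ := Zs_ge_one hg hu
  have hg2 := hg.lt_two _ hu
  have hgpos : 0 < g (uu w f t x) := by linarith only [hg, hu, hg.lower _ hu, tanh_pos hu]
  have hη := eta_small hq.N
  have hη0 : 0 ≤ q.eta := by unfold Par.eta; positivity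
  have h1 : g (uu w f t x) ^ 2 * M.eb q w f t x ^ 2 / 148 ≤ 1 / 10 ^ 4 := by
    have h3 : M.eb q w f t x ^ 2 ≤ (1 / 10 ^ 4) ^ 2 := pow_le_pow_left₀ heb0 heb 2
    have h4 : g (uu w f t x) ^ 2 ≤ 4 := by nlinarith only [hg2, hgpos]
    have h5 : g (uu w f t x) ^ 2 * M.eb q w f t x ^ 2 ≤ 4 * (1 / 10 ^ 4) ^ 2 :=
      mul_le_mul h4 h3 (sq_nonneg _) (by norm_num)
    linarith only [h5]
  have h6 : rr w f t x ^ 2 * (3 * q.eta) / (1640 * Zs g (uu w f t x)) ≤ 1 / 10 ^ 4 := by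
    have h7 : rr w f t x ^ 2 * (3 * q.eta) ≤ 1 * (1 / 10 ^ 3) :=
      mul_le_mul hr1 hη (by positivity) (by norm_num)
    rw [div_le_iff₀ (by linarith only [hZ1])]
    linarith only [hZ1, h7]
  linarith only [h1, h6]

/-- the numerical inequality in terms of the geometric quantities -/
lemma closV_num {q : Par} {g : ℝ → ℝ} {w f : Fn} {t x : ℝ} (hg : IsBub g) (hq : ParV q)
    (ht0 : 0 ≤ t) (ht1 : t < 1) (hy : yv w f t x ≤ q.rho0) (hFI : M.FI q g w f t x) :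
    ((78 * Real.cosh (uu w f t x) - 20 * (ZZ w f t x * GG w f t x ^ 2)) / rr w f t x ^ 2
      + 2 * E0 w f t x) * q.Vb t (uu w f t x)
      + |2 * ((ZZ w f t x * GG w f t x - 39 / 20 * Real.sinh (uu w f t x)) / rr w f t x ^ 2)
        * (41 * E0 w f t x - RR w f t x)| <
    q.Vb t (uu w f t x) * ((1 + aa * lam 3) / tau t)
      + q.Vb t (uu w f t x) * l1 (uu w f t x) * (78 * Real.sinh (uu w f t x) / rr w f t x ^ 2)
      - q.Vb t (uu w f t x) * l2 (uu w f t x) *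
        (ZZ w f t x * GG w f t x ^ 2 / rr w f t x ^ 2) := by
  have htau : 0 < tau t := by unfold tau; linarith only [ht1]
  have hu := hFI.u_pos
  have hT0 := T0_pos (q := q) hq.rho0 hq.eps ht1
  have hr : 0 < rr w f t x := Real.exp_pos _
  have hr1 := r2_small hq ht0 ht1 hy
  obtain ⟨heb, hth⟩ := th_small hg hq ht1 hr1 hFI
  obtain ⟨hQ1, hQ2, hZ1⟩ := Zs_ge_one hg hu
  have hη := eta_small hq.N
  have hη0 : 0 ≤ q.eta := by unfold Par.eta; positivity
  have hTp := tanh_pos hu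
  have hT1 : Real.tanh (uu w f t x) < 1 := Real.tanh_lt_one _
  have hC := Real.one_le_cosh (uu w f t x)
  have hgl := hg.lower _ hu
  have hgu' := hg.upper _ hu
  have hgpos : 0 < g (uu w f t x) := by linarith only [hTp, hgl]
  have hE0 := hFI.E0_le
  have hφ := fb_pos hq ht1 hu
  have hv := Vb_pos hq ht1 hu
  have hVl := Vb_lower hq ht0 ht1 hu hFI.T_ge
  have hrel := rel_fb_Vb (q := q) (t := t) (u := uu w f t x)
  have hth' : ZZ w f t x / Zs g (uu w f t x) = 1 + th g w f t x := by rw [th]; ring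
  have hee' : GG w f t x / g (uu w f t x) = 1 - ee g w f t x := by rw [ee]; ring
  have hel := hFI.e_le
  have hR0 := hFI.R_nonneg
  have hRl := hFI.R_le
  have hsinh := sinh_eq (uu w f t x)
  unfold M.eb at heb hel
  generalize uu w f t x = u at *
  generalize rr w f t x = r at *
  have hgu : g u = g u / Real.tanh u * Real.tanh u := by field_simp
  have hG1 : 2 ≤ g u / Real.tanh u := by rw [le_div_iff₀ hTp]; exact hgl.le
  have hG2 : g u / Real.tanh u ≤ 2.1147 := by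
    rw [div_le_iff₀ hTp]
    have := mul_le_mul_of_nonneg_right kap_bounds.2.le hTp.le
    linarith only [hgu', this]
  have hZ : ZZ w f t x = 39 * Real.cosh u / qb g u * (1 + th g w f t x) := by
    rw [← hth', Zs]
    have : qb g u ≠ 0 := by intro h; rw [h] at hQ1; norm_num at hQ1
    have := (Real.cosh_pos u).ne'
    field_simp
  have hG : GG w f t x = g u / Real.tanh u * Real.tanh u * (1 - ee g w f t x) := by
    rw [← hgu, ← hee']; field_simp
  have hE : |E0 w f t x| ≤ 1.1 * (3 * q.eta) +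
      11 * (39 * Real.cosh u / qb g u * (g u / Real.tanh u * Real.tanh u) ^ 2) * q.fb t u := by
    refine hE0.trans (le_of_eq ?_)
    rw [← hgu, Zs]
    ring
  have hlam : 0 ≤ (1 + aa * lam 3) / tau t := by
    have h1 : 0 ≤ lam 3 := by
      unfold lam
      have := kap_bounds.2
      push_cast
      linarith only [hTp, hT1, this]
    have h2 : 0 ≤ aa := by unfold aa; norm_num
    positivity
  have h7 : r ^ 2 * (3 * q.eta) ≤ 1 / 10 ^ 3 := by
    have h7 : r ^ 2 * (3 * q.eta) ≤ 1 * (1 / 10 ^ 3) :=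
      mul_le_mul hr1 hη (by positivity) (by norm_num)
    linarith only [h7]
  have hcore := num_core (T := Real.tanh u) (C := Real.cosh u) (G1 := g u / Real.tanh u)
    (Q := qb g u) (e := ee g w f t x) (θ := th g w f t x) (r := r) (E := E0 w f t x)
    (R := RR w f t x) (Rs := 3 * q.eta) (φ := q.fb t u) (v := q.Vb t u) (B := q.B) (BV := q.BV)
    (M := (1 + aa * lam 3) / tau t)
    hTp hT1 hC hG1 hG2 hQ1 hQ2 hel heb hth hr hφ hv hq.BV hrel hVl hq.BV1 hR0 hRl (by linarith only [hη, hTp, hT1])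
    h7 hE hlam
  rw [← hZ, ← hG, ← hsinh] at hcore
  have hl1 : l1 u = (1 + 1 / 20) * (1 - Real.tanh u ^ 2) / Real.tanh u + 1 / 20 * Real.tanh u := by
    unfold l1 aa; ring
  have hl2 : l2 u = ((1 + 1 / 20) * (1 - Real.tanh u ^ 2) / Real.tanh u
      + 1 / 20 * Real.tanh u) ^ 2
      + (-((1 + 1 / 20) * (1 - Real.tanh u ^ 2) * (1 + Real.tanh u ^ 2) / Real.tanh u ^ 2)
        + 1 / 20 * (1 - Real.tanh u ^ 2)) := by
    unfold l2 l1'
    rw [hl1]
    unfold aa; ring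
  rw [← hl2, ← hl1] at hcore
  exact hcore

theorem closV {q : Par} {g : ℝ → ℝ} {w f : Fn} {T t₁ t x : ℝ} (hg : IsBub g) (hq : ParV q)
    (H : M.Hist q g w f T t₁) (ht : t ∈ Ioc 0 t₁) (hx : x ∈ Ioo (0 : ℝ) 1)
    (hy : yv w f t x < q.rho0) (hid : IdV w f t x) : |VV w f t x| < q.Vb t (uu w f t x) := by
  have htT : t ∈ Ioo 0 T := ⟨ht.1, lt_of_le_of_lt ht.2 H.mem.2⟩
  have ht1 : t < 1 := lt_of_lt_of_le htT.2 H.T_le
  have hxx : x ∈ Ioo (-1 : ℝ) 1 := ⟨by linarith only [hx, hx.1], hx.2⟩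
  have hFI := H.fI t ⟨ht.1.le, ht.2⟩ x hx hy.le
  have hu := hFI.u_pos
  have hT0 := T0_pos (q := q) hq.rho0 hq.eps ht1
  have hboot := (H.boot.b5 t ⟨ht.1.le, ht.2⟩ x ⟨hx.1.le, hx.2⟩).b2 hx.1 hy.le
  refine lt_of_le_of_ne hboot fun heq => ?_
  -- the sign
  obtain ⟨σ, hσ, hσV⟩ : ∃ σ : ℝ, |σ| = 1 ∧ σ * VV w f t x = q.Vb t (uu w f t x) := by
    rcases le_total 0 (VV w f t x) with h | h
    · exact ⟨1, by simp, by rw [one_mul, ← heq, abs_of_nonneg h]⟩
    · exact ⟨-1, by simp, by rw [← heq, abs_of_nonpos h]; ring⟩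
  have hw : DifferentiableAt ℝ (w t) x :=
    (M.smooth_wx_at H.sol ⟨htT.1.le, htT.2⟩ hxx).differentiableAt (by norm_num)
  have hsB : ContDiffAt ℝ 2 (fun z : ℝ × ℝ => q.Vb z.1 (uu w f z.1 z.2)) (t, x) := by
    have h1 : ContDiffAt ℝ 2 (fun z : ℝ × ℝ => ((z.1, uu w f z.1 z.2) : ℝ × ℝ)) (t, x) :=
      contDiffAt_fst.prodMk hid.su
    exact ContDiffAt.comp (t, x) (g := fun z : ℝ × ℝ => q.Vb z.1 z.2)
      (f := fun z : ℝ × ℝ => ((z.1, uu w f z.1 z.2) : ℝ × ℝ))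
      (smooth_Vb hq.rho0 hq.eps ht1 hu) h1
  have hsH : ContDiffAt ℝ 2
      (fun z : ℝ × ℝ => σ * VV w f z.1 z.2 - q.Vb z.1 (uu w f z.1 z.2)) (t, x) :=
    (contDiffAt_const.mul hid.sV).sub hsB
  -- touching
  have hle : ∀ᶠ z : ℝ × ℝ in 𝓝 (t, x), z.1 ≤ t →
      σ * VV w f z.1 z.2 - q.Vb z.1 (uu w f z.1 z.2) ≤ 0 := by
    have e1 : ∀ᶠ z : ℝ × ℝ in 𝓝 (t, x), yv w f z.1 z.2 < q.rho0 :=
      hid.sy.eventually_lt continuousAt_const hy
    have e2 : ∀ᶠ z : ℝ × ℝ in 𝓝 (t, x), 0 < z.1 :=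
      continuousAt_const.eventually_lt continuousAt_fst ht.1
    have e3 : ∀ᶠ z : ℝ × ℝ in 𝓝 (t, x), 0 < z.2 :=
      continuousAt_const.eventually_lt continuousAt_snd hx.1
    have e4 : ∀ᶠ z : ℝ × ℝ in 𝓝 (t, x), z.2 < 1 :=
      continuousAt_snd.eventually_lt continuousAt_const hx.2
    filter_upwards [e1, e2, e3, e4] with z h1 h2 h3 h4 h5
    have hb := (H.boot.b5 z.1 ⟨h2.le, h5.trans ht.2⟩ z.2 ⟨h3.le, h4⟩).b2 h3 h1.le
    have h6 : σ * VV w f z.1 z.2 ≤ |VV w f z.1 z.2| := by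
      refine (le_abs_self _).trans ?_
      rw [abs_mul, hσ, one_mul]
    linarith only [hb, h6]
  obtain ⟨-, -, -, -, -, -, htouch⟩ := M.touch (f := f)
    (H := fun t x => σ * VV w f t x - q.Vb t (uu w f t x)) H.sol htT hxx hsH
    (by show σ * VV w f t x - q.Vb t (uu w f t x) = 0; rw [hσV, sub_self]) hle
  -- the heat operator
  rw [heat_sub σ hw hxx hid.sV hsB] at htouch
  have hKd : DifferentiableAt ℝ (fun z : ℝ × ℝ => q.Vb z.1 z.2) (t, uu w f t x) :=
    (smooth_Vb hq.rho0 hq.eps ht1 hu).differentiableAt (by norm_num)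
  have hcomp := heat_comp (w := w) (f := f) (K := fun t u => q.Vb t u)
    (K1 := fun t u => q.Vb t u * l1 u) (K2 := fun t u => q.Vb t u * l2 u)
    hid.su (diff_Ds hw hxx hid.su) hKd
    (by
      filter_upwards [lt_mem_nhds hu] with v hv
      exact hasDerivAt_Vb hv hT0)
    (hasDerivAt_Vb1 hu hT0) (hasDerivAt_Vb_t hu hT0 ht1)
  rw [hcomp] at htouch
  have hDTLp : DT w f (uu w f) t x - Lp w f (uu w f) t x =
      78 * Real.sinh (uu w f t x) / rr w f t x ^ 2 := by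
    rw [hid.DTu, VV]; ring
  have hrs := hFI.rs_pos
  have hr : 0 < rr w f t x := Real.exp_pos _
  have hP : (Ds w (uu w f) t x) ^ 2 = ZZ w f t x * GG w f t x ^ 2 / rr w f t x ^ 2 := by
    rw [ZZ, GG, PP]
    have := hrs.ne'
    have := hr.ne'
    field_simp
  rw [hDTLp, hP, hid.F5] at htouch
  have hcore := closV_num hg hq ht.1.le ht1 hy.le hFI
  have h1 : ∀ a b : ℝ, σ * (a * VV w f t x + b) ≤ a * q.Vb t (uu w f t x) + |b| := by
    intro a b
    have h2 : σ * b ≤ |b| := by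
      refine (le_abs_self _).trans ?_
      rw [abs_mul, hσ, one_mul]
    have h3 : σ * (a * VV w f t x + b) = a * (σ * VV w f t x) + σ * b := by ring
    rw [h3, hσV]
    linarith only [h2]
  have hs1 := h1 ((78 * Real.cosh (uu w f t x) - 20 * (ZZ w f t x * GG w f t x ^ 2)) /
      rr w f t x ^ 2 + 2 * E0 w f t x)
    (2 * ((ZZ w f t x * GG w f t x - 39 / 20 * Real.sinh (uu w f t x)) / rr w f t x ^ 2)
        * (41 * E0 w f t x - RR w f t x))
  linarith only [htouch, hcore, hs1]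

theorem ev_parV : Ev ParV := by
  have h1 : Ev fun q => 1000 * q.B ≤ q.BV := by
    refine ⟨0, fun B _ => ⟨1, one_pos, fun rho0 _ => ⟨1000 * B, fun BV hBV => ?_⟩⟩⟩
    refine ⟨0, fun MU _ => ⟨0, fun MP _ => ⟨0, fun MV _ => ⟨0, fun CU _ => ⟨0, fun CP _ =>
      ⟨0, fun CV _ => ⟨0, fun GR _ => ⟨1, one_pos, fun sg _ => ⟨1, one_pos, fun d0 _ =>
      ⟨1, one_pos, fun rb _ => ⟨0, fun N _ => ⟨1, one_pos, fun eps _ => ?_⟩⟩⟩⟩⟩⟩⟩⟩⟩⟩⟩⟩
    exact hBV
  refine (h1.and (ev_pos (K := 10 ^ 4) (by norm_num))).mono ?_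
  rintro q ⟨h1, h2⟩
  exact
    { B := lt_of_lt_of_le (by norm_num) h2.B
      rho0 := h2.rho0
      rho1 := h2.rho0'.trans (by norm_num)
      BV := h1
      BV1 := le_trans (by norm_num) h2.BV
      eps := h2.eps
      N := h2.N }

/-- `M4Statement` from the identities at the points of the solution. -/
theorem m4Statement_of (hId : ∀ w f : Fn, ∀ T : ℝ, ConfSol 20 w f T → ∀ t ∈ Ioo 0 T,
    ∀ x ∈ Ioo (0 : ℝ) 1, 0 < rs w f t x → IdV w f t x) : M.M4Statement := by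
  intro g hg
  refine ev_parV.mono fun q hq w f T t₁ H t ht x hx hy => ?_
  have hFI := H.fI t ⟨ht.1.le, ht.2⟩ x hx hy.le
  exact closV hg hq H ht hx hy (hId w f T H.sol t ⟨ht.1, lt_of_le_of_lt ht.2 H.mem.2⟩ x hx
    hFI.rs_pos)

end

end Vale.Agent.P244.ST.M4c
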