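import Vale.Agent.P244.ST.M5Fin
import Vale.Agent.P244.ST.M.Even

/-! P244-ST, module M5: parity -/

open Set

namespace Vale.Agent.P244.ST.M5F

open Vale.Agent.P244.ST

theorem evenProp : EvenProp := fun _ _ _ h _ ht x hx =>
  ⟨M.even_RR h ht x hx, M.even_rr h ht x hx, M.even_uu h ht x hx⟩

end Vale.Agent.P244.ST.M5F
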