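import Vale.Agent.P244.ST.Geo

/-!
# P244-ST, block M6 : numerical facts and pointwise inequalities in region III (helper568)
-/

open Set

namespace Vale.Agent.P244.ST

/-! ### the exponents -/

lemma m6_sqrt_bounds : (34.77 : ℝ) < Real.sqrt 1209 ∧ Real.sqrt 1209 < 34.771 := by
  constructor
  · exact Real.lt_sqrt_of_sq_lt (by norm_num)
  · rw [Real.sqrt_lt' (by norm_num)]; norm_num

lemma m6_kap_bounds : (2.1145 : ℝ) < kap ∧ kap < 2.115 := by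
  have h := m6_sqrt_bounds
  unfold kap
  constructor <;> linarith only [h, h.1, h.2]

lemma m6_bb_bounds : (3.885 : ℝ) < bb ∧ bb < 3.8855 := by
  have h := m6_kap_bounds
  unfold bb
  constructor <;> linarith only [h, h.1, h.2]

lemma m6_lam_three : lam 3 = bb / 2 := by
  unfold lam bb; push_cast; ring

/-- `sinh x ≤ x cosh x` for `x ≥ 0`, absolute value version -/
lemma m6_abs_sinh_le (x : ℝ) : |Real.sinh x| ≤ |x| * Real.cosh x := by
  have key : ∀ y : ℝ, 0 ≤ y → Real.sinh y ≤ y * Real.cosh y := by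
    intro y hy
    have hm : MonotoneOn (fun z : ℝ => z * Real.cosh z - Real.sinh z) (Ici 0) := by
      refine monotoneOn_of_deriv_nonneg (convex_Ici 0) (by fun_prop) (by fun_prop) ?_
      intro z hz
      rw [interior_Ici] at hz
      have h1 : HasDerivAt (fun z : ℝ => z * Real.cosh z - Real.sinh z)
          ((1 * Real.cosh z + z * Real.sinh z) - Real.cosh z) z :=
        ((hasDerivAt_id z).mul (Real.hasDerivAt_cosh z)).sub (Real.hasDerivAt_sinh z)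
      rw [h1.deriv]
      have h2 : 0 < Real.sinh z := Real.sinh_pos_iff.2 hz
      have h3 : (0 : ℝ) < z := hz
      nlinarith only [h2, h3, mul_pos h3 h2]
    have := hm (mem_Ici.2 le_rfl) (mem_Ici.2 hy) hy
    simp at this
    linarith only [this]
  have h1 := key |x| (abs_nonneg x)
  rwa [Real.cosh_abs, ← Real.abs_sinh] at h1

/-- `cosh x ≤ 1.001` for `|x| ≤ 0.04` -/
lemma m6_cosh_le {x : ℝ} (hx : |x| ≤ 0.04) : Real.cosh x ≤ 1.001 := by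
  have h1 : Real.cosh x ≤ Real.exp (x ^ 2 / 2) := Real.cosh_le_exp_half_sq x
  have h2 : x ^ 2 / 2 ≤ 0.0008 := by
    have := sq_le_sq' (by linarith only [hx, neg_abs_le x]) (le_abs_self x |>.trans hx) (a := x) (b := 0.04)
    nlinarith only [this]
  have h3 : Real.exp (x ^ 2 / 2) ≤ Real.exp 0.0008 := Real.exp_le_exp.2 h2
  have h4 : Real.exp 0.0008 ≤ 1.001 := by
    have := Real.exp_bound_div_one_sub_of_interval' (x := (0.0008 : ℝ)) (by norm_num) (by norm_num)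
    norm_num at this ⊢
    linarith only [this]
  linarith only [h1, h3, h4]

/-! ### the barrier `r^β - 300 τ r^(β-2)` -/

/-- value of `(D_t - Lap)` on `C (r^β - 300 τ r^(β-2))`, bounded below; `a = r^(β-2)` -/
lemma m6_op_lower {β ch z r τ a C : ℝ} (hβ1 : 1.88 ≤ β) (hβ2 : β ≤ 3.89) (hch1 : 1 ≤ ch)
    (hch : ch ≤ 1.001) (hr : 0 < r) (hz : r ^ 2 * z ^ 2 ≤ 1.05)
    (hτ : 0 ≤ τ) (hy : 625 * τ ≤ r ^ 2) (ha : 0 < a) (hC : 0 < C) :
    C * a * (297.7 - 39.04 * β - 1.05 * β ^ 2) ≤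
      C * (-(r ^ 2 * a) * (39 * β * ch / r ^ 2 + β ^ 2 * z ^ 2) -
        300 * (-a - τ * a * (39 * (β - 2) * ch / r ^ 2 + (β - 2) ^ 2 * z ^ 2))) := by
  have hr2 : 0 < r ^ 2 := by positivity
  obtain ⟨s, hs⟩ : ∃ s, s = τ / r ^ 2 := ⟨_, rfl⟩
  have hs0 : 0 ≤ s := by rw [hs]; positivity
  have hs1 : s ≤ 1 / 625 := by
    rw [hs, div_le_iff₀ hr2]; linarith only [hy]
  obtain ⟨Z, hZ⟩ : ∃ Z, Z = r ^ 2 * z ^ 2 := ⟨_, rfl⟩
  have hZ0 : 0 ≤ Z := by rw [hZ]; positivity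
  have hZ1 : Z ≤ 1.05 := by rw [hZ]; exact hz
  have e1 : C * (-(r ^ 2 * a) * (39 * β * ch / r ^ 2 + β ^ 2 * z ^ 2) -
        300 * (-a - τ * a * (39 * (β - 2) * ch / r ^ 2 + (β - 2) ^ 2 * z ^ 2))) =
      C * a * (300 - 39 * β * ch - β ^ 2 * Z + 300 * s * (39 * (β - 2) * ch + (β - 2) ^ 2 * Z)) := by
    have hτ' : τ = s * r ^ 2 := by rw [hs]; field_simp
    rw [hτ', hZ]
    field_simp
    ring
  rw [e1]
  refine mul_le_mul_of_nonneg_left ?_ (by positivity)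
  have h1 : 39 * β * ch ≤ 39.04 * β := by nlinarith only [hβ1, hβ2, hch1, hch]
  have h2 : β ^ 2 * Z ≤ 1.05 * β ^ 2 := by nlinarith only [hz, hZ, sq_nonneg β]
  have h3 : -4.69 ≤ 39 * (β - 2) * ch + (β - 2) ^ 2 * Z := by
    have h4 : 0 ≤ (β - 2) ^ 2 * Z := by positivity
    have h5 : -0.12 * ch ≤ (β - 2) * ch := mul_le_mul_of_nonneg_right (by linarith only [hβ1]) (by linarith only [hch1])
    nlinarith only [hch, h4, h5]
  have h6 : s * (-4.69) ≤ s * (39 * (β - 2) * ch + (β - 2) ^ 2 * Z) :=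
    mul_le_mul_of_nonneg_left h3 hs0
  nlinarith only [hs1, h1, h2, h6]

lemma m6_u_false {b ch z r τ a C S : ℝ} (hb1 : 3.885 < b) (hb2 : b < 3.8855) (hch1 : 1 ≤ ch)
    (hch : ch ≤ 1.001) (hr : 0 < r) (hz : r ^ 2 * z ^ 2 ≤ 1.05)
    (hτ : 0 ≤ τ) (hy : 625 * τ ≤ r ^ 2) (ha : 0 < a) (hC : 0 < C)
    (hS : S ≤ C * (r ^ 2 * a - 300 * τ * a) * ch)
    (hle : C * (-(r ^ 2 * a) * (39 * b * ch / r ^ 2 + b ^ 2 * z ^ 2) -
        300 * (-a - τ * a * (39 * (b - 2) * ch / r ^ 2 + (b - 2) ^ 2 * z ^ 2))) ≤ 78 * S / r ^ 2) :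
    False := by
  have h0 := m6_op_lower (β := b) (by linarith only [hb1, hb2]) (by linarith only [hb1, hb2]) hch1 hch hr hz hτ hy ha hC
  have hr2 : 0 < r ^ 2 := by positivity
  have h1 : 78 * S / r ^ 2 ≤ 78 * ch * (C * a) := by
    rw [div_le_iff₀ hr2]
    have : 0 ≤ C * (300 * τ * a) * ch := by positivity
    nlinarith only [hS, this]
  have hCa : 0 < C * a := by positivity
  have h2 : 78 * ch * (C * a) ≤ 78.078 * (C * a) := by nlinarith only [hch, hCa]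
  have h3 : 78.078 < 297.7 - 39.04 * b - 1.05 * b ^ 2 := by nlinarith only [hb1, hb2]
  nlinarith only [hle, h0, h1, hCa, h2, h3]

lemma m6_P_false {b ch z r τ a C S CU sh : ℝ} (hb1 : 3.885 < b) (hb2 : b < 3.8855) (hch1 : 1 ≤ ch)
    (hch : ch ≤ 1.001) (hr : 0 < r) (hz : r ^ 2 * z ^ 2 ≤ 1.05)
    (hτ : 0 ≤ τ) (hy : 625 * τ ≤ r ^ 2) (ha : 0 < a) (hC : 0 < C) (hCU : 0 ≤ CU)
    (hC2 : 2 * CU ≤ C) (hsh : |sh| ≤ 1.001 * (CU * (r ^ 3 * a)))
    (hS : S ≤ 78 * ch / r ^ 2 * (C * (r ^ 2 * a - 300 * τ * a)) + 156 * |sh| * |z| / r ^ 2)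
    (hle : C * (-(r ^ 2 * a) * (39 * (b - 1) * ch / r ^ 2 + (b - 1) ^ 2 * z ^ 2) -
        300 * (-a - τ * a * (39 * (b - 1 - 2) * ch / r ^ 2 + (b - 1 - 2) ^ 2 * z ^ 2))) ≤ S) :
    False := by
  have h0 := m6_op_lower (β := b - 1) (by linarith only [hb1, hb2]) (by linarith only [hb1, hb2]) hch1 hch hr hz hτ hy ha hC
  have hr2 : 0 < r ^ 2 := by positivity
  have hCa : 0 < C * a := by positivity
  have h1 : 78 * ch / r ^ 2 * (C * (r ^ 2 * a - 300 * τ * a)) ≤ 78 * ch * (C * a) := by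
    rw [div_mul_eq_mul_div, div_le_iff₀ hr2]
    have : 0 ≤ C * (300 * τ * a) * ch := by positivity
    nlinarith only [this]
  have h2 : 78 * ch * (C * a) ≤ 78.078 * (C * a) := by nlinarith only [hb1, hb2, hch, hCa]
  have hz1 : r * |z| ≤ 1.025 := by
    refine abs_le_of_sq_le_sq' ?_ (by norm_num) |>.2
    rw [mul_pow, sq_abs]; linarith only [hb1, hb2, hz]
  have h4 : 156 * |sh| * |z| / r ^ 2 ≤ 161 * (CU * a) := by
    rw [div_le_iff₀ hr2]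
    have hz0 := abs_nonneg z
    have e1 : 156 * |sh| * |z| ≤ 156 * (1.001 * (CU * (r ^ 3 * a))) * |z| := by
      refine mul_le_mul_of_nonneg_right ?_ hz0
      linarith only [hsh]
    have e2 : 156 * (1.001 * (CU * (r ^ 3 * a))) * |z| = 156.156 * (CU * a * r ^ 2) * (r * |z|) := by
      ring
    have e3 : 156.156 * (CU * a * r ^ 2) * (r * |z|) ≤ 156.156 * (CU * a * r ^ 2) * 1.025 :=
      mul_le_mul_of_nonneg_left hz1 (by positivity)
    have e4 : 0 ≤ CU * a * r ^ 2 := by positivity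
    nlinarith only [e1, e3, e4]
  have h5 : CU * a ≤ 0.5 * (C * a) := by nlinarith only [hb1, hb2, ha, hC2]
  have h3 : 159 < 297.7 - 39.04 * (b - 1) - 1.05 * (b - 1) ^ 2 := by nlinarith only [hb1, hb2]
  nlinarith only [hb1, hb2, hS, hle, h0, hCa, h1, h2, h4, h5, h3]

lemma m6_V_aux {z r a CU CP sh P E F : ℝ}
    (hr : 0 < r) (hz : r ^ 2 * z ^ 2 ≤ 1.05) (ha : 0 < a) (hCU : 0 ≤ CU) (hCP : 0 ≤ CP)
    (hsh : |sh| ≤ 1.001 * (CU * (r ^ 4 * a)))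
    (hP : |P| ≤ CP * (r ^ 3 * a)) (hE : |E| ≤ 1 / 100) (hF : |F| ≤ 1 / 100) :
    (20 * |z| * |P| + 39 * |sh| / r ^ 2) * ((41 * |E| + |F|) / 10) ≤
      (20.5 * CP + 39.04 * CU) * (r ^ 2 * a) * 0.042 := by
  have hr2 : 0 < r ^ 2 := by positivity
  have hz1 : r * |z| ≤ 1.025 := by
    refine abs_le_of_sq_le_sq' ?_ (by norm_num) |>.2
    rw [mul_pow, sq_abs]; linarith only [hz]
  have h4 : 20 * |z| * |P| ≤ 20.5 * (CP * (r ^ 2 * a)) := by
    have e1 : 20 * |z| * |P| ≤ 20 * |z| * (CP * (r ^ 3 * a)) :=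
      mul_le_mul_of_nonneg_left hP (by positivity)
    have e2 : 20 * |z| * (CP * (r ^ 3 * a)) = 20 * (CP * (r ^ 2 * a)) * (r * |z|) := by ring
    have e3 : 20 * (CP * (r ^ 2 * a)) * (r * |z|) ≤ 20 * (CP * (r ^ 2 * a)) * 1.025 :=
      mul_le_mul_of_nonneg_left hz1 (by positivity)
    linarith only [e1, e3]
  have h5 : 39 * |sh| / r ^ 2 ≤ 39.04 * (CU * (r ^ 2 * a)) := by
    rw [div_le_iff₀ hr2]
    have e1 : 0 ≤ CU * (r ^ 4 * a) := by positivity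
    have e2 : 39.04 * (CU * (r ^ 2 * a)) * r ^ 2 = 39.04 * (CU * (r ^ 4 * a)) := by ring
    rw [e2]
    linarith only [hsh, e1]
  refine (mul_le_mul (add_le_add h4 h5) (show _ ≤ (0.042 : ℝ) by linarith only [hE, hF]) (by positivity)
    (by positivity)).trans (le_of_eq ?_)
  ring

lemma m6_V_aux2 {ch r τ a C E : ℝ} (hch1 : 1 ≤ ch) (hch : ch ≤ 1.001) (hr : 0 < r)
    (hτ : 0 ≤ τ) (hy : 625 * τ ≤ r ^ 2) (ha : 0 < a) (hC : 0 < C) (hE : |E| ≤ 1 / 100) :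
    0.5 * (C * (r ^ 2 * a)) + (78 * ch / r ^ 2 + 2 * |E|) * (C * (r ^ 2 * a - 300 * τ * a)) ≤
      C * (r ^ 2 * a - 300 * τ * a) + 78.078 * (C * a) := by
  have hr2 : 0 < r ^ 2 := by positivity
  have hCa : 0 < C * a := by positivity
  have h1 : 78 * ch / r ^ 2 * (C * (r ^ 2 * a - 300 * τ * a)) ≤ 78 * ch * (C * a) := by
    rw [div_mul_eq_mul_div, div_le_iff₀ hr2]
    have : 0 ≤ C * (300 * τ * a) * ch := by positivity
    nlinarith only [this]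
  have h2 : 78 * ch * (C * a) ≤ 78.078 * (C * a) := by nlinarith only [hch, hCa]
  have hK : 0.52 * (C * (r ^ 2 * a)) ≤ C * (r ^ 2 * a - 300 * τ * a) := by
    have h3 : 300 * τ * a ≤ 0.48 * (r ^ 2 * a) := by nlinarith only [hy, ha]
    have h4 : C * (300 * τ * a) ≤ C * (0.48 * (r ^ 2 * a)) := mul_le_mul_of_nonneg_left h3 hC.le
    linarith only [h4]
  have hCr : 0 < C * (r ^ 2 * a) := by positivity
  have hK0 : 0 ≤ C * (r ^ 2 * a - 300 * τ * a) := by linarith only [hK, hCr]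
  have h3 : 2 * |E| * (C * (r ^ 2 * a - 300 * τ * a)) ≤ 0.02 * (C * (r ^ 2 * a - 300 * τ * a)) :=
    mul_le_mul_of_nonneg_right (by linarith only [hE]) hK0
  rw [add_mul]
  linarith only [h1, h2, hK, hCr, h3]

lemma m6_V_false {b ch z r τ a C S CU CP sh P E F : ℝ} (hb1 : 3.885 < b) (hb2 : b < 3.8855)
    (hch1 : 1 ≤ ch)
    (hch : ch ≤ 1.001) (hr : 0 < r) (hz : r ^ 2 * z ^ 2 ≤ 1.05)
    (hτ : 0 ≤ τ) (hy : 625 * τ ≤ r ^ 2) (ha : 0 < a) (hC : 0 < C) (hCU : 0 ≤ CU) (hCP : 0 ≤ CP)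
    (hC2 : 2 * CP + 4 * CU ≤ C) (hsh : |sh| ≤ 1.001 * (CU * (r ^ 4 * a)))
    (hP : |P| ≤ CP * (r ^ 3 * a)) (hE : |E| ≤ 1 / 100) (hF : |F| ≤ 1 / 100)
    (hS : S ≤ (78 * ch / r ^ 2 + 2 * |E|) * (C * (r ^ 2 * a - 300 * τ * a)) +
      (20 * |z| * |P| + 39 * |sh| / r ^ 2) * ((41 * |E| + |F|) / 10))
    (hle : C * (r ^ 2 * a - 300 * τ * a) +
      C * (-(r ^ 2 * a) * (39 * (b - 2) * ch / r ^ 2 + (b - 2) ^ 2 * z ^ 2) -
        300 * (-a - τ * a * (39 * (b - 2 - 2) * ch / r ^ 2 + (b - 2 - 2) ^ 2 * z ^ 2))) ≤ S) :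
    False := by
  have h0 := m6_op_lower (β := b - 2) (by linarith only [hb1, hb2]) (by linarith only [hb1, hb2]) hch1 hch hr hz hτ hy ha hC
  have h1 := m6_V_aux2 hch1 hch hr hτ hy ha hC hE
  have h2 := m6_V_aux hr hz ha hCU hCP hsh hP hE hF
  have hra : 0 < r ^ 2 * a := by positivity
  have h3 : (2 * CP + 4 * CU) * (r ^ 2 * a) ≤ C * (r ^ 2 * a) :=
    mul_le_mul_of_nonneg_right hC2 hra.le
  have h8 : 78.078 < 297.7 - 39.04 * (b - 2) - 1.05 * (b - 2) ^ 2 := by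
    clear * - hb1 hb2; nlinarith only [hb1, hb2]
  have hCa : 0 < C * a := by positivity
  have h9 : 78.078 * (C * a) ≤ C * a * (297.7 - 39.04 * (b - 2) - 1.05 * (b - 2) ^ 2) := by
    rw [mul_comm]; exact mul_le_mul_of_nonneg_left h8.le hCa.le
  have h10 : 0 ≤ CP * (r ^ 2 * a) := by positivity
  have h11 : 0 ≤ CU * (r ^ 2 * a) := by positivity
  have h12 : 0 < C * (r ^ 2 * a) := by positivity
  obtain ⟨X, hX⟩ : ∃ X, X = CP * (r ^ 2 * a) := ⟨_, rfl⟩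
  obtain ⟨Y, hY⟩ : ∃ Y, Y = CU * (r ^ 2 * a) := ⟨_, rfl⟩
  have h13 : (20.5 * CP + 39.04 * CU) * (r ^ 2 * a) * 0.042 = 0.861 * X + 1.63968 * Y := by
    rw [hX, hY]; ring
  have h14 : (2 * CP + 4 * CU) * (r ^ 2 * a) = 2 * X + 4 * Y := by rw [hX, hY]; ring
  rw [h13] at h2
  rw [h14] at h3
  rw [← hX] at h10
  rw [← hY] at h11
  linarith only [hS, hle, h0, h1, h9, h12, h11, h3, h2]

end Vale.Agent.P244.ST
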