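import Vale.Agent.P244.ST.M6Cal

/-!
# P244-ST, block M6 : parity and the touching principle for the barriers (helper568)
-/

open Set Filter
open scoped ContDiff Topology

namespace Vale.Agent.P244.ST.M6

open Vale.Agent.P244.ST

noncomputable section

variable {w f H K : Fn} {T t x : ℝ}

/-- `H(t,-x) = σ H(t,x)` -/
def Par' (T σ : ℝ) (H : Fn) : Prop :=
  ∀ t ∈ Ico 0 T, ∀ x ∈ Ioo (-1 : ℝ) 1, H t (-x) = σ * H t x

lemma par_Ds (h : ConfSol 20 w f T) {σ : ℝ} (hH : Par' T σ H) : Par' T (-σ) (Ds w H) := by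
  intro t ht x hx
  have h1 : (fun y => H t (-y)) =ᶠ[𝓝 x] fun y => σ * H t y := by
    filter_upwards [isOpen_Ioo.mem_nhds hx] with y hy using hH t ht y hy
  have h2 := h1.deriv_eq
  rw [deriv_comp_neg, deriv_const_mul_field] at h2
  have h3 : Dx H t (-x) = -σ * Dx H t x := by
    have e1 : Dx H t (-x) = deriv (H t) (-x) := rfl
    have e2 : Dx H t x = deriv (H t) x := rfl
    rw [e1, e2]; linarith only [h2]
  have h4 : sx (-x) = sx x := by simp only [sx, neg_sq]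
  simp only [Ds, h3, h4, h.even_w t ht x (Ioo_subset_Icc_self hx)]
  ring

lemma par_uu (h : ConfSol 20 w f T) : Par' T 1 (uu w f) := by
  intro t ht x hx
  simp only [uu, h.even_w t ht x (Ioo_subset_Icc_self hx), h.even_f t ht x (Ioo_subset_Icc_self hx),
    neg_sq, one_mul]

lemma par_rho (h : ConfSol 20 w f T) : Par' T 1 (rho w f) := by
  intro t ht x hx
  simp only [rho, h.even_w t ht x (Ioo_subset_Icc_self hx), h.even_f t ht x (Ioo_subset_Icc_self hx),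
    neg_sq, one_mul]

lemma par_rr (h : ConfSol 20 w f T) : Par' T 1 (rr w f) := by
  intro t ht x hx
  rw [rr, rr, par_rho h t ht x hx, one_mul, one_mul]

lemma par_rs (h : ConfSol 20 w f T) : Par' T (-1) (rs w f) := par_Ds h (par_rho h)

lemma par_PP (h : ConfSol 20 w f T) : Par' T (-1) (PP w f) := par_Ds h (par_uu h)

lemma par_VV (h : ConfSol 20 w f T) : Par' T 1 (VV w f) := by
  intro t ht x hx
  have h1 : Ds w (Ds w (uu w f)) t (-x) = _ := par_Ds h (par_Ds h (par_uu h)) t ht x hx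
  have h2 : Ds w (uu w f) t (-x) = _ := par_Ds h (par_uu h) t ht x hx
  have h3 : Ds w (rho w f) t (-x) = _ := par_Ds h (par_rho h) t ht x hx
  rw [VV, VV, Lp, Lp, h1, h2, h3, par_uu h t ht x hx, par_rr h t ht x hx]
  ring_nf

lemma PP_zero (h : ConfSol 20 w f T) (ht : t ∈ Ico 0 T) : PP w f t 0 = 0 := by
  have h1 := par_PP h t ht 0 ⟨by norm_num, by norm_num⟩
  rw [neg_zero] at h1
  linarith only [h1]

lemma par_yv (h : ConfSol 20 w f T) : Par' T 1 (yv w f) := by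
  intro t ht x hx
  rw [yv, yv, par_rr h t ht x hx, one_mul, one_mul]

lemma par_bar (h : ConfSol 20 w f T) (C c β : ℝ) : Par' T 1 (bar w f C c β) := by
  intro t ht x hx
  rw [bar_eq, bar_eq, par_rr h t ht x hx, one_mul, one_mul]

lemma ev_yv (h : ConfSol 20 w f T) (hT : T ≤ 1) (hz : (t, x) ∈ Om T) (hy : 25 < yv w f t x) :
    ∀ᶠ z : ℝ × ℝ in 𝓝 (t, x), z ∈ Om T ∧ 25 < yv w f z.1 z.2 := by
  have h1 : ContinuousAt (fun z : ℝ × ℝ => rr w f z.1 z.2) (t, x) :=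
    ((sm_rr h).at (isOpen_Om T) hz).continuousAt
  have hτ : 0 < 1 - t := by
    have : t < T := hz.1.2
    linarith only [hT, this]
  have h2 : ContinuousAt (fun z : ℝ × ℝ => Real.sqrt (1 - z.1)) (t, x) := by fun_prop
  have h3 : ContinuousAt (fun z : ℝ × ℝ => rr w f z.1 z.2 / Real.sqrt (1 - z.1)) (t, x) :=
    h1.div h2 (Real.sqrt_pos.2 hτ).ne'
  have h4 : ∀ᶠ z : ℝ × ℝ in 𝓝 (t, x), 25 < rr w f z.1 z.2 / Real.sqrt (1 - z.1) :=
    h3.eventually (lt_mem_nhds hy)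
  filter_upwards [(isOpen_Om T).mem_nhds hz, h4] with z hz1 hz2 using ⟨hz1, hz2⟩

/-- touching principle for the barrier `bar` in region III -/
theorem touch_bar (h : ConfSol 20 w f T) (hT : T ≤ 1) (hH : Sm (Om T) H)
    (heven : ∀ t ∈ Ioo 0 T, ∀ x ∈ Ioo (-1 : ℝ) 1, |H t (-x)| = |H t x|) {C c β t₁ : ℝ}
    (ht₁ : t₁ < T)
    (hb : ∀ t ∈ Icc 0 t₁, ∀ x ∈ Ico (0 : ℝ) 1, 25 ≤ yv w f t x → |H t x| ≤ bar w f C c β t x)
    (ht : t ∈ Ioc 0 t₁) (hx : x ∈ Ico (0 : ℝ) 1) (hy : 25 < yv w f t x)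
    (hle : bar w f C c β t x ≤ |H t x|) :
    ∃ σ : ℝ, (σ = 1 ∨ σ = -1) ∧ σ * H t x = bar w f C c β t x ∧
      DT w f (bar w f C c β) t x - Lp w f (bar w f C c β) t x ≤
        σ * (DT w f H t x - Lp w f H t x) := by
  have hx' : x ∈ Ioo (-1 : ℝ) 1 := ⟨by linarith only [hx, hx.1], hx.2⟩
  have htT : t ∈ Ioo 0 T := ⟨ht.1, lt_of_le_of_lt ht.2 ht₁⟩
  have hz : (t, x) ∈ Om T := ⟨htT, hx'⟩
  have heq : |H t x| = bar w f C c β t x := le_antisymm (hb t ⟨ht.1.le, ht.2⟩ x hx hy.le) hle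
  obtain ⟨σ, hσ, hσH⟩ : ∃ σ : ℝ, (σ = 1 ∨ σ = -1) ∧ σ * H t x = |H t x| := by
    rcases le_total 0 (H t x) with h0 | h0
    · exact ⟨1, Or.inl rfl, by rw [abs_of_nonneg h0, one_mul]⟩
    · exact ⟨-1, Or.inr rfl, by rw [abs_of_nonpos h0]; ring⟩
  have hσle : ∀ a : ℝ, σ * a ≤ |a| := by
    intro a
    rcases hσ with rfl | rfl
    · rw [one_mul]; exact le_abs_self a
    · rw [neg_one_mul]; exact neg_le_abs a
  refine ⟨σ, hσ, by rw [hσH, heq], ?_⟩
  have s1 : Sm (Om T) (fun t x => σ * H t x) := (Sm.const σ).mul hH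
  have s2 := sm_bar h C c β
  have s3 : Sm (Om T) (fun t x => σ * H t x - bar w f C c β t x) := s1.sub s2
  have hnear : ∀ᶠ z : ℝ × ℝ in 𝓝 (t, x), z.1 ≤ t → σ * H z.1 z.2 - bar w f C c β z.1 z.2 ≤ 0 := by
    filter_upwards [ev_yv h hT hz hy] with z hz1 hz2
    have hzt : z.1 ∈ Ioo 0 T := hz1.1.1
    have hzx : z.2 ∈ Ioo (-1 : ℝ) 1 := hz1.1.2
    have hzc : z.1 ∈ Icc 0 t₁ := ⟨hzt.1.le, hz2.trans ht.2⟩
    have key : |H z.1 z.2| ≤ bar w f C c β z.1 z.2 := by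
      rcases le_or_gt 0 z.2 with h0 | h0
      · exact hb z.1 hzc z.2 ⟨h0, hzx.2⟩ hz1.2.le
      · have hm : -z.2 ∈ Ico (0 : ℝ) 1 := ⟨by linarith only [h0], by linarith only [hzx, hzx.1]⟩
        have e1 := par_yv h z.1 (Ioo_subset_Ico_self hzt) z.2 hzx
        have e2 := par_bar h C c β z.1 (Ioo_subset_Ico_self hzt) z.2 hzx
        have e3 := hb z.1 hzc (-z.2) hm (by rw [e1, one_mul]; exact hz1.2.le)
        rw [heven z.1 hzt z.2 hzx, e2, one_mul] at e3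
        exact e3
    linarith only [hσle, key, hσle (H z.1 z.2)]
  have ht := M.touch h htT hx' (H := fun t x => σ * H t x - bar w f C c β t x)
    ((s3.at (isOpen_Om T) hz).of_le (by norm_cast))
    (by rw [hσH, heq]; ring) hnear
  have h1 := ht.2.2.2.2.2.2
  rw [DT_sub s1 s2 hz, Lp_sub h s1 s2 hz, DT_smul σ hH hz, Lp_smul h σ hH hz] at h1
  linarith only [h1]

end

end Vale.Agent.P244.ST.M6
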