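import Vale.Agent.P244.ST.M.Skel
import Vale.Agent.P244.ST.M6Pt
import Vale.Agent.P244.ST.M6Touch

/-!
# P244-ST, block M6 : closure of (b5) in region III (helper568)
-/

open Set Filter
open scoped ContDiff Topology

namespace Vale.Agent.P244.ST.M6

open Vale.Agent.P244.ST

noncomputable section

/-- the pointwise evolution identities used here -/
structure Idt (w f : Fn) (T : ℝ) : Prop where
  rho : ∀ t ∈ Ioo 0 T, ∀ x ∈ Ioo (-1 : ℝ) 1, DT w f (rho w f) t x = yy w f t x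
  u : ∀ t ∈ Ioo 0 T, ∀ x ∈ Ioo (-1 : ℝ) 1, DT w f (uu w f) t x = VV w f t x
  P : ∀ t ∈ Ioo 0 T, ∀ x ∈ Ioo (-1 : ℝ) 1, DT w f (PP w f) t x = Lp w f (PP w f) t x +
    (78 * Real.cosh (uu w f t x) / rr w f t x ^ 2 - 40 * rs w f t x ^ 2 - 10 * PP w f t x ^ 2) *
      PP w f t x - 156 * Real.sinh (uu w f t x) / rr w f t x ^ 2 * rs w f t x
  V : ∀ t ∈ Ioo 0 T, ∀ x ∈ Ioo (-1 : ℝ) 1, 10 * DT w f (VV w f) t x = 10 * Lp w f (VV w f) t x +
    10 * (78 * Real.cosh (uu w f t x) / rr w f t x ^ 2 - 20 * PP w f t x ^ 2 +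
      2 * E0 w f t x) * VV w f t x +
    (-20 * rs w f t x * PP w f t x - 39 * Real.sinh (uu w f t x) / rr w f t x ^ 2) *
      (41 * E0 w f t x - RR w f t x)

/-- facts on the parameters -/
structure P6 (q : Par) : Prop where
  rho0 : q.rho0 ≤ 25
  rho0' : 0 < q.rho0
  K1 : 0 ≤ M.K1 q
  CU : 0 < q.CU
  CP : 2 * q.CU ≤ q.CP
  CV : 2 * q.CP + 4 * q.CU ≤ q.CV
  N : 2000 ≤ q.N
  eps : 0 < q.eps
  small : M.K1 q * q.eps * q.N ^ (bb - 1) ≤ 1 / 1000

/-- pointwise data at a point of region III -/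
structure Pt6 (q : Par) (w f : Fn) (t x : ℝ) : Prop where
  tau : 0 < tau t
  y : 625 * ST.tau t ≤ rr w f t x ^ 2
  Z : rr w f t x ^ 2 * rs w f t x ^ 2 ≤ 1.05
  ch : Real.cosh (uu w f t x) ≤ 1.001
  E : |E0 w f t x| ≤ 1 / 100
  R : |RR w f t x| ≤ 1 / 100

lemma rr_pos (w f : Fn) (t x : ℝ) : 0 < rr w f t x := Real.exp_pos _

lemma pt6 {q : Par} (hq : P6 q) {w f : Fn} {t x : ℝ} (ht : t < 1) (hF : M.FO q w f t x)
    (hr : rr w f t x ≤ q.N) (hy : 25 < yv w f t x) : Pt6 q w f t x := by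
  have hr0 := rr_pos w f t x
  have hτ : 0 < tau t := by unfold tau; linarith only [ht]
  have hxi0 : 0 ≤ M.xi q (rr w f t x) := (abs_nonneg _).trans hF.u_le
  have hxi := hF.xi_le
  have hxi2 : M.xi q (rr w f t x) ^ 2 ≤ 1 / 10 ^ 12 := by nlinarith only [hxi0, hxi]
  have heta : q.eta ≤ 1 / 400 := by
    unfold Par.eta
    rw [div_le_div_iff₀ (by have := hq.N; positivity) (by norm_num)]
    nlinarith only [hq, hr, hr0, hq.N]
  refine ⟨hτ, ?_, ?_, ?_, ?_, ?_⟩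
  · have hs : 0 < Real.sqrt (tau t) := Real.sqrt_pos.2 hτ
    have h1 : 25 * Real.sqrt (tau t) < rr w f t x := by
      rw [yv, lt_div_iff₀ hs] at hy
      exact hy
    have h2 : Real.sqrt (tau t) ^ 2 = tau t := Real.sq_sqrt hτ.le
    nlinarith only [hr0, hs, h1, h2]
  · have h1 := hF.Z_le
    unfold ZZ at h1
    nlinarith only [hxi2, h1]
  · refine m6_cosh_le ?_
    have := hF.u_le
    linarith only [hxi, this]
  · have h1 := hF.E0_le
    have h2 : M.xi q (rr w f t x) ^ 2 / rr w f t x ^ 2 ≤ 1 / 10 ^ 6 := by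
      have e1 : M.xi q (rr w f t x) = M.K1 q * q.eps * rr w f t x ^ (bb - 1) * rr w f t x := by
        unfold M.xi
        have : rr w f t x ^ bb = rr w f t x ^ (bb - 1) * rr w f t x := by
          nth_rewrite 3 [← Real.rpow_one (rr w f t x)]
          rw [← Real.rpow_add hr0]
          congr 1; ring
        rw [this]; ring
      have e2 : rr w f t x ^ (bb - 1) ≤ q.N ^ (bb - 1) :=
        Real.rpow_le_rpow hr0.le hr (by linarith only [m6_bb_bounds.1])
      have e3 : 0 ≤ M.K1 q * q.eps * rr w f t x ^ (bb - 1) := by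
        have := hq.K1
        have := hq.eps
        positivity
      have e4 : M.K1 q * q.eps * rr w f t x ^ (bb - 1) ≤ 1 / 1000 := by
        refine le_trans (mul_le_mul_of_nonneg_left e2 ?_) hq.small
        have := hq.K1
        have := hq.eps
        positivity
      rw [e1, mul_pow, mul_div_assoc, div_self (by positivity), mul_one]
      nlinarith only [hr0, hxi0, e1, e3, e4]
    have h3 : 3000 * M.xi q (rr w f t x) ^ 2 / rr w f t x ^ 2 =
        3000 * (M.xi q (rr w f t x) ^ 2 / rr w f t x ^ 2) := by ring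
    rw [h3] at h1
    linarith only [heta, h1, h2]
  · rw [abs_of_nonneg hF.R_nonneg]
    linarith only [hF, heta, hF.R_le]

lemma rpow_split {r : ℝ} (hr : 0 < r) (β : ℝ) : r ^ β = r ^ 2 * r ^ (β - 2) := by
  rw [← Real.rpow_natCast r 2, ← Real.rpow_add hr]
  congr 1
  push_cast
  ring

section

variable {q : Par} {w f : Fn} {T t x t₁ : ℝ}

lemma UB_bar : q.UB t (rr w f t x) = bar w f (q.CU * q.eps) 0 bb t x := by
  rw [bar_eq, Par.UB, zero_mul, Real.exp_zero, mul_one]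

lemma PB_bar : q.PB t (rr w f t x) = bar w f (q.CP * q.eps) 0 (bb - 1) t x := by
  rw [bar_eq, Par.PB, zero_mul, Real.exp_zero, mul_one]
  congr 4
  ring

lemma VB_bar : q.VB t (rr w f t x) = bar w f (q.CV * q.eps) 1 (bb - 2) t x := by
  rw [bar_eq, Par.VB, one_mul]
  congr 4
  ring

lemma close_u (h : ConfSol 20 w f T) (hT : T ≤ 1) (hid : Idt w f T) (hq : P6 q) (ht₁ : t₁ < T)
    (hb : ∀ t ∈ Icc 0 t₁, ∀ x ∈ Ico (0 : ℝ) 1, 25 ≤ yv w f t x →
      |uu w f t x| ≤ q.UB t (rr w f t x))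
    (ht : t ∈ Ioc 0 t₁) (hx : x ∈ Ico (0 : ℝ) 1) (hy : 25 < yv w f t x) (hp : Pt6 q w f t x) :
    |uu w f t x| < q.UB t (rr w f t x) := by
  by_contra hcon
  push Not at hcon
  have hx' : x ∈ Ioo (-1 : ℝ) 1 := ⟨by linarith only [hx, hx.1], hx.2⟩
  have htT : t ∈ Ioo 0 T := ⟨ht.1, lt_of_le_of_lt ht.2 ht₁⟩
  rw [UB_bar] at hcon
  obtain ⟨σ, hσ, h1, h2⟩ := touch_bar h hT (sm_uu h) (fun t ht x hx => by
    rw [par_uu h t (Ioo_subset_Ico_self ht) x hx, one_mul]) ht₁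
    (fun t ht x hx hy => by rw [← UB_bar]; exact hb t ht x hx hy) ht hx hy hcon
  rw [op_bar h (hid.rho t htT x hx') _ _ _ ⟨htT, hx'⟩, hid.u t htT x hx'] at h2
  have hr := rr_pos w f t x
  have ha : 0 < rr w f t x ^ (bb - 2) := Real.rpow_pos_of_pos hr _
  have hC : 0 < q.CU * q.eps := mul_pos hq.CU hq.eps
  rw [bar_eq, rpow_split hr bb, zero_mul, Real.exp_zero, mul_one] at h1
  rw [zero_mul, zero_mul, Real.exp_zero, mul_one, zero_add] at h2
  have hσle : ∀ a : ℝ, σ * a ≤ |a| := by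
    intro a
    rcases hσ with rfl | rfl
    · rw [one_mul]; exact le_abs_self a
    · rw [neg_one_mul]; exact neg_le_abs a
  have hσu : |uu w f t x| = σ * uu w f t x := by
    have hpos : 0 ≤ σ * uu w f t x := by
      rw [h1]
      have : 0 ≤ rr w f t x ^ 2 * rr w f t x ^ (bb - 2) - 300 * tau t * rr w f t x ^ (bb - 2) := by
        have h3 := hp.y
        have h4 := hp.tau
        have : 0 ≤ (rr w f t x ^ 2 - 300 * tau t) * rr w f t x ^ (bb - 2) :=
          mul_nonneg (by linarith only [h3, h4]) ha.le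
        linarith only [this]
      exact mul_nonneg hC.le this
    rcases hσ with rfl | rfl
    · rw [one_mul] at hpos ⊢; exact abs_of_nonneg hpos
    · rw [neg_one_mul] at hpos ⊢; exact abs_of_nonpos (by linarith only [hpos])
  have hS : |Real.sinh (uu w f t x)| ≤ q.CU * q.eps * (rr w f t x ^ 2 * rr w f t x ^ (bb - 2) -
      300 * tau t * rr w f t x ^ (bb - 2)) * Real.cosh (uu w f t x) := by
    rw [← h1, ← hσu]
    exact m6_abs_sinh_le _
  refine m6_u_false m6_bb_bounds.1 m6_bb_bounds.2 (Real.one_le_cosh _) hp.ch hr hp.Z hp.tau.le hp.y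
    ha hC hS (h2.trans ?_)
  have h5 : VV w f t x - Lp w f (uu w f) t x = 78 * Real.sinh (uu w f t x) / rr w f t x ^ 2 := by
    rw [VV]; ring
  rw [h5]
  have h6 : σ * (78 * Real.sinh (uu w f t x) / rr w f t x ^ 2) =
      78 * (σ * Real.sinh (uu w f t x)) / rr w f t x ^ 2 := by ring
  rw [h6]
  have := hσle (Real.sinh (uu w f t x))
  gcongr

/-- bound of `sinh u` in region III -/
lemma sinh_bound (hq : P6 q) (hp : Pt6 q w f t x)
    (hu : |uu w f t x| ≤ q.UB t (rr w f t x)) :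
    |Real.sinh (uu w f t x)| ≤ 1.001 * (q.CU * q.eps * rr w f t x ^ bb) := by
  have hr := rr_pos w f t x
  have ha : 0 < rr w f t x ^ (bb - 2) := Real.rpow_pos_of_pos hr _
  have hb : 0 < rr w f t x ^ bb := Real.rpow_pos_of_pos hr _
  have hC : 0 < q.CU * q.eps := mul_pos hq.CU hq.eps
  have h1 : q.UB t (rr w f t x) ≤ q.CU * q.eps * rr w f t x ^ bb := by
    unfold Par.UB
    refine mul_le_mul_of_nonneg_left ?_ hC.le
    have := hp.tau
    have : 0 ≤ 300 * tau t * rr w f t x ^ (bb - 2) := by positivity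
    linarith only [this]
  have h2 := m6_abs_sinh_le (uu w f t x)
  have h3 : |uu w f t x| * Real.cosh (uu w f t x) ≤ q.CU * q.eps * rr w f t x ^ bb * 1.001 :=
    mul_le_mul (hu.trans h1) hp.ch (by linarith only [Real.one_le_cosh (uu w f t x)]) (by positivity)
  linarith only [h2, h3]

/-- bound of `P` in region III -/
lemma P_bound (hq : P6 q) (hp : Pt6 q w f t x)
    (hu : |PP w f t x| ≤ q.PB t (rr w f t x)) :
    |PP w f t x| ≤ q.CP * q.eps * rr w f t x ^ (bb - 1) := by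
  have hr := rr_pos w f t x
  have ha : 0 < rr w f t x ^ (bb - 3) := Real.rpow_pos_of_pos hr _
  have hC : 0 < q.CP * q.eps := mul_pos (by linarith only [hq, hq.CP, hq.CU]) hq.eps
  refine hu.trans ?_
  unfold Par.PB
  refine mul_le_mul_of_nonneg_left ?_ hC.le
  have := hp.tau
  have : 0 ≤ 300 * tau t * rr w f t x ^ (bb - 3) := by positivity
  linarith only [this]

lemma close_P (h : ConfSol 20 w f T) (hT : T ≤ 1) (hid : Idt w f T) (hq : P6 q) (ht₁ : t₁ < T)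
    (hb : ∀ t ∈ Icc 0 t₁, ∀ x ∈ Ico (0 : ℝ) 1, 25 ≤ yv w f t x →
      |PP w f t x| ≤ q.PB t (rr w f t x))
    (ht : t ∈ Ioc 0 t₁) (hx : x ∈ Ico (0 : ℝ) 1) (hy : 25 < yv w f t x) (hp : Pt6 q w f t x)
    (hu : |uu w f t x| ≤ q.UB t (rr w f t x)) :
    |PP w f t x| < q.PB t (rr w f t x) := by
  by_contra hcon
  push Not at hcon
  have hx' : x ∈ Ioo (-1 : ℝ) 1 := ⟨by linarith only [hx, hx.1], hx.2⟩
  have htT : t ∈ Ioo 0 T := ⟨ht.1, lt_of_le_of_lt ht.2 ht₁⟩
  rw [PB_bar] at hcon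
  obtain ⟨σ, hσ, h1, h2⟩ := touch_bar h hT (sm_PP h) (fun t ht x hx => by
    rw [par_PP h t (Ioo_subset_Ico_self ht) x hx, neg_one_mul, abs_neg]) ht₁
    (fun t ht x hx hy => by rw [← PB_bar]; exact hb t ht x hx hy) ht hx hy hcon
  rw [op_bar h (hid.rho t htT x hx') _ _ _ ⟨htT, hx'⟩, hid.P t htT x hx'] at h2
  have hr := rr_pos w f t x
  have ha : 0 < rr w f t x ^ (bb - 1 - 2) := Real.rpow_pos_of_pos hr _
  have hC : 0 < q.CP * q.eps := mul_pos (by linarith only [hq, hq.CP, hq.CU]) hq.eps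
  have hCU : 0 < q.CU * q.eps := mul_pos hq.CU hq.eps
  rw [bar_eq, rpow_split hr (bb - 1), zero_mul, Real.exp_zero, mul_one] at h1
  rw [zero_mul, zero_mul, Real.exp_zero, mul_one, zero_add] at h2
  have hK0 : 0 ≤ q.CP * q.eps * (rr w f t x ^ 2 * rr w f t x ^ (bb - 1 - 2) -
      300 * tau t * rr w f t x ^ (bb - 1 - 2)) := by
    have h3 := hp.y
    have h4 := hp.tau
    have : 0 ≤ (rr w f t x ^ 2 - 300 * tau t) * rr w f t x ^ (bb - 1 - 2) :=
      mul_nonneg (by linarith only [h3, h4]) ha.le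
    exact mul_nonneg hC.le (by linarith only [this])
  have hsh : |Real.sinh (uu w f t x)| ≤
      1.001 * (q.CU * q.eps * (rr w f t x ^ 3 * rr w f t x ^ (bb - 1 - 2))) := by
    have e1 := sinh_bound hq hp hu
    have e2 : rr w f t x ^ bb = rr w f t x ^ 3 * rr w f t x ^ (bb - 1 - 2) := by
      rw [← Real.rpow_natCast (rr w f t x) 3, ← Real.rpow_add hr]
      congr 1
      push_cast
      ring
    rwa [e2] at e1
  refine m6_P_false m6_bb_bounds.1 m6_bb_bounds.2 (Real.one_le_cosh _) hp.ch hr hp.Z hp.tau.le hp.y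
    ha hC hCU.le (by nlinarith only [hq, hq.CP, hq.eps]) hsh le_rfl (h2.trans ?_)
  have h5 : σ * (Lp w f (PP w f) t x +
      (78 * Real.cosh (uu w f t x) / rr w f t x ^ 2 - 40 * rs w f t x ^ 2 - 10 * PP w f t x ^ 2) *
        PP w f t x - 156 * Real.sinh (uu w f t x) / rr w f t x ^ 2 * rs w f t x -
        Lp w f (PP w f) t x) =
      78 * Real.cosh (uu w f t x) / rr w f t x ^ 2 * (σ * PP w f t x) -
      (40 * rs w f t x ^ 2 + 10 * PP w f t x ^ 2) * (σ * PP w f t x) +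
      (-σ * Real.sinh (uu w f t x) * rs w f t x) * (156 / rr w f t x ^ 2) := by ring
  rw [h5, h1]
  have h6 : 0 ≤ (40 * rs w f t x ^ 2 + 10 * PP w f t x ^ 2) *
      (q.CP * q.eps * (rr w f t x ^ 2 * rr w f t x ^ (bb - 1 - 2) -
      300 * tau t * rr w f t x ^ (bb - 1 - 2))) := mul_nonneg (by positivity) hK0
  have h7 : -σ * Real.sinh (uu w f t x) * rs w f t x ≤
      |Real.sinh (uu w f t x)| * |rs w f t x| := by
    rw [← abs_mul]
    rcases hσ with rfl | rfl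
    · have := neg_le_abs (Real.sinh (uu w f t x) * rs w f t x)
      linarith only [this]
    · have := le_abs_self (Real.sinh (uu w f t x) * rs w f t x)
      linarith only [this]
  have h8 : (-σ * Real.sinh (uu w f t x) * rs w f t x) * (156 / rr w f t x ^ 2) ≤
      |Real.sinh (uu w f t x)| * |rs w f t x| * (156 / rr w f t x ^ 2) :=
    mul_le_mul_of_nonneg_right h7 (by positivity)
  have h9 : 156 * |Real.sinh (uu w f t x)| * |rs w f t x| / rr w f t x ^ 2 =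
      |Real.sinh (uu w f t x)| * |rs w f t x| * (156 / rr w f t x ^ 2) := by ring
  rw [h9]
  linarith only [h6, h8]

lemma close_V (h : ConfSol 20 w f T) (hT : T ≤ 1) (hid : Idt w f T) (hq : P6 q) (ht₁ : t₁ < T)
    (hb : ∀ t ∈ Icc 0 t₁, ∀ x ∈ Ico (0 : ℝ) 1, 25 ≤ yv w f t x →
      |VV w f t x| ≤ q.VB t (rr w f t x))
    (ht : t ∈ Ioc 0 t₁) (hx : x ∈ Ico (0 : ℝ) 1) (hy : 25 < yv w f t x) (hp : Pt6 q w f t x)
    (hu : |uu w f t x| ≤ q.UB t (rr w f t x)) (hP : |PP w f t x| ≤ q.PB t (rr w f t x)) :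
    |VV w f t x| < q.VB t (rr w f t x) := by
  by_contra hcon
  push Not at hcon
  have hx' : x ∈ Ioo (-1 : ℝ) 1 := ⟨by linarith only [hx, hx.1], hx.2⟩
  have htT : t ∈ Ioo 0 T := ⟨ht.1, lt_of_le_of_lt ht.2 ht₁⟩
  rw [VB_bar] at hcon
  obtain ⟨σ, hσ, h1, h2⟩ := touch_bar h hT (sm_VV h) (fun t ht x hx => by
    rw [par_VV h t (Ioo_subset_Ico_self ht) x hx, one_mul]) ht₁
    (fun t ht x hx hy => by rw [← VB_bar]; exact hb t ht x hx hy) ht hx hy hcon
  rw [op_bar h (hid.rho t htT x hx') _ _ _ ⟨htT, hx'⟩] at h2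
  have hr := rr_pos w f t x
  obtain ⟨C, hCdef⟩ : ∃ C, C = q.CV * q.eps * Real.exp (1 * t) := ⟨_, rfl⟩
  have ha : 0 < rr w f t x ^ (bb - 2 - 2) := Real.rpow_pos_of_pos hr _
  have hCP : 0 < q.CP := by linarith only [hq, hq.CP, hq.CU]
  have hCV : 0 < q.CV := by linarith only [hq, hCP, hq.CV, hq.CU]
  have hC : 0 < C := by
    rw [hCdef]; exact mul_pos (mul_pos hCV hq.eps) (Real.exp_pos _)
  have hCU' : 0 < q.CU * q.eps := mul_pos hq.CU hq.eps
  have hCP' : 0 < q.CP * q.eps := mul_pos hCP hq.eps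
  have hbar : bar w f (q.CV * q.eps) 1 (bb - 2) t x =
      C * (rr w f t x ^ 2 * rr w f t x ^ (bb - 2 - 2) -
        300 * tau t * rr w f t x ^ (bb - 2 - 2)) := by
    rw [bar_eq, rpow_split hr (bb - 2), hCdef]
  rw [hbar] at h1 h2
  rw [← hCdef, one_mul] at h2
  have hK0 : 0 ≤ C * (rr w f t x ^ 2 * rr w f t x ^ (bb - 2 - 2) -
      300 * tau t * rr w f t x ^ (bb - 2 - 2)) := by
    have h3 := hp.y
    have h4 := hp.tau
    have : 0 ≤ (rr w f t x ^ 2 - 300 * tau t) * rr w f t x ^ (bb - 2 - 2) :=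
      mul_nonneg (by linarith only [h3, h4]) ha.le
    exact mul_nonneg hC.le (by linarith only [this])
  have hsh : |Real.sinh (uu w f t x)| ≤
      1.001 * (q.CU * q.eps * (rr w f t x ^ 4 * rr w f t x ^ (bb - 2 - 2))) := by
    have e1 := sinh_bound hq hp hu
    have e2 : rr w f t x ^ bb = rr w f t x ^ 4 * rr w f t x ^ (bb - 2 - 2) := by
      rw [← Real.rpow_natCast (rr w f t x) 4, ← Real.rpow_add hr]
      congr 1
      push_cast
      ring
    rwa [e2] at e1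
  have hPb : |PP w f t x| ≤ q.CP * q.eps * (rr w f t x ^ 3 * rr w f t x ^ (bb - 2 - 2)) := by
    have e1 := P_bound hq hp hP
    have e2 : rr w f t x ^ (bb - 1) = rr w f t x ^ 3 * rr w f t x ^ (bb - 2 - 2) := by
      rw [← Real.rpow_natCast (rr w f t x) 3, ← Real.rpow_add hr]
      congr 1
      push_cast
      ring
    rwa [e2] at e1
  have hC2 : 2 * (q.CP * q.eps) + 4 * (q.CU * q.eps) ≤ C := by
    have e1 : 1 ≤ Real.exp (1 * t) := Real.one_le_exp (by linarith only [ht, ht.1])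
    have e2 : 2 * (q.CP * q.eps) + 4 * (q.CU * q.eps) ≤ q.CV * q.eps := by
      have := mul_le_mul_of_nonneg_right hq.CV hq.eps.le
      linarith only [this]
    have e3 : q.CV * q.eps ≤ C := by
      rw [hCdef]
      exact le_mul_of_one_le_right (mul_pos hCV hq.eps).le e1
    linarith only [e2, e3]
  refine m6_V_false m6_bb_bounds.1 m6_bb_bounds.2 (Real.one_le_cosh _) hp.ch hr hp.Z hp.tau.le hp.y
    ha hC hCU'.le hCP'.le hC2 hsh hPb hp.E hp.R le_rfl (h2.trans ?_)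
  have hV := hid.V t htT x hx'
  have h5 : σ * (DT w f (VV w f) t x - Lp w f (VV w f) t x) =
      (78 * Real.cosh (uu w f t x) / rr w f t x ^ 2 + 2 * E0 w f t x) * (σ * VV w f t x) -
      20 * PP w f t x ^ 2 * (σ * VV w f t x) +
      σ * ((-20 * rs w f t x * PP w f t x - 39 * Real.sinh (uu w f t x) / rr w f t x ^ 2) *
        ((41 * E0 w f t x - RR w f t x) / 10)) := by
    have : DT w f (VV w f) t x - Lp w f (VV w f) t x =
        (78 * Real.cosh (uu w f t x) / rr w f t x ^ 2 - 20 * PP w f t x ^ 2 +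
          2 * E0 w f t x) * VV w f t x +
        (-20 * rs w f t x * PP w f t x - 39 * Real.sinh (uu w f t x) / rr w f t x ^ 2) *
          ((41 * E0 w f t x - RR w f t x) / 10) := by linarith only [hV]
    rw [this]; ring
  rw [h5, h1]
  have h6 : 0 ≤ 20 * PP w f t x ^ 2 * (C * (rr w f t x ^ 2 * rr w f t x ^ (bb - 2 - 2) -
      300 * tau t * rr w f t x ^ (bb - 2 - 2))) := mul_nonneg (by positivity) hK0
  have hσle : ∀ a : ℝ, σ * a ≤ |a| := by
    intro a
    rcases hσ with rfl | rfl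
    · rw [one_mul]; exact le_abs_self a
    · rw [neg_one_mul]; exact neg_le_abs a
  have h7 := hσle ((-20 * rs w f t x * PP w f t x -
    39 * Real.sinh (uu w f t x) / rr w f t x ^ 2) * ((41 * E0 w f t x - RR w f t x) / 10))
  have h8 : |(-20 * rs w f t x * PP w f t x - 39 * Real.sinh (uu w f t x) / rr w f t x ^ 2) *
      ((41 * E0 w f t x - RR w f t x) / 10)| ≤
      (20 * |rs w f t x| * |PP w f t x| + 39 * |Real.sinh (uu w f t x)| / rr w f t x ^ 2) *
        ((41 * |E0 w f t x| + |RR w f t x|) / 10) := by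
    rw [abs_mul]
    refine mul_le_mul ?_ ?_ (abs_nonneg _) (by positivity)
    · refine (abs_sub _ _).trans (le_of_eq ?_)
      rw [abs_mul, abs_mul, abs_div, abs_mul, abs_of_pos (pow_pos hr 2)]
      norm_num
    · rw [abs_div, abs_of_pos (show (0 : ℝ) < 10 by norm_num)]
      have := abs_sub (41 * E0 w f t x) (RR w f t x)
      rw [abs_mul, abs_of_pos (show (0 : ℝ) < 41 by norm_num)] at this
      linarith only [this]
  have h9 : (78 * Real.cosh (uu w f t x) / rr w f t x ^ 2 + 2 * E0 w f t x) *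
      (C * (rr w f t x ^ 2 * rr w f t x ^ (bb - 2 - 2) -
        300 * tau t * rr w f t x ^ (bb - 2 - 2))) ≤
      (78 * Real.cosh (uu w f t x) / rr w f t x ^ 2 + 2 * |E0 w f t x|) *
      (C * (rr w f t x ^ 2 * rr w f t x ^ (bb - 2 - 2) -
        300 * tau t * rr w f t x ^ (bb - 2 - 2))) :=
    mul_le_mul_of_nonneg_right (by linarith only [le_abs_self (E0 w f t x)]) hK0
  linarith only [h6, h7, h8, h9]

/-- closure of (b5) in region III -/
theorem m6_core {g : ℝ → ℝ} (hid : ∀ w f : Fn, ∀ T : ℝ, ConfSol 20 w f T → Idt w f T) (hq : P6 q)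
    (hi : M.Hist q g w f T t₁) : ∀ t ∈ Ioc 0 t₁, ∀ x ∈ Ico (0 : ℝ) 1, 25 < yv w f t x →
    |uu w f t x| < q.UB t (rr w f t x) ∧ |PP w f t x| < q.PB t (rr w f t x) ∧
      |VV w f t x| < q.VB t (rr w f t x) := by
  intro t ht x hx hy
  have htc : t ∈ Icc 0 t₁ := ⟨ht.1.le, ht.2⟩
  have ht1 : t < 1 := by
    have h1 := ht.2
    have h2 := hi.mem.2
    have h3 := hi.T_le
    linarith only [h1, h2, h3]
  have hp := pt6 hq ht1 (hi.fO t htc x hx (by linarith only [hq, hy, hq.rho0])) (hi.r_le t htc x hx) hy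
  have hI := hid w f T hi.sol
  have hb := (hi.boot.b5 t htc x hx).b5 hy.le
  exact ⟨close_u hi.sol hi.T_le hI hq hi.mem.2
      (fun t ht x hx hy => ((hi.boot.b5 t ht x hx).b5 hy).1) ht hx hy hp,
    close_P hi.sol hi.T_le hI hq hi.mem.2
      (fun t ht x hx hy => ((hi.boot.b5 t ht x hx).b5 hy).2.1) ht hx hy hp hb.1,
    close_V hi.sol hi.T_le hI hq hi.mem.2
      (fun t ht x hx hy => ((hi.boot.b5 t ht x hx).b5 hy).2.2) ht hx hy hp hb.1 hb.2.1⟩

end

/-- the parameters -/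
theorem ev_P6 : Ev P6 := by
  refine ⟨0, fun B hB => ?_⟩
  refine ⟨1, one_pos, fun rho0 h1 => ?_⟩
  refine ⟨0, fun BV h2 => ?_⟩
  refine ⟨0, fun MU h3 => ?_⟩
  refine ⟨0, fun MP h4 => ?_⟩
  refine ⟨0, fun MV h5 => ?_⟩
  refine ⟨1, fun CU h6 => ?_⟩
  refine ⟨2 * CU, fun CP h7 => ?_⟩
  refine ⟨2 * CP + 4 * CU, fun CV h8 => ?_⟩
  refine ⟨0, fun GR h9 => ?_⟩
  refine ⟨1, one_pos, fun sg h10 => ?_⟩
  refine ⟨1, one_pos, fun d0 h11 => ?_⟩
  refine ⟨1, one_pos, fun rb h12 => ?_⟩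
  refine ⟨2000, fun N h13 => ?_⟩
  have hρ : 0 < rho0 := h1.1
  have hCU : 0 < CU := lt_of_lt_of_le one_pos h6
  have hCP : 0 < CP := by linarith only [h6, h7, show 2 * CU ≤ CP from h7]
  have hCV : 0 < CV := by linarith only [h6, h7, h8, show 2 * CP + 4 * CU ≤ CV from h8]
  have hN : (2000 : ℝ) ≤ N := h13
  obtain ⟨K, hK⟩ : ∃ K, K = (MU + 25 * MP + 625 * MV + CU + CP + 3 * CV) / rho0 ^ 4 := ⟨_, rfl⟩
  have hK0 : 0 < K := by
    rw [hK]
    have h3' : (0 : ℝ) ≤ MU := h3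
    have h4' : (0 : ℝ) ≤ MP := h4
    have h5' : (0 : ℝ) ≤ MV := h5
    positivity
  have hNp : 0 < N ^ (bb - 1) := Real.rpow_pos_of_pos (by linarith only [h13]) _
  refine ⟨1 / (1000 * K * N ^ (bb - 1)), by positivity, fun eps h14 => ?_⟩
  have hM : M.K1 ⟨B, rho0, BV, MU, MP, MV, CU, CP, CV, GR, sg, d0, rb, N, eps⟩ = K := by
    rw [hK]; rfl
  refine ⟨le_trans h1.2 (by norm_num), hρ, by rw [hM]; exact hK0.le, hCU, h7, h8, hN, h14.1, ?_⟩
  rw [hM]
  have h15 := h14.2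
  rw [le_div_iff₀ (by positivity)] at h15
  show K * eps * N ^ (bb - 1) ≤ 1 / 1000
  have : K * eps * N ^ (bb - 1) = eps * (1000 * K * N ^ (bb - 1)) / 1000 := by ring
  rw [this]
  linarith only [h15]

/-- MODULE M6, conditional on the pointwise identities -/
theorem m6_of_idt (hid : ∀ w f : Fn, ∀ T : ℝ, ConfSol 20 w f T → Idt w f T) : M.M6Statement :=
  fun _ _ => by
    obtain ⟨B₀, h⟩ := ev_P6
    refine ⟨B₀, fun B hB => ?_⟩
    obtain ⟨x, hx, h⟩ := h B hB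
    refine ⟨x, hx, fun rho0 h1 => ?_⟩
    obtain ⟨x, h⟩ := h rho0 h1
    refine ⟨x, fun BV h1 => ?_⟩
    obtain ⟨x, h⟩ := h BV h1
    refine ⟨x, fun MU h1 => ?_⟩
    obtain ⟨x, h⟩ := h MU h1
    refine ⟨x, fun MP h1 => ?_⟩
    obtain ⟨x, h⟩ := h MP h1
    refine ⟨x, fun MV h1 => ?_⟩
    obtain ⟨x, h⟩ := h MV h1
    refine ⟨x, fun CU h1 => ?_⟩
    obtain ⟨x, h⟩ := h CU h1
    refine ⟨x, fun CP h1 => ?_⟩
    obtain ⟨x, h⟩ := h CP h1
    refine ⟨x, fun CV h1 => ?_⟩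
    obtain ⟨x, h⟩ := h CV h1
    refine ⟨x, fun GR h1 => ?_⟩
    obtain ⟨x, hx, h⟩ := h GR h1
    refine ⟨x, hx, fun sg h1 => ?_⟩
    obtain ⟨x, hx, h⟩ := h sg h1
    refine ⟨x, hx, fun d0 h1 => ?_⟩
    obtain ⟨x, hx, h⟩ := h d0 h1
    refine ⟨x, hx, fun rb h1 => ?_⟩
    obtain ⟨x, h⟩ := h rb h1
    refine ⟨x, fun N h1 => ?_⟩
    obtain ⟨x, hx, h⟩ := h N h1
    refine ⟨x, hx, fun eps h1 => ?_⟩
    intro w f T t₁ hi
    exact m6_core hid (h eps h1) hi

end

end Vale.Agent.P244.ST.M6
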