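import Vale.Agent.P244.ST.M2D5
import Vale.Agent.P244.ST.M.Skel

/-!
# P244-ST, block M2 : the fields `th_le`, `th_ge`, `E0_le` of `FI` (region I)
-/

open Set Filter Topology
open scoped ContDiff

namespace Vale.Agent.P244.ST.M2

open Vale.Agent.P244.ST.M (FT eb)

noncomputable section

variable {w f : Fn}

/-- `r` decreases towards the tip -/
theorem rr_lt_of_lt {t : ℝ} (h : Slice w f t) (hrs : ∀ x ∈ Ioo (0 : ℝ) 1, 0 < rs w f t x)
    {x x' : ℝ} (hx : 0 < x) (hxx : x ≤ x') (hx' : x' < 1) : rr w f t x' ≤ rr w f t x := by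
  have hI : ∀ y ∈ Icc x x', y ∈ Ioo (-1 : ℝ) 1 := fun y hy =>
    ⟨by linarith only [hx, hxx, hx', hy, hy.1], lt_of_le_of_lt hy.2 hx'⟩
  have hanti : AntitoneOn (rr w f t) (Icc x x') := by
    refine antitoneOn_of_hasDerivWithinAt_nonpos (f' := fun y => r1 w f t y * rr w f t y)
      (convex_Icc _ _)
      (fun y hy => (hasDerivAt_rr h (hI y hy)).continuousAt.continuousWithinAt) ?_ ?_
    · intro y hy
      rw [interior_Icc] at hy
      exact (hasDerivAt_rr h (hI y (Ioo_subset_Icc_self hy))).hasDerivWithinAt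
    · intro y hy
      rw [interior_Icc] at hy
      have h1 := r1_neg (hI y (Ioo_subset_Icc_self hy))
        (hrs y ⟨by linarith only [hx, hy, hy.1], by linarith [hy.2]⟩)
      exact mul_nonpos_of_nonpos_of_nonneg h1.le (rr_pos y).le
  exact hanti (left_mem_Icc.2 hxx) (right_mem_Icc.2 hxx) hxx

theorem T0_pos {q : Par} {t : ℝ} (heps : 0 < q.eps) (hrho : 0 < q.rho0) (ht : t < 1) :
    0 < q.T0 t := by
  have h1 : 0 < tau t := by unfold tau; linarith only [ht]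
  unfold Par.T0 Par.A
  exact mul_pos (mul_pos heps (Real.rpow_pos_of_pos h1 _)) (Real.rpow_pos_of_pos hrho _)

/-- Region I: from `|e| ≤ eb`, `eb cosh u ≤ 10⁻⁴` and `R ≤ 3η` to the bounds for `θ` and `E0`. -/
theorem regI3 {g : ℝ → ℝ} (hg : IsBub g) {q : Par} {T t : ℝ} (hFT : FT q g w f T t)
    (heps : 0 < q.eps) (hrho : 0 < q.rho0)
    (hI : ∀ x ∈ Ioo (0 : ℝ) 1, yv w f t x ≤ q.rho0 → 0 < uu w f t x ∧
      |ee g w f t x| ≤ eb q w f t x ∧
      eb q w f t x * Real.cosh (uu w f t x) ≤ 1 / 10 ^ 4 ∧ RR w f t x ≤ 3 * q.eta) :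
    ∀ x ∈ Ioo (0 : ℝ) 1, yv w f t x ≤ q.rho0 →
      th g w f t x ≤ 0 ∧
      -th g w f t x ≤ g (uu w f t x) ^ 2 * eb q w f t x ^ 2 / 148 +
        (rr w f t x) ^ 2 * (3 * q.eta) / (1640 * Zs g (uu w f t x)) ∧
      |E0 w f t x| ≤ 11 / 10 * (3 * q.eta) +
        11 * Zs g (uu w f t x) * g (uu w f t x) ^ 2 * q.fb t (uu w f t x) := by
  intro x hx hy
  have hsl := slice_of_confSol hFT.sol hFT.mem
  have ht1 : t < 1 := lt_of_lt_of_le hFT.mem.2 hFT.T_le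
  have hrs := hFT.qual.rs_pos t hFT.mem
  have hT0 := T0_pos heps hrho ht1
  have hR0 := hFT.qual.R_nonneg t hFT.mem
  have hreg : ∀ x' ∈ Ico x 1, x' ∈ Ioo (0 : ℝ) 1 ∧ yv w f t x' ≤ q.rho0 := by
    intro x' hx'
    refine ⟨⟨lt_of_lt_of_le hx.1 hx'.1, hx'.2⟩, le_trans ?_ hy⟩
    exact div_le_div_of_nonneg_right (rr_lt_of_lt hsl hrs hx.1 hx'.1 hx'.2) (Real.sqrt_nonneg _)
  have hall : ∀ x' ∈ Ico x 1, 0 < uu w f t x' ∧ |ee g w f t x'| ≤ Eb q w f t x' ∧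
      Eb q w f t x' ≤ 1 / 1000 ∧ RR w f t x' ≤ 3 * q.eta := by
    intro x' hx'
    obtain ⟨h1, h2⟩ := hreg x' hx'
    obtain ⟨a1, a2, a3, a4⟩ := hI x' h1 h2
    refine ⟨a1, a2, ?_, a4⟩
    have hc := Real.one_le_cosh (uu w f t x')
    have he : 0 ≤ eb q w f t x' := (abs_nonneg _).trans a2
    have : Eb q w f t x' = eb q w f t x' := rfl
    rw [this]
    nlinarith only [a3, hc, he]
  have h5 := D5 hg hsl (q := q) (Rs := 3 * q.eta) hx hT0
    (fun x' hx' => hrs x' (hreg x' hx').1) (fun x' hx' => (hall x' hx').1)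
    (fun x' hx' => (hall x' hx').2.1) (fun x' hx' => (hall x' hx').2.2.1)
    (fun x' hx' => hR0 x' ⟨(hreg x' hx').1.1.le, (hreg x' hx').1.2⟩)
    (fun x' hx' => (hall x' hx').2.2.2) x ⟨le_refl x, hx.2⟩
  obtain ⟨a1, a2, a3, a4⟩ := hall x ⟨le_refl x, hx.2⟩
  refine ⟨h5.1, h5.2, ?_⟩
  have h6 := D6 hg (q := q) (Rs := 3 * q.eta) (hrs x hx) a1 a2 a3 (hR0 x ⟨hx.1.le, hx.2⟩) a4
    h5.1 h5.2
  have hRs : 0 ≤ 3 * q.eta := (hR0 x ⟨hx.1.le, hx.2⟩).trans a4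
  refine h6.trans ?_
  have e : 11 * (Zs g (uu w f t x) * g (uu w f t x) ^ 2) * q.fb t (uu w f t x) =
      11 * Zs g (uu w f t x) * g (uu w f t x) ^ 2 * q.fb t (uu w f t x) := by ring
  rw [e]
  linarith only [hRs]

end

end Vale.Agent.P244.ST.M2
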