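import Vale.Agent.P244.ST.BubHyp

/-!
# P244-ST, block M4 (pure part): the barrier for `V` in region I

`hV u = (tanh u)^(21/20) (cosh u)^(1/20)`; `closV_main` is the unperturbed inequality,
`closV` the complete pointwise inequality of CLOSURE V.
-/

open Real Set

namespace Vale.Agent.P244.ST.M4

open Vale.Agent.P244.ST Vale.Agent.P244.ST.M

lemma cosh_sq_tanh (u : ℝ) : cosh u ^ 2 * (1 - tanh u ^ 2) = 1 := by
  have hc : cosh u ≠ 0 := (cosh_pos u).ne'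
  have := cosh_sq u
  rw [tanh_eq_sinh_div_cosh]; field_simp; linarith only [this]

lemma sinh_eq_tc (u : ℝ) : sinh u = tanh u * cosh u := by
  have hc : cosh u ≠ 0 := (cosh_pos u).ne'
  rw [tanh_eq_sinh_div_cosh]; field_simp

lemma tanh_pos {u : ℝ} (hu : 0 < u) : 0 < tanh u := by
  rw [tanh_eq_sinh_div_cosh]; exact div_pos (sinh_pos_iff.2 hu) (cosh_pos u)

lemma tanh_sq_le (u : ℝ) : tanh u ^ 2 ≤ 1 := by
  nlinarith only [tanh_lt_one u, neg_one_lt_tanh u]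

lemma hasDerivAt_tanh (u : ℝ) : HasDerivAt tanh (1 - tanh u ^ 2) u := by
  have hc : cosh u ≠ 0 := (cosh_pos u).ne'
  have h := (hasDerivAt_sinh u).div (hasDerivAt_cosh u) hc
  have e : (fun v => sinh v / cosh v) = tanh := by funext v; rw [tanh_eq_sinh_div_cosh]
  have h2 : HasDerivAt tanh ((cosh u * cosh u - sinh u * sinh u) / cosh u ^ 2) u := by
    rw [← e]; exact h
  convert h2 using 1
  rw [tanh_eq_sinh_div_cosh]; field_simp

/-- the profile of the `V` barrier -/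
noncomputable def hV (u : ℝ) : ℝ := tanh u ^ (21 / 20 : ℝ) * cosh u ^ (1 / 20 : ℝ)

/-- first derivative -/
noncomputable def hV1 (u : ℝ) : ℝ := hV u * (21 / 20 / tanh u - tanh u)

/-- second derivative -/
noncomputable def hV2 (u : ℝ) : ℝ := hV u * (21 / 400 / tanh u ^ 2 - 41 / 20 + 2 * tanh u ^ 2)

lemma hV_pos {u : ℝ} (hu : 0 < u) : 0 < hV u :=
  mul_pos (rpow_pos_of_pos (tanh_pos hu) _) (rpow_pos_of_pos (cosh_pos u) _)

lemma hasDerivAt_hV {u : ℝ} (hu : 0 < u) : HasDerivAt hV (hV1 u) u := by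
  have hT := tanh_pos hu
  have hc := cosh_pos u
  have h1 := (hasDerivAt_tanh u).rpow_const (p := (21 / 20 : ℝ)) (Or.inl hT.ne')
  have h2 := (hasDerivAt_cosh u).rpow_const (p := (1 / 20 : ℝ)) (Or.inl hc.ne')
  have h := h1.mul h2
  refine h.congr_deriv ?_
  have e1 : tanh u ^ ((21 / 20 : ℝ) - 1) = tanh u ^ (21 / 20 : ℝ) / tanh u := by
    rw [rpow_sub hT, rpow_one]
  have e2 : cosh u ^ ((1 / 20 : ℝ) - 1) = cosh u ^ (1 / 20 : ℝ) / cosh u := by
    rw [rpow_sub hc, rpow_one]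
  rw [e1, e2, hV1, hV, sinh_eq_tc u]
  field_simp
  ring

lemma hasDerivAt_hV1 {u : ℝ} (hu : 0 < u) : HasDerivAt hV1 (hV2 u) u := by
  have hT := tanh_pos hu
  have h1 := hasDerivAt_hV hu
  have ht := hasDerivAt_tanh u
  have h2 : HasDerivAt (fun v => 21 / 20 / tanh v - tanh v)
      ((0 * tanh u - 21 / 20 * (1 - tanh u ^ 2)) / tanh u ^ 2 - (1 - tanh u ^ 2)) u :=
    (((hasDerivAt_const u (21 / 20 : ℝ)).div ht hT.ne')).sub ht
  have h := h1.mul h2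
  refine h.congr_deriv ?_
  rw [hV1, hV2]
  field_simp
  ring

/-- basic numbers attached to `u > 0` and a bubble -/
structure Num (g : ℝ → ℝ) (u T c k : ℝ) : Prop where
  T0 : 0 < T
  T1 : T < 1
  c1 : 1 ≤ c
  cT : c ^ 2 * (1 - T ^ 2) = 1
  k2 : 2 < k
  kk : k < 21147 / 10000
  g_eq : g u = k * T
  tanh_eq : tanh u = T
  cosh_eq : cosh u = c
  sinh_eq : sinh u = T * c
  kT : k - 2 ≤ 118 / 1000 * (1 - T ^ 2)

lemma num {g : ℝ → ℝ} (hg : IsBub g) {u : ℝ} (hu : 0 < u) :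
    Num g u (tanh u) (cosh u) (g u / tanh u) := by
  have hT := tanh_pos hu
  have hT1 := tanh_lt_one u
  have hk : g u / tanh u < 21147 / 10000 := by
    rw [div_lt_iff₀ hT]
    nlinarith only [hg, hu, hT, hg.upper u hu, kap_lt]
  have hk2 : 2 < g u / tanh u := by
    rw [lt_div_iff₀ hT]; exact hg.lower u hu
  have hge : g u = g u / tanh u * tanh u := by field_simp
  refine ⟨hT, hT1, one_le_cosh u, cosh_sq_tanh u, hk2, hk, hge, rfl, rfl, sinh_eq_tc u, ?_⟩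
  -- k - 2 = k g1 / q ≤ k² (1-T²)/ q
  have ho := g_ode hg hu
  have hm := hg.ratio u hu
  have h2 := hg.lt_two u hu
  set T := tanh u with hTd
  set k := g u / T with hkd
  have hgp : 0 < g u := by rw [hge]; positivity
  have hq : 38 ≤ 39 - g u ^ 2 / 4 := by nlinarith only [h2, hk, hk2, hgp]
  have h1 : deriv g u ≤ k * (1 - T ^ 2) := by
    rw [hkd]
    rw [div_mul_eq_mul_div, le_div_iff₀ hT]; exact hm
  have hT2 : 0 ≤ 1 - T ^ 2 := by nlinarith only [hT, hT1]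
  -- (39 - g²/4) (k - 2) T = g g1 ≤ k T * k (1 - T²)
  have h3 : (39 - g u ^ 2 / 4) * ((k - 2) * T) ≤ (k * T) * (k * (1 - T ^ 2)) := by
    have : (39 - g u ^ 2 / 4) * ((k - 2) * T) = g u * deriv g u := by
      rw [ho]; congr 1; rw [hkd]; field_simp
    rw [this, hge]
    exact mul_le_mul_of_nonneg_left h1 (by positivity)
  have h4 : (39 - g u ^ 2 / 4) * (k - 2) ≤ k ^ 2 * (1 - T ^ 2) := by
    have : ((39 - g u ^ 2 / 4) * (k - 2)) * T ≤ (k ^ 2 * (1 - T ^ 2)) * T := by nlinarith only [h3]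
    exact le_of_mul_le_mul_right this hT
  have h5 : 38 * (k - 2) ≤ k ^ 2 * (1 - T ^ 2) := by nlinarith only [hT, hT1, hk2, hq, h3, h4]
  have h6 : k ^ 2 ≤ 4472 / 1000 := by nlinarith only [hT, hk, hk2, h5]
  nlinarith only [hk2, h5, h6]


/-- `ω = k²/q` -/
lemma omega_bounds {g : ℝ → ℝ} (hg : IsBub g) {u : ℝ} (hu : 0 < u) :
    ∃ om : ℝ, 4 / 39 ≤ om ∧ om ≤ 1177 / 10000 ∧
      Zs g u * g u ^ 2 = 39 * cosh u * (om * tanh u ^ 2) ∧
      Zs g u * g u = 39 * cosh u * (om / (g u / tanh u) * tanh u) ∧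
      om / (g u / tanh u) ≤ 557 / 10000 ∧ 1 / 20 ≤ om / (g u / tanh u) := by
  have hn := num hg hu
  have hT := hn.T0
  have hT1 := hn.T1
  have hk2 := hn.k2
  have hkk := hn.kk
  have hge := hn.g_eq
  have h2 := hg.lt_two u hu
  set T := tanh u with hTd
  set k := g u / T with hkd
  have hgp : 0 < g u := by rw [hge]; positivity
  have hq : 38 ≤ 39 - g u ^ 2 / 4 := by nlinarith only [h2, hk2, hkk, hgp]
  have hq0 : (0 : ℝ) < 39 - g u ^ 2 / 4 := by linarith only [hk2, hkk, hq]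
  have hq39 : 39 - g u ^ 2 / 4 ≤ 39 := by nlinarith only [sq_nonneg (g u)]
  refine ⟨k ^ 2 / (39 - g u ^ 2 / 4), ?_, ?_, ?_, ?_, ?_, ?_⟩
  · rw [div_le_div_iff₀ (by norm_num) hq0]; nlinarith only [hk2]
  · rw [div_le_iff₀ hq0]; nlinarith only [h2, hT, hT1, hk2, hkk, hgp]
  · rw [Zs, qb, hge]; field_simp
  · rw [Zs, qb]
    have : k ^ 2 / (39 - g u ^ 2 / 4) / k = k / (39 - g u ^ 2 / 4) := by
      have : k ≠ 0 := by linarith only [hk2, hkk]
      field_simp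
    rw [this]
    nth_rewrite 2 [hge]
    ring
  · have : k ^ 2 / (39 - g u ^ 2 / 4) / k = k / (39 - g u ^ 2 / 4) := by
      have : k ≠ 0 := by linarith only [hk2, hkk]
      field_simp
    rw [this, div_le_iff₀ hq0]; nlinarith only [hk2, hkk, hq]
  · have : k ^ 2 / (39 - g u ^ 2 / 4) / k = k / (39 - g u ^ 2 / 4) := by
      have : k ≠ 0 := by linarith only [hk2, hkk]
      field_simp
    rw [this, le_div_iff₀ hq0]; nlinarith only [hk2, hkk]

/-- the unperturbed inequality of closure V -/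
lemma closV_main {g : ℝ → ℝ} (hg : IsBub g) {u : ℝ} (hu : 0 < u) :
    93 / 1000 * 39 * cosh u * hV u ≤
      78 * sinh u * hV1 u - hV2 u * (Zs g u * g u ^ 2) - 78 * cosh u * hV u
        + 20 * (Zs g u * g u ^ 2) * hV u := by
  obtain ⟨om, ho1, ho2, hz, -⟩ := omega_bounds hg hu
  have hT := tanh_pos hu
  have hT1 := tanh_lt_one u
  have hc := cosh_pos u
  have hh := hV_pos hu
  rw [hz, hV1, hV2, sinh_eq_tc u]
  set T := tanh u with hTd
  set c := cosh u with hcd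
  set h := hV u with hhd
  have e : 78 * (T * c) * (h * (21 / 20 / T - T)) -
      h * (21 / 400 / T ^ 2 - 41 / 20 + 2 * T ^ 2) * (39 * c * (om * T ^ 2)) - 78 * c * h +
      20 * (39 * c * (om * T ^ 2)) * h =
      39 * c * h * (2 * (21 / 20 - T ^ 2) - 2 +
        om * (441 / 20 * T ^ 2 - 21 / 400 - 2 * T ^ 4)) := by
    field_simp; ring
  rw [e]
  have hT2 : T ^ 2 ≤ 1 := by nlinarith only [hT, hT1]
  have key : 93 / 1000 ≤ 2 * (21 / 20 - T ^ 2) - 2 +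
      om * (441 / 20 * T ^ 2 - 21 / 400 - 2 * T ^ 4) := by
    have hT4 : T ^ 4 = (T ^ 2) ^ 2 := by ring
    rcases le_total 0 (441 / 20 * T ^ 2 - 21 / 400 - 2 * T ^ 4) with hP | hP
    · have := mul_le_mul_of_nonneg_right ho1 hP
      nlinarith only [hT, hT1, hT2, hP, this, sq_nonneg T]
    · have := mul_le_mul_of_nonpos_right ho2 hP
      nlinarith only [hT, hT1, hT2, this, sq_nonneg T, mul_nonneg (sq_nonneg T) (sub_nonneg.2 hT2)]
  have hp : 0 < 39 * c * h := by positivity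
  nlinarith only [key, hp, mul_le_mul_of_nonneg_left key hp.le]

/-- the barrier of `f` in region I -/
noncomputable def fbar (B τ T0 u : ℝ) : ℝ := B / τ * (tanh u / T0) ^ (1 / 20 : ℝ) * cosh u ^ (-(19 / 20) : ℝ)

/-- the barrier of `V` in region I -/
noncomputable def Vbar (BV τ T0 u : ℝ) : ℝ :=
  BV / τ * (tanh u / T0) ^ (1 / 20 : ℝ) * tanh u * cosh u ^ (1 / 20 : ℝ)

lemma Vbar_eq {BV τ T0 u : ℝ} (hT0 : 0 < T0) (hu : 0 < u) :
    Vbar BV τ T0 u = BV / τ / T0 ^ (1 / 20 : ℝ) * hV u := by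
  have hT := tanh_pos hu
  rw [Vbar, hV, div_rpow hT.le hT0.le, show (21 / 20 : ℝ) = 1 / 20 + 1 by norm_num,
    rpow_add hT, rpow_one]
  ring

lemma fb_eq (q : Par) (t u : ℝ) : q.fb t u = fbar q.B (tau t) (q.T0 t) u := by
  rw [Par.fb, fbar, aa]; norm_num

lemma Vb_eq (q : Par) (t u : ℝ) : q.Vb t u = Vbar q.BV (tau t) (q.T0 t) u := by
  rw [Par.Vb, Vbar, aa]

lemma fbar_pos {B τ T0 u : ℝ} (hB : 0 < B) (hτ : 0 < τ) (hT0 : 0 < T0) (hu : 0 < u) :
    0 < fbar B τ T0 u :=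
  mul_pos (mul_pos (div_pos hB hτ) (rpow_pos_of_pos (div_pos (tanh_pos hu) hT0) _))
    (rpow_pos_of_pos (cosh_pos u) _)

lemma Vbar_pos {B τ T0 u : ℝ} (hB : 0 < B) (hτ : 0 < τ) (hT0 : 0 < T0) (hu : 0 < u) :
    0 < Vbar B τ T0 u :=
  mul_pos (mul_pos (mul_pos (div_pos hB hτ) (rpow_pos_of_pos (div_pos (tanh_pos hu) hT0) _))
    (tanh_pos hu)) (rpow_pos_of_pos (cosh_pos u) _)

lemma fbar_Vbar {B BV τ T0 u : ℝ} :
    tanh u * cosh u * fbar B τ T0 u * BV = B * Vbar BV τ T0 u := by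
  have hc := cosh_pos u
  have e : cosh u ^ (1 / 20 : ℝ) = cosh u * cosh u ^ (-(19 / 20) : ℝ) := by
    rw [show (1 / 20 : ℝ) = 1 + (-(19 / 20)) by norm_num, rpow_add hc, rpow_one]
  rw [fbar, Vbar, e]; ring

lemma Vbar_low {BV τ T0 u : ℝ} (hBV : 0 < BV) (hτ : 0 < τ) (hT0 : 0 < T0) (hu : 0 < u)
    (hTT : T0 / 2 ≤ tanh u) : BV / τ * tanh u ≤ 2 * Vbar BV τ T0 u := by
  have hT := tanh_pos hu
  have h1 : 1 / 2 ≤ (tanh u / T0) ^ (1 / 20 : ℝ) := by
    rcases le_total 1 (tanh u / T0) with h | h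
    · have := one_le_rpow h (by norm_num : (0 : ℝ) ≤ 1 / 20)
      linarith only [this]
    · have h2 : (tanh u / T0) ^ (1 : ℝ) ≤ (tanh u / T0) ^ (1 / 20 : ℝ) :=
        rpow_le_rpow_of_exponent_ge (by positivity) h (by norm_num)
      rw [rpow_one] at h2
      refine le_trans ?_ h2
      rw [le_div_iff₀ hT0]; linarith only [hTT]
  have h2 : 1 ≤ cosh u ^ (1 / 20 : ℝ) := one_le_rpow (one_le_cosh u) (by norm_num)
  have h3 : 0 < BV / τ * tanh u := by positivity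
  have h4 : 1 / 2 * 1 ≤ (tanh u / T0) ^ (1 / 20 : ℝ) * cosh u ^ (1 / 20 : ℝ) :=
    mul_le_mul h1 h2 (by norm_num) (by linarith only [h1])
  have e : 2 * Vbar BV τ T0 u = (BV / τ * tanh u) *
      (2 * ((tanh u / T0) ^ (1 / 20 : ℝ) * cosh u ^ (1 / 20 : ℝ))) := by
    rw [Vbar]; ring
  rw [e]
  nlinarith only [h3, h4]

lemma alg_pert {Y Y2 c T zg d : ℝ} (hY : 0 < Y) (hc : 0 < c) (hT2 : T ^ 2 ≤ 1)
    (h1 : |Y2| * T ^ 2 ≤ 1 / 2 * Y) (hzgc : zg ≤ 4591 / 1000 * c * T ^ 2)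
    (hd : |d| ≤ 17 / 10000 * zg) : |(20 * Y - Y2) * d| ≤ 161 / 1000 * (c * Y) := by
  rw [abs_mul]
  have h2 : |20 * Y - Y2| ≤ 20 * Y + |Y2| := by
    refine (abs_sub _ _).trans ?_
    rw [abs_of_pos (by linarith only [hY] : 0 < 20 * Y)]
  have h3 : |20 * Y - Y2| * |d| ≤ (20 * Y + |Y2|) * (17 / 10000 * zg) :=
    mul_le_mul h2 hd (abs_nonneg _) (by positivity)
  have h4 : (20 * Y + |Y2|) * (17 / 10000 * zg) ≤
      (20 * Y + |Y2|) * (17 / 10000 * (4591 / 1000 * c * T ^ 2)) := by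
    refine mul_le_mul_of_nonneg_left ?_ (by positivity)
    linarith only [hzgc]
  have h5 : (20 * Y + |Y2|) * T ^ 2 ≤ 41 / 2 * Y := by
    have : Y * T ^ 2 ≤ Y * 1 := mul_le_mul_of_nonneg_left hT2 hY.le
    linarith only [h1, this]
  have h6 := mul_le_mul_of_nonneg_right h5 hc.le
  have e : (20 * Y + |Y2|) * (17 / 10000 * (4591 / 1000 * c * T ^ 2)) =
      17 / 10000 * (4591 / 1000) * ((20 * Y + |Y2|) * T ^ 2 * c) := by ring
  have h7 : 0 ≤ c * Y := by positivity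
  rw [e] at h4
  linarith only [h3, h4, h6, h7]

lemma alg_w {th e : ℝ} (hth : -(1 / 2000) ≤ th) (hth0 : th ≤ 0) (he : |e| ≤ 1 / 2000) :
    |(1 + th) * (1 - e) ^ 2 - 1| ≤ 17 / 10000 ∧ 9989 / 10000 ≤ (1 + th) * (1 - e) ∧
      (1 + th) * (1 - e) ≤ 10006 / 10000 := by
  obtain ⟨he1, he2⟩ := abs_le.1 he
  have h1 : 1999 / 2000 ≤ 1 - e := by linarith only [he2]
  have h2 : 1 - e ≤ 2001 / 2000 := by linarith only [he1]
  have h3 : 1999 / 2000 ≤ 1 + th := by linarith only [hth]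
  have h4 : 1 + th ≤ 1 := by linarith only [hth0]
  have h5 : 1999 / 2000 * (1999 / 2000) ≤ (1 + th) * (1 - e) :=
    mul_le_mul h3 h1 (by norm_num) (by linarith only [hth])
  have h6 : (1 + th) * (1 - e) ≤ 1 * (2001 / 2000) := mul_le_mul h4 h2 (by linarith only [he2]) (by norm_num)
  have h7 : (1999 / 2000 * (1999 / 2000)) * (1999 / 2000) ≤ (1 + th) * (1 - e) * (1 - e) :=
    mul_le_mul h5 h1 (by norm_num) (by linarith only [h5])
  have h8 : (1 + th) * (1 - e) * (1 - e) ≤ 1 * (2001 / 2000) * (2001 / 2000) :=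
    mul_le_mul h6 h2 (by linarith only [he2]) (by norm_num)
  have e1 : (1 + th) * (1 - e) ^ 2 = (1 + th) * (1 - e) * (1 - e) := by ring
  refine ⟨?_, ?_, ?_⟩
  · rw [e1, abs_le]; constructor <;> linarith only [h7, h8]
  · linarith only [h5]
  · linarith only [h6]

lemma alg_Y2 {Y T : ℝ} (hY : 0 < Y) (hT : 0 < T) (hT2 : T ^ 2 ≤ 1) :
    |Y * (21 / 400 / T ^ 2 - 41 / 20 + 2 * T ^ 2)| * T ^ 2 ≤ 1 / 2 * Y := by
  have hT2p : 0 < T ^ 2 := by positivity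
  have : |Y * (21 / 400 / T ^ 2 - 41 / 20 + 2 * T ^ 2)| * T ^ 2 =
      Y * |21 / 400 - 41 / 20 * T ^ 2 + 2 * (T ^ 2) ^ 2| := by
    rw [← abs_of_pos hT2p, ← abs_mul, abs_of_pos hT2p, ← abs_of_pos hY, ← abs_mul, abs_of_pos hY]
    congr 1
    field_simp
  rw [this, mul_comm]
  refine mul_le_mul_of_nonneg_right ?_ hY.le
  rw [abs_le]; constructor <;> nlinarith only [hT2, hT2p, sq_nonneg (T ^ 2 - 41 / 80)]

lemma alg_b {c T v w s : ℝ} (hc : 0 < c) (hT : 0 < T) (hs : s = T * c)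
    (hv1 : 1 / 20 ≤ v) (hv2 : v ≤ 557 / 10000) (hw1 : 9989 / 10000 ≤ w) (hw2 : w ≤ 10006 / 10000) :
    |39 * c * (v * T) * w - 39 / 20 * s| ≤ 225 / 1000 * (T * c) := by
  have e4 : 39 * c * (v * T) * w - 39 / 20 * s = (39 * v * w - 39 / 20) * (T * c) := by
    rw [hs]; ring
  rw [e4, abs_mul, abs_of_pos (by positivity : 0 < T * c)]
  refine mul_le_mul_of_nonneg_right ?_ (by positivity)
  have h5 : v * w ≤ 557 / 10000 * (10006 / 10000) := mul_le_mul hv2 hw2 (by linarith only [hw1]) (by norm_num)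
  have h6 : 1 / 20 * (9989 / 10000) ≤ v * w := mul_le_mul hv1 hw1 (by norm_num) (by linarith only [hv1])
  rw [abs_le]; constructor <;> linarith only [h6, h5]

lemma alg_E {c zg r2 fb Rs E0 Y : ℝ} (hc : 1 ≤ c) (hY : 0 < Y)
    (hzgc : zg ≤ 4591 / 1000 * c) (hr : 0 < r2) (hf : 0 < fb)
    (hfb : r2 * fb ≤ 1 / 2000) (hRr : r2 * Rs ≤ 1 / 1000)
    (hE0 : |E0| ≤ 11 / 10 * Rs + 11 * zg * fb) : 2 * r2 * E0 * Y ≤ 528 / 10000 * (c * Y) := by
  have h2 : zg * (r2 * fb) ≤ (4591 / 1000 * c) * (1 / 2000) :=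
    mul_le_mul hzgc hfb (by positivity) (by positivity)
  have h1 : E0 ≤ 11 / 10 * Rs + 11 * zg * fb := (le_abs_self _).trans hE0
  have h3 : r2 * E0 ≤ r2 * (11 / 10 * Rs + 11 * zg * fb) := mul_le_mul_of_nonneg_left h1 hr.le
  have e : r2 * (11 / 10 * Rs + 11 * zg * fb) = 11 / 10 * (r2 * Rs) + 11 * (zg * (r2 * fb)) := by
    ring
  have h4 : 2 * r2 * E0 ≤ 528 / 10000 * c := by
    have : 2 * r2 * E0 = 2 * (r2 * E0) := by ring
    rw [this]; rw [e] at h3; linarith only [hc, hRr, h2, h3]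
  have := mul_le_mul_of_nonneg_right h4 hY.le
  linarith only [this]

lemma alg_f2 {c T zg fb B BV Y : ℝ} (hc : 0 < c) (hT : 0 < T) (hT2 : T ^ 2 ≤ 1) (hY : 0 < Y)
    (hB : 0 < B) (hf : 0 < fb) (hBV : 1000 * B ≤ BV)
    (hzgc : zg ≤ 4591 / 1000 * c * T ^ 2) (hfV : T * c * fb * BV = B * Y) :
    2 * (225 / 1000 * (T * c)) * (451 * zg * fb) ≤ 94 / 100 * (c * Y) := by
  have h1 : T * c * fb * (1000 * B) ≤ B * Y := by
    rw [← hfV]; exact mul_le_mul_of_nonneg_left hBV (by positivity)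
  have h2 : B * (T * c * fb * 1000) ≤ B * Y := by linarith only [h1, mul_comm B (T * c * fb * 1000)]
  have h3 := le_of_mul_le_mul_left h2 hB
  have h4 : zg * (T * c * fb) ≤ (4591 / 1000 * c * T ^ 2) * (1 / 1000 * Y) :=
    mul_le_mul hzgc (by linarith only [h3]) (by positivity) (by positivity)
  have h5 : c * Y * T ^ 2 ≤ c * Y * 1 := mul_le_mul_of_nonneg_left hT2 (by positivity)
  have e1 : 2 * (225 / 1000 * (T * c)) * (451 * zg * fb) =
      2 * (225 / 1000) * 451 * (zg * (T * c * fb)) := by ring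
  have e2 : (4591 / 1000 * c * T ^ 2) * (1 / 1000 * Y) = 4591 / 1000000 * (c * Y * T ^ 2) := by ring
  rw [e1]
  rw [e2] at h4
  have h6 : 0 ≤ c * Y := by positivity
  linarith only [h4, h5, h6]

lemma alg_f1 {c T τ Rs BV Y : ℝ} (hc : 0 < c) (hT : 0 < T) (hτ : 0 < τ) (hY : 0 < Y)
    (hlow : BV / τ * T ≤ 2 * Y) (hRτ : τ * Rs ≤ BV / 100) :
    2 * (225 / 1000 * (T * c)) * (461 / 10 * Rs) ≤ 42 / 100 * (c * Y) := by
  have h1 : Rs ≤ BV / τ / 100 := by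
    rw [div_div, mul_comm τ 100, ← div_div, le_div_iff₀ hτ]; linarith only [hRτ]
  have h2 : T * Rs ≤ 2 * Y / 100 := by
    have : T * Rs ≤ T * (BV / τ / 100) := mul_le_mul_of_nonneg_left h1 hT.le
    linarith only [hlow, this]
  have h3 := mul_le_mul_of_nonneg_left h2 hc.le
  have h6 : 0 ≤ c * Y := by positivity
  have e1 : 2 * (225 / 1000 * (T * c)) * (461 / 10 * Rs) =
      2 * (225 / 1000) * (461 / 10) * (c * (T * Rs)) := by ring
  have e2 : c * (2 * Y / 100) = 2 / 100 * (c * Y) := by ring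
  rw [e1]; rw [e2] at h3
  linarith only [h3, h6]

lemma alg_final {X h h1 h2 c s zg zG Y r2 E0 a b : ℝ} (hY : Y = X * h)
    (hmX : X * (93 / 1000 * 39 * c * h) ≤ X * (78 * s * h1 - h2 * zg - 78 * c * h + 20 * zg * h))
    (hp : -(161 / 1000 * (c * Y)) ≤ (20 * Y - X * h2) * (zG - zg))
    (hEY : 2 * r2 * E0 * Y ≤ 528 / 10000 * (c * Y)) (hq : 2 * a * b ≤ 136 / 100 * (c * Y))
    (hD : 0 < c * Y) :
    (78 * c - 20 * zG + 2 * r2 * E0) * Y + 2 * a * b < X * (78 * s * h1 - h2 * zG) := by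
  have e : X * (78 * s * h1 - h2 * zG) - ((78 * c - 20 * zG + 2 * r2 * E0) * Y + 2 * a * b) =
      X * (78 * s * h1 - h2 * zg - 78 * c * h + 20 * zg * h) + (20 * Y - X * h2) * (zG - zg)
        - 2 * r2 * E0 * Y - 2 * a * b := by
    rw [hY]; ring
  have e2 : X * (93 / 1000 * 39 * c * h) = 93 / 1000 * 39 * (c * Y) := by rw [hY]; ring
  rw [e2] at hmX
  linarith only [hmX, hp, hEY, hq, hD, e]

/-- CLOSURE V, pointwise inequality (multiplied by `r²`). -/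
theorem closV {g : ℝ → ℝ} (hg : IsBub g) {u : ℝ} (hu : 0 < u)
    {G Z e th E0 R r2 τ T0 B BV Rs : ℝ}
    (hG : G = g u * (1 - e)) (hZ : Z = Zs g u * (1 + th))
    (he : |e| ≤ 1 / 2000) (hth : -(1 / 2000) ≤ th) (hth0 : th ≤ 0)
    (hr : 0 < r2) (hτ : 0 < τ) (hT0 : 0 < T0) (hB : 0 < B) (hBV : 1000 * B ≤ BV)
    (hTT : T0 / 2 ≤ tanh u)
    (hE0 : |E0| ≤ 11 / 10 * Rs + 11 * (Zs g u * g u ^ 2) * fbar B τ T0 u)
    (hfb : r2 * fbar B τ T0 u ≤ 1 / 2000)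
    (hR : 0 ≤ R) (hR' : R ≤ Rs) (hRr : r2 * Rs ≤ 1 / 1000) (hRτ : τ * Rs ≤ BV / 100) :
    (78 * cosh u - 20 * (Z * G ^ 2) + 2 * r2 * E0) * Vbar BV τ T0 u
        + 2 * |Z * G - 39 / 20 * sinh u| * |41 * E0 - R| <
      BV / τ / T0 ^ (1 / 20 : ℝ) * (78 * sinh u * hV1 u - hV2 u * (Z * G ^ 2)) := by
  have hmain := closV_main hg hu
  obtain ⟨om, ho1, ho2, hz, hz1, hz2, hz3⟩ := omega_bounds hg hu
  have hT := tanh_pos hu
  have hT1 := tanh_lt_one u
  have hc := one_le_cosh u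
  have hBV0 : 0 < BV := by linarith only [hB, hBV]
  have hYp := Vbar_pos (u := u) hBV0 hτ hT0 hu
  have hfV := fbar_Vbar (B := B) (BV := BV) (τ := τ) (T0 := T0) (u := u)
  have hlow := Vbar_low hBV0 hτ hT0 hu hTT
  have hfp := fbar_pos (u := u) hB hτ hT0 hu
  have hVe := Vbar_eq (BV := BV) (τ := τ) hT0 hu
  have hX : 0 < BV / τ / T0 ^ (1 / 20 : ℝ) := by positivity
  have hs := sinh_eq_tc u
  obtain ⟨w1, w2, w3⟩ := alg_w hth hth0 he
  have hzg0 : 0 ≤ Zs g u * g u ^ 2 := by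
    rw [hz]; have := cosh_pos u; positivity
  have hZG : |Z * G ^ 2 - Zs g u * g u ^ 2| ≤ 17 / 10000 * (Zs g u * g u ^ 2) := by
    have : Z * G ^ 2 - Zs g u * g u ^ 2 =
        (Zs g u * g u ^ 2) * ((1 + th) * (1 - e) ^ 2 - 1) := by rw [hZ, hG]; ring
    rw [this, abs_mul, abs_of_nonneg hzg0, mul_comm]
    exact mul_le_mul_of_nonneg_right w1 hzg0
  have hZG1 : |Z * G - 39 / 20 * sinh u| ≤ 225 / 1000 * (tanh u * cosh u) := by
    have e3 : Z * G = 39 * cosh u * (om / (g u / tanh u) * tanh u) * ((1 + th) * (1 - e)) := by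
      rw [hZ, hG, ← hz1]; ring
    rw [e3]
    exact alg_b (cosh_pos u) hT hs hz3 hz2 w2 w3
  have hT2 := tanh_sq_le u
  have hY2b := alg_Y2 hYp hT hT2
  have hY2e : BV / τ / T0 ^ (1 / 20 : ℝ) * hV2 u =
      Vbar BV τ T0 u * (21 / 400 / tanh u ^ 2 - 41 / 20 + 2 * tanh u ^ 2) := by
    rw [hVe, hV2]; ring
  rw [← hY2e] at hY2b
  have hmX := mul_le_mul_of_nonneg_left hmain hX.le
  have hc0 : 0 < cosh u := cosh_pos u
  have hzgc : Zs g u * g u ^ 2 ≤ 4591 / 1000 * cosh u * tanh u ^ 2 := by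
    rw [hz]
    have : om * tanh u ^ 2 ≤ 1177 / 10000 * tanh u ^ 2 :=
      mul_le_mul_of_nonneg_right ho2 (sq_nonneg _)
    have h2 := mul_le_mul_of_nonneg_left this hc0.le
    have h3 : 0 ≤ cosh u * tanh u ^ 2 := by positivity
    linarith only [hz, hzg0, h2]
  have hzgc' : Zs g u * g u ^ 2 ≤ 4591 / 1000 * cosh u := by
    refine hzgc.trans ?_
    have := mul_le_mul_of_nonneg_left hT2 (by positivity : 0 ≤ 4591 / 1000 * cosh u)
    linarith only [this]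
  have hpertY := alg_pert hYp hc0 hT2 hY2b hzgc hZG
  have hEY := alg_E hc hYp hzgc' hr hfp hfb hRr hE0
  have hf2 := alg_f2 hc0 hT hT2 hYp hB hfp hBV hzgc hfV
  have hf1 := alg_f1 hc0 hT hτ hYp hlow hRτ
  have hRs : 0 ≤ Rs := hR.trans hR'
  have hER : |41 * E0 - R| ≤ 461 / 10 * Rs + 451 * (Zs g u * g u ^ 2) * fbar B τ T0 u := by
    have h1 : |41 * E0 - R| ≤ 41 * |E0| + R := by
      refine (abs_sub _ _).trans ?_
      rw [abs_mul, abs_of_nonneg hR, abs_of_pos (by norm_num : (0 : ℝ) < 41)]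
    linarith only [hE0, hR', h1]
  have hforce : 2 * |Z * G - 39 / 20 * sinh u| * |41 * E0 - R| ≤
      2 * (225 / 1000 * (tanh u * cosh u)) *
        (461 / 10 * Rs + 451 * (Zs g u * g u ^ 2) * fbar B τ T0 u) := by
    refine mul_le_mul ?_ hER (abs_nonneg _) (by positivity)
    linarith only [hZG1]
  have hD : 0 < cosh u * Vbar BV τ T0 u := by positivity
  refine alg_final hVe hmX (abs_le.1 hpertY).1 hEY ?_ hD
  linarith only [hf2, hf1, hforce]

end Vale.Agent.P244.ST.M4
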