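import Vale.Agent.P244.ST.M2Static
import Vale.Agent.P244.ST.M4

/-!
# P244-ST, block M2 : (D5) and (D6), bounds for `θ` and `E0` in region I at a fixed time
-/

open Set Filter Topology
open scoped ContDiff

namespace Vale.Agent.P244.ST.M2

noncomputable section

/-- Comparison principle from the tip `x = 1`: a function which is bounded below and satisfies
`Φ' ≤ -k ρ' Φ` where it is negative is nonnegative, if `ρ → -∞`. -/
theorem tip_nonneg {Φ Φ' ρ ρ' : ℝ → ℝ} {x0 k C : ℝ} (hk : 0 < k)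
    (hρ : ∀ x ∈ Ico x0 1, HasDerivAt ρ (ρ' x) x)
    (hρl : Tendsto ρ (𝓝[<] 1) atBot)
    (hΦ : ∀ x ∈ Ico x0 1, HasDerivAt Φ (Φ' x) x)
    (hneg : ∀ x ∈ Ico x0 1, Φ x < 0 → Φ' x ≤ -k * ρ' x * Φ x)
    (hb : ∀ x ∈ Ico x0 1, -C ≤ Φ x) : ∀ x ∈ Ico x0 1, 0 ≤ Φ x := by
  intro x1 hx1
  by_contra hc
  push Not at hc
  set E : ℝ → ℝ := fun x => Φ x * Real.exp (k * ρ x) with hE
  have hEd : ∀ x ∈ Ico x0 1, HasDerivAt E ((Φ' x + k * ρ' x * Φ x) * Real.exp (k * ρ x)) x := by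
    intro x hx
    have h1 := (hΦ x hx).mul (((hρ x hx).const_mul k).exp)
    refine h1.congr_deriv ?_
    ring
  have hE1 : E x1 < 0 := mul_neg_of_neg_of_pos hc (Real.exp_pos _)
  -- `E ≤ E x1` on `[x1,1)`
  have hmono : ∀ x2 ∈ Ico x1 1, E x2 ≤ E x1 := by
    intro x2 hx2
    have hsub : Icc x1 x2 ⊆ Ico x0 1 := fun y hy => ⟨hx1.1.trans hy.1, hy.2.trans_lt hx2.2⟩
    have hcont : ContinuousOn E (Icc x1 x2) := fun y hy =>
      (hEd y (hsub hy)).continuousAt.continuousWithinAt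
    have hcl : IsClosed ({x | E x ≤ E x1} ∩ Icc x1 x2) := by
      have := hcont.preimage_isClosed_of_isClosed isClosed_Icc (isClosed_Iic (a := E x1))
      rw [inter_comm]
      exact this
    have hall : Icc x1 x2 ⊆ {x | E x ≤ E x1} := by
      refine hcl.Icc_subset_of_forall_exists_gt (le_refl (E x1)) ?_
      rintro y ⟨hy1, hy2⟩ z hz
      have hyE : E y < 0 := lt_of_le_of_lt hy1 hE1
      have hyI : y ∈ Ico x0 1 := hsub ⟨hy2.1, hy2.2.le⟩
      have hnhds : ∀ᶠ v in 𝓝 y, E v < 0 := (hEd y hyI).continuousAt.eventually_lt_const hyE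
      obtain ⟨δ, hδ, hball⟩ := Metric.eventually_nhds_iff.1 hnhds
      set v := min (y + δ / 2) (min z x2) with hv
      have hyv : y < v := by
        rw [hv, lt_min_iff, lt_min_iff]
        exact ⟨by linarith only [hδ], hz, hy2.2⟩
      have hvz : v ≤ z := (min_le_right _ _).trans (min_le_left _ _)
      have hvx : v ≤ x2 := (min_le_right _ _).trans (min_le_right _ _)
      have hvδ : v ≤ y + δ / 2 := min_le_left _ _
      refine ⟨v, ?_, hyv, hvz⟩
      have hsub2 : Icc y v ⊆ Ico x0 1 := fun s hs =>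
        hsub ⟨hy2.1.trans hs.1, hs.2.trans hvx⟩
      have hanti : AntitoneOn E (Icc y v) := by
        refine antitoneOn_of_hasDerivWithinAt_nonpos
          (f' := fun x => (Φ' x + k * ρ' x * Φ x) * Real.exp (k * ρ x)) (convex_Icc _ _)
          (fun s hs => (hEd s (hsub2 hs)).continuousAt.continuousWithinAt) ?_ ?_
        · intro s hs
          rw [interior_Icc] at hs
          exact (hEd s (hsub2 (Ioo_subset_Icc_self hs))).hasDerivWithinAt
        · intro s hs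
          rw [interior_Icc] at hs
          have hs' := hsub2 (Ioo_subset_Icc_self hs)
          have hEs : E s < 0 := by
            apply hball
            rw [Real.dist_eq, abs_lt]
            constructor <;> linarith only [hyv, hvδ, hs, hs.1, hs.2]
          have hΦs : Φ s < 0 := by
            by_contra hcs
            push Not at hcs
            exact absurd hEs (not_lt.2 (mul_nonneg hcs (Real.exp_pos _).le))
          have := hneg s hs' hΦs
          exact mul_nonpos_of_nonpos_of_nonneg (by linarith only [this]) (Real.exp_pos _).le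
      exact (hanti (left_mem_Icc.2 hyv.le) (right_mem_Icc.2 hyv.le) hyv.le).trans hy1
    exact hall (right_mem_Icc.2 hx2.1)
  -- contradiction near the tip
  have h1 : ∀ᶠ x in 𝓝[<] (1 : ℝ), ρ x < -(Real.log ((|C| + 1) / -E x1)) / k :=
    hρl.eventually_lt_atBot _
  have h2 : ∀ᶠ x in 𝓝[<] (1 : ℝ), x ∈ Ico x1 1 := Ico_mem_nhdsLT hx1.2
  obtain ⟨x, hx, hxI⟩ := (h1.and h2).exists
  have h3 := hmono x hxI
  have h4 := hb x ⟨hx1.1.trans hxI.1, hxI.2⟩
  have hA : 0 < (|C| + 1) / -E x1 := div_pos (by positivity) (by linarith only [hE1])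
  have h5 : k * ρ x < -(Real.log ((|C| + 1) / -E x1)) := by
    rw [lt_div_iff₀ hk] at hx
    linarith only [hx]
  have h6 : Real.exp (k * ρ x) < -E x1 / (|C| + 1) := by
    have := Real.exp_lt_exp.2 h5
    rw [Real.exp_neg, Real.exp_log hA, inv_div] at this
    exact this
  have h7 : -(|C|) ≤ Φ x := (neg_le_neg (le_abs_self C)).trans h4
  have h8 : E x = Φ x * Real.exp (k * ρ x) := rfl
  have h9 : -|C| * Real.exp (k * ρ x) ≤ E x1 := by
    refine le_trans ?_ h3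
    rw [h8]
    exact mul_le_mul_of_nonneg_right h7 (Real.exp_pos _).le
  rw [lt_div_iff₀ (by positivity)] at h6
  have h10 := Real.exp_pos (k * ρ x)
  nlinarith only [h6, h9, h10]

section

variable {w f : Fn} {t : ℝ}

/-- `ρ → -∞` at the tip -/
theorem rho_tendsto (h : Slice w f t) : Tendsto (rho w f t) (𝓝[<] 1) atBot := by
  have hc : ∀ {H : ℝ → ℝ}, ContDiffOn ℝ ∞ H (Icc (-1) 1) →
      Tendsto H (𝓝[<] 1) (𝓝 (H 1)) := by
    intro H hH
    have h1 : ContinuousWithinAt H (Icc (-1) 1) 1 := hH.continuousOn 1 (by simp)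
    exact h1.mono_left (nhdsWithin_le_of_mem (mem_nhdsWithin_of_mem_nhds
      (Ioi_mem_nhds (by norm_num : (-1 : ℝ) < 1)) |> fun hm => by
        filter_upwards [hm, self_mem_nhdsWithin] with y hy1 hy2
        exact ⟨le_of_lt hy1, le_of_lt hy2⟩))
  have hl : Tendsto (fun x : ℝ => Real.log (1 - x ^ 2)) (𝓝[<] 1) atBot := by
    refine Real.tendsto_log_nhdsGT_zero.comp ?_
    refine tendsto_nhdsWithin_iff.2 ⟨?_, ?_⟩
    · have : Continuous fun x : ℝ => 1 - x ^ 2 := by fun_prop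
      have h1 := this.tendsto 1
      norm_num at h1
      exact h1.mono_left nhdsWithin_le_nhds
    · filter_upwards [Ioo_mem_nhdsLT (by norm_num : (-1 : ℝ) < 1)] with y hy
      exact one_sub_sq_pos hy
  have h1 : Tendsto (fun x => f t x + w t x + Real.log (1 - x ^ 2) / 2 - Real.log zeta0)
      (𝓝[<] 1) atBot := by
    refine tendsto_atBot_add_const_right _ _ ?_
    exact ((hc h.hf).add (hc h.hw)).add_atBot (hl.atBot_div_const (by norm_num))
  exact h1.atBot_div_const (by norm_num)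

/-- `(1-x²) ρ_x` is bounded, and `Z ≤ (2/ζ₀) ((1-x²) ρ_x)² cosh u` -/
theorem ZZ_le_cosh (x : ℝ) (hx : x ∈ Ioo (-1 : ℝ) 1) :
    ZZ w f t x ≤ 2 / zeta0 * ((1 - x ^ 2) * r1 w f t x) ^ 2 * Real.cosh (uu w f t x) := by
  have h1 : 0 < 1 - x ^ 2 := one_sub_sq_pos hx
  have hs : 0 < sx x := sx_pos hx
  have hs2 : sx x ^ 2 = 1 - x ^ 2 := Real.sq_sqrt h1.le
  have hz : (0 : ℝ) < zeta0 := by unfold zeta0; norm_num
  have hlog : Real.exp (Real.log (1 - x ^ 2) / 2) = sx x := by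
    rw [show Real.log (1 - x ^ 2) / 2 = Real.log (sx x) by
      unfold sx; rw [Real.log_sqrt h1.le]]
    exact Real.exp_log hs
  have hr2 : rr w f t x ^ 2 = Real.exp (f t x) * Real.exp (w t x) * sx x / zeta0 := by
    have e1 : rr w f t x ^ 2 = Real.exp (f t x + w t x + Real.log (1 - x ^ 2) / 2
        - Real.log zeta0) := by
      unfold rr rho
      rw [← Real.exp_nat_mul]
      congr 1
      push_cast
      ring
    rw [e1, Real.exp_sub, Real.exp_add, Real.exp_add, hlog, Real.exp_log hz]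
  have hu : Real.exp (uu w f t x) = Real.exp (f t x) / Real.exp (w t x) / sx x := by
    unfold uu
    rw [Real.exp_sub, Real.exp_sub, hlog]
  have hch : Real.exp (uu w f t x) / 2 ≤ Real.cosh (uu w f t x) := by
    rw [Real.cosh_eq]
    have := Real.exp_pos (-uu w f t x)
    linarith only [this]
  have hrs : rs w f t x = -(sx x * Real.exp (-w t x)) * r1 w f t x := rfl
  have hZ : ZZ w f t x = 2 / zeta0 * ((1 - x ^ 2) * r1 w f t x) ^ 2 *
      (Real.exp (uu w f t x) / 2) := by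
    unfold ZZ
    rw [hr2, hrs, hu, Real.exp_neg, ← hs2]
    have := (Real.exp_pos (w t x)).ne'
    field_simp
  rw [hZ]
  exact mul_le_mul_of_nonneg_left hch (by positivity)

/-- `θ` is bounded above near the tip -/
theorem th_le {g : ℝ → ℝ} (hg : IsBub g) (h : Slice w f t) {x0 : ℝ} (hx0 : x0 ∈ Ioo (0 : ℝ) 1)
    (hu : ∀ x ∈ Ico x0 1, 0 < uu w f t x) : ∃ C : ℝ, ∀ x ∈ Ico x0 1, th g w f t x ≤ C := by
  have hbd : ∀ {H : ℝ → ℝ}, ContDiffOn ℝ ∞ H (Icc (-1) 1) →
      ∃ B : ℝ, ∀ x ∈ Ico x0 1, |deriv H x| ≤ B := by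
    intro H hH
    have h1 : ContinuousOn (derivWithin H (Icc (-1) 1)) (Icc (-1) 1) :=
      hH.continuousOn_derivWithin (uniqueDiffOn_Icc (by norm_num)) (by simp)
    obtain ⟨B, hB⟩ := isCompact_Icc.exists_bound_of_continuousOn h1
    refine ⟨B, fun x hx => ?_⟩
    have hx' : x ∈ Ioo (-1 : ℝ) 1 := ⟨by linarith only [hx0, hx, hx.1, hx0.1], hx.2⟩
    have h2 : derivWithin H (Icc (-1) 1) x = deriv H x :=
      derivWithin_of_mem_nhds (Icc_mem_nhds hx'.1 hx'.2)
    rw [← h2]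
    exact hB x (Ioo_subset_Icc_self hx')
  obtain ⟨Bf, hBf⟩ := hbd h.hf
  obtain ⟨Bw, hBw⟩ := hbd h.hw
  have hz : (0 : ℝ) < zeta0 := by unfold zeta0; norm_num
  refine ⟨2 / zeta0 * (Bf + Bw + 1) ^ 2, fun x hx => ?_⟩
  have hx' : x ∈ Ioo (-1 : ℝ) 1 := ⟨by linarith only [hx0, hx, hx.1, hx0.1], hx.2⟩
  have hxp : 0 < x := lt_of_lt_of_le hx0.1 hx.1
  have h1 : 0 < 1 - x ^ 2 := one_sub_sq_pos hx'
  have hr1 : (1 - x ^ 2) * r1 w f t x =
      ((1 - x ^ 2) * (deriv (f t) x + deriv (w t) x) - x) / 2 := by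
    have hdf := hasDerivAt_of_smooth h.f' hx'
    have hdw := hasDerivAt_of_smooth h.w' hx'
    have hdl : HasDerivAt (fun x : ℝ => Real.log (1 - x ^ 2)) (-(2 * x) / (1 - x ^ 2)) x := by
      have := ((hasDerivAt_pow 2 x).const_sub 1).log h1.ne'
      refine this.congr_deriv ?_
      norm_num
    have hd : HasDerivAt (rho w f t)
        ((deriv (f t) x + deriv (w t) x + -(2 * x) / (1 - x ^ 2) / 2) / 2) x :=
      (((hdf.add hdw).add (hdl.div_const 2)).sub_const _).div_const 2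
    unfold r1
    rw [hd.deriv]
    field_simp
    ring
  have hb1 : |(1 - x ^ 2) * r1 w f t x| ≤ Bf + Bw + 1 := by
    rw [hr1]
    have e1 := hBf x hx
    have e2 := hBw x hx
    rw [abs_le] at e1 e2 ⊢
    have hB0 : 0 ≤ Bf := by linarith only [e1]
    have hB1 : 0 ≤ Bw := by linarith only [e2]
    have h3 : 1 - x ^ 2 ≤ 1 := by nlinarith only []
    constructor <;> nlinarith only [hx, hxp, h1, e1, e2, hx.2]
  have hZ := ZZ_le_cosh (w := w) (f := f) (t := t) x hx'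
  have hZs := Zs_pos hg (hu x hx)
  have hcZ := cosh_le_Zs hg (hu x hx)
  have h2 : ((1 - x ^ 2) * r1 w f t x) ^ 2 ≤ (Bf + Bw + 1) ^ 2 := by
    rw [← sq_abs]
    exact pow_le_pow_left₀ (abs_nonneg _) hb1 2
  have h3 : ZZ w f t x ≤ 2 / zeta0 * (Bf + Bw + 1) ^ 2 * Zs g (uu w f t x) := by
    refine hZ.trans ?_
    have h4 : 0 ≤ 2 / zeta0 := by positivity
    have h5 := mul_le_mul_of_nonneg_left h2 h4
    have h6 := (Real.cosh_pos (uu w f t x)).le
    calc _ ≤ 2 / zeta0 * (Bf + Bw + 1) ^ 2 * Real.cosh (uu w f t x) :=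
          mul_le_mul_of_nonneg_right h5 h6
      _ ≤ _ := mul_le_mul_of_nonneg_left hcZ (by positivity)
  have h4 : ZZ w f t x / Zs g (uu w f t x) ≤ 2 / zeta0 * (Bf + Bw + 1) ^ 2 := by
    rw [div_le_iff₀ hZs]; exact h3
  unfold th
  linarith only [h4]

theorem th_ge {g : ℝ → ℝ} (hg : IsBub g) {x : ℝ} (hu : 0 < uu w f t x) :
    -1 ≤ th g w f t x := by
  have hZs := Zs_pos hg hu
  have : 0 ≤ ZZ w f t x / Zs g (uu w f t x) := div_nonneg (ZZ_nonneg x) hZs.le
  unfold th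
  linarith only [this]

/-- (Q3): `θ ≤ 0` -/
theorem th_nonpos {g : ℝ → ℝ} (hg : IsBub g) (h : Slice w f t) {x0 : ℝ}
    (hx0 : x0 ∈ Ioo (0 : ℝ) 1)
    (hrs : ∀ x ∈ Ico x0 1, 0 < rs w f t x) (hu : ∀ x ∈ Ico x0 1, 0 < uu w f t x)
    (hR0 : ∀ x ∈ Ico x0 1, 0 ≤ RR w f t x) : ∀ x ∈ Ico x0 1, th g w f t x ≤ 0 := by
  obtain ⟨C, hC⟩ := th_le hg h hx0 hu
  have hI : ∀ {x}, x ∈ Ico x0 1 → x ∈ Ioo (-1 : ℝ) 1 := fun {x} hx =>
    ⟨by linarith only [hx0, hx, hx.1, hx0.1], hx.2⟩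
  have key := tip_nonneg (Φ := fun x => -th g w f t x)
    (Φ' := fun x => -(r1 w f t x * (-(th g w f t x) * (qb g (uu w f t x) +
      (GG w f t x - g (uu w f t x)) ^ 2 / 4) - (GG w f t x - g (uu w f t x)) ^ 2 / 4
      - (rr w f t x) ^ 2 * RR w f t x / (40 * Zs g (uu w f t x)))))
    (ρ := rho w f t) (ρ' := r1 w f t) (x0 := x0) (k := 38) (C := C) (by norm_num)
    (fun x hx => hasDerivAt_rho h (hI hx)) (rho_tendsto h)
    (fun x hx => (hasDerivAt_th hg h (hI hx) (hrs x hx).ne' (hu x hx)).neg) ?_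
    (fun x hx => neg_le_neg (hC x hx))
  · intro x hx
    have := key x hx
    linarith only [this]
  · intro x hx hneg
    have hth : 0 < th g w f t x := by linarith
    have hr := r1_neg (hI hx) (hrs x hx)
    have hZs := Zs_pos hg (hu x hx)
    have hq := q_lo hg (hu x hx)
    have hF : 0 ≤ (rr w f t x) ^ 2 * RR w f t x / (40 * Zs g (uu w f t x)) := by
      have := hR0 x hx
      positivity
    have hsq := sq_nonneg (GG w f t x - g (uu w f t x))
    have h1 : 0 ≤ th g w f t x * (qb g (uu w f t x) - 38 +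
        (GG w f t x - g (uu w f t x)) ^ 2 / 4) := by
      apply mul_nonneg hth.le
      linarith only [hq, hsq]
    have h2 : r1 w f t x * (th g w f t x * (qb g (uu w f t x) - 38 +
        (GG w f t x - g (uu w f t x)) ^ 2 / 4) + (GG w f t x - g (uu w f t x)) ^ 2 / 4 +
        (rr w f t x) ^ 2 * RR w f t x / (40 * Zs g (uu w f t x))) ≤ 0 :=
      mul_nonpos_of_nonpos_of_nonneg hr.le (by positivity)
    nlinarith only [h2]

/-- `e_b = r² f_b` -/
def Eb (q : Par) (w f : Fn) (t x : ℝ) : ℝ := rr w f t x ^ 2 * q.fb t (uu w f t x)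

theorem fb_exp {q : Par} (hT0 : 0 < q.T0 t) {u : ℝ} (hu : 0 < u) :
    q.fb t u = q.B / tau t * (1 / q.T0 t) ^ aa *
      Real.exp (aa * Real.log (Real.tanh u) - (1 - aa) * Real.log (Real.cosh u)) := by
  have hT := tanh_pos hu
  have hc := Real.cosh_pos u
  unfold Par.fb
  rw [div_eq_mul_one_div (Real.tanh u), Real.mul_rpow hT.le (by positivity),
    Real.rpow_def_of_pos hT, Real.rpow_def_of_pos hc, Real.exp_sub]
  have e : Real.exp (Real.log (Real.cosh u) * -(1 - aa)) =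
      (Real.exp ((1 - aa) * Real.log (Real.cosh u)))⁻¹ := by
    rw [← Real.exp_neg]; congr 1; ring
  rw [e, mul_comm (Real.log (Real.tanh u)) aa]
  ring

theorem hasDerivAt_fb {q : Par} (hT0 : 0 < q.T0 t) {u : ℝ} (hu : 0 < u) :
    HasDerivAt (q.fb t) (q.fb t u *
      (aa * (1 - Real.tanh u ^ 2) / Real.tanh u - (1 - aa) * Real.tanh u)) u := by
  have hT := tanh_pos hu
  have hc := Real.cosh_pos u
  have h1 : HasDerivAt (fun y => q.B / tau t * (1 / q.T0 t) ^ aa *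
      Real.exp (aa * Real.log (Real.tanh y) - (1 - aa) * Real.log (Real.cosh y)))
      (q.B / tau t * (1 / q.T0 t) ^ aa *
        (Real.exp (aa * Real.log (Real.tanh u) - (1 - aa) * Real.log (Real.cosh u)) *
        (aa * ((1 - Real.tanh u ^ 2) / Real.tanh u) - (1 - aa) * (Real.sinh u / Real.cosh u))))
      u := by
    have ha := (M4.hasDerivAt_tanh u).log hT.ne'
    have hb := (Real.hasDerivAt_cosh u).log hc.ne'
    exact (((ha.const_mul aa).sub (hb.const_mul (1 - aa))).exp).const_mul _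
  have h2 : q.fb t =ᶠ[𝓝 u] fun y => q.B / tau t * (1 / q.T0 t) ^ aa *
      Real.exp (aa * Real.log (Real.tanh y) - (1 - aa) * Real.log (Real.cosh y)) := by
    filter_upwards [lt_mem_nhds hu] with y hy
    exact fb_exp hT0 hy
  refine (h1.congr_of_eventuallyEq h2).congr_deriv ?_
  rw [fb_exp hT0 hu, ← Real.tanh_eq_sinh_div_cosh]
  ring

theorem fb_pos {q : Par} (hB : 0 < q.B) (hτ : 0 < tau t) (hT0 : 0 < q.T0 t) {u : ℝ}
    (hu : 0 < u) : 0 < q.fb t u := by
  rw [fb_exp hT0 hu]; positivity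

theorem Eb_pos {q : Par} (hB : 0 < q.B) (hτ : 0 < tau t) (hT0 : 0 < q.T0 t) {x : ℝ}
    (hu : 0 < uu w f t x) : 0 < Eb q w f t x :=
  mul_pos (pow_pos (rr_pos x) 2) (fb_pos hB hτ hT0 hu)

/-- `Dr e_b = e_b (2 - a G (1-T²)/T + (1-a) G T)` -/
theorem hasDerivAt_Eb {q : Par} (hT0 : 0 < q.T0 t) (h : Slice w f t) {x : ℝ}
    (hx : x ∈ Ioo (-1 : ℝ) 1) (hr : rs w f t x ≠ 0) (hu : 0 < uu w f t x) :
    HasDerivAt (Eb q w f t) (r1 w f t x * (Eb q w f t x * (2 - GG w f t x *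
      (aa * (1 - Real.tanh (uu w f t x) ^ 2) / Real.tanh (uu w f t x)
        - (1 - aa) * Real.tanh (uu w f t x))))) x := by
  have h1 := (hasDerivAt_rr h hx).pow 2
  have h2 := (hasDerivAt_fb (t := t) (q := q) hT0 hu).comp x (hasDerivAt_uu h hx hr)
  refine (h1.mul h2).congr_deriv ?_
  simp only [Eb, Function.comp_apply, Pi.pow_apply]
  ring

/-- the first part of the supersolution of (D5) -/
def S1 (g : ℝ → ℝ) (q : Par) (w f : Fn) (t x : ℝ) : ℝ :=
  g (uu w f t x) ^ 2 * Eb q w f t x ^ 2 / 148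

/-- the second part -/
def S2 (g : ℝ → ℝ) (Rs : ℝ) (w f : Fn) (t x : ℝ) : ℝ :=
  rr w f t x ^ 2 * Rs / (1640 * Zs g (uu w f t x))

theorem hasDerivAt_S1 {g : ℝ → ℝ} (hg : IsBub g) {q : Par} (hT0 : 0 < q.T0 t)
    (h : Slice w f t) {x : ℝ} (hx : x ∈ Ioo (-1 : ℝ) 1) (hr : rs w f t x ≠ 0)
    (hu : 0 < uu w f t x) :
    HasDerivAt (S1 g q w f t) (r1 w f t x * (2 * S1 g q w f t x *
      (-(GG w f t x) * deriv g (uu w f t x) / g (uu w f t x) + (2 - GG w f t x *
      (aa * (1 - Real.tanh (uu w f t x) ^ 2) / Real.tanh (uu w f t x)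
        - (1 - aa) * Real.tanh (uu w f t x)))))) x := by
  have hgp := g_pos hg hu
  have hgd : HasDerivAt g (deriv g (uu w f t x)) (uu w f t x) :=
    (hg.ode _ hu).differentiableAt.hasDerivAt
  have h1 := (hgd.comp x (hasDerivAt_uu h hx hr)).pow 2
  have h2 := (hasDerivAt_Eb (q := q) hT0 h hx hr hu).pow 2
  refine ((h1.mul h2).div_const 148).congr_deriv ?_
  simp only [S1, Function.comp_apply, Pi.pow_apply]
  field_simp
  ring

theorem hasDerivAt_S2 {g : ℝ → ℝ} (hg : IsBub g) (Rs : ℝ)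
    (h : Slice w f t) {x : ℝ} (hx : x ∈ Ioo (-1 : ℝ) 1) (hr : rs w f t x ≠ 0)
    (hu : 0 < uu w f t x) :
    HasDerivAt (S2 g Rs w f t) (r1 w f t x * (S2 g Rs w f t x *
      (2 + g (uu w f t x) * GG w f t x / 2))) x := by
  have hZs := (Zs_pos hg hu).ne'
  have h1 := ((hasDerivAt_rr h hx).pow 2).mul_const Rs
  have h2 := ((hasDerivAt_Zs hg hu).comp x (hasDerivAt_uu h hx hr)).const_mul 1640
  refine (h1.div h2 (by simpa using hZs)).congr_deriv ?_
  simp only [S2, Function.comp_apply, Pi.pow_apply]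
  field_simp
  ring

/-- the pointwise inequality behind (D5) -/
theorem d5_alg {s1 s2 k γ γ' T G e E F R r Z Rs θ : ℝ} (hs1 : s1 = γ ^ 2 * E ^ 2 / 148)
    (hs2 : s2 = r ^ 2 * Rs / (1640 * Z)) (hk : k = 39 - γ ^ 2 / 4 + (G - γ) ^ 2 / 4)
    (hF : F = (G - γ) ^ 2 / 4 + r ^ 2 * R / (40 * Z)) (hT : 0 < T) (hT1 : T < 1)
    (hγ0 : 0 < γ) (hγ2 : γ < 2) (hγ : γ ≤ 2.1147 * T) (hγ' : 0 < γ')
    (hγT : γ' * T ≤ γ * (1 - T ^ 2)) (hG : G = γ * (1 - e)) (he : |e| ≤ E) (hE : E ≤ 1 / 1000)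
    (hR : 0 ≤ R) (hRs : R ≤ Rs) (hZ : 0 < Z) :
    -(k * (s1 + s2 + θ)) ≤ 2 * s1 * (-G * γ' / γ + (2 - G *
      (aa * (1 - T ^ 2) / T - (1 - aa) * T))) + s2 * (2 + γ * G / 2) + (-θ * k - F) := by
  have hE0 : 0 ≤ E := (abs_nonneg e).trans he
  have he1 : -E ≤ e := (abs_le.1 he).1
  have he2 : e ≤ E := (abs_le.1 he).2
  have hG0 : 0 < G := by rw [hG]; apply mul_pos hγ0; linarith only [hT, hT1, hE, he2]
  have hs10 : 0 ≤ s1 := by rw [hs1]; positivity
  have hRs0 : 0 ≤ Rs := hR.trans hRs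
  have hs20 : 0 ≤ s2 := by rw [hs2]; positivity
  have hT2 : 0 < 1 - T ^ 2 := by nlinarith only [hT, hT1]
  -- `G γ'/γ ≤ 1.001 * 2.1147 (1-T²)`
  have h1 : γ' ≤ 2.1147 * (1 - T ^ 2) := by
    have : γ' * T ≤ 2.1147 * (1 - T ^ 2) * T := by nlinarith only [hT, hT1, hγ, hγT, hT2]
    exact le_of_mul_le_mul_right this hT
  have h2 : G * γ' / γ ≤ 1.001 * (2.1147 * (1 - T ^ 2)) := by
    have e1 : G * γ' / γ = (1 - e) * γ' := by rw [hG]; field_simp
    rw [e1]
    exact mul_le_mul (by linarith only [hE, he1]) h1 hγ'.le (by norm_num)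
  have h3 : G * ((1 - T ^ 2) / T) ≤ 1.001 * (2.1147 * (1 - T ^ 2)) := by
    have e1 : G ≤ 1.001 * (2.1147 * T) := by
      rw [hG, mul_comm]
      exact mul_le_mul (by linarith only [hE, he1]) hγ hγ0.le (by norm_num)
    have e2 : G * ((1 - T ^ 2) / T) ≤ 1.001 * (2.1147 * T) * ((1 - T ^ 2) / T) :=
      mul_le_mul_of_nonneg_right e1 (by positivity)
    refine e2.trans (le_of_eq ?_)
    field_simp
  have h4 : 0 ≤ G * T := by positivity
  have h5 : -1 ≤ 2 * (-G * γ' / γ + (2 - G *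
      (aa * (1 - T ^ 2) / T - (1 - aa) * T))) := by
    have e1 : -G * γ' / γ = -(G * γ' / γ) := by ring
    have e2 : G * (aa * (1 - T ^ 2) / T - (1 - aa) * T) =
        1 / 20 * (G * ((1 - T ^ 2) / T)) - 19 / 20 * (G * T) := by
      unfold aa; ring
    rw [e1, e2]
    nlinarith only [hT, hT1, h2, h3, h4, sq_nonneg T]
  have hk1 : 38 ≤ k := by
    rw [hk]
    nlinarith only [hT, hT1, hγ0, hγ2, sq_nonneg (G - γ)]
  have hA : (G - γ) ^ 2 / 4 ≤ s1 * (k + 2 * (-G * γ' / γ + (2 - G *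
      (aa * (1 - T ^ 2) / T - (1 - aa) * T)))) := by
    have e1 : (G - γ) ^ 2 = γ ^ 2 * e ^ 2 := by rw [hG]; ring
    have e2 : e ^ 2 ≤ E ^ 2 := by
      rw [← sq_abs]; exact pow_le_pow_left₀ (abs_nonneg _) he 2
    have e3 : (G - γ) ^ 2 / 4 ≤ s1 * 37 := by
      rw [e1, hs1]
      have := mul_le_mul_of_nonneg_left e2 (sq_nonneg γ)
      linarith only [this]
    exact e3.trans (mul_le_mul_of_nonneg_left (by linarith only [h5, hk1]) hs10)
  have hB : r ^ 2 * R / (40 * Z) ≤ s2 * (k + (2 + γ * G / 2)) := by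
    have e1 : 41 ≤ k + (2 + γ * G / 2) := by
      have e4 : γ * G = γ ^ 2 * (1 - e) := by rw [hG]; ring
      rw [hk, e4]
      nlinarith only [hE, he2, sq_nonneg (G - γ), sq_nonneg γ]
    have e2 : r ^ 2 * R / (40 * Z) ≤ r ^ 2 * Rs / (40 * Z) := by
      apply div_le_div_of_nonneg_right _ (by positivity)
      exact mul_le_mul_of_nonneg_left hRs (sq_nonneg r)
    have e3 : r ^ 2 * Rs / (40 * Z) = s2 * 41 := by
      rw [hs2]; field_simp; ring
    rw [e3] at e2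
    exact e2.trans (mul_le_mul_of_nonneg_left e1 hs20)
  rw [hF]
  generalize -G * γ' / γ + (2 - G * (aa * (1 - T ^ 2) / T - (1 - aa) * T)) = X at hA ⊢
  generalize 2 + γ * G / 2 = Y at hB ⊢
  have e1 : s1 * (k + 2 * X) = k * s1 + 2 * s1 * X := by ring
  have e2 : s2 * (k + Y) = k * s2 + s2 * Y := by ring
  have e3 : k * (s1 + s2 + θ) = k * s1 + k * s2 + θ * k := by ring
  rw [e1] at hA
  rw [e2] at hB
  rw [e3]
  linarith only [hA, hB]

/-- **(D5)** -/
theorem D5 {g : ℝ → ℝ} (hg : IsBub g) (h : Slice w f t) {q : Par} {x0 Rs : ℝ}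
    (hx0 : x0 ∈ Ioo (0 : ℝ) 1) (hT0 : 0 < q.T0 t)
    (hrs : ∀ x ∈ Ico x0 1, 0 < rs w f t x) (hu : ∀ x ∈ Ico x0 1, 0 < uu w f t x)
    (he : ∀ x ∈ Ico x0 1, |ee g w f t x| ≤ Eb q w f t x)
    (hE : ∀ x ∈ Ico x0 1, Eb q w f t x ≤ 1 / 1000)
    (hR0 : ∀ x ∈ Ico x0 1, 0 ≤ RR w f t x) (hR : ∀ x ∈ Ico x0 1, RR w f t x ≤ Rs) :
    ∀ x ∈ Ico x0 1, th g w f t x ≤ 0 ∧
      -th g w f t x ≤ g (uu w f t x) ^ 2 * Eb q w f t x ^ 2 / 148 +
        rr w f t x ^ 2 * Rs / (1640 * Zs g (uu w f t x)) := by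
  have hI : ∀ {x}, x ∈ Ico x0 1 → x ∈ Ioo (-1 : ℝ) 1 := fun {x} hx =>
    ⟨by linarith only [hx0, hx, hx.1, hx0.1], hx.2⟩
  have hth0 := th_nonpos hg h hx0 hrs hu hR0
  have key := tip_nonneg (Φ := fun x => S1 g q w f t x + S2 g Rs w f t x + th g w f t x)
    (Φ' := fun x => r1 w f t x * (2 * S1 g q w f t x *
      (-(GG w f t x) * deriv g (uu w f t x) / g (uu w f t x) + (2 - GG w f t x *
      (aa * (1 - Real.tanh (uu w f t x) ^ 2) / Real.tanh (uu w f t x)
        - (1 - aa) * Real.tanh (uu w f t x))))) +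
      r1 w f t x * (S2 g Rs w f t x * (2 + g (uu w f t x) * GG w f t x / 2)) +
      r1 w f t x * (-(th g w f t x) * (qb g (uu w f t x) +
      (GG w f t x - g (uu w f t x)) ^ 2 / 4) - (GG w f t x - g (uu w f t x)) ^ 2 / 4
      - (rr w f t x) ^ 2 * RR w f t x / (40 * Zs g (uu w f t x))))
    (ρ := rho w f t) (ρ' := r1 w f t) (x0 := x0) (k := 38) (C := 1) (by norm_num)
    (fun x hx => hasDerivAt_rho h (hI hx)) (rho_tendsto h)
    (fun x hx => ((hasDerivAt_S1 hg hT0 h (hI hx) (hrs x hx).ne' (hu x hx)).add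
      (hasDerivAt_S2 hg Rs h (hI hx) (hrs x hx).ne' (hu x hx))).add
      (hasDerivAt_th hg h (hI hx) (hrs x hx).ne' (hu x hx))) ?_ ?_
  · intro x hx
    refine ⟨hth0 x hx, ?_⟩
    have := key x hx
    unfold S1 S2 at this
    linarith only [this]
  · intro x hx hneg
    have hux := hu x hx
    have hr := r1_neg (hI hx) (hrs x hx)
    have hZs := Zs_pos hg hux
    have hgp := g_pos hg hux
    have hTp := tanh_pos hux
    have hG : GG w f t x = g (uu w f t x) * (1 - ee g w f t x) := by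
      unfold ee; field_simp; ring
    have halg := d5_alg (s1 := S1 g q w f t x) (s2 := S2 g Rs w f t x)
      (k := qb g (uu w f t x) + (GG w f t x - g (uu w f t x)) ^ 2 / 4)
      (γ := g (uu w f t x)) (γ' := deriv g (uu w f t x)) (T := Real.tanh (uu w f t x))
      (G := GG w f t x) (e := ee g w f t x) (E := Eb q w f t x)
      (F := (GG w f t x - g (uu w f t x)) ^ 2 / 4 +
        (rr w f t x) ^ 2 * RR w f t x / (40 * Zs g (uu w f t x)))
      (R := RR w f t x) (r := rr w f t x) (Z := Zs g (uu w f t x)) (Rs := Rs)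
      (θ := th g w f t x) rfl rfl rfl rfl hTp (Real.tanh_lt_one _) hgp (hg.lt_two _ hux)
      ((hg.upper _ hux).le.trans (mul_le_mul_of_nonneg_right kap_lt.le hTp.le))
      (hg.deriv_pos _ hux) (hg.ratio _ hux) hG (he x hx) (hE x hx) (hR0 x hx) (hR x hx) hZs
    have hq := q_lo hg hux
    have hk : 38 ≤ qb g (uu w f t x) + (GG w f t x - g (uu w f t x)) ^ 2 / 4 := by
      have := sq_nonneg (GG w f t x - g (uu w f t x))
      linarith only [hq, this]
    set k := qb g (uu w f t x) + (GG w f t x - g (uu w f t x)) ^ 2 / 4 with hkd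
    set Φ := S1 g q w f t x + S2 g Rs w f t x + th g w f t x with hΦ
    have h1 : 38 * -Φ ≤ k * -Φ := mul_le_mul_of_nonneg_right hk (by linarith only [hneg])
    have h2 : 38 * -Φ ≤ 2 * S1 g q w f t x * (-(GG w f t x) * deriv g (uu w f t x) /
      g (uu w f t x) + (2 - GG w f t x *
      (aa * (1 - Real.tanh (uu w f t x) ^ 2) / Real.tanh (uu w f t x)
        - (1 - aa) * Real.tanh (uu w f t x)))) +
      S2 g Rs w f t x * (2 + g (uu w f t x) * GG w f t x / 2) +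
      (-(th g w f t x) * k - (GG w f t x - g (uu w f t x)) ^ 2 / 4
      - (rr w f t x) ^ 2 * RR w f t x / (40 * Zs g (uu w f t x))) := by
      linarith only [halg, h1]
    have h3 := mul_le_mul_of_nonpos_left h2 hr.le
    linarith only [h3]
  · intro x hx
    have h1 := th_ge hg (hu x hx)
    have h2 : 0 ≤ S1 g q w f t x := by unfold S1; positivity
    have h3 : 0 ≤ S2 g Rs w f t x := by
      have := Zs_pos hg (hu x hx)
      have := (hR0 x hx).trans (hR x hx)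
      unfold S2; positivity
    linarith only [h1, h2, h3]

/-- **(D6)** -/
theorem D6 {g : ℝ → ℝ} (hg : IsBub g) {q : Par} {x Rs : ℝ}
    (hrs : 0 < rs w f t x) (hu : 0 < uu w f t x)
    (he : |ee g w f t x| ≤ Eb q w f t x) (hE : Eb q w f t x ≤ 1 / 1000)
    (hR0 : 0 ≤ RR w f t x) (hR : RR w f t x ≤ Rs) (hth0 : th g w f t x ≤ 0)
    (hth : -th g w f t x ≤ g (uu w f t x) ^ 2 * Eb q w f t x ^ 2 / 148 +
        rr w f t x ^ 2 * Rs / (1640 * Zs g (uu w f t x))) :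
    |E0 w f t x| ≤ Rs + 11 * (Zs g (uu w f t x) * g (uu w f t x) ^ 2) *
      q.fb t (uu w f t x) := by
  have hZs := Zs_pos hg hu
  have hgp := g_pos hg hu
  have hg2 := hg.lt_two _ hu
  have hrr := rr_pos (w := w) (f := f) (t := t) x
  have hE4 := E4 hg hrs.ne' hu
  have hG : GG w f t x = g (uu w f t x) * (1 - ee g w f t x) := by
    unfold ee; field_simp; ring
  have hEb : Eb q w f t x = rr w f t x ^ 2 * q.fb t (uu w f t x) := rfl
  rw [hG] at hE4
  generalize Zs g (uu w f t x) = Z at *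
  generalize g (uu w f t x) = γ at *
  generalize ee g w f t x = e at *
  generalize th g w f t x = θ at *
  generalize RR w f t x = R at *
  generalize E0 w f t x = E₀ at *
  generalize rr w f t x = r at *
  generalize q.fb t (uu w f t x) = F at *
  generalize Eb q w f t x = E at *
  have hE0 : 0 ≤ E := (abs_nonneg e).trans he
  have he1 : -E ≤ e := (abs_le.1 he).1
  have he2 : e ≤ E := (abs_le.1 he).2
  have hr2 : 0 < r ^ 2 := by positivity
  have hF : 0 ≤ F := by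
    by_contra hc
    push Not at hc
    nlinarith only [hEb, hE0, hr2, hc]
  have hRs0 : 0 ≤ Rs := hR0.trans hR
  -- `|r² (2 E0 - R)| ≤ ...`
  have hsq : |(γ * (1 - e)) ^ 2 - γ ^ 2| ≤ 2.001 * (γ ^ 2 * E) := by
    have e1 : (γ * (1 - e)) ^ 2 - γ ^ 2 = γ ^ 2 * (e ^ 2 - 2 * e) := by ring
    have e2 : |e ^ 2 - 2 * e| ≤ 2.001 * E := by
      rw [abs_le]; constructor <;> nlinarith only [hE0, he2, hE, he1]
    rw [e1, abs_mul, abs_of_nonneg (sq_nonneg γ)]
    have := mul_le_mul_of_nonneg_left e2 (sq_nonneg γ)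
    linarith only [this]
  have hG2 : (γ * (1 - e)) ^ 2 ≤ 5 := by
    have : (γ * (1 - e)) ^ 2 ≤ γ ^ 2 + 2.001 * (γ ^ 2 * E) := by
      have := (abs_le.1 hsq).2; linarith only [this]
    nlinarith only [hgp, hg2, hE, this]
  have h1 : |r ^ 2 * (2 * E₀ - R)| ≤ Z * (-θ * 1560 + 20.01 * (γ ^ 2 * E)) := by
    rw [hE4, abs_mul, abs_of_pos hZs]
    apply mul_le_mul_of_nonneg_left _ hZs.le
    have e1 := (abs_le.1 hsq).1
    have e2 := (abs_le.1 hsq).2
    have e3 := sq_nonneg (γ * (1 - e))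
    rw [abs_le]; constructor <;> nlinarith only [hth0, e2, hG2, e1]
  have h2 : Z * (-θ * 1560 + 20.01 * (γ ^ 2 * E)) ≤
      r ^ 2 * (2 * (11 * (Z * γ ^ 2) * F) + Rs) := by
    have e1 : Z * (-θ) ≤ Z * (γ ^ 2 * E ^ 2 / 148) + r ^ 2 * Rs / 1640 := by
      have := mul_le_mul_of_nonneg_left hth hZs.le
      refine this.trans (le_of_eq ?_)
      field_simp
    have e2 : γ ^ 2 * E ^ 2 ≤ γ ^ 2 * (E / 1000) := by
      apply mul_le_mul_of_nonneg_left _ (sq_nonneg γ)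
      nlinarith only [hE, hE0]
    have e3 : Z * (γ ^ 2 * E ^ 2 / 148) ≤ Z * (γ ^ 2 * (E / 1000) / 148) := by
      apply mul_le_mul_of_nonneg_left _ hZs.le
      linarith only [e2]
    have e4 : r ^ 2 * (2 * (11 * (Z * γ ^ 2) * F)) = 22 * (Z * (γ ^ 2 * E)) := by
      rw [hEb]; ring
    have e5 : 0 ≤ Z * (γ ^ 2 * E) := by positivity
    have e6 : 0 ≤ r ^ 2 * Rs := by positivity
    have e7 : Z * (γ ^ 2 * (E / 1000) / 148) = Z * (γ ^ 2 * E) / 148000 := by ring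
    rw [mul_add (r ^ 2), e4]
    rw [e7] at e3
    have e8 : Z * (-θ * 1560 + 20.01 * (γ ^ 2 * E)) =
        1560 * (Z * -θ) + 20.01 * (Z * (γ ^ 2 * E)) := by ring
    rw [e8]
    linarith only [e1, e3, e5, e6]
  have h3 : |2 * E₀ - R| ≤ 2 * (11 * (Z * γ ^ 2) * F) + Rs := by
    rw [abs_mul, abs_of_pos hr2] at h1
    exact le_of_mul_le_mul_left (h1.trans h2) hr2
  rw [abs_le] at h3 ⊢
  constructor <;> linarith only [hR0, hR, h3, h3.1, h3.2]

end

end

end Vale.Agent.P244.ST.M2
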