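import Vale.Agent.P244.ST.M2Static

/-!
# P244-ST, block M2 : (D7), (D8) : the region `y ≥ ρ₀` at fixed time
-/

open Set Filter Topology
open scoped ContDiff

namespace Vale.Agent.P244.ST.M2

noncomputable section

/-- `M(r,t) = (τ + r²)³ r^{-κ}` -/
def Mf (t r : ℝ) : ℝ := (tau t + r ^ 2) ^ 3 * r ^ (-kap)

theorem Mf_pos {t r : ℝ} (ht : t < 1) (hr : 0 < r) : 0 < Mf t r := by
  unfold Mf tau
  have : 0 < 1 - t := by linarith only [ht]
  positivity

variable {w f : Fn} {t : ℝ}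

/-- the logarithmic derivative of `M` -/
def Md (t r : ℝ) : ℝ := 6 * r ^ 2 / (tau t + r ^ 2) - kap

theorem Md_ge {t r : ℝ} (ht : t < 1) : -kap ≤ Md t r := by
  unfold Md tau
  have h1 : 0 < 1 - t := by linarith only [ht]
  have : 0 ≤ 6 * r ^ 2 / (1 - t + r ^ 2) := by positivity
  linarith only [this]

theorem hasDerivAt_Mf (h : Slice w f t) (ht : t < 1) {x : ℝ} (hx : x ∈ Ioo (-1 : ℝ) 1) :
    HasDerivAt (fun x => Mf t (rr w f t x))
      (r1 w f t x * (Mf t (rr w f t x) * Md t (rr w f t x))) x := by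
  have h1 := hasDerivAt_rr h hx
  have hr := rr_pos (w := w) (f := f) (t := t) x
  have h2 := (((h1.pow 2).const_add (tau t)).pow 3).mul (h1.rpow_const (p := -kap) (Or.inl hr.ne'))
  refine h2.congr_deriv ?_
  have h3 : 0 < tau t + (rr w f t x) ^ 2 := by
    unfold tau
    have : 0 < 1 - t := by linarith only [ht]
    positivity
  unfold Mf Md
  have h4 : (rr w f t x) ^ (-kap - 1) = (rr w f t x) ^ (-kap) / rr w f t x := by
    rw [Real.rpow_sub hr, Real.rpow_one]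
  rw [h4]
  simp only [Pi.pow_apply]
  field_simp
  ring

theorem cosh_sub_one_le {u : ℝ} (hu : |u| ≤ 1 / 100) : Real.cosh u - 1 ≤ 51 / 100 * u ^ 2 := by
  have h1 := Real.cosh_le_exp_half_sq u
  have h3 : u ^ 2 ≤ 1 / 10000 := by
    have := sq_le_sq' (by linarith only [neg_abs_le u, abs_nonneg u] : -(1 / 100 : ℝ) ≤ |u|) hu
    rw [sq_abs] at this
    linarith only [this]
  have h2 : Real.exp (u ^ 2 / 2) ≤ 1 + u ^ 2 / 2 + (u ^ 2 / 2) ^ 2 := by
    have h0 : |u ^ 2 / 2| ≤ 1 := by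
      rw [abs_of_nonneg (by positivity)]; linarith only [h3]
    have := Real.abs_exp_sub_one_sub_id_le h0
    have h4 := (abs_le.1 this).2
    linarith only [h4]
  nlinarith only [h1, h3, h2, sq_nonneg u]

theorem one_le_cosh' (u : ℝ) : 1 ≤ Real.cosh u := Real.one_le_cosh u

theorem tanh_le_self {u : ℝ} (hu : 0 < u) : Real.tanh u ≤ u := by
  rw [Real.tanh_eq_sinh_div_cosh, div_le_iff₀ (Real.cosh_pos u)]
  have h : ∀ x ∈ Icc (0 : ℝ) u, Real.sinh x ≤ x * Real.cosh x := by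
    intro x hx
    have hm : MonotoneOn (fun x => x * Real.cosh x - Real.sinh x) (Icc 0 u) := by
      refine monotoneOn_of_deriv_nonneg (convex_Icc 0 u) (by fun_prop) (by fun_prop) ?_
      intro y hy
      rw [interior_Icc] at hy
      have hd : HasDerivAt (fun x => x * Real.cosh x - Real.sinh x)
          (1 * Real.cosh y + y * Real.sinh y - Real.cosh y) y :=
        ((hasDerivAt_id y).mul (Real.hasDerivAt_cosh y)).sub (Real.hasDerivAt_sinh y)
      rw [hd.deriv]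
      have := Real.sinh_pos_iff.2 hy.1
      nlinarith only [hy, this, mul_pos hy.1 this]
    have := hm (left_mem_Icc.2 hu.le) hx hx.1
    simp only [Real.sinh_zero, zero_mul, sub_zero] at this
    linarith only [this]
  exact h u (right_mem_Icc.2 hu.le)

theorem g_sq_le {g : ℝ → ℝ} (hg : IsBub g) {u : ℝ} (hu : 0 < u) : g u ^ 2 ≤ 4.472 * u ^ 2 := by
  have h1 := hg.upper u hu
  have h2 := tanh_le_self hu
  have h3 := g_pos hg hu
  have h4 := tanh_pos hu
  have h5 : g u ≤ 2.1147 * u := by nlinarith only [hu, h1, h2, kap_lt, kap_gt]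
  nlinarith only [hu, h3, h5]

theorem Zs_sub_one_le {g : ℝ → ℝ} (hg : IsBub g) {u : ℝ} (hu : 0 < u) (hu' : |u| ≤ 1 / 100) :
    Zs g u - 1 ≤ 6 / 10 * u ^ 2 := by
  have h1 := q_lo hg hu
  have h2 := Zs_q hg hu
  have h3 := cosh_sub_one_le hu'
  have h4 := g_sq_le hg hu
  have h5 : qb g u = 39 - g u ^ 2 / 4 := rfl
  have h6 : (Zs g u - 1) * qb g u = 39 * (Real.cosh u - 1) + g u ^ 2 / 4 := by
    rw [sub_mul, h2, h5]; ring
  have h7 : (Zs g u - 1) * qb g u ≤ (6 / 10 * u ^ 2) * 38 := by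
    rw [h6]; nlinarith only [h3, h4, sq_nonneg u]
  have h8 : (6 / 10 * u ^ 2) * 38 ≤ (6 / 10 * u ^ 2) * qb g u :=
    mul_le_mul_of_nonneg_left h1.le (by positivity)
  exact le_of_mul_le_mul_right (h7.trans h8) (by linarith only [h1])

theorem one_le_Zs {g : ℝ → ℝ} (hg : IsBub g) {u : ℝ} (hu : 0 < u) : 1 ≤ Zs g u :=
  (Real.one_le_cosh u).trans (cosh_le_Zs hg hu)

/-- hypotheses for (D7), (D8) at a fixed time -/
structure Out (g : ℝ → ℝ) (w f : Fn) (t K ε Rs x1 : ℝ) : Prop where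
  bub : IsBub g
  slice : Slice w f t
  t_lt : t < 1
  K_nonneg : 0 ≤ K
  ε_nonneg : 0 ≤ ε
  hx1 : x1 ∈ Ioo (0 : ℝ) 1
  rs_pos : ∀ x ∈ Ioc (0 : ℝ) x1, 0 < rs w f t x
  R_nonneg : ∀ x ∈ Icc (0 : ℝ) x1, 0 ≤ RR w f t x
  R_le : ∀ x ∈ Icc (0 : ℝ) x1, RR w f t x ≤ Rs
  hu : ∀ x ∈ Icc (0 : ℝ) x1, |uu w f t x| ≤ K * (ε * Mf t (rr w f t x))
  hP : ∀ x ∈ Icc (0 : ℝ) x1, |rr w f t x * PP w f t x| ≤ K * (ε * Mf t (rr w f t x))
  small : ∀ x ∈ Icc (0 : ℝ) x1, K * (ε * Mf t (rr w f t x)) ≤ 1 / 100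
  u_pos : 0 < uu w f t x1
  th_nonpos : th g w f t x1 ≤ 0
  th_ge : -(th g w f t x1) ≤ g (uu w f t x1) ^ 2 / 148 +
    (rr w f t x1) ^ 2 * Rs / (1640 * Zs g (uu w f t x1))

variable {g : ℝ → ℝ} {K ε Rs x1 : ℝ}

theorem Out.mem (H : Out g w f t K ε Rs x1) {x : ℝ} (hx : x ∈ Icc (0 : ℝ) x1) :
    x ∈ Ioo (-1 : ℝ) 1 := ⟨by linarith only [hx, hx.1], hx.2.trans_lt H.hx1.2⟩

theorem Out.Rs_nonneg (H : Out g w f t K ε Rs x1) : 0 ≤ Rs :=
  (H.R_nonneg 0 ⟨le_refl 0, H.hx1.1.le⟩).trans (H.R_le 0 ⟨le_refl 0, H.hx1.1.le⟩)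

/-- `K ε M` as a function of `x` -/
def km (w f : Fn) (t K ε x : ℝ) : ℝ := K * (ε * Mf t (rr w f t x))

theorem km_nonneg (H : Out g w f t K ε Rs x1) (x : ℝ) : 0 ≤ km w f t K ε x :=
  mul_nonneg H.K_nonneg (mul_nonneg H.ε_nonneg (Mf_pos H.t_lt (rr_pos x)).le)

theorem hasDerivAt_km (H : Out g w f t K ε Rs x1) {x : ℝ} (hx : x ∈ Ioo (-1 : ℝ) 1) :
    HasDerivAt (km w f t K ε) (r1 w f t x * (km w f t K ε x * Md t (rr w f t x))) x := by
  have h1 := ((hasDerivAt_Mf H.slice H.t_lt hx).const_mul ε).const_mul K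
  refine h1.congr_deriv ?_
  unfold km
  ring

theorem Out.u_sq (H : Out g w f t K ε Rs x1) {x : ℝ} (hx : x ∈ Icc (0 : ℝ) x1) :
    (uu w f t x) ^ 2 ≤ (km w f t K ε x) ^ 2 := by
  rw [← sq_abs]
  exact pow_le_pow_left₀ (abs_nonneg _) (H.hu x hx) 2

theorem Out.P_sq (H : Out g w f t K ε Rs x1) {x : ℝ} (hx : x ∈ Icc (0 : ℝ) x1) :
    (rr w f t x) ^ 2 * (PP w f t x) ^ 2 ≤ (km w f t K ε x) ^ 2 := by
  rw [← mul_pow, ← sq_abs]
  exact pow_le_pow_left₀ (abs_nonneg _) (H.hP x hx) 2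

theorem Out.cosh_le (H : Out g w f t K ε Rs x1) {x : ℝ} (hx : x ∈ Icc (0 : ℝ) x1) :
    Real.cosh (uu w f t x) - 1 ≤ 51 / 100 * (km w f t K ε x) ^ 2 := by
  have h1 := cosh_sub_one_le ((H.hu x hx).trans (H.small x hx))
  nlinarith only [H, hx, h1, H.u_sq hx]

/-- the weight `e^{39ρ}` -/
def wt (w f : Fn) (t x : ℝ) : ℝ := Real.exp (39 * rho w f t x)

theorem hasDerivAt_wt (h : Slice w f t) {x : ℝ} (hx : x ∈ Ioo (-1 : ℝ) 1) :
    HasDerivAt (wt w f t) (r1 w f t x * (39 * wt w f t x)) x := by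
  have h1 := ((hasDerivAt_rho h hx).const_mul 39).exp
  refine h1.congr_deriv ?_
  unfold wt
  ring

/-- upper bound in (D7) -/
theorem Out.Z_le (H : Out g w f t K ε Rs x1) {x : ℝ} (hx : x ∈ Icc (0 : ℝ) x1) :
    ZZ w f t x - 1 ≤ (km w f t K ε x) ^ 2 := by
  set X : ℝ → ℝ := fun x => wt w f t x * (ZZ w f t x - 1 - (km w f t K ε x) ^ 2) with hX
  have hd : ∀ y ∈ Icc (0 : ℝ) x1, HasDerivAt X (r1 w f t y * (wt w f t y *
      (39 * (Real.cosh (uu w f t y) - 1) - (rr w f t y) ^ 2 * (PP w f t y) ^ 2 / 4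
        - (rr w f t y) ^ 2 * RR w f t y / 40
        - (39 + 2 * Md t (rr w f t y)) * (km w f t K ε y) ^ 2))) y := by
    intro y hy
    have h1 := hasDerivAt_ZZ H.slice (H.mem hy)
    have h2 := hasDerivAt_km H (H.mem hy)
    have h3 := (hasDerivAt_wt H.slice (H.mem hy)).mul ((h1.sub_const 1).sub (h2.pow 2))
    refine h3.congr_deriv ?_
    simp only [Pi.pow_apply, Pi.sub_apply]
    ring
  have hm : MonotoneOn X (Icc 0 x1) := by
    refine monotoneOn_of_deriv_nonneg (convex_Icc 0 x1)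
      (fun y hy => (hd y hy).continuousAt.continuousWithinAt)
      (fun y hy => (hd y (interior_subset hy)).differentiableAt.differentiableWithinAt) ?_
    intro y hy
    rw [interior_Icc] at hy
    have hy' : y ∈ Icc (0 : ℝ) x1 := Ioo_subset_Icc_self hy
    rw [(hd y hy').deriv]
    have h1 := r1_neg (H.mem hy') (H.rs_pos y ⟨hy.1, hy.2.le⟩)
    refine mul_nonneg_of_nonpos_of_nonpos h1.le ?_
    refine mul_nonpos_of_nonneg_of_nonpos (Real.exp_pos _).le ?_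
    have h2 := H.cosh_le hy'
    have h3 : 0 ≤ (rr w f t y) ^ 2 * (PP w f t y) ^ 2 := by positivity
    have h4 : 0 ≤ (rr w f t y) ^ 2 * RR w f t y := mul_nonneg (sq_nonneg _) (H.R_nonneg y hy')
    have h5 := Md_ge (r := rr w f t y) H.t_lt
    have h6 : 34 * (km w f t K ε y) ^ 2 ≤
        (39 + 2 * Md t (rr w f t y)) * (km w f t K ε y) ^ 2 :=
      mul_le_mul_of_nonneg_right (by linarith only [h5, kap_lt]) (sq_nonneg _)
    nlinarith only [h2, h3, h4, h6, sq_nonneg (km w f t K ε y)]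
  have h1 := hm hx ⟨H.hx1.1.le, le_refl x1⟩ hx.2
  have hx1' : x1 ∈ Icc (0 : ℝ) x1 := ⟨H.hx1.1.le, le_refl x1⟩
  have h2 : X x1 ≤ 0 := by
    refine mul_nonpos_of_nonneg_of_nonpos (Real.exp_pos _).le ?_
    have h3 := Zs_sub_one_le H.bub H.u_pos ((H.hu x1 hx1').trans (H.small x1 hx1'))
    have h4 := Zs_pos H.bub H.u_pos
    have h5 : ZZ w f t x1 = Zs g (uu w f t x1) * (th g w f t x1 + 1) := by
      unfold th; field_simp; ring
    have h6 : Zs g (uu w f t x1) * th g w f t x1 ≤ 0 :=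
      mul_nonpos_of_nonneg_of_nonpos h4.le H.th_nonpos
    have h7 := H.u_sq hx1'
    nlinarith only [h3, h5, h6, h7]
  have h3 : X x ≤ 0 := h1.trans h2
  have h4 : 0 < wt w f t x := Real.exp_pos _
  have h5 : ZZ w f t x - 1 - (km w f t K ε x) ^ 2 ≤ 0 := by
    by_contra hc
    push Not at hc
    exact absurd (mul_pos h4 hc) (not_lt.2 h3)
  linarith only [h5]

/-- lower bound in (D7) -/
theorem Out.Z_ge (H : Out g w f t K ε Rs x1) {x : ℝ} (hx : x ∈ Icc (0 : ℝ) x1) :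
    -((km w f t K ε x) ^ 2 + (rr w f t x) ^ 2 * Rs / 1640) ≤ ZZ w f t x - 1 := by
  set X : ℝ → ℝ := fun x => wt w f t x * (ZZ w f t x - 1 + (km w f t K ε x) ^ 2 +
    (rr w f t x) ^ 2 * Rs / 1640) with hX
  have hd : ∀ y ∈ Icc (0 : ℝ) x1, HasDerivAt X (r1 w f t y * (wt w f t y *
      (39 * (Real.cosh (uu w f t y) - 1) - (rr w f t y) ^ 2 * (PP w f t y) ^ 2 / 4
        + (rr w f t y) ^ 2 * (Rs - RR w f t y) / 40
        + (39 + 2 * Md t (rr w f t y)) * (km w f t K ε y) ^ 2))) y := by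
    intro y hy
    have h1 := hasDerivAt_ZZ H.slice (H.mem hy)
    have h2 := hasDerivAt_km H (H.mem hy)
    have h2' := hasDerivAt_rr H.slice (H.mem hy)
    have h3 := (hasDerivAt_wt H.slice (H.mem hy)).mul (((h1.sub_const 1).add (h2.pow 2)).add
      (((h2'.pow 2).mul_const Rs).div_const 1640))
    refine h3.congr_deriv ?_
    simp only [Pi.pow_apply, Pi.add_apply]
    ring
  have hm : AntitoneOn X (Icc 0 x1) := by
    refine antitoneOn_of_deriv_nonpos (convex_Icc 0 x1)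
      (fun y hy => (hd y hy).continuousAt.continuousWithinAt)
      (fun y hy => (hd y (interior_subset hy)).differentiableAt.differentiableWithinAt) ?_
    intro y hy
    rw [interior_Icc] at hy
    have hy' : y ∈ Icc (0 : ℝ) x1 := Ioo_subset_Icc_self hy
    rw [(hd y hy').deriv]
    have h1 := r1_neg (H.mem hy') (H.rs_pos y ⟨hy.1, hy.2.le⟩)
    refine mul_nonpos_of_nonpos_of_nonneg h1.le ?_
    refine mul_nonneg (Real.exp_pos _).le ?_
    have h2 := Real.one_le_cosh (uu w f t y)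
    have h3 := H.P_sq hy'
    have h4 : 0 ≤ (rr w f t y) ^ 2 * (Rs - RR w f t y) :=
      mul_nonneg (sq_nonneg _) (sub_nonneg.2 (H.R_le y hy'))
    have h5 := Md_ge (r := rr w f t y) H.t_lt
    have h6 : 34 * (km w f t K ε y) ^ 2 ≤
        (39 + 2 * Md t (rr w f t y)) * (km w f t K ε y) ^ 2 :=
      mul_le_mul_of_nonneg_right (by linarith only [h5, kap_lt]) (sq_nonneg _)
    nlinarith only [h2, h3, h4, h6, sq_nonneg (km w f t K ε y)]
  have hx1' : x1 ∈ Icc (0 : ℝ) x1 := ⟨H.hx1.1.le, le_refl x1⟩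
  have h1 := hm hx hx1' hx.2
  have h2 : 0 ≤ X x1 := by
    refine mul_nonneg (Real.exp_pos _).le ?_
    have h3 := one_le_Zs H.bub H.u_pos
    have hsm := (H.hu x1 hx1').trans (H.small x1 hx1')
    have h3' := Zs_sub_one_le H.bub H.u_pos hsm
    have h4 := Zs_pos H.bub H.u_pos
    have h5 : ZZ w f t x1 = Zs g (uu w f t x1) * (th g w f t x1 + 1) := by
      unfold th; field_simp; ring
    have h6 : Zs g (uu w f t x1) * (-(th g w f t x1)) ≤
        Zs g (uu w f t x1) * (g (uu w f t x1) ^ 2 / 148) + (rr w f t x1) ^ 2 * Rs / 1640 := by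
      have := mul_le_mul_of_nonneg_left H.th_ge h4.le
      refine this.trans (le_of_eq ?_)
      field_simp
    have h7 := H.u_sq hx1'
    have h8 := g_sq_le H.bub H.u_pos
    have h9 : (uu w f t x1) ^ 2 ≤ 1 / 10000 := by
      have := pow_le_pow_left₀ (abs_nonneg _) hsm 2
      rw [sq_abs] at this
      linarith only [this]
    have h10 : Zs g (uu w f t x1) ≤ 2 := by linarith only [h3', h9]
    have h11 : Zs g (uu w f t x1) * (g (uu w f t x1) ^ 2 / 148) ≤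
        2 * (g (uu w f t x1) ^ 2 / 148) := mul_le_mul_of_nonneg_right h10 (by positivity)
    nlinarith only [h3, h5, h6, h7, h8, h11]
  have h3 : 0 ≤ X x := h2.trans h1
  have h4 : 0 < wt w f t x := Real.exp_pos _
  have h5 : 0 ≤ ZZ w f t x - 1 + (km w f t K ε x) ^ 2 + (rr w f t x) ^ 2 * Rs / 1640 := by
    by_contra hc
    push Not at hc
    exact absurd (mul_neg_of_pos_of_neg h4 hc) (not_lt.2 h3)
  linarith only [h5]

/-- (D8) -/
theorem Out.E0_le (H : Out g w f t K ε Rs x1) {x : ℝ} (hx : x ∈ Icc (0 : ℝ) x1) :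
    |E0 w f t x| ≤ Rs / 2 + 1200 * (km w f t K ε x) ^ 2 / (rr w f t x) ^ 2 := by
  have h1 := H.Z_le hx
  have h2 := H.Z_ge hx
  have h3 := E3' (w := w) (f := f) (t := t) x
  have h4 := H.cosh_le hx
  have h5 := H.P_sq hx
  have h5' : 0 ≤ (rr w f t x) ^ 2 * (PP w f t x) ^ 2 := by positivity
  have h6 := Real.one_le_cosh (uu w f t x)
  have hr := rr_pos (w := w) (f := f) (t := t) x
  have h7 := mul_nonneg (sq_nonneg (rr w f t x)) (H.R_nonneg x hx)
  have h8 := mul_nonneg (sq_nonneg (rr w f t x)) (sub_nonneg.2 (H.R_le x hx))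
  have h9 := mul_nonneg (sq_nonneg (rr w f t x)) H.Rs_nonneg
  have h10 := sq_nonneg (km w f t K ε x)
  have key : |(rr w f t x) ^ 2 * E0 w f t x| ≤
      (rr w f t x) ^ 2 * (Rs / 2) + 1200 * (km w f t K ε x) ^ 2 := by
    rw [abs_le]
    constructor <;> nlinarith only [h1, h2, h3, h4, h5, h7, h8, h5', h6]
  rw [abs_mul, abs_of_pos (by positivity : 0 < (rr w f t x) ^ 2)] at key
  have h11 : |E0 w f t x| * (rr w f t x) ^ 2 ≤
      (Rs / 2 + 1200 * (km w f t K ε x) ^ 2 / (rr w f t x) ^ 2) * (rr w f t x) ^ 2 := by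
    rw [add_mul, div_mul_cancel₀ _ (by positivity)]
    linarith only [key]
  exact le_of_mul_le_mul_right h11 (by positivity)

end

end Vale.Agent.P244.ST.M2
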