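import Vale.Agent.P244.ST.M2D7

/-!
# P244-ST, block M2 : the region `y ≥ ρ₀` under the bootstrap

`KK q = MU + 25 MP + 625 MV + CU + CP + 3 CV`; `|u|, |rP|, |r²V| ≤ KK ε M` for `y ≥ ρ₀`;
the size of `ε M`; the point `x₁` with `y(x₁) = ρ₀`.
-/

open Set Filter Topology
open scoped ContDiff

namespace Vale.Agent.P244.ST.M2

noncomputable section

/-- the constant of the outer region -/
def KK (q : Par) : ℝ := q.MU + 25 * q.MP + 625 * q.MV + q.CU + q.CP + 3 * q.CV

variable {w f : Fn} {t : ℝ} {q : Par}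

theorem tau_pos (ht : t < 1) : 0 < tau t := by unfold tau; linarith only [ht]

theorem bb_pos : 3 < bb := by unfold bb; linarith only [kap_lt]

theorem bb_lt : bb < 4 := by unfold bb; linarith only [kap_gt]

theorem bb_add (r : ℝ) (hr : 0 < r) : r ^ bb = r ^ 6 * r ^ (-kap) := by
  unfold bb
  rw [sub_eq_add_neg, Real.rpow_add hr, show (6 : ℝ) = ((6 : ℕ) : ℝ) by norm_num,
    Real.rpow_natCast]

/-- `r^b ≤ M` -/
theorem rpow_bb_le (ht : t < 1) {r : ℝ} (hr : 0 < r) : r ^ bb ≤ Mf t r := by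
  rw [bb_add r hr]
  unfold Mf
  refine mul_le_mul_of_nonneg_right ?_ (Real.rpow_nonneg hr.le _)
  have h1 := tau_pos ht
  calc r ^ 6 = (r ^ 2) ^ 3 := by ring
    _ ≤ (tau t + r ^ 2) ^ 3 := pow_le_pow_left₀ (by positivity) (by linarith only [h1]) 3

/-- `τ^{λ₃} ≤ M` -/
theorem tau_lam_le (ht : t < 1) {r : ℝ} (hr : 0 < r) : tau t ^ lam 3 ≤ Mf t r := by
  have h1 := tau_pos ht
  have hk : 0 < kap := by linarith only [kap_gt]
  have hk3 : kap < 3 := by linarith only [kap_lt]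
  -- `τ + r² ≥ max`, `(τ + r²)^3 r^{-κ} ≥ (τ+r²)^{3-κ/2}`
  have h2 : 0 < tau t + r ^ 2 := by positivity
  have h3 : r ^ (-kap) = (r ^ 2) ^ (-(kap / 2)) := by
    rw [← Real.rpow_natCast r 2, ← Real.rpow_mul hr.le]
    congr 1
    push_cast
    ring
  have h4 : (tau t + r ^ 2) ^ (-(kap / 2)) ≤ (r ^ 2) ^ (-(kap / 2)) :=
    Real.rpow_le_rpow_of_nonpos (by positivity) (by linarith only [h1]) (by linarith only [hk])
  have h5 : (tau t + r ^ 2) ^ (3 - kap / 2) ≤ Mf t r := by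
    unfold Mf
    rw [h3, sub_eq_add_neg, Real.rpow_add h2, show (3 : ℝ) = ((3 : ℕ) : ℝ) by norm_num,
      Real.rpow_natCast]
    exact mul_le_mul_of_nonneg_left h4 (by positivity)
  refine le_trans ?_ h5
  have h6 : lam 3 = 3 - kap / 2 := by unfold lam; norm_num
  rw [h6]
  exact Real.rpow_le_rpow h1.le (by nlinarith only [sq_nonneg r]) (by linarith only [hk3])

/-- positivity of the parameters -/
structure Pos (q : Par) : Prop where
  rho0 : 0 < q.rho0
  rho0_le : q.rho0 ≤ 1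
  MU : 0 ≤ q.MU
  MP : 0 ≤ q.MP
  MV : 0 ≤ q.MV
  CU : 0 ≤ q.CU
  CP : 0 ≤ q.CP
  CV : 0 ≤ q.CV
  N : 1 ≤ q.N
  eps : 0 < q.eps

theorem KK_nonneg (hq : Pos q) : 0 ≤ KK q := by
  have := hq.MU; have := hq.MP; have := hq.MV; have := hq.CU; have := hq.CP; have := hq.CV
  unfold KK; positivity

theorem yv_mul (ht : t < 1) (x : ℝ) : yv w f t x * Real.sqrt (tau t) = rr w f t x := by
  unfold yv
  exact div_mul_cancel₀ _ (Real.sqrt_pos.2 (tau_pos ht)).ne'

theorem yv_pos (ht : t < 1) (x : ℝ) : 0 < yv w f t x :=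
  div_pos (rr_pos x) (Real.sqrt_pos.2 (tau_pos ht))

theorem A_le (hq : Pos q) (ht : t < 1) (x : ℝ) : q.A t ≤ q.eps * Mf t (rr w f t x) :=
  mul_le_mul_of_nonneg_left (tau_lam_le ht (rr_pos x)) hq.eps.le

theorem A_nonneg (hq : Pos q) (ht : t < 1) : 0 ≤ q.A t :=
  mul_nonneg hq.eps.le (Real.rpow_nonneg (tau_pos ht).le _)

theorem eps_mul_nonneg (hq : Pos q) (ht : t < 1) (x : ℝ) : 0 ≤ q.eps * Mf t (rr w f t x) :=
  mul_nonneg hq.eps.le (Mf_pos ht (rr_pos x)).le

/-- the bounds of the outer region from (b4), (b5) -/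
theorem outer_bounds {g : ℝ → ℝ} (hq : Pos q) (ht0 : 0 ≤ t) (ht : t < 1) {x : ℝ}
    (hb : BootAt q g w f t x) (hy : q.rho0 ≤ yv w f t x) :
    |uu w f t x| ≤ KK q * (q.eps * Mf t (rr w f t x)) ∧
    |rr w f t x * PP w f t x| ≤ KK q * (q.eps * Mf t (rr w f t x)) ∧
    |(rr w f t x) ^ 2 * VV w f t x| ≤ KK q * (q.eps * Mf t (rr w f t x)) := by
  have hτ := tau_pos ht
  have hs := Real.sqrt_pos.2 hτ
  have hr := rr_pos (w := w) (f := f) (t := t) x
  have hA := A_le (w := w) (f := f) hq ht x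
  have hA0 := A_nonneg hq ht
  have hM := eps_mul_nonneg (w := w) (f := f) hq ht x
  have h1 := hq.MU; have h2 := hq.MP; have h3 := hq.MV
  have h4 := hq.CU; have h5 := hq.CP; have h6 := hq.CV
  set μ := q.eps * Mf t (rr w f t x) with hμ
  have hKU : (q.MU + q.CU) * μ ≤ KK q * μ :=
    mul_le_mul_of_nonneg_right (by unfold KK; linarith only [h2, h3, h5, h6]) hM
  have hKP : (25 * q.MP + q.CP) * μ ≤ KK q * μ :=
    mul_le_mul_of_nonneg_right (by unfold KK; linarith only [h1, h3, h4, h6]) hM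
  have hKV : (625 * q.MV + 3 * q.CV) * μ ≤ KK q * μ :=
    mul_le_mul_of_nonneg_right (by unfold KK; linarith only [h1, h2, h4, h5]) hM
  rcases le_total (yv w f t x) 25 with hy2 | hy2
  · obtain ⟨e1, e2, e3⟩ := hb.b4 hy hy2
    refine ⟨?_, ?_, ?_⟩
    · refine e1.trans (le_trans ?_ hKU)
      nlinarith only [h1, h4, hA, hM, mul_nonneg h1 (sub_nonneg.2 hA), mul_nonneg h4 hM]
    · rw [abs_mul, abs_of_pos hr]
      have e4 : rr w f t x * |PP w f t x| ≤ rr w f t x * (q.MP * q.A t / Real.sqrt (tau t)) :=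
        mul_le_mul_of_nonneg_left e2 hr.le
      have e5 : rr w f t x * (q.MP * q.A t / Real.sqrt (tau t)) =
          yv w f t x * (q.MP * q.A t) := by
        unfold yv; ring
      rw [e5] at e4
      have e6 : yv w f t x * (q.MP * q.A t) ≤ 25 * (q.MP * q.A t) :=
        mul_le_mul_of_nonneg_right hy2 (mul_nonneg h2 hA0)
      refine e4.trans (e6.trans (le_trans ?_ hKP))
      nlinarith only [h2, h5, hA, hM, mul_nonneg h2 (sub_nonneg.2 hA), mul_nonneg h5 hM]
    · rw [abs_mul, abs_of_pos (by positivity : 0 < (rr w f t x) ^ 2)]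
      have e4 : (rr w f t x) ^ 2 * |VV w f t x| ≤ (rr w f t x) ^ 2 * (q.MV * q.A t / tau t) :=
        mul_le_mul_of_nonneg_left e3 (by positivity)
      have e5 : (rr w f t x) ^ 2 * (q.MV * q.A t / tau t) =
          (yv w f t x) ^ 2 * (q.MV * q.A t) := by
        unfold yv
        rw [div_pow, Real.sq_sqrt hτ.le]; ring
      rw [e5] at e4
      have hy3 : (yv w f t x) ^ 2 ≤ 625 := by
        have := yv_pos (w := w) (f := f) ht x
        nlinarith only [hy2, this]
      have e6 : (yv w f t x) ^ 2 * (q.MV * q.A t) ≤ 625 * (q.MV * q.A t) :=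
        mul_le_mul_of_nonneg_right hy3 (mul_nonneg h3 hA0)
      refine e4.trans (e6.trans (le_trans ?_ hKV))
      nlinarith only [h3, h6, hA, hM, mul_nonneg h3 (sub_nonneg.2 hA), mul_nonneg h6 hM]
  · obtain ⟨e1, e2, e3⟩ := hb.b5 hy2
    have hrb : q.eps * (rr w f t x) ^ bb ≤ μ :=
      mul_le_mul_of_nonneg_left (rpow_bb_le ht hr) hq.eps.le
    have hrb0 : 0 ≤ q.eps * (rr w f t x) ^ bb :=
      mul_nonneg hq.eps.le (Real.rpow_nonneg hr.le _)
    refine ⟨?_, ?_, ?_⟩
    · have e4 : q.UB t (rr w f t x) ≤ q.CU * (q.eps * (rr w f t x) ^ bb) := by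
        unfold Par.UB
        have : 0 ≤ 300 * tau t * (rr w f t x) ^ (bb - 2) := by positivity
        have h7 := mul_nonneg (mul_nonneg h4 hq.eps.le) this
        nlinarith only [h7]
      refine e1.trans (e4.trans (le_trans ?_ hKU))
      nlinarith only [h1, h4, hM, hrb, mul_nonneg h4 (sub_nonneg.2 hrb), mul_nonneg h1 hM]
    · rw [abs_mul, abs_of_pos hr]
      have e4 : rr w f t x * q.PB t (rr w f t x) ≤ q.CP * (q.eps * (rr w f t x) ^ bb) := by
        unfold Par.PB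
        have h8 : rr w f t x * (rr w f t x) ^ (bb - 1) = (rr w f t x) ^ bb := by
          rw [Real.rpow_sub hr, Real.rpow_one]; field_simp
        have : 0 ≤ rr w f t x * (300 * tau t * (rr w f t x) ^ (bb - 3)) := by positivity
        have h7 := mul_nonneg (mul_nonneg h5 hq.eps.le) this
        calc rr w f t x * (q.CP * q.eps * ((rr w f t x) ^ (bb - 1) -
              300 * tau t * (rr w f t x) ^ (bb - 3)))
            = q.CP * q.eps * (rr w f t x * (rr w f t x) ^ (bb - 1)) -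
              q.CP * q.eps * (rr w f t x * (300 * tau t * (rr w f t x) ^ (bb - 3))) := by ring
          _ ≤ q.CP * (q.eps * (rr w f t x) ^ bb) := by rw [h8]; linarith only [h7]
      refine (mul_le_mul_of_nonneg_left e2 hr.le).trans (e4.trans (le_trans ?_ hKP))
      nlinarith only [h2, h5, hM, hrb, mul_nonneg h5 (sub_nonneg.2 hrb), mul_nonneg h2 hM]
    · rw [abs_mul, abs_of_pos (by positivity : 0 < (rr w f t x) ^ 2)]
      have hexp : Real.exp t ≤ 3 := by
        have := Real.exp_le_exp.2 ht.le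
        linarith only [this, Real.exp_one_lt_d9]
      have e4 : (rr w f t x) ^ 2 * q.VB t (rr w f t x) ≤
          3 * q.CV * (q.eps * (rr w f t x) ^ bb) := by
        unfold Par.VB
        have h8 : (rr w f t x) ^ 2 * (rr w f t x) ^ (bb - 2) = (rr w f t x) ^ bb := by
          rw [Real.rpow_sub hr, show (2 : ℝ) = ((2 : ℕ) : ℝ) by norm_num, Real.rpow_natCast]
          field_simp
        have h9 : 0 ≤ (rr w f t x) ^ 2 * (300 * tau t * (rr w f t x) ^ (bb - 4)) := by positivity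
        have h7 := mul_nonneg (mul_nonneg (mul_nonneg h6 hq.eps.le) (Real.exp_pos t).le) h9
        have h10 := mul_nonneg (mul_nonneg h6 hrb0) (sub_nonneg.2 hexp)
        calc (rr w f t x) ^ 2 * (q.CV * q.eps * Real.exp t * ((rr w f t x) ^ (bb - 2) -
              300 * tau t * (rr w f t x) ^ (bb - 4)))
            = q.CV * q.eps * Real.exp t * ((rr w f t x) ^ 2 * (rr w f t x) ^ (bb - 2)) -
              q.CV * q.eps * Real.exp t *
                ((rr w f t x) ^ 2 * (300 * tau t * (rr w f t x) ^ (bb - 4))) := by ring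
          _ ≤ 3 * q.CV * (q.eps * (rr w f t x) ^ bb) := by rw [h8]; nlinarith only [h7, h10]
      refine (mul_le_mul_of_nonneg_left e3 (by positivity)).trans (e4.trans (le_trans ?_ hKV))
      nlinarith only [h3, h6, hM, hrb, mul_nonneg h6 (sub_nonneg.2 hrb), mul_nonneg h3 hM]

/-- size of `M` -/
theorem Mf_le (hq : Pos q) (ht0 : 0 ≤ t) (ht : t < 1) {x : ℝ} (hy : q.rho0 ≤ yv w f t x)
    (hN : rr w f t x ≤ 2 * q.N) :
    Mf t (rr w f t x) ≤ 8 * q.rho0 ^ (-kap) + 8 * (2 * q.N) ^ bb := by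
  have hτ := tau_pos ht
  have hs := Real.sqrt_pos.2 hτ
  have hr := rr_pos (w := w) (f := f) (t := t) x
  have hk : 0 < kap := by linarith only [kap_gt]
  have hρ := hq.rho0
  have hNp : 0 < q.N := by linarith only [hN, hr, hq.N]
  rcases le_total (yv w f t x) 1 with hy1 | hy1
  · have e1 : (rr w f t x) ^ 2 ≤ tau t := by
      have e2 : rr w f t x ≤ Real.sqrt (tau t) := by
        rw [← yv_mul ht x]
        nlinarith only [hs, hy1]
      calc (rr w f t x) ^ 2 ≤ Real.sqrt (tau t) ^ 2 := pow_le_pow_left₀ hr.le e2 2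
        _ = tau t := Real.sq_sqrt hτ.le
    have e3 : q.rho0 * Real.sqrt (tau t) ≤ rr w f t x := by
      rw [← yv_mul ht x]
      exact mul_le_mul_of_nonneg_right hy hs.le
    have e4 : (rr w f t x) ^ (-kap) ≤ (q.rho0 * Real.sqrt (tau t)) ^ (-kap) :=
      Real.rpow_le_rpow_of_nonpos (by positivity) e3 (by linarith only [hk])
    have e5 : (q.rho0 * Real.sqrt (tau t)) ^ (-kap) = q.rho0 ^ (-kap) * (tau t) ^ (-(kap / 2)) := by
      rw [Real.mul_rpow hρ.le hs.le, Real.sqrt_eq_rpow, ← Real.rpow_mul hτ.le]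
      congr 2
      ring
    have e6 : Mf t (rr w f t x) ≤ (2 * tau t) ^ 3 * (q.rho0 ^ (-kap) * (tau t) ^ (-(kap / 2))) := by
      unfold Mf
      refine mul_le_mul (pow_le_pow_left₀ (by positivity) (by linarith only [e1]) 3) (e4.trans_eq e5)
        (Real.rpow_nonneg hr.le _) (by positivity)
    have e7 : (tau t) ^ 3 * (tau t) ^ (-(kap / 2)) ≤ 1 := by
      rw [← Real.rpow_natCast (tau t) 3, ← Real.rpow_add hτ]
      refine Real.rpow_le_one hτ.le (by unfold tau; linarith only [ht0]) ?_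
      push_cast
      linarith only [kap_lt]
    have e8 : (2 * tau t) ^ 3 * (q.rho0 ^ (-kap) * (tau t) ^ (-(kap / 2))) =
        8 * q.rho0 ^ (-kap) * ((tau t) ^ 3 * (tau t) ^ (-(kap / 2))) := by ring
    rw [e8] at e6
    have e9 : 0 ≤ 8 * q.rho0 ^ (-kap) := by positivity
    have e10 : 0 ≤ 8 * (2 * q.N) ^ bb := by positivity
    nlinarith only [e6, e7, e9, e10, mul_le_mul_of_nonneg_left e7 e9]
  · have e1 : tau t ≤ (rr w f t x) ^ 2 := by
      have e2 : Real.sqrt (tau t) ≤ rr w f t x := by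
        rw [← yv_mul ht x]
        nlinarith only [hs, hy1]
      calc tau t = Real.sqrt (tau t) ^ 2 := (Real.sq_sqrt hτ.le).symm
        _ ≤ (rr w f t x) ^ 2 := pow_le_pow_left₀ hs.le e2 2
    have e2 : Mf t (rr w f t x) ≤ 8 * (rr w f t x) ^ bb := by
      rw [bb_add _ hr]
      unfold Mf
      calc (tau t + (rr w f t x) ^ 2) ^ 3 * (rr w f t x) ^ (-kap)
          ≤ (2 * (rr w f t x) ^ 2) ^ 3 * (rr w f t x) ^ (-kap) :=
            mul_le_mul_of_nonneg_right (pow_le_pow_left₀ (by positivity) (by linarith only [e1]) 3)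
              (Real.rpow_nonneg hr.le _)
        _ = 8 * ((rr w f t x) ^ 6 * (rr w f t x) ^ (-kap)) := by ring
    have e3 : (rr w f t x) ^ bb ≤ (2 * q.N) ^ bb :=
      Real.rpow_le_rpow hr.le hN (by linarith only [bb_pos])
    have e4 : 0 ≤ 8 * q.rho0 ^ (-kap) := by positivity
    linarith only [e2, e3, e4]

/-- smallness of the parameters needed for (D7), (D8): true for `ε` small -/
def Small (q : Par) (δ : ℝ) : Prop :=
  KK q * (q.eps * (8 * q.rho0 ^ (-kap) + 8 * (2 * q.N) ^ bb)) ≤ δ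

theorem KKM_le (hq : Pos q) {δ : ℝ} (hs : Small q δ) (ht0 : 0 ≤ t) (ht : t < 1) {x : ℝ}
    (hy : q.rho0 ≤ yv w f t x) (hN : rr w f t x ≤ 2 * q.N) :
    KK q * (q.eps * Mf t (rr w f t x)) ≤ δ := by
  refine le_trans ?_ hs
  exact mul_le_mul_of_nonneg_left (mul_le_mul_of_nonneg_left (Mf_le hq ht0 ht hy hN) hq.eps.le)
    (KK_nonneg hq)

end

end Vale.Agent.P244.ST.M2
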