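import Vale.Agent.P244.ST.M2D7b

/-!
# P244-ST, block M2 : (D7), (D8) under the bootstrap (final form)
-/

open Set Filter Topology
open scoped ContDiff

namespace Vale.Agent.P244.ST.M2

noncomputable section

variable {w f : Fn} {t : ℝ} {q : Par}

/-- `r → 0` at the tip -/
theorem tendsto_rho (h : Slice w f t) : Tendsto (rho w f t) (𝓝[<] 1) atBot := by
  have hc : ContinuousOn (fun x => f t x + w t x) (Icc (-1) 1) :=
    h.hf.continuousOn.add h.hw.continuousOn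
  obtain ⟨C, hC⟩ := (isCompact_Icc.image_of_continuousOn hc).bddAbove
  have h1 : Tendsto (fun x : ℝ => 1 - x ^ 2) (𝓝[<] 1) (𝓝[>] 0) := by
    refine tendsto_nhdsWithin_of_tendsto_nhds_of_eventually_within _ ?_ ?_
    · have : ContinuousAt (fun x : ℝ => 1 - x ^ 2) 1 := by fun_prop
      have h2 := this.tendsto
      norm_num at h2
      exact h2.mono_left nhdsWithin_le_nhds
    · have : Ioo (0 : ℝ) 1 ∈ 𝓝[<] (1 : ℝ) := Ioo_mem_nhdsLT (by norm_num)
      filter_upwards [this] with x hx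
      have := hx.1; have := hx.2
      show 0 < 1 - x ^ 2
      nlinarith
  have h2 : Tendsto (fun x : ℝ => Real.log (1 - x ^ 2)) (𝓝[<] 1) atBot :=
    Real.tendsto_log_nhdsGT_zero.comp h1
  have h3 : Tendsto (fun x : ℝ => (C + Real.log (1 - x ^ 2) / 2 - Real.log zeta0) / 2)
      (𝓝[<] 1) atBot := by
    refine Tendsto.atBot_div_const (by norm_num) ?_
    refine tendsto_atBot_add_const_right _ _ ?_
    refine tendsto_atBot_add_const_left _ _ ?_
    exact h2.atBot_div_const (by norm_num)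
  refine tendsto_atBot_mono' _ ?_ h3
  have : Ioo (0 : ℝ) 1 ∈ 𝓝[<] (1 : ℝ) := Ioo_mem_nhdsLT (by norm_num)
  filter_upwards [this] with x hx
  have hx' : x ∈ Icc (-1 : ℝ) 1 := ⟨by linarith only [hx, hx.1], hx.2.le⟩
  have h4 : f t x + w t x ≤ C := hC ⟨x, hx', rfl⟩
  unfold rho
  linarith only [h4]

theorem tendsto_rr (h : Slice w f t) : Tendsto (rr w f t) (𝓝[<] 1) (𝓝 0) :=
  Real.tendsto_exp_atBot.comp (tendsto_rho h)

theorem continuousOn_rr (h : Slice w f t) : ContinuousOn (rr w f t) (Ioo (-1) 1) :=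
  (smooth_rr h).continuousOn

/-- `r` decreases from the equator to the tip -/
theorem rr_anti (h : Slice w f t) (hrs : ∀ x ∈ Ioo (0 : ℝ) 1, 0 < rs w f t x) :
    StrictAntiOn (rr w f t) (Ico 0 1) := by
  refine strictAntiOn_of_deriv_neg (convex_Ico 0 1) ?_ ?_
  · exact (continuousOn_rr h).mono fun x hx => ⟨by linarith only [hx, hx.1], hx.2⟩
  · intro x hx
    rw [interior_Ico] at hx
    have hx' : x ∈ Ioo (-1 : ℝ) 1 := ⟨by linarith only [hx, hx.1], hx.2⟩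
    rw [(hasDerivAt_rr h hx').deriv]
    exact mul_neg_of_neg_of_pos (r1_neg hx' (hrs x hx)) (rr_pos x)

theorem yv_anti (h : Slice w f t) (ht : t < 1) (hrs : ∀ x ∈ Ioo (0 : ℝ) 1, 0 < rs w f t x) :
    StrictAntiOn (yv w f t) (Ico 0 1) := by
  intro a ha b hb hab
  exact div_lt_div_of_pos_right (rr_anti h hrs ha hb hab) (Real.sqrt_pos.2 (tau_pos ht))

/-- the point where `y = ρ₀` -/
theorem exists_x1 (h : Slice w f t) (ht0 : 0 ≤ t) (ht : t < 1) {c : ℝ} (hc : 0 < c)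
    (h0 : c < rr w f t 0) : ∃ x1 ∈ Ioo (0 : ℝ) 1, yv w f t x1 = c := by
  have hτ := tau_pos ht
  have hs := Real.sqrt_pos.2 hτ
  have hs1 : Real.sqrt (tau t) ≤ 1 := by
    rw [Real.sqrt_le_left (by norm_num)]
    unfold tau; linarith only [ht0]
  have hev : ∀ᶠ x in 𝓝[<] (1 : ℝ), rr w f t x < c * Real.sqrt (tau t) :=
    (tendsto_rr h).eventually (gt_mem_nhds (by positivity))
  have hI : Ioo (0 : ℝ) 1 ∈ 𝓝[<] (1 : ℝ) := Ioo_mem_nhdsLT (by norm_num)
  obtain ⟨x2, hx2, hx2'⟩ := (hev.and hI).exists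
  have hcont : ContinuousOn (yv w f t) (Icc 0 x2) :=
    ((continuousOn_rr h).mono fun x hx => ⟨by linarith only [hx2', hx, hx.1], hx.2.trans_lt hx2'.2⟩).div_const _
  have hy2 : yv w f t x2 < c := by
    unfold yv
    rw [div_lt_iff₀ hs]
    exact hx2
  have hy0 : c < yv w f t 0 := by
    unfold yv
    rw [lt_div_iff₀ hs]
    nlinarith only [hc, h0, hs1]
  obtain ⟨x1, hx1, hx1'⟩ := intermediate_value_Icc' hx2'.1.le hcont ⟨hy2.le, hy0.le⟩
  refine ⟨x1, ⟨lt_of_le_of_ne hx1.1 ?_, hx1.2.trans_lt hx2'.2⟩, hx1'⟩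
  rintro rfl
  exact absurd hx1' hy0.ne'

/-- the input of (D7), (D8): everything at the fixed time `t` -/
structure Fix (q : Par) (g : ℝ → ℝ) (w f : Fn) (t Rs : ℝ) : Prop where
  bub : IsBub g
  pos : Pos q
  N4 : 4 < q.N
  small : Small q (1 / 100)
  slice : Slice w f t
  t0 : 0 ≤ t
  t1 : t < 1
  rs_pos : ∀ x ∈ Ioo (0 : ℝ) 1, 0 < rs w f t x
  R_nonneg : ∀ x ∈ Ico (0 : ℝ) 1, 0 ≤ RR w f t x
  R_le : ∀ x ∈ Ico (0 : ℝ) 1, RR w f t x ≤ Rs
  boot : ∀ x ∈ Ico (0 : ℝ) 1, BootAt q g w f t x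
  N_lo : q.N / 4 ≤ rr w f t 0
  N_hi : rr w f t 0 ≤ 2 * q.N
  th_nonpos : ∀ x ∈ Ioo (0 : ℝ) 1, yv w f t x ≤ q.rho0 → th g w f t x ≤ 0
  th_ge : ∀ x ∈ Ioo (0 : ℝ) 1, yv w f t x ≤ q.rho0 →
    -(th g w f t x) ≤ g (uu w f t x) ^ 2 / 148 +
      (rr w f t x) ^ 2 * Rs / (1640 * Zs g (uu w f t x))

variable {g : ℝ → ℝ} {Rs : ℝ}

theorem Fix.exists_out (H : Fix q g w f t Rs) : ∃ x1 : ℝ, yv w f t x1 = q.rho0 ∧
    Out g w f t (KK q) q.eps Rs x1 := by
  have h0 : q.rho0 < rr w f t 0 := by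
    have := H.N_lo; have := H.N4; have := H.pos.rho0_le
    linarith
  obtain ⟨x1, hx1, hy1⟩ := exists_x1 H.slice H.t0 H.t1 H.pos.rho0 h0
  have hmem : ∀ x ∈ Icc (0 : ℝ) x1, x ∈ Ico (0 : ℝ) 1 := fun x hx => ⟨hx.1, hx.2.trans_lt hx1.2⟩
  have hy : ∀ x ∈ Icc (0 : ℝ) x1, q.rho0 ≤ yv w f t x := fun x hx => by
    rw [← hy1]
    exact (yv_anti H.slice H.t1 H.rs_pos).antitoneOn (hmem x hx)
      (hmem x1 ⟨hx1.1.le, le_refl _⟩) hx.2
  have hN : ∀ x ∈ Icc (0 : ℝ) x1, rr w f t x ≤ 2 * q.N := fun x hx =>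
    ((rr_anti H.slice H.rs_pos).antitoneOn ⟨le_refl 0, by norm_num⟩ (hmem x hx) hx.1).trans H.N_hi
  refine ⟨x1, hy1, ?_⟩
  exact
    { bub := H.bub
      slice := H.slice
      t_lt := H.t1
      K_nonneg := KK_nonneg H.pos
      ε_nonneg := H.pos.eps.le
      hx1 := hx1
      rs_pos := fun x hx => H.rs_pos x ⟨hx.1, hx.2.trans_lt hx1.2⟩
      R_nonneg := fun x hx => H.R_nonneg x (hmem x hx)
      R_le := fun x hx => H.R_le x (hmem x hx)
      hu := fun x hx => (outer_bounds H.pos H.t0 H.t1 (H.boot x (hmem x hx)) (hy x hx)).1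
      hP := fun x hx => (outer_bounds H.pos H.t0 H.t1 (H.boot x (hmem x hx)) (hy x hx)).2.1
      small := fun x hx => KKM_le H.pos H.small H.t0 H.t1 (hy x hx) (hN x hx)
      u_pos := ((H.boot x1 (hmem x1 ⟨hx1.1.le, le_refl _⟩)).b1 hx1.1 hy1.le).1
      th_nonpos := H.th_nonpos x1 hx1 hy1.le
      th_ge := H.th_ge x1 hx1 hy1.le }

/-- `μ = KK ε M` -/
def mu (q : Par) (w f : Fn) (t x : ℝ) : ℝ := km w f t (KK q) q.eps x

theorem mu_eq (q : Par) (w f : Fn) (t x : ℝ) :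
    mu q w f t x = KK q * (q.eps * Mf t (rr w f t x)) := rfl

theorem sinh_le {u : ℝ} (hu : |u| ≤ 1 / 100) : |Real.sinh u| ≤ 101 / 100 * |u| := by
  have habs : |Real.sinh u| = Real.sinh |u| := by
    rcases le_total 0 u with h | h
    · rw [abs_of_nonneg h, abs_of_nonneg (Real.sinh_nonneg_iff.2 h)]
    · rw [abs_of_nonpos h, abs_of_nonpos (Real.sinh_nonpos_iff.2 h), Real.sinh_neg]
  rw [habs]
  have h0 := abs_nonneg u
  have h1 : Real.sinh |u| ≤ |u| * Real.cosh |u| := by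
    rcases h0.eq_or_lt with h | h
    · rw [← h]; simp
    · have := tanh_le_self h
      rw [Real.tanh_eq_sinh_div_cosh, div_le_iff₀ (Real.cosh_pos _)] at this
      exact this
  have h2 := cosh_sub_one_le (u := |u|) (by rwa [abs_abs])
  have h3 : |u| ^ 2 ≤ 1 / 10000 := by nlinarith only [hu, h0]
  have h4 : 0 ≤ Real.sinh |u| := Real.sinh_nonneg_iff.2 h0
  nlinarith only [hu, h0, h1, h2]

/-- **(D7), (D8)** and the bounds of the outer region. -/
structure OutB (q : Par) (w f : Fn) (t Rs x : ℝ) : Prop where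
  mu_nonneg : 0 ≤ mu q w f t x
  mu_le : mu q w f t x ≤ 1 / 100
  u_le : |uu w f t x| ≤ mu q w f t x
  P_le : |rr w f t x * PP w f t x| ≤ mu q w f t x
  V_le : |(rr w f t x) ^ 2 * VV w f t x| ≤ mu q w f t x
  Z_le : ZZ w f t x - 1 ≤ (mu q w f t x) ^ 2
  Z_ge : -((mu q w f t x) ^ 2 + (rr w f t x) ^ 2 * Rs / 1640) ≤ ZZ w f t x - 1
  E0_le : |E0 w f t x| ≤ Rs / 2 + 1200 * (mu q w f t x) ^ 2 / (rr w f t x) ^ 2
  b_le : |(rr w f t x) ^ 2 * (rs w f t x * PP w f t x) + 1.95 * Real.sinh (uu w f t x)| ≤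
    1.01 * |rr w f t x * PP w f t x| + 2 * |uu w f t x|

theorem Fix.outB (H : Fix q g w f t Rs) {x : ℝ} (hx : x ∈ Ico (0 : ℝ) 1)
    (hy : q.rho0 ≤ yv w f t x) : OutB q w f t Rs x := by
  obtain ⟨x1, hy1, HO⟩ := H.exists_out
  have hx1 : x ∈ Icc (0 : ℝ) x1 := by
    refine ⟨hx.1, ?_⟩
    by_contra hc
    push Not at hc
    have := yv_anti H.slice H.t1 H.rs_pos ⟨HO.hx1.1.le, HO.hx1.2⟩ hx hc
    linarith only [hy, hy1, this]
  have hZ := HO.Z_le hx1
  have hB := outer_bounds H.pos H.t0 H.t1 (H.boot x hx) hy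
  have hsm : mu q w f t x ≤ 1 / 100 := HO.small x hx1
  have hmu : 0 ≤ mu q w f t x := km_nonneg HO x
  have hr := rr_pos (w := w) (f := f) (t := t) x
  refine ⟨hmu, hsm, hB.1, hB.2.1, hB.2.2, hZ, HO.Z_ge hx1, HO.E0_le hx1, ?_⟩
  have h1 : |rr w f t x * rs w f t x| ≤ 1.01 := by
    refine abs_le_of_sq_le_sq ?_ (by norm_num)
    have h2 : (rr w f t x * rs w f t x) ^ 2 = ZZ w f t x := by unfold ZZ; ring
    rw [h2]
    have h3 : (mu q w f t x) ^ 2 ≤ 1 / 10000 := by nlinarith only [hsm, hmu]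
    have h4 : ZZ w f t x - 1 ≤ (mu q w f t x) ^ 2 := hZ
    linarith only [h3, h4]
  have h2 : |(rr w f t x) ^ 2 * (rs w f t x * PP w f t x)| ≤ 1.01 * |rr w f t x * PP w f t x| := by
    have h3 : (rr w f t x) ^ 2 * (rs w f t x * PP w f t x) =
        (rr w f t x * rs w f t x) * (rr w f t x * PP w f t x) := by ring
    rw [h3, abs_mul]
    exact mul_le_mul_of_nonneg_right h1 (abs_nonneg _)
  have h3 := sinh_le (hB.1.trans hsm)
  calc |(rr w f t x) ^ 2 * (rs w f t x * PP w f t x) + 1.95 * Real.sinh (uu w f t x)|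
      ≤ |(rr w f t x) ^ 2 * (rs w f t x * PP w f t x)| + |1.95 * Real.sinh (uu w f t x)| :=
        abs_add_le _ _
    _ ≤ 1.01 * |rr w f t x * PP w f t x| + 2 * |uu w f t x| := by
        have h4 : |1.95 * Real.sinh (uu w f t x)| = 1.95 * |Real.sinh (uu w f t x)| := by
          rw [abs_mul, abs_of_pos (by norm_num : (0 : ℝ) < 1.95)]
        rw [h4]
        have := abs_nonneg (uu w f t x)
        linarith only [h2, h3, this]

end

end Vale.Agent.P244.ST.M2
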