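import Vale.Agent.P244.ST.M2D7c

/-!
# P244-ST, block M2 : (D7), (D8) with a general size function `m` on `[x₀,x₁]`
-/

open Set Filter Topology
open scoped ContDiff

namespace Vale.Agent.P244.ST.M2

noncomputable section

variable {w f : Fn} {t : ℝ}

/-- hypotheses for (D7), (D8) at a fixed time on `[x₀,x₁]`, size function `m`,
`Dr m = m md`. -/
structure Out2 (g : ℝ → ℝ) (w f : Fn) (t : ℝ) (m md : ℝ → ℝ) (Rs x0 x1 : ℝ) : Prop where
  bub : IsBub g
  slice : Slice w f t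
  hx0 : 0 ≤ x0
  hx01 : x0 ≤ x1
  hx1 : x1 < 1
  rs_pos : ∀ x ∈ Ioo x0 x1, 0 < rs w f t x
  R_nonneg : ∀ x ∈ Icc x0 x1, 0 ≤ RR w f t x
  R_le : ∀ x ∈ Icc x0 x1, RR w f t x ≤ Rs
  m_nonneg : ∀ x ∈ Icc x0 x1, 0 ≤ m x
  m_der : ∀ x ∈ Icc x0 x1, HasDerivAt m (r1 w f t x * (m x * md x)) x
  md_ge : ∀ x ∈ Icc x0 x1, -2.2 ≤ md x
  hu : ∀ x ∈ Icc x0 x1, |uu w f t x| ≤ m x
  hP : ∀ x ∈ Icc x0 x1, |rr w f t x * PP w f t x| ≤ m x
  small : ∀ x ∈ Icc x0 x1, m x ≤ 1 / 100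
  u_pos : 0 < uu w f t x1
  th_nonpos : th g w f t x1 ≤ 0
  th_ge : -(th g w f t x1) ≤ g (uu w f t x1) ^ 2 / 148 +
    (rr w f t x1) ^ 2 * Rs / (1640 * Zs g (uu w f t x1))

variable {g : ℝ → ℝ} {m md : ℝ → ℝ} {Rs x0 x1 : ℝ}

theorem Out2.mem (H : Out2 g w f t m md Rs x0 x1) {x : ℝ} (hx : x ∈ Icc x0 x1) :
    x ∈ Ioo (-1 : ℝ) 1 := ⟨by linarith only [H, hx, hx.1, H.hx0], hx.2.trans_lt H.hx1⟩

theorem Out2.mem1 (H : Out2 g w f t m md Rs x0 x1) : x1 ∈ Icc x0 x1 := ⟨H.hx01, le_refl x1⟩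

theorem Out2.Rs_nonneg (H : Out2 g w f t m md Rs x0 x1) : 0 ≤ Rs :=
  (H.R_nonneg x1 H.mem1).trans (H.R_le x1 H.mem1)

theorem Out2.u_sq (H : Out2 g w f t m md Rs x0 x1) {x : ℝ} (hx : x ∈ Icc x0 x1) :
    (uu w f t x) ^ 2 ≤ (m x) ^ 2 := by
  rw [← sq_abs]
  exact pow_le_pow_left₀ (abs_nonneg _) (H.hu x hx) 2

theorem Out2.P_sq (H : Out2 g w f t m md Rs x0 x1) {x : ℝ} (hx : x ∈ Icc x0 x1) :
    (rr w f t x) ^ 2 * (PP w f t x) ^ 2 ≤ (m x) ^ 2 := by
  rw [← mul_pow, ← sq_abs]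
  exact pow_le_pow_left₀ (abs_nonneg _) (H.hP x hx) 2

theorem Out2.cosh_le (H : Out2 g w f t m md Rs x0 x1) {x : ℝ} (hx : x ∈ Icc x0 x1) :
    Real.cosh (uu w f t x) - 1 ≤ 51 / 100 * (m x) ^ 2 := by
  have h1 := cosh_sub_one_le ((H.hu x hx).trans (H.small x hx))
  nlinarith only [H, hx, h1, H.u_sq hx]

/-- upper bound in (D7) -/
theorem Out2.Z_le (H : Out2 g w f t m md Rs x0 x1) {x : ℝ} (hx : x ∈ Icc x0 x1) :
    ZZ w f t x - 1 ≤ (m x) ^ 2 := by
  set X : ℝ → ℝ := fun x => wt w f t x * (ZZ w f t x - 1 - (m x) ^ 2) with hX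
  have hd : ∀ y ∈ Icc x0 x1, HasDerivAt X (r1 w f t y * (wt w f t y *
      (39 * (Real.cosh (uu w f t y) - 1) - (rr w f t y) ^ 2 * (PP w f t y) ^ 2 / 4
        - (rr w f t y) ^ 2 * RR w f t y / 40
        - (39 + 2 * md y) * (m y) ^ 2))) y := by
    intro y hy
    have h1 := hasDerivAt_ZZ H.slice (H.mem hy)
    have h2 := H.m_der y hy
    have h3 := (hasDerivAt_wt H.slice (H.mem hy)).mul ((h1.sub_const 1).sub (h2.pow 2))
    refine h3.congr_deriv ?_
    simp only [Pi.pow_apply, Pi.sub_apply]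
    ring
  have hm : MonotoneOn X (Icc x0 x1) := by
    refine monotoneOn_of_deriv_nonneg (convex_Icc x0 x1)
      (fun y hy => (hd y hy).continuousAt.continuousWithinAt)
      (fun y hy => (hd y (interior_subset hy)).differentiableAt.differentiableWithinAt) ?_
    intro y hy
    rw [interior_Icc] at hy
    have hy' : y ∈ Icc x0 x1 := Ioo_subset_Icc_self hy
    rw [(hd y hy').deriv]
    have h1 := r1_neg (H.mem hy') (H.rs_pos y hy)
    refine mul_nonneg_of_nonpos_of_nonpos h1.le ?_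
    refine mul_nonpos_of_nonneg_of_nonpos (Real.exp_pos _).le ?_
    have h2 := H.cosh_le hy'
    have h3 : 0 ≤ (rr w f t y) ^ 2 * (PP w f t y) ^ 2 := by positivity
    have h4 : 0 ≤ (rr w f t y) ^ 2 * RR w f t y := mul_nonneg (sq_nonneg _) (H.R_nonneg y hy')
    have h5 := H.md_ge y hy'
    have h6 : 34 * (m y) ^ 2 ≤ (39 + 2 * md y) * (m y) ^ 2 :=
      mul_le_mul_of_nonneg_right (by linarith only [h5]) (sq_nonneg _)
    nlinarith only [h2, h3, h4, h6, sq_nonneg (m y)]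
  have h1 := hm hx H.mem1 hx.2
  have h2 : X x1 ≤ 0 := by
    refine mul_nonpos_of_nonneg_of_nonpos (Real.exp_pos _).le ?_
    have h3 := Zs_sub_one_le H.bub H.u_pos ((H.hu x1 H.mem1).trans (H.small x1 H.mem1))
    have h4 := Zs_pos H.bub H.u_pos
    have h5 : ZZ w f t x1 = Zs g (uu w f t x1) * (th g w f t x1 + 1) := by
      unfold th; field_simp; ring
    have h6 : Zs g (uu w f t x1) * th g w f t x1 ≤ 0 :=
      mul_nonpos_of_nonneg_of_nonpos h4.le H.th_nonpos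
    have h7 := H.u_sq H.mem1
    nlinarith only [h3, h5, h6, h7]
  have h3 : X x ≤ 0 := h1.trans h2
  have h4 : 0 < wt w f t x := Real.exp_pos _
  have h5 : ZZ w f t x - 1 - (m x) ^ 2 ≤ 0 := by
    by_contra hc
    push Not at hc
    exact absurd (mul_pos h4 hc) (not_lt.2 h3)
  linarith only [h5]

/-- lower bound in (D7) -/
theorem Out2.Z_ge (H : Out2 g w f t m md Rs x0 x1) {x : ℝ} (hx : x ∈ Icc x0 x1) :
    -((m x) ^ 2 + (rr w f t x) ^ 2 * Rs / 1640) ≤ ZZ w f t x - 1 := by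
  set X : ℝ → ℝ := fun x => wt w f t x * (ZZ w f t x - 1 + (m x) ^ 2 +
    (rr w f t x) ^ 2 * Rs / 1640) with hX
  have hd : ∀ y ∈ Icc x0 x1, HasDerivAt X (r1 w f t y * (wt w f t y *
      (39 * (Real.cosh (uu w f t y) - 1) - (rr w f t y) ^ 2 * (PP w f t y) ^ 2 / 4
        + (rr w f t y) ^ 2 * (Rs - RR w f t y) / 40
        + (39 + 2 * md y) * (m y) ^ 2))) y := by
    intro y hy
    have h1 := hasDerivAt_ZZ H.slice (H.mem hy)
    have h2 := H.m_der y hy
    have h2' := hasDerivAt_rr H.slice (H.mem hy)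
    have h3 := (hasDerivAt_wt H.slice (H.mem hy)).mul (((h1.sub_const 1).add (h2.pow 2)).add
      (((h2'.pow 2).mul_const Rs).div_const 1640))
    refine h3.congr_deriv ?_
    simp only [Pi.pow_apply, Pi.add_apply]
    ring
  have hm : AntitoneOn X (Icc x0 x1) := by
    refine antitoneOn_of_deriv_nonpos (convex_Icc x0 x1)
      (fun y hy => (hd y hy).continuousAt.continuousWithinAt)
      (fun y hy => (hd y (interior_subset hy)).differentiableAt.differentiableWithinAt) ?_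
    intro y hy
    rw [interior_Icc] at hy
    have hy' : y ∈ Icc x0 x1 := Ioo_subset_Icc_self hy
    rw [(hd y hy').deriv]
    have h1 := r1_neg (H.mem hy') (H.rs_pos y hy)
    refine mul_nonpos_of_nonpos_of_nonneg h1.le ?_
    refine mul_nonneg (Real.exp_pos _).le ?_
    have h2 := Real.one_le_cosh (uu w f t y)
    have h3 := H.P_sq hy'
    have h4 : 0 ≤ (rr w f t y) ^ 2 * (Rs - RR w f t y) :=
      mul_nonneg (sq_nonneg _) (sub_nonneg.2 (H.R_le y hy'))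
    have h5 := H.md_ge y hy'
    have h6 : 34 * (m y) ^ 2 ≤ (39 + 2 * md y) * (m y) ^ 2 :=
      mul_le_mul_of_nonneg_right (by linarith only [h5]) (sq_nonneg _)
    nlinarith only [h2, h3, h4, h6, sq_nonneg (m y)]
  have h1 := hm hx H.mem1 hx.2
  have h2 : 0 ≤ X x1 := by
    refine mul_nonneg (Real.exp_pos _).le ?_
    have h3 := one_le_Zs H.bub H.u_pos
    have hsm := (H.hu x1 H.mem1).trans (H.small x1 H.mem1)
    have h3' := Zs_sub_one_le H.bub H.u_pos hsm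
    have h4 := Zs_pos H.bub H.u_pos
    have h5 : ZZ w f t x1 = Zs g (uu w f t x1) * (th g w f t x1 + 1) := by
      unfold th; field_simp; ring
    have h6 : Zs g (uu w f t x1) * (-(th g w f t x1)) ≤
        Zs g (uu w f t x1) * (g (uu w f t x1) ^ 2 / 148) + (rr w f t x1) ^ 2 * Rs / 1640 := by
      have := mul_le_mul_of_nonneg_left H.th_ge h4.le
      refine this.trans (le_of_eq ?_)
      field_simp
    have h7 := H.u_sq H.mem1
    have h8 := g_sq_le H.bub H.u_pos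
    have h9 : (uu w f t x1) ^ 2 ≤ 1 / 10000 := by
      have := pow_le_pow_left₀ (abs_nonneg _) hsm 2
      rw [sq_abs] at this
      linarith only [this]
    have h10 : Zs g (uu w f t x1) ≤ 2 := by linarith only [h3', h9]
    have h11 : Zs g (uu w f t x1) * (g (uu w f t x1) ^ 2 / 148) ≤
        2 * (g (uu w f t x1) ^ 2 / 148) := mul_le_mul_of_nonneg_right h10 (by positivity)
    nlinarith only [h3, h5, h6, h7, h8, h11]
  have h3 : 0 ≤ X x := h2.trans h1
  have h4 : 0 < wt w f t x := Real.exp_pos _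
  have h5 : 0 ≤ ZZ w f t x - 1 + (m x) ^ 2 + (rr w f t x) ^ 2 * Rs / 1640 := by
    by_contra hc
    push Not at hc
    exact absurd (mul_neg_of_pos_of_neg h4 hc) (not_lt.2 h3)
  linarith only [h5]

/-- (D8) -/
theorem Out2.E0_le (H : Out2 g w f t m md Rs x0 x1) {x : ℝ} (hx : x ∈ Icc x0 x1) :
    |E0 w f t x| ≤ Rs / 2 + 1200 * (m x) ^ 2 / (rr w f t x) ^ 2 := by
  have h1 := H.Z_le hx
  have h2 := H.Z_ge hx
  have h3 := E3' (w := w) (f := f) (t := t) x
  have h4 := H.cosh_le hx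
  have h5 := H.P_sq hx
  have h5' : 0 ≤ (rr w f t x) ^ 2 * (PP w f t x) ^ 2 := by positivity
  have h6 := Real.one_le_cosh (uu w f t x)
  have hr := rr_pos (w := w) (f := f) (t := t) x
  have h7 := mul_nonneg (sq_nonneg (rr w f t x)) (H.R_nonneg x hx)
  have h8 := mul_nonneg (sq_nonneg (rr w f t x)) (sub_nonneg.2 (H.R_le x hx))
  have h9 := mul_nonneg (sq_nonneg (rr w f t x)) H.Rs_nonneg
  have h10 := sq_nonneg (m x)
  have key : |(rr w f t x) ^ 2 * E0 w f t x| ≤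
      (rr w f t x) ^ 2 * (Rs / 2) + 1200 * (m x) ^ 2 := by
    rw [abs_le]
    constructor <;> nlinarith only [h1, h2, h3, h4, h5, h7, h8, h5', h6]
  rw [abs_mul, abs_of_pos (by positivity : 0 < (rr w f t x) ^ 2)] at key
  have h11 : |E0 w f t x| * (rr w f t x) ^ 2 ≤
      (Rs / 2 + 1200 * (m x) ^ 2 / (rr w f t x) ^ 2) * (rr w f t x) ^ 2 := by
    rw [add_mul, div_mul_cancel₀ _ (by positivity)]
    linarith only [key]
  exact le_of_mul_le_mul_right h11 (by positivity)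

end

end Vale.Agent.P244.ST.M2
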