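import Vale.Agent.P244.ST.Geo

/-!
# P244-ST, block M4 : closure of the barrier for `V` in region I (numerical core)

`Vb = K T^{1+a} cosh^a`; derivatives of the barrier, the pure inequality, and the strict
inequality at a touching point (pure real numbers).
-/

open Set Filter Topology

namespace Vale.Agent.P244.ST.M4c

noncomputable section

/-! ### elementary facts -/

lemma hasDerivAt_tanh (u : ℝ) : HasDerivAt Real.tanh (1 - Real.tanh u ^ 2) u := by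
  have hc : Real.cosh u ≠ 0 := (Real.cosh_pos u).ne'
  have h : HasDerivAt (fun x => Real.sinh x / Real.cosh x)
      ((Real.cosh u * Real.cosh u - Real.sinh u * Real.sinh u) / Real.cosh u ^ 2) u :=
    (Real.hasDerivAt_sinh u).div (Real.hasDerivAt_cosh u) hc
  have h2 : (Real.cosh u * Real.cosh u - Real.sinh u * Real.sinh u) / Real.cosh u ^ 2
      = 1 - Real.tanh u ^ 2 := by
    rw [Real.tanh_eq_sinh_div_cosh]
    field_simp
  rw [h2] at h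
  exact h.congr_of_eventuallyEq (Eventually.of_forall fun x => Real.tanh_eq_sinh_div_cosh x)

lemma tanh_pos {u : ℝ} (hu : 0 < u) : 0 < Real.tanh u := by
  rw [Real.tanh_eq_sinh_div_cosh]
  exact div_pos (Real.sinh_pos_iff.2 hu) (Real.cosh_pos u)

lemma sinh_eq (u : ℝ) : Real.sinh u = Real.tanh u * Real.cosh u := by
  rw [Real.tanh_eq_sinh_div_cosh, div_mul_cancel₀ _ (Real.cosh_pos u).ne']

lemma kap_bounds : 2.1146 < kap ∧ kap < 2.1147 := by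
  have h1 : Real.sqrt 1209 < 34.7708 := by
    rw [Real.sqrt_lt' (by norm_num)]; norm_num
  have h2 : 34.7706 < Real.sqrt 1209 := by
    rw [Real.lt_sqrt (by norm_num)]; norm_num
  unfold kap
  constructor <;> linarith only [h1, h2]

/-! ### derivatives of the barrier -/

/-- `(log h)'` for `h = T^{1+a} cosh^a` -/
def l1 (u : ℝ) : ℝ := (1 + aa) * (1 - Real.tanh u ^ 2) / Real.tanh u + aa * Real.tanh u

/-- `(log h)''` -/
def l1' (u : ℝ) : ℝ :=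
  -((1 + aa) * (1 - Real.tanh u ^ 2) * (1 + Real.tanh u ^ 2) / Real.tanh u ^ 2)
    + aa * (1 - Real.tanh u ^ 2)

/-- `h''/h` -/
def l2 (u : ℝ) : ℝ := l1 u ^ 2 + l1' u

lemma hasDerivAt_l1 {u : ℝ} (hu : 0 < u) : HasDerivAt l1 (l1' u) u := by
  have hT := hasDerivAt_tanh u
  have hT0 : Real.tanh u ≠ 0 := (tanh_pos hu).ne'
  have h1 := ((((hT.pow 2).const_sub 1).const_mul (1 + aa)).div hT hT0).add (hT.const_mul aa)
  refine h1.congr_deriv ?_
  unfold l1'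
  simp only [Nat.cast_ofNat, Nat.add_one_sub_one, pow_one, Pi.pow_apply]
  field_simp
  ring

lemma hasDerivAt_Vb {q : Par} {t u : ℝ} (hu : 0 < u) (hT0 : 0 < q.T0 t) :
    HasDerivAt (fun u => q.Vb t u) (q.Vb t u * l1 u) u := by
  have hT := hasDerivAt_tanh u
  have hTp := tanh_pos hu
  have hC := Real.cosh_pos u
  have hx : 0 < Real.tanh u / q.T0 t := div_pos hTp hT0
  have h1 := (hT.div_const (q.T0 t)).rpow_const (p := aa) (Or.inl hx.ne')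
  have h2 := (Real.hasDerivAt_cosh u).rpow_const (p := aa) (Or.inl hC.ne')
  have h3 := ((h1.const_mul (q.BV / tau t)).mul hT).mul h2
  refine h3.congr_deriv ?_
  rw [Real.rpow_sub_one hx.ne', Real.rpow_sub_one hC.ne', sinh_eq]
  simp only [Pi.mul_apply]
  unfold Par.Vb l1
  have := hT0.ne'
  have := hTp.ne'
  have := hC.ne'
  field_simp
  ring

lemma hasDerivAt_Vb1 {q : Par} {t u : ℝ} (hu : 0 < u) (hT0 : 0 < q.T0 t) :
    HasDerivAt (fun u => q.Vb t u * l1 u) (q.Vb t u * l2 u) u := by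
  refine ((hasDerivAt_Vb hu hT0).mul (hasDerivAt_l1 hu)).congr_deriv ?_
  unfold l2
  ring

lemma T0_pos {q : Par} {t : ℝ} (hr : 0 < q.rho0) (he : 0 < q.eps) (ht : t < 1) :
    0 < q.T0 t := by
  have h1 : 0 < tau t := by unfold tau; linarith only [ht]
  unfold Par.T0 Par.A
  positivity

/-- time derivative of `log T0` is `-λ₃/τ` -/
lemma hasDerivAt_T0 {q : Par} {t : ℝ} (ht : t < 1) :
    HasDerivAt (fun t => q.T0 t) (-(lam 3 / tau t) * q.T0 t) t := by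
  have h1 : 0 < tau t := by unfold tau; linarith only [ht]
  have h2 : HasDerivAt tau (-1) t := by
    have := (hasDerivAt_id t).const_sub 1
    exact this
  have h3 := ((h2.rpow_const (p := lam 3) (Or.inl h1.ne')).const_mul q.eps).mul_const
    (q.rho0 ^ (-kap))
  refine h3.congr_deriv ?_
  rw [Real.rpow_sub_one h1.ne']
  unfold Par.T0 Par.A
  have := h1.ne'
  field_simp

lemma hasDerivAt_Vb_t {q : Par} {t u : ℝ} (hu : 0 < u) (hT0 : 0 < q.T0 t) (ht : t < 1) :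
    HasDerivAt (fun t => q.Vb t u) (q.Vb t u * ((1 + aa * lam 3) / tau t)) t := by
  have h1 : 0 < tau t := by unfold tau; linarith only [ht]
  have h2 : HasDerivAt tau (-1) t := by
    have := (hasDerivAt_id t).const_sub 1
    exact this
  have hTp := tanh_pos hu
  have hx : 0 < Real.tanh u / q.T0 t := div_pos hTp hT0
  have h4 : HasDerivAt (fun t => q.BV / tau t) (q.BV / tau t ^ 2) t := by
    have := (h2.inv h1.ne').const_mul q.BV
    refine (this.congr_deriv ?_)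
    field_simp
  have h5 : HasDerivAt (fun t => Real.tanh u / q.T0 t)
      (Real.tanh u / q.T0 t * (lam 3 / tau t)) t := by
    have := ((hasDerivAt_T0 (q := q) ht).inv hT0.ne').const_mul (Real.tanh u)
    refine (this.congr_deriv ?_)
    have := hT0.ne'
    field_simp
  have h6 := h5.rpow_const (p := aa) (Or.inl hx.ne')
  have h7 := ((h4.mul h6).mul_const (Real.tanh u)).mul_const (Real.cosh u ^ aa)
  refine h7.congr_deriv ?_
  rw [Real.rpow_sub_one hx.ne']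
  unfold Par.Vb
  have := hT0.ne'
  have := h1.ne'
  have := hTp.ne'
  field_simp

/-! ### the pure inequality -/

/-- pure inequality, `s = T²`, `ω = G₁²/q`. -/
lemma pure_ineq {s ω : ℝ} (hs0 : 0 ≤ s) (hs1 : s ≤ 1) (h1 : 4 / 39 ≤ ω) (h2 : ω ≤ 0.118) :
    0.0937 ≤ 0.1 - 2 * s + ω * (-0.0525 + 22.05 * s - 2 * s ^ 2) := by
  by_cases h : 0 ≤ -0.0525 + 22.05 * s - 2 * s ^ 2
  · have : (4 / 39) * (-0.0525 + 22.05 * s - 2 * s ^ 2) ≤
        ω * (-0.0525 + 22.05 * s - 2 * s ^ 2) := mul_le_mul_of_nonneg_right h1 h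
    nlinarith only [hs0, hs1, h, this]
  · push Not at h
    have : 0.118 * (-0.0525 + 22.05 * s - 2 * s ^ 2) ≤
        ω * (-0.0525 + 22.05 * s - 2 * s ^ 2) := by nlinarith only [h2, h]
    have hs : s ≤ 0.003 := by nlinarith only [hs0, hs1, h]
    nlinarith only [hs0, hs1, this]

lemma delta_bound {e θ : ℝ} (he : |e| ≤ 1 / 10 ^ 4) (hθ : |θ| ≤ 1 / 10 ^ 3) :
    |(1 + θ) * (1 - e) ^ 2 - 1| ≤ 0.00121 := by
  have h1 : (1 + θ) * (1 - e) ^ 2 - 1 = θ * (1 - e) ^ 2 + (e * (e - 2)) := by ring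
  obtain ⟨h2, h3⟩ := abs_le.1 he
  have h4 : |θ * (1 - e) ^ 2| ≤ 1 / 10 ^ 3 * 1.0003 := by
    rw [abs_mul, abs_of_nonneg (sq_nonneg (1 - e))]
    exact mul_le_mul hθ (by nlinarith only [h2, h3]) (sq_nonneg _) (by norm_num)
  have h5 : |e * (e - 2)| ≤ 1 / 10 ^ 4 * 2.001 := by
    rw [abs_mul]
    refine mul_le_mul he ?_ (abs_nonneg _) (by norm_num)
    rw [abs_le]; constructor <;> linarith only [h2, h3]
  rw [h1]
  refine (abs_add_le _ _).trans ?_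
  linarith only [h4, h5]

lemma delta_bound' {e θ : ℝ} (he : |e| ≤ 1 / 10 ^ 4) (hθ : |θ| ≤ 1 / 10 ^ 3) :
    |(1 + θ) * (1 - e) - 1| ≤ 0.0012 := by
  have h1 : (1 + θ) * (1 - e) - 1 = θ * (1 - e) + (-e) := by ring
  obtain ⟨h2, h3⟩ := abs_le.1 he
  have h4 : |θ * (1 - e)| ≤ 1 / 10 ^ 3 * 1.001 := by
    rw [abs_mul]
    refine mul_le_mul hθ ?_ (abs_nonneg _) (by norm_num)
    rw [abs_le]; constructor <;> linarith only [h3, h2]
  rw [h1]
  refine (abs_add_le _ _).trans ?_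
  rw [abs_neg]
  linarith only [he, h4]

lemma omega_bounds {G1 Q : ℝ} (hG1 : 2 ≤ G1) (hG2 : G1 ≤ 2.1147)
    (hQ1 : 38 ≤ Q) (hQ2 : Q ≤ 39) : 4 / 39 ≤ G1 ^ 2 / Q ∧ G1 ^ 2 / Q ≤ 0.118 ∧
      2 ≤ 39 * G1 / Q ∧ 39 * G1 / Q ≤ 2.1704 := by
  have hQ0 : 0 < Q := by linarith only [hQ1]
  refine ⟨?_, ?_, ?_, ?_⟩
  · rw [div_le_div_iff₀ (by norm_num) hQ0]; nlinarith only [hG1, hQ2]
  · rw [div_le_iff₀ hQ0]; nlinarith only [hG1, hG2, hQ1]
  · rw [le_div_iff₀ hQ0]; nlinarith only [hG1, hQ2]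
  · rw [div_le_iff₀ hQ0]; nlinarith only [hG2, hQ1]

lemma bracket_bound {s : ℝ} (hs0 : 0 ≤ s) (hs1 : s ≤ 1) :
    |(-0.0525 + 22.05 * s - 2 * s ^ 2 : ℝ)| ≤ 20.5 := by
  rw [abs_le]; constructor <;> nlinarith only [hs0, hs1]

lemma k_bound {k δ : ℝ} (hk1 : 2 ≤ k) (hk2 : k ≤ 2.1704) (hδ : |δ| ≤ 0.0012) :
    |k - 1.95 + k * δ| ≤ 0.2232 := by
  have h1 : |k * δ| ≤ 2.1704 * 0.0012 := by
    rw [abs_mul, abs_of_pos (by linarith only [hk1] : 0 < k)]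
    exact mul_le_mul hk2 hδ (abs_nonneg _) (by norm_num)
  obtain ⟨h3, h4⟩ := abs_le.1 h1
  rw [abs_le]; constructor <;> linarith only [hk1, h3, hk2, h4]

/-- the good term -/
lemma main_part {T C ω δ W : ℝ} (hT0 : 0 < T) (hT1 : T < 1) (hC : 0 < C)
    (hω1 : 4 / 39 ≤ ω) (hω2 : ω ≤ 0.118) (hδ1 : |δ| ≤ 0.00121)
    (hW1 : W = 39 * C * ω * T ^ 2 * (1 + δ)) :
    3.539 * C ≤ 78 * (T * C) * ((1 + 1 / 20) * (1 - T ^ 2) / T + 1 / 20 * T) - 78 * C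
      - (((1 + 1 / 20) * (1 - T ^ 2) / T + 1 / 20 * T) ^ 2
          + (-((1 + 1 / 20) * (1 - T ^ 2) * (1 + T ^ 2) / T ^ 2) + 1 / 20 * (1 - T ^ 2))) * W
      + 20 * W := by
  have hω0 : 0 < ω := by linarith only [hT0, hT1, hω1]
  set L1 : ℝ := (1 + 1 / 20) * (1 - T ^ 2) / T + 1 / 20 * T with hL1
  set L2 : ℝ := L1 ^ 2
          + (-((1 + 1 / 20) * (1 - T ^ 2) * (1 + T ^ 2) / T ^ 2) + 1 / 20 * (1 - T ^ 2)) with hL2
  have hTL1 : T * L1 = 1.05 - T ^ 2 := by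
    rw [hL1]; field_simp; ring
  have hTL2 : T ^ 2 * L2 = 0.0525 - 2.05 * T ^ 2 + 2 * (T ^ 2) ^ 2 := by
    have h1 : T ^ 2 * L2 = (T * L1) ^ 2 + (-((1 + 1 / 20) * (1 - T ^ 2) * (1 + T ^ 2))
        + 1 / 20 * (1 - T ^ 2) * T ^ 2) := by
      rw [hL2]; field_simp
    rw [h1, hTL1]; ring
  have hs0 : 0 ≤ T ^ 2 := by positivity
  have hs1 : T ^ 2 ≤ 1 := pow_le_one₀ hT0.le hT1.le
  have hpure := pure_ineq hs0 hs1 hω1 hω2
  have hid : 78 * (T * C) * L1 - 78 * C - L2 * W + 20 * W =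
      39 * C * (0.1 - 2 * T ^ 2 + ω * (-0.0525 + 22.05 * T ^ 2 - 2 * (T ^ 2) ^ 2))
      + 39 * C * ω * δ * (-0.0525 + 22.05 * T ^ 2 - 2 * (T ^ 2) ^ 2) := by
    have h1 : 78 * (T * C) * L1 = 78 * C * (1.05 - T ^ 2) := by rw [← hTL1]; ring
    have h2 : L2 * W = 39 * C * ω * (1 + δ) * (0.0525 - 2.05 * T ^ 2 + 2 * (T ^ 2) ^ 2) := by
      rw [← hTL2, hW1]; ring
    rw [h1, h2, hW1]; ring
  have hbr : |(-0.0525 + 22.05 * T ^ 2 - 2 * (T ^ 2) ^ 2 : ℝ)| ≤ 20.5 :=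
    bracket_bound hs0 hs1
  have hpert : |39 * C * ω * δ * (-0.0525 + 22.05 * T ^ 2 - 2 * (T ^ 2) ^ 2)| ≤ 0.115 * C := by
    rw [abs_mul, abs_mul, abs_of_pos (by positivity : 0 < 39 * C * ω)]
    have h1 : 39 * C * ω * |δ| ≤ 39 * C * 0.118 * 0.00121 := by
      have : 39 * C * ω ≤ 39 * C * 0.118 := mul_le_mul_of_nonneg_left hω2 (by positivity)
      exact mul_le_mul this hδ1 (abs_nonneg _) (by positivity)
    calc 39 * C * ω * |δ| * |(-0.0525 + 22.05 * T ^ 2 - 2 * (T ^ 2) ^ 2 : ℝ)|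
        ≤ 39 * C * 0.118 * 0.00121 * 20.5 :=
          mul_le_mul h1 hbr (abs_nonneg _) (by positivity)
      _ ≤ 0.115 * C := by linarith only [hC]
  rw [hid]
  have h1 := (abs_le.1 hpert).1
  have h2 : 39 * C * 0.0937 ≤
      39 * C * (0.1 - 2 * T ^ 2 + ω * (-0.0525 + 22.05 * T ^ 2 - 2 * (T ^ 2) ^ 2)) :=
    mul_le_mul_of_nonneg_left hpure (by positivity)
  linarith only [hC, h1, h2]

/-- the curvature term -/
lemma curv_part {T C ω r E Rs φ : ℝ} (hT0 : 0 < T) (hT1 : T < 1) (hC : 0 < C)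
    (hω2 : ω ≤ 0.118) (hr2 : 0 < r ^ 2) (hφ : 0 < φ) (heb : r ^ 2 * φ ≤ 1 / 10 ^ 4)
    (hrRs : r ^ 2 * Rs ≤ 1 / 10 ^ 3)
    (hE : |E| ≤ 1.1 * Rs + 11 * (39 * C * ω * T ^ 2) * φ) :
    |E| * r ^ 2 ≤ 0.0011 + 0.0051 * C := by
  have hs0 : 0 ≤ T ^ 2 := by positivity
  have hs1 : T ^ 2 ≤ 1 := pow_le_one₀ hT0.le hT1.le
  have h1 : |E| * r ^ 2 ≤ (1.1 * Rs + 11 * (39 * C * ω * T ^ 2) * φ) * r ^ 2 :=
    mul_le_mul_of_nonneg_right hE hr2.le
  have hX1 : 39 * C * ω * T ^ 2 ≤ 4.602 * C * T ^ 2 := by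
    have : 39 * C * ω ≤ 39 * C * 0.118 := mul_le_mul_of_nonneg_left hω2 (by positivity)
    exact mul_le_mul_of_nonneg_right (by linarith only [this]) hs0
  have h2 : 39 * C * ω * T ^ 2 ≤ 4.602 * C :=
    hX1.trans (mul_le_of_le_one_right (by positivity) hs1)
  have h3 : 11 * (39 * C * ω * T ^ 2) * (r ^ 2 * φ) ≤ 11 * (4.602 * C) * (1 / 10 ^ 4) :=
    mul_le_mul (by linarith only [h2]) heb (by positivity) (by positivity)
  have h4 : (1.1 * Rs + 11 * (39 * C * ω * T ^ 2) * φ) * r ^ 2 =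
    1.1 * (r ^ 2 * Rs) + 11 * (39 * C * ω * T ^ 2) * (r ^ 2 * φ) := by ring
  rw [h4] at h1
  linarith only [hC, hrRs, h1, h3]

/-- the forcing term -/
lemma force_part {T C ω k δ' U E R Rs φ v B BV : ℝ}
    (hT0 : 0 < T) (hT1 : T < 1) (hC : 0 < C) (hω2 : ω ≤ 0.118)
    (hk1 : 2 ≤ k) (hk2 : k ≤ 2.1704) (hδ1' : |δ'| ≤ 0.0012)
    (hU1 : U = k * (T * C) * (1 + δ')) (hφ : 0 < φ) (hv : 0 < v)
    (hBV : 1000 * B ≤ BV) (hrel : C * φ * T * BV = B * v)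
    (hv2 : 9 / 10 * BV * T ≤ v) (hBV1 : 1 ≤ BV) (hR : 0 ≤ R) (hR1 : R ≤ Rs) (hRs : Rs ≤ 1 / 100)
    (hE : |E| ≤ 1.1 * Rs + 11 * (39 * C * ω * T ^ 2) * φ) :
    |2 * (U - 39 / 20 * (T * C)) * (41 * E - R)| ≤ 1.16 * C * v := by
  have hs0 : 0 ≤ T ^ 2 := by positivity
  have hs1 : T ^ 2 ≤ 1 := pow_le_one₀ hT0.le hT1.le
  have hRs0 : 0 ≤ Rs := hR.trans hR1
  have hX1 : 39 * C * ω * T ^ 2 ≤ 4.602 * C * T ^ 2 := by
    have : 39 * C * ω ≤ 39 * C * 0.118 := mul_le_mul_of_nonneg_left hω2 (by positivity)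
    exact mul_le_mul_of_nonneg_right (by linarith only [this]) hs0
  have hER : |41 * E - R| ≤ 46.1 * Rs + 2075.6 * (C * T ^ 2 * φ) := by
    have h1 : |41 * E - R| ≤ 41 * |E| + R := by
      have := abs_sub (41 * E) R
      rw [abs_mul, abs_of_nonneg hR] at this
      norm_num at this
      exact this
    have h3 : 11 * (39 * C * ω * T ^ 2) * φ ≤ 11 * (4.602 * C * T ^ 2) * φ :=
      mul_le_mul_of_nonneg_right (by linarith only [hX1]) hφ.le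
    linarith only [hC, hφ, hR1, hE, hs0, h1, h3, mul_nonneg (mul_nonneg hC.le hs0) hφ.le]
  have hb : |U - 39 / 20 * (T * C)| ≤ 0.2232 * (T * C) := by
    have h1 : U - 39 / 20 * (T * C) = (T * C) * (k - 1.95 + k * δ') := by rw [hU1]; ring
    rw [h1, abs_mul, abs_of_pos (by positivity : 0 < T * C)]
    have h2 : |k - 1.95 + k * δ'| ≤ 0.2232 := k_bound hk1 hk2 hδ1'
    have := mul_le_mul_of_nonneg_left h2 (by positivity : 0 ≤ T * C)
    linarith only [this]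
  have hCφ : C * T * φ ≤ v / 1000 := by
    have h0 : 0 < BV := by linarith only [hT0, hT1, hBV1]
    have h1 : (C * T * φ) * BV = B * v := by rw [← hrel]; ring
    have h2 : B * v ≤ BV / 1000 * v := mul_le_mul_of_nonneg_right (by linarith only [hBV]) hv.le
    have h3 : (C * T * φ) * BV ≤ (v / 1000) * BV := by rw [h1]; linarith only [h2]
    exact le_of_mul_le_mul_right h3 h0
  have hTR : T * Rs ≤ v / 90 := by
    have h1 : T ≤ 10 / 9 * v := by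
      have : 1 * T ≤ BV * T := mul_le_mul_of_nonneg_right hBV1 hT0.le
      linarith only [hv2, this]
    have h2 : T * Rs ≤ 10 / 9 * v * (1 / 100) := mul_le_mul h1 hRs hRs0 (by positivity)
    linarith only [h2]
  rw [abs_mul, abs_mul]
  have h1 : |(2 : ℝ)| * |U - 39 / 20 * (T * C)| ≤ 2 * (0.2232 * (T * C)) := by
    rw [abs_of_pos (by norm_num : (0 : ℝ) < 2)]; linarith only [hb]
  calc |(2 : ℝ)| * |U - 39 / 20 * (T * C)| * |41 * E - R|
      ≤ 2 * (0.2232 * (T * C)) * (46.1 * Rs + 2075.6 * (C * T ^ 2 * φ)) :=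
        mul_le_mul h1 hER (abs_nonneg _) (by positivity)
    _ = 0.4464 * C * (46.1 * (T * Rs) + 2075.6 * T ^ 2 * (C * T * φ)) := by ring
    _ ≤ 0.4464 * C * (46.1 * (v / 90) + 2075.6 * 1 * (v / 1000)) := by
        refine mul_le_mul_of_nonneg_left ?_ (by positivity)
        have h2 : 2075.6 * T ^ 2 * (C * T * φ) ≤ 2075.6 * 1 * (v / 1000) :=
          mul_le_mul (by linarith only [hs1]) hCφ (by positivity) (by norm_num)
        linarith only [hTR, h2]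
    _ ≤ 1.16 * C * v := by
        have : 0 < C * v := mul_pos hC hv
        linarith only [this]

/-- combination -/
lemma comb_part {A W L1 L2 C v M r E F K : ℝ} (hr2 : 0 < r ^ 2) (hv : 0 < v) (hC : 1 ≤ C)
    (hM : 0 ≤ M) (h1 : 3.539 * C ≤ K * L1 - A - L2 * W + 20 * W)
    (h2 : |E| * r ^ 2 ≤ 0.0011 + 0.0051 * C) (h3 : |F| ≤ 1.16 * C * v) :
    ((A - 20 * W) / r ^ 2 + 2 * E) * v + |F / r ^ 2|
      < v * M + v * L1 * (K / r ^ 2) - v * L2 * (W / r ^ 2) := by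
  have hr : r ≠ 0 := by rintro rfl; simp at hr2
  have h4 : ((A - 20 * W) / r ^ 2 + 2 * E) * v + |F / r ^ 2| ≤
      (v * (A - 20 * W) + 2 * (|E| * r ^ 2) * v + |F|) / r ^ 2 := by
    have h5 : (v * (A - 20 * W) + 2 * (|E| * r ^ 2) * v + |F|) / r ^ 2 =
      ((A - 20 * W) / r ^ 2 + 2 * |E|) * v + |F| / r ^ 2 := by
      field_simp
    rw [h5, abs_div, abs_of_pos hr2]
    have h6 := mul_le_mul_of_nonneg_right (le_abs_self E) hv.le
    linarith only [h6]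
  refine lt_of_le_of_lt h4 ?_
  have h6 : v * M + v * L1 * (K / r ^ 2) - v * L2 * (W / r ^ 2) =
      v * M + (v * (K * L1) - v * (L2 * W)) / r ^ 2 := by
    field_simp
    ring
  rw [h6]
  have hfin : v * (A - 20 * W) + 2 * (|E| * r ^ 2) * v + |F| <
      v * (K * L1) - v * (L2 * W) := by
    have h7 : 2 * (|E| * r ^ 2) * v ≤ 2 * (0.0011 + 0.0051 * C) * v :=
      mul_le_mul_of_nonneg_right (by linarith only [h2]) hv.le
    have h8 : v * (3.539 * C) ≤ v * (K * L1 - A - L2 * W + 20 * W) :=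
      mul_le_mul_of_nonneg_left h1 hv.le
    have h9 : v ≤ v * C := le_mul_of_one_le_right hv.le hC
    linarith only [hv, h3, h7, h8, h9]
  have h7 := (div_lt_div_iff_of_pos_right hr2).2 hfin
  have h8 : 0 ≤ v * M := mul_nonneg hv.le hM
  linarith only [h7, h8]

/-- The numerical core of the closure of (b2): all quantities are real numbers.
`T = tanh u`, `C = cosh u`, `G1 = g/T`, `Q = q(u)`, `φ = fb`, `v = Vb`, `M = (1+aλ)/τ`. -/
lemma num_core {T C G1 Q e θ r E R Rs φ v B BV M : ℝ}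
    (hT0 : 0 < T) (hT1 : T < 1) (hC : 1 ≤ C) (hG1 : 2 ≤ G1) (hG2 : G1 ≤ 2.1147)
    (hQ1 : 38 ≤ Q) (hQ2 : Q ≤ 39) (he : |e| ≤ r ^ 2 * φ) (heb : r ^ 2 * φ ≤ 1 / 10 ^ 4)
    (hθ : |θ| ≤ 1 / 10 ^ 3) (hr : 0 < r) (hφ : 0 < φ) (hv : 0 < v)
    (hBV : 1000 * B ≤ BV) (hrel : C * φ * T * BV = B * v)
    (hv2 : 9 / 10 * BV * T ≤ v) (hBV1 : 1 ≤ BV) (hR : 0 ≤ R) (hR1 : R ≤ Rs) (hRs : Rs ≤ 1 / 100)
    (hrRs : r ^ 2 * Rs ≤ 1 / 10 ^ 3)
    (hE : |E| ≤ 1.1 * Rs + 11 * (39 * C / Q * (G1 * T) ^ 2) * φ) (hM : 0 ≤ M) :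
    ((78 * C - 20 * ((39 * C / Q * (1 + θ)) * (G1 * T * (1 - e)) ^ 2)) / r ^ 2 + 2 * E) * v
      + |2 * (((39 * C / Q * (1 + θ)) * (G1 * T * (1 - e)) - 39 / 20 * (T * C)) / r ^ 2)
          * (41 * E - R)|
    < v * M + v * ((1 + 1 / 20) * (1 - T ^ 2) / T + 1 / 20 * T) * (78 * (T * C) / r ^ 2)
      - v * (((1 + 1 / 20) * (1 - T ^ 2) / T + 1 / 20 * T) ^ 2
          + (-((1 + 1 / 20) * (1 - T ^ 2) * (1 + T ^ 2) / T ^ 2) + 1 / 20 * (1 - T ^ 2)))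
        * ((39 * C / Q * (1 + θ)) * (G1 * T * (1 - e)) ^ 2 / r ^ 2) := by
  have hQ0 : 0 < Q := by linarith only [hT0, hT1, hQ1]
  have hC0 : 0 < C := by linarith only [hT0, hT1, hC]
  have hr2 : 0 < r ^ 2 := by positivity
  obtain ⟨hω1, hω2, hk1, hk2⟩ := omega_bounds hG1 hG2 hQ1 hQ2
  have he1 : |e| ≤ 1 / 10 ^ 4 := he.trans heb
  have hδ1 := delta_bound he1 hθ
  have hδ1' := delta_bound' he1 hθ
  have hX : 39 * C / Q * (G1 * T) ^ 2 = 39 * C * (G1 ^ 2 / Q) * T ^ 2 := by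
    field_simp
  rw [hX] at hE
  have hW1 : (39 * C / Q * (1 + θ)) * (G1 * T * (1 - e)) ^ 2 =
      39 * C * (G1 ^ 2 / Q) * T ^ 2 * (1 + ((1 + θ) * (1 - e) ^ 2 - 1)) := by
    field_simp; ring
  have hU1 : (39 * C / Q * (1 + θ)) * (G1 * T * (1 - e)) =
      (39 * G1 / Q) * (T * C) * (1 + ((1 + θ) * (1 - e) - 1)) := by
    field_simp; ring
  have h1 := main_part hT0 hT1 hC0 hω1 hω2 hδ1 hW1
  have h2 := curv_part hT0 hT1 hC0 hω2 hr2 hφ heb hrRs hE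
  have h3 := force_part hT0 hT1 hC0 hω2 hk1 hk2 hδ1' hU1 hφ hv hBV hrel hv2 hBV1 hR hR1 hRs hE
  have h4 := comb_part (K := 78 * (T * C)) hr2 hv hC hM h1 h2 h3
  have h5 : 2 * (((39 * C / Q * (1 + θ)) * (G1 * T * (1 - e)) - 39 / 20 * (T * C)) / r ^ 2)
          * (41 * E - R) =
      2 * ((39 * C / Q * (1 + θ)) * (G1 * T * (1 - e)) - 39 / 20 * (T * C)) * (41 * E - R)
        / r ^ 2 := by ring
  rw [h5]
  exact h4

end

end Vale.Agent.P244.ST.M4c
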