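import Mathlib

/-!
# P244-ST : mixed partial derivatives of a smooth function on an open set of the plane
-/

open Set Filter Topology
open scoped ContDiff

namespace Vale.Agent.P244.ST.M7a

/-- If `G` is smooth on the open set `O`, `G1 = ∂_ρ G`, `Gt = ∂_t G` on `O`, and `Gt(t₀,·)` has
derivative `c` at `ρ₀`, then `G1(·,ρ₀)` has derivative `c` at `t₀`. -/
theorem mixed_deriv {O : Set (ℝ × ℝ)} (hO : IsOpen O) {G G1 Gt : ℝ → ℝ → ℝ} {c : ℝ}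
    (hG : ContDiffOn ℝ ∞ (fun q : ℝ × ℝ => G q.1 q.2) O)
    (h1 : ∀ q ∈ O, HasDerivAt (G q.1) (G1 q.1 q.2) q.2)
    (ht : ∀ q ∈ O, HasDerivAt (fun t => G t q.2) (Gt q.1 q.2) q.1)
    {q₀ : ℝ × ℝ} (hq₀ : q₀ ∈ O) (hc : HasDerivAt (Gt q₀.1) c q₀.2) :
    HasDerivAt (fun t => G1 t q₀.2) c q₀.1 := by
  set g : ℝ × ℝ → ℝ := fun q => G q.1 q.2 with hg
  have hcd : ∀ q ∈ O, ContDiffAt ℝ ∞ g q := fun q hq => hG.contDiffAt (hO.mem_nhds hq)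
  have hdiff : ∀ q ∈ O, DifferentiableAt ℝ g q := fun q hq => (hcd q hq).differentiableAt (by simp)
  have e1 : ∀ q ∈ O, G1 q.1 q.2 = fderiv ℝ g q (0, 1) := by
    intro q hq
    have h3 : HasDerivAt (fun ρ : ℝ => (q.1, ρ)) ((0 : ℝ), (1 : ℝ)) q.2 :=
      (hasDerivAt_const q.2 q.1).prodMk (hasDerivAt_id q.2)
    have h4 : HasFDerivAt g (fderiv ℝ g q) (q.1, q.2) := (hdiff q hq).hasFDerivAt
    have h5 := h4.comp_hasDerivAt q.2 h3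
    exact (h1 q hq).unique h5
  have e2 : ∀ q ∈ O, Gt q.1 q.2 = fderiv ℝ g q (1, 0) := by
    intro q hq
    have h3 : HasDerivAt (fun t : ℝ => (t, q.2)) ((1 : ℝ), (0 : ℝ)) q.1 :=
      (hasDerivAt_id q.1).prodMk (hasDerivAt_const q.1 q.2)
    have h4 : HasFDerivAt g (fderiv ℝ g q) (q.1, q.2) := (hdiff q hq).hasFDerivAt
    have h5 := h4.comp_hasDerivAt q.1 h3
    exact (ht q hq).unique h5
  have hd2 : DifferentiableAt ℝ (fderiv ℝ g) q₀ :=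
    ((hcd q₀ hq₀).fderiv_right (m := ∞) (by simp)).differentiableAt (by simp)
  have hsymm : IsSymmSndFDerivAt ℝ g q₀ :=
    (hcd q₀ hq₀).isSymmSndFDerivAt
      (by rw [minSmoothness_of_isRCLikeNormedField]; exact WithTop.coe_le_coe.2 le_top)
  have hs := hsymm (1, 0) (0, 1)
  -- derivative of `t ↦ fderiv g (t, ρ₀) (0,1)`
  have k1 : HasDerivAt (fun t : ℝ => fderiv ℝ g (t, q₀.2) (0, 1))
      (fderiv ℝ (fderiv ℝ g) q₀ (1, 0) (0, 1)) q₀.1 := by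
    have h3 : HasDerivAt (fun t : ℝ => (t, q₀.2)) ((1 : ℝ), (0 : ℝ)) q₀.1 :=
      (hasDerivAt_id q₀.1).prodMk (hasDerivAt_const q₀.1 q₀.2)
    have h4 : HasFDerivAt (fderiv ℝ g) (fderiv ℝ (fderiv ℝ g) q₀) (q₀.1, q₀.2) :=
      hd2.hasFDerivAt
    have h5 := h4.comp_hasDerivAt q₀.1 h3
    have h6 := h5.clm_apply (hasDerivAt_const q₀.1 ((0 : ℝ), (1 : ℝ)))
    simpa using h6
  have k2 : HasDerivAt (fun ρ : ℝ => fderiv ℝ g (q₀.1, ρ) (1, 0))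
      (fderiv ℝ (fderiv ℝ g) q₀ (0, 1) (1, 0)) q₀.2 := by
    have h3 : HasDerivAt (fun ρ : ℝ => (q₀.1, ρ)) ((0 : ℝ), (1 : ℝ)) q₀.2 :=
      (hasDerivAt_const q₀.2 q₀.1).prodMk (hasDerivAt_id q₀.2)
    have h4 : HasFDerivAt (fderiv ℝ g) (fderiv ℝ (fderiv ℝ g) q₀) (q₀.1, q₀.2) :=
      hd2.hasFDerivAt
    have h5 := h4.comp_hasDerivAt q₀.2 h3
    have h6 := h5.clm_apply (hasDerivAt_const q₀.2 ((1 : ℝ), (0 : ℝ)))
    simpa using h6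
  have n1 : ∀ᶠ t in 𝓝 q₀.1, (t, q₀.2) ∈ O := by
    have : ContinuousAt (fun t : ℝ => ((t, q₀.2) : ℝ × ℝ)) q₀.1 := by fun_prop
    exact this.preimage_mem_nhds (hO.mem_nhds hq₀)
  have n2 : ∀ᶠ ρ in 𝓝 q₀.2, (q₀.1, ρ) ∈ O := by
    have : ContinuousAt (fun ρ : ℝ => ((q₀.1, ρ) : ℝ × ℝ)) q₀.2 := by fun_prop
    exact this.preimage_mem_nhds (hO.mem_nhds hq₀)
  have k3 : HasDerivAt (fun t => G1 t q₀.2) (fderiv ℝ (fderiv ℝ g) q₀ (1, 0) (0, 1)) q₀.1 :=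
    k1.congr_of_eventuallyEq (by filter_upwards [n1] with t ht' using e1 _ ht')
  have k4 : HasDerivAt (Gt q₀.1) (fderiv ℝ (fderiv ℝ g) q₀ (0, 1) (1, 0)) q₀.2 :=
    k2.congr_of_eventuallyEq (by filter_upwards [n2] with t ht' using e2 _ ht')
  rw [hc.unique k4, ← hs]
  exact k3

/-- existence of the `ρ`-derivative of a smooth function on an open set -/
lemma exists_deriv_rho {O : Set (ℝ × ℝ)} (hO : IsOpen O) {G : ℝ → ℝ → ℝ}
    (hG : ContDiffOn ℝ ∞ (fun q : ℝ × ℝ => G q.1 q.2) O) :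
    ∀ q ∈ O, HasDerivAt (G q.1) (deriv (G q.1) q.2) q.2 := by
  intro q hq
  have h := (hG.contDiffAt (hO.mem_nhds hq)).differentiableAt (by simp)
  have h2 : DifferentiableAt ℝ (fun ρ : ℝ => (q.1, ρ)) q.2 := by fun_prop
  have h3 : DifferentiableAt ℝ (fun ρ : ℝ => G q.1 ρ) q.2 :=
    DifferentiableAt.comp (f := fun ρ : ℝ => (q.1, ρ)) (g := fun q : ℝ × ℝ => G q.1 q.2) q.2 h h2
  exact h3.hasDerivAt

end Vale.Agent.P244.ST.M7a
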