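import Vale.Agent.P244.ST.M7aAbs
import Vale.Agent.P244.ST.Mixed
import Vale.Agent.P244.ST.S.RGDefs

/-!
# P244-ST, block M7a : the first Bernstein estimate for the r-gauge package
-/

open Set Filter Topology
open scoped ContDiff

namespace Vale.Agent.P244.ST.M7a

open RG

/-! ### elementary inequalities -/

lemma cosh_sub_one_le {x : ℝ} (hx : |x| ≤ 1) : |Real.cosh x - 1| ≤ x ^ 2 := by
  have h1 : |Real.exp x - 1 - x| ≤ x ^ 2 := Real.abs_exp_sub_one_sub_id_le hx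
  have h2 : |Real.exp (-x) - 1 - -x| ≤ (-x) ^ 2 :=
    Real.abs_exp_sub_one_sub_id_le (by rwa [abs_neg])
  rw [Real.cosh_eq]
  rw [abs_le] at *
  constructor <;> nlinarith only [h1, h2, h1.1, h1.2, h2.1, h2.2]

lemma sinh_sub_le {x : ℝ} (hx : |x| ≤ 1) : |Real.sinh x - x| ≤ x ^ 2 := by
  have h1 : |Real.exp x - 1 - x| ≤ x ^ 2 := Real.abs_exp_sub_one_sub_id_le hx
  have h2 : |Real.exp (-x) - 1 - -x| ≤ (-x) ^ 2 :=
    Real.abs_exp_sub_one_sub_id_le (by rwa [abs_neg])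
  rw [Real.sinh_eq]
  rw [abs_le] at *
  constructor <;> nlinarith only [h1, h2, h1.1, h1.2, h2.1, h2.2]

/-- A solution `F 0` of the linear equation, with `F (j+1) = ∂_ρ (F j)`. -/
structure LinSol (m1 : ℝ) (F : ℕ → ℝ → ℝ → ℝ) (t₁ : ℝ) : Prop where
  cont : ∀ j, ContinuousOn (fun q : ℝ × ℝ => F j q.1 q.2) (Icc 0 t₁ ×ˢ univ)
  d : ∀ j, ∀ t ∈ Icc 0 t₁, ∀ ρ, HasDerivAt (F j t) (F (j + 1) t ρ) ρ
  dt0 : ∀ t ∈ Icc 0 t₁, ∀ ρ, HasDerivAt (fun t => F 0 t ρ)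
    (Real.exp (-2 * ρ) * (F 2 t ρ + m1 * F 1 t ρ + 2 * m1 * F 0 t ρ)) t
  dt1 : ∀ t ∈ Icc 0 t₁, ∀ ρ, HasDerivAt (fun t => F 1 t ρ)
    (Real.exp (-2 * ρ) * (F 3 t ρ + m1 * F 2 t ρ + 2 * m1 * F 1 t ρ -
      2 * (F 2 t ρ + m1 * F 1 t ρ + 2 * m1 * F 0 t ρ))) t

lemma scm {m1 x B : ℝ} (hm1 : 0 ≤ m1) (hx : |x| ≤ B) : |m1 * x| ≤ m1 * B := by
  rw [abs_mul, abs_of_nonneg hm1]
  exact mul_le_mul_of_nonneg_left hx hm1

/-- pointwise bounds, `U` part -/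
lemma U_bounds {U h : ℝ} (hh1 : h ≤ 1) (bU : |U| ≤ h) :
    |Real.cosh U - 1| ≤ h ∧ |Real.sinh U - U| ≤ h * |U| ∧ |Real.sinh U| ≤ 2 * h := by
  have h0 : 0 ≤ h := (abs_nonneg _).trans bU
  have hU1' : |U| ≤ 1 := bU.trans hh1
  have hU2 : U ^ 2 ≤ h * |U| := by
    rw [← sq_abs, sq]; exact mul_le_mul_of_nonneg_right bU (abs_nonneg _)
  have hUh : h * |U| ≤ h * 1 := mul_le_mul_of_nonneg_left hU1' h0
  have ch := cosh_sub_one_le hU1'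
  have sh := sinh_sub_le hU1'
  have sh1 : |Real.sinh U - U| ≤ h * |U| := sh.trans hU2
  refine ⟨by linarith only [hU2, hUh, ch], sh1, ?_⟩
  have := abs_add_le (Real.sinh U - U) U
  rw [sub_add_cancel] at this
  linarith only [bU, hU2, hUh, sh, this]

/-- pointwise bounds, `Z` part -/
lemma Z_bounds {m1 m c U1 Z Zr R2 h : ℝ} (hm1 : 1 ≤ m1) (hm : 1 ≤ m)
    (hh : h ≤ 1 / (2 * m1 + 4))
    (hZr : Zr = m1 * (c - Z) - Z * U1 ^ 2 / 4 - R2 / m)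
    (ch2 : |c - 1| ≤ h) (bU1 : |U1| ≤ h) (bZ : |Z - 1| ≤ h) (bR : |R2| ≤ h) :
    1 / 2 ≤ Z ∧ Z ≤ 2 ∧ |Zr| ≤ (2 * m1 + 2) * h ∧ |Zr| ≤ 1 ∧ |Zr + m1 * c - 2 * Z| ≤
      2 * m1 + 5 := by
  have hm1' : 0 ≤ m1 := by linarith only [hm1]
  have h0 : 0 ≤ h := (abs_nonneg _).trans bU1
  have hh' : h * (2 * m1 + 4) ≤ 1 := by
    rwa [le_div_iff₀ (by linarith only [hm1])] at hh
  have hm1h : h * 1 ≤ h * m1 := mul_le_mul_of_nonneg_left hm1 h0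
  have hh1 : h ≤ 1 := by linarith only [hh', hm1h]
  have hh6 : 6 * h ≤ 1 := by linarith only [hh', hm1h]
  have hhh : h * h ≤ h * 1 := mul_le_mul_of_nonneg_left hh1 h0
  have Z1 : 1 / 2 ≤ Z := by linarith only [bZ, hh', hm1h, (abs_le.1 bZ).1]
  have Z2 : Z ≤ 2 := by linarith only [bZ, hh', hm1h, (abs_le.1 bZ).2]
  have aZ : |Z| ≤ 2 := by rw [abs_of_nonneg (by linarith only [Z1])]; exact Z2
  have U1sq : |U1 ^ 2| ≤ h := by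
    rw [sq]
    exact (abs_mul_le' bU1 bU1).trans (by linarith only [hhh])
  have a1 : |m1 * (c - Z)| ≤ m1 * (2 * h) := by
    refine scm hm1' ?_
    have := abs_sub (c - 1) (Z - 1)
    rw [sub_sub_sub_cancel_right] at this
    linarith only [ch2, bZ, this]
  have a2 : |Z * U1 ^ 2| ≤ 2 * h := abs_mul_le' aZ U1sq
  have a3 : |R2 / m| ≤ h := by
    rw [abs_div, abs_of_pos (by linarith only [hm] : (0:ℝ) < m), div_le_iff₀ (by linarith only [hm])]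
    have : h * 1 ≤ h * m := mul_le_mul_of_nonneg_left hm h0
    linarith only [bR, this]
  have Zr1 : |Zr| ≤ (2 * m1 + 2) * h := by
    rw [hZr]
    rw [abs_le] at a1 a2 a3 ⊢
    constructor <;> linarith only [h0, a1, a2, a3, a1.1, a1.2, a2.1, a2.2, a3.1, a3.2]
  have Zr2 : |Zr| ≤ 1 := Zr1.trans (by linarith only [h0, hh'])
  refine ⟨Z1, Z2, Zr1, Zr2, ?_⟩
  have a4 : |m1 * (c - 1)| ≤ m1 * 1 := scm hm1' (ch2.trans hh1)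
  rw [abs_le] at Zr2 a4 ⊢
  constructor <;> linarith only [hm1, Z2, Zr2, a4, Z1, Zr2.1, Zr2.2, a4.1, a4.2]

lemma c_bound {m1 U U1 h : ℝ} (hm1 : 0 ≤ m1) (hh1 : h ≤ 1) (bU : |U| ≤ h) (bU1 : |U1| ≤ h) :
    |m1 * Real.sinh U * U1 + 2 * m1 - 2 * m1 * Real.cosh U| ≤ 4 * m1 := by
  obtain ⟨ch2, -, sh2⟩ := U_bounds hh1 bU
  have h0 : 0 ≤ h := (abs_nonneg _).trans bU
  have nl6 : |Real.sinh U * U1| ≤ 2 := by
    refine (abs_mul_le' sh2 bU1).trans ?_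
    have : h * h ≤ 1 * 1 := mul_le_mul hh1 hh1 h0 zero_le_one
    linarith only [this]
  have a1 := scm hm1 nl6
  have a2 := scm hm1 (ch2.trans hh1)
  rw [show m1 * Real.sinh U * U1 + 2 * m1 - 2 * m1 * Real.cosh U =
    m1 * (Real.sinh U * U1) - 2 * (m1 * (Real.cosh U - 1)) by ring]
  rw [abs_le] at a1 a2 ⊢
  constructor <;> linarith only [a1, a2, a1.1, a1.2, a2.1, a2.2]

lemma NL_bound0 {m1 U Z F0 F1 F2 v h CF A : ℝ} (hm1 : 0 ≤ m1) (hh1 : h ≤ 1)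
    (hv : v = U - F0) (bU : |U| ≤ h) (bZ : |Z - 1| ≤ h)
    (bF0 : |F0| ≤ CF * A) (bF1 : |F1| ≤ CF * A) (bF2 : |F2| ≤ CF * A) (bv : |v| ≤ A) :
    |(Z - 1) * F2 + m1 * (Real.cosh U - 1) * F1 + 2 * m1 * (Real.sinh U - U)| ≤
      (CF * (3 * m1 + 1) + 2 * m1) * h * A := by
  obtain ⟨ch2, sh1, -⟩ := U_bounds hh1 bU
  have h0 : 0 ≤ h := (abs_nonneg _).trans bU
  have aU : |U| ≤ (1 + CF) * A := by
    have : U = v + F0 := by rw [hv]; ring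
    rw [this]
    exact (abs_add_le _ _).trans (by linarith only [bF0, bv])
  have nl1 : |(Z - 1) * F2| ≤ h * (CF * A) := abs_mul_le' bZ bF2
  have nl2 : |(Real.cosh U - 1) * F1| ≤ h * (CF * A) := abs_mul_le' ch2 bF1
  have nl3 : |Real.sinh U - U| ≤ h * ((1 + CF) * A) :=
    sh1.trans (mul_le_mul_of_nonneg_left aU h0)
  have b2 := scm hm1 nl2
  have b3 := scm hm1 nl3
  rw [show (Z - 1) * F2 + m1 * (Real.cosh U - 1) * F1 + 2 * m1 * (Real.sinh U - U) =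
    (Z - 1) * F2 + m1 * ((Real.cosh U - 1) * F1) + 2 * (m1 * (Real.sinh U - U)) by ring]
  rw [abs_le] at nl1 b2 b3 ⊢
  constructor <;> linarith only [nl1, b2, b3, nl1.1, nl1.2, b2.1, b2.2, b3.1, b3.2]

lemma NL_bound1 {m1 U U1 Z Zr F1 F2 F3 w h CF A : ℝ} (hm1 : 0 ≤ m1) (hh1 : h ≤ 1)
    (hw : w = U1 - F1) (bU : |U| ≤ h) (bU1 : |U1| ≤ h) (bZ : |Z - 1| ≤ h)
    (Zr1 : |Zr| ≤ (2 * m1 + 2) * h)
    (bF1 : |F1| ≤ CF * A) (bF2 : |F2| ≤ CF * A) (bF3 : |F3| ≤ CF * A) :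
    |Zr * F2 + (Z - 1) * F3 + m1 * Real.sinh U * U1 * F1 + m1 * (Real.cosh U - 1) * F2 +
      2 * m1 * (Real.cosh U - 1) * U1| ≤ CF * (7 * m1 + 3) * h * A + 2 * m1 * |w| := by
  obtain ⟨ch2, -, sh2⟩ := U_bounds hh1 bU
  have h0 : 0 ≤ h := (abs_nonneg _).trans bU
  have aU1 : |U1| ≤ |w| + CF * A := by
    have : U1 = w + F1 := by rw [hw]; ring
    rw [this]
    exact (abs_add_le _ _).trans (by linarith only [bF1])
  have nl4 : |Zr * F2| ≤ (2 * m1 + 2) * h * (CF * A) := abs_mul_le' Zr1 bF2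
  have nl5 : |(Z - 1) * F3| ≤ h * (CF * A) := abs_mul_le' bZ bF3
  have nl6 : |Real.sinh U * U1| ≤ 2 * h := by
    refine (abs_mul_le' sh2 bU1).trans ?_
    have : h * h ≤ h * 1 := mul_le_mul_of_nonneg_left hh1 h0
    linarith only [this]
  have nl7 : |Real.sinh U * U1 * F1| ≤ 2 * h * (CF * A) := abs_mul_le' nl6 bF1
  have nl8 : |(Real.cosh U - 1) * F2| ≤ h * (CF * A) := abs_mul_le' ch2 bF2
  have nl9 : |(Real.cosh U - 1) * U1| ≤ h * (|w| + CF * A) := abs_mul_le' ch2 aU1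
  have b3 := scm hm1 nl7
  have b4 := scm hm1 nl8
  have b5 := scm hm1 nl9
  have i4 : m1 * (h * |w|) ≤ m1 * |w| := by
    refine mul_le_mul_of_nonneg_left ?_ hm1
    calc h * |w| ≤ 1 * |w| := mul_le_mul_of_nonneg_right hh1 (abs_nonneg _)
      _ = |w| := one_mul _
  rw [show (Zr * F2 + (Z - 1) * F3 + m1 * Real.sinh U * U1 * F1 +
      m1 * (Real.cosh U - 1) * F2 + 2 * m1 * (Real.cosh U - 1) * U1) =
      Zr * F2 + (Z - 1) * F3 + m1 * (Real.sinh U * U1 * F1) +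
      m1 * ((Real.cosh U - 1) * F2) + 2 * (m1 * ((Real.cosh U - 1) * U1)) by ring]
  rw [abs_le] at nl4 nl5 b3 b4 b5 ⊢
  constructor <;> linarith only [nl4, nl5, b3, b4, b5, i4, nl4.1, nl4.2, nl5.1, nl5.2, b3.1, b3.2, b4.1, b4.2, b5.1, b5.2]

/-- pointwise bounds of the nonlinear terms -/
lemma NL_bounds {m1 U U1 Z Zr F0 F1 F2 F3 v w h CF A : ℝ} (hm1 : 0 ≤ m1) (hh1 : h ≤ 1)
    (hCF : 0 ≤ CF) (hA : 0 ≤ A) (hv : v = U - F0) (hw : w = U1 - F1)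
    (bU : |U| ≤ h) (bU1 : |U1| ≤ h) (bZ : |Z - 1| ≤ h) (Zr1 : |Zr| ≤ (2 * m1 + 2) * h)
    (bF0 : |F0| ≤ CF * A) (bF1 : |F1| ≤ CF * A) (bF2 : |F2| ≤ CF * A) (bF3 : |F3| ≤ CF * A)
    (bv : |v| ≤ A) :
    |(Z - 1) * F2 + m1 * (Real.cosh U - 1) * F1 + 2 * m1 * (Real.sinh U - U)| ≤
      (CF * (13 * m1 + 5) + 4 * m1) * h * A ∧
    |(Zr * F2 + (Z - 1) * F3 + m1 * Real.sinh U * U1 * F1 + m1 * (Real.cosh U - 1) * F2 +
      2 * m1 * (Real.cosh U - 1) * U1) - 2 * ((Z - 1) * F2 + m1 * (Real.cosh U - 1) * F1 +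
      2 * m1 * (Real.sinh U - U))| ≤ (CF * (13 * m1 + 5) + 4 * m1) * h * A + 2 * m1 * |w| := by
  have h0 : 0 ≤ h := (abs_nonneg _).trans bU
  have n0 := NL_bound0 hm1 hh1 hv bU bZ bF0 bF1 bF2 bv
  have n1 := NL_bound1 hm1 hh1 hw bU bU1 bZ Zr1 bF1 bF2 bF3
  have i1 : 0 ≤ CF * h * A := by positivity
  have i2 : 0 ≤ m1 * (CF * h * A) := by positivity
  have i3 : 0 ≤ m1 * (h * A) := by positivity
  refine ⟨n0.trans ?_, (abs_sub _ _).trans ?_⟩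
  · linarith only [i1, i2, i3]
  · rw [abs_mul, abs_two]
    linarith only [n0, n1]

/-- time derivative of `U1` -/
lemma RSol.dt1 {p : ℕ} {w f : ℝ → ℝ → ℝ} {T : ℝ} {X U U1 U2 Z R : ℝ → ℝ → ℝ}
    (hR : RSol p w f T X U U1 U2 Z R) {q : ℝ × ℝ} (hq : q ∈ reg p w f (Ioo 0 T)) :
    HasDerivAt (fun t => U1 t q.2)
      (Real.exp (-2 * q.2) * ((((2 * (p : ℝ) - 1) * (Real.cosh (U q.1 q.2) - Z q.1 q.2) -
        Z q.1 q.2 * (U1 q.1 q.2) ^ 2 / 4 - Real.exp (2 * q.2) * R q.1 q.2 / (2 * p)) * U2 q.1 q.2 +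
        Z q.1 q.2 * deriv (U2 q.1) q.2 + (2 * (p : ℝ) - 1) * (Real.sinh (U q.1 q.2) *
        U1 q.1 q.2 ^ 2 + Real.cosh (U q.1 q.2) * U2 q.1 q.2) +
        2 * (2 * (p : ℝ) - 1) * (Real.cosh (U q.1 q.2) * U1 q.1 q.2)) -
        2 * (Z q.1 q.2 * U2 q.1 q.2 + (2 * (p : ℝ) - 1) * Real.cosh (U q.1 q.2) * U1 q.1 q.2 +
        2 * (2 * (p : ℝ) - 1) * Real.sinh (U q.1 q.2)))) q.1 := by
  have hsub : reg p w f (Ioo 0 T) ⊆ reg p w f (Ico 0 T) := fun q hq => ⟨Ioo_subset_Ico_self hq.1, hq.2⟩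
  have hq' := hsub hq
  refine mixed_deriv hR.isOpen_reg hR.smooth_U (G1 := U1)
    (Gt := fun t ρ => Real.exp (-2 * ρ) * (Z t ρ * U2 t ρ +
      (2 * (p : ℝ) - 1) * Real.cosh (U t ρ) * U1 t ρ + 2 * (2 * (p : ℝ) - 1) * Real.sinh (U t ρ)))
    (fun q hq => hR.d1 q (hsub hq)) (fun q hq => hR.dt q hq) hq ?_
  have dU := hR.d1 q hq'
  have dU1 := hR.d2 q hq'
  have dZ := hR.dZ q hq'
  have dU2 := exists_deriv_rho hR.isOpen_reg hR.smooth_U2 q hq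
  have de : HasDerivAt (fun ρ : ℝ => Real.exp (-2 * ρ)) (-2 * Real.exp (-2 * q.2)) q.2 := by
    have h1 : HasDerivAt (fun ρ : ℝ => -2 * ρ) (-2) q.2 := by
      simpa using (hasDerivAt_id q.2).const_mul (-2)
    refine h1.exp.congr_deriv ?_
    ring
  have h1 := ((dZ.mul dU2).add ((dU.cosh.const_mul (2 * (p : ℝ) - 1)).mul dU1)).add
    (dU.sinh.const_mul (2 * (2 * (p : ℝ) - 1)))
  refine (de.mul h1).congr_deriv ?_
  simp only [Pi.add_apply, Pi.mul_apply]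
  ring

/-- FIRST BERNSTEIN ESTIMATE (r-gauge). -/
theorem bern1 {p : ℕ} (hp : 2 ≤ p) {y₀ y₁ lam CF : ℝ} (hy₀ : 0 < y₀) (hy₁ : y₀ < y₁)
    (hlam : 0 ≤ lam) (hCF : 0 ≤ CF) :
    ∃ C h₀ : ℝ, 0 < C ∧ 0 < h₀ ∧ ∀ (w f : ℝ → ℝ → ℝ) (T : ℝ) (X U U1 U2 Z R : ℝ → ℝ → ℝ),
      RSol p w f T X U U1 U2 Z R → ∀ (F : ℕ → ℝ → ℝ → ℝ) (t₁ ε δ h : ℝ), t₁ < 1 → t₁ < T →
      LinSol (2 * (p : ℝ) - 1) F t₁ → 0 < ε → δ ≤ 1 → h ≤ h₀ →
      Win y₀ y₁ t₁ ⊆ reg p w f (Ico 0 T) →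
      (∀ q ∈ Win y₀ y₁ t₁, ∀ j ≤ 3, |F j q.1 q.2| ≤ CF * (ε * (1 - q.1) ^ lam)) →
      (∀ q ∈ Win y₀ y₁ t₁, |U q.1 q.2| ≤ h ∧ |U1 q.1 q.2| ≤ h ∧ |Z q.1 q.2 - 1| ≤ h ∧
        |Real.exp (2 * q.2) * R q.1 q.2| ≤ h) →
      (∀ q ∈ Win y₀ y₁ t₁, |U q.1 q.2 - F 0 q.1 q.2| ≤ δ * (ε * (1 - q.1) ^ lam)) →
      (∀ q ∈ Win y₀ y₁ t₁, q.1 = 0 → |U1 q.1 q.2 - F 1 q.1 q.2| ≤ δ * ε) →
      ∀ q ∈ Win (2 * y₀) (y₁ / 2) t₁,
        |U1 q.1 q.2 - F 1 q.1 q.2| ≤ C * (δ + h) * (ε * (1 - q.1) ^ lam) := by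
  have hp' : (2 : ℝ) ≤ p := by exact_mod_cast hp
  set m1 : ℝ := 2 * (p : ℝ) - 1 with hm1def
  have hm1 : 1 ≤ m1 := by rw [hm1def]; linarith only [hp']
  have hm1' : 0 ≤ m1 := by linarith only [hp']
  set D : ℝ := 1 + 4 * y₁ ^ 2 with hD
  set A1 : ℝ := max (4 * ((2 * lam + 1) * D ^ 3 + (24 + 2 * (2 * m1 + 5) + 2 * (4 * m1) +
    2 * (2 * m1)) * D ^ 2)) (m1 * D ^ 2) with hA1def
  set C5 : ℝ := CF * (13 * m1 + 5) + 4 * m1 with hC5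
  have hDpos : 0 < D := by positivity
  have hA1pos : 0 ≤ A1 := le_max_of_le_right (by positivity)
  have hC5pos : 0 ≤ C5 := by positivity
  set K : ℝ := D ^ 2 * ((1298 + 8 * m1 + 4 * lam * D) + 18 * C5 ^ 2) + A1 with hK
  have hKpos : 0 ≤ K := by positivity
  have hy1 : 0 < y₁ := by linarith only [hy₀, hy₁]
  refine ⟨Real.sqrt K / (y₀ * y₁ / 2) + 1, 1 / (2 * m1 + 4), by positivity, by positivity, ?_⟩
  intro w f T X U U1 U2 Z R hR F t₁ ε δ h ht₁ htT hF hε hδ hh hsub bF bnd bv b0 q hq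
  have hq' : q ∈ Win y₀ y₁ t₁ := by
    refine ⟨hq.1, le_trans ?_ hq.2.1, hq.2.2.trans ?_⟩
    · have := Real.sqrt_nonneg (1 - q.1)
      nlinarith only [hy₀, this]
    · have := Real.sqrt_nonneg (1 - q.1)
      nlinarith only [hy₀, hy₁, this]
  have h0 : 0 ≤ h := (abs_nonneg _).trans (bnd q hq').1
  have hh1 : h ≤ 1 := hh.trans (by rw [div_le_one (by linarith only [hp'])]; linarith only [hp'])
  have tpos : ∀ q ∈ Win y₀ y₁ t₁, 0 < 1 - q.1 := fun q hq => by linarith only [ht₁, hq, hq.1.2]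
  have Apos : ∀ q ∈ Win y₀ y₁ t₁, 0 < ε * (1 - q.1) ^ lam := fun q hq =>
    mul_pos hε (Real.rpow_pos_of_pos (tpos q hq) _)
  have hδ0 : 0 ≤ δ := by
    have h1 := (abs_nonneg _).trans (bv q hq')
    exact nonneg_of_mul_nonneg_left h1 (Apos q hq')
  have hIoo : ∀ q ∈ Win y₀ y₁ t₁, 0 < q.1 → q ∈ reg p w f (Ioo 0 T) := fun q hq h =>
    ⟨⟨h, lt_of_le_of_lt hq.1.2 htT⟩, (hsub hq).2⟩
  have hWprod : Win y₀ y₁ t₁ ⊆ Icc 0 t₁ ×ˢ univ := fun q hq => ⟨hq.1, mem_univ _⟩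
  -- abbreviations
  set Zr : ℝ → ℝ → ℝ := fun t ρ => m1 * (Real.cosh (U t ρ) - Z t ρ) -
    Z t ρ * (U1 t ρ) ^ 2 / 4 - Real.exp (2 * ρ) * R t ρ / (2 * p) with hZrdef
  set NL : ℝ → ℝ → ℝ := fun t ρ => (Z t ρ - 1) * F 2 t ρ + m1 * (Real.cosh (U t ρ) - 1) * F 1 t ρ +
    2 * m1 * (Real.sinh (U t ρ) - U t ρ) with hNLdef
  set NL1 : ℝ → ℝ → ℝ := fun t ρ => Zr t ρ * F 2 t ρ + (Z t ρ - 1) * F 3 t ρ +
    m1 * Real.sinh (U t ρ) * U1 t ρ * F 1 t ρ + m1 * (Real.cosh (U t ρ) - 1) * F 2 t ρ +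
    2 * m1 * (Real.cosh (U t ρ) - 1) * U1 t ρ with hNL1def
  have hZb : ∀ q ∈ Win y₀ y₁ t₁, 1 / 2 ≤ Z q.1 q.2 ∧ Z q.1 q.2 ≤ 2 ∧
      |Zr q.1 q.2| ≤ (2 * m1 + 2) * h ∧ |Zr q.1 q.2| ≤ 1 ∧
      |Zr q.1 q.2 + m1 * Real.cosh (U q.1 q.2) - 2 * Z q.1 q.2| ≤ 2 * m1 + 5 := by
    intro q hq
    obtain ⟨bU, bU1, bZ, bR⟩ := bnd q hq
    exact Z_bounds hm1 (by linarith only [hp'] : (1:ℝ) ≤ 2 * p) hh rfl (U_bounds hh1 bU).1 bU1 bZ bR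
  have hNLb : ∀ q ∈ Win y₀ y₁ t₁, |NL q.1 q.2| ≤ C5 * h * (ε * (1 - q.1) ^ lam) ∧
      |NL1 q.1 q.2 - 2 * NL q.1 q.2| ≤ C5 * h * (ε * (1 - q.1) ^ lam) +
        2 * m1 * |U1 q.1 q.2 - F 1 q.1 q.2| := by
    intro q hq
    obtain ⟨bU, bU1, bZ, bR⟩ := bnd q hq
    have hA := (Apos q hq).le
    exact NL_bounds hm1' hh1 hCF hA rfl rfl bU bU1 bZ (hZb q hq).2.2.1 (bF q hq 0 (by norm_num))
      (bF q hq 1 (by norm_num)) (bF q hq 2 (by norm_num)) (bF q hq 3 le_rfl)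
      ((bv q hq).trans (by nlinarith only [hδ, hA]))
  have main := bern1_abs (m1 := m1) (lam := lam) (y₀ := y₀) (y₁ := y₁) (t₁ := t₁) (ε := ε)
    (Bb := 2 * m1 + 5) (Cc := 4 * m1) (e0 := δ) (e1 := C5 * h) (e2 := 2 * m1) (D := D) (A1 := A1)
    (B := D ^ 2 * ((1298 + 8 * m1 + 4 * lam * D) * δ ^ 2 + 18 * (C5 * h) ^ 2) + A1 * δ ^ 2)
    hy₀ hy₁ ht₁ hm1' hlam hε (by positivity) rfl (le_max_left _ _) (le_max_right _ _) rfl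
    (v := fun t ρ => U t ρ - F 0 t ρ) (w := fun t ρ => U1 t ρ - F 1 t ρ)
    (w1 := fun t ρ => U2 t ρ - F 2 t ρ) (w2 := fun t ρ => deriv (U2 t) ρ - F 3 t ρ)
    (Z := Z) (Zr := Zr) (ch := fun t ρ => Real.cosh (U t ρ))
    (c := fun t ρ => m1 * Real.sinh (U t ρ) * U1 t ρ + 2 * m1 - 2 * m1 * Real.cosh (U t ρ))
    (NL := NL) (NLr := fun t ρ => NL1 t ρ - 2 * NL t ρ)
    ((hR.cont_U.mono hsub).sub ((hF.cont 0).mono hWprod))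
    ((hR.cont_U1.mono hsub).sub ((hF.cont 1).mono hWprod))
    (fun q hq _ => (hR.d1 q (hsub hq)).sub (hF.d 0 q.1 hq.1 q.2))
    (fun q hq _ => (hR.d2 q (hsub hq)).sub (hF.d 1 q.1 hq.1 q.2))
    (fun q hq h => (exists_deriv_rho hR.isOpen_reg hR.smooth_U2 q (hIoo q hq h)).sub
      (hF.d 2 q.1 hq.1 q.2))
    (fun q hq h => ((hR.dt q (hIoo q hq h)).sub (hF.dt0 q.1 hq.1 q.2)).congr_deriv (by
      simp only [hNLdef]
      ring))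
    (fun q hq h => ((RSol.dt1 hR (hIoo q hq h)).sub (hF.dt1 q.1 hq.1 q.2)).congr_deriv (by
      simp only [hNLdef, hNL1def, hZrdef]
      ring))
    (fun q hq => (hZb q hq).1) (fun q hq => (hZb q hq).2.1) (fun q hq => (hZb q hq).2.2.2.1)
    (fun q hq => (hZb q hq).2.2.2.2)
    (fun q hq => c_bound hm1' hh1 (bnd q hq).1 (bnd q hq).2.1)
    bv (fun q hq => (hNLb q hq).1) (fun q hq => (hNLb q hq).2) b0 q hq'
  -- conclusion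
  set A : ℝ := ε * (1 - q.1) ^ lam with hAdef
  have hApos : 0 < A := Apos q hq'
  set W : ℝ := U1 q.1 q.2 - F 1 q.1 q.2 with hW
  have yb := yv_mem ht₁ hq
  have hz : y₀ * y₁ / 2 ≤ zt y₀ y₁ (yv q.1 q.2) := by
    unfold zt
    have h1 : y₀ ≤ yv q.1 q.2 - y₀ := by linarith only [yb, yb.1]
    have h2 : y₁ / 2 ≤ y₁ - yv q.1 q.2 := by linarith only [yb, yb.2]
    calc y₀ * y₁ / 2 = y₀ * (y₁ / 2) := by ring
      _ ≤ _ := mul_le_mul h1 h2 (by positivity) (by linarith only [hy₀, yb])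
  have hz0 : 0 < y₀ * y₁ / 2 := by positivity
  have hB : D ^ 2 * ((1298 + 8 * m1 + 4 * lam * D) * δ ^ 2 + 18 * (C5 * h) ^ 2) + A1 * δ ^ 2 ≤
      K * (δ + h) ^ 2 := by
    have i1 : δ ^ 2 ≤ (δ + h) ^ 2 := pow_le_pow_left₀ hδ0 (by linarith only [h0]) 2
    have i2 : h ^ 2 ≤ (δ + h) ^ 2 := pow_le_pow_left₀ h0 (by linarith only [hδ0]) 2
    have j1 := mul_le_mul_of_nonneg_left i1
      (by positivity : 0 ≤ D ^ 2 * (1298 + 8 * m1 + 4 * lam * D) + A1)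
    have j2 := mul_le_mul_of_nonneg_left i2 (by positivity : 0 ≤ D ^ 2 * 18 * C5 ^ 2)
    calc _ = (D ^ 2 * (1298 + 8 * m1 + 4 * lam * D) + A1) * δ ^ 2 +
          D ^ 2 * 18 * C5 ^ 2 * h ^ 2 := by ring
      _ ≤ _ := add_le_add j1 j2
      _ = _ := by rw [hK]; ring
  have hsq : (y₀ * y₁ / 2) ^ 2 * W ^ 2 ≤ (Real.sqrt K * (δ + h) * A) ^ 2 := by
    have k1 : (y₀ * y₁ / 2) ^ 2 * W ^ 2 ≤ (zt y₀ y₁ (yv q.1 q.2)) ^ 2 * W ^ 2 :=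
      mul_le_mul_of_nonneg_right (pow_le_pow_left₀ hz0.le hz 2) (sq_nonneg _)
    have k2 := mul_le_mul_of_nonneg_right hB (sq_nonneg A)
    calc _ ≤ _ := k1
      _ ≤ _ := main
      _ ≤ _ := k2
      _ = (Real.sqrt K * (δ + h) * A) ^ 2 := by
        have := Real.sq_sqrt hKpos
        calc K * (δ + h) ^ 2 * A ^ 2 = (Real.sqrt K) ^ 2 * (δ + h) ^ 2 * A ^ 2 := by rw [this]
          _ = _ := by ring
  have habs : (y₀ * y₁ / 2) * |W| ≤ Real.sqrt K * (δ + h) * A := by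
    refine abs_le_of_sq_le_sq' ?_ (by positivity) |>.2
    rw [mul_pow, sq_abs]
    exact hsq
  have hfin : |W| ≤ Real.sqrt K / (y₀ * y₁ / 2) * (δ + h) * A := by
    rw [mul_comm] at habs
    have := (le_div_iff₀ hz0).2 habs
    calc _ ≤ _ := this
      _ = _ := by ring
  have hpos : 0 ≤ (δ + h) * A := by positivity
  calc |W| ≤ Real.sqrt K / (y₀ * y₁ / 2) * (δ + h) * A := hfin
    _ ≤ Real.sqrt K / (y₀ * y₁ / 2) * (δ + h) * A + (δ + h) * A := by linarith only [hpos]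
    _ = _ := by ring

end Vale.Agent.P244.ST.M7a
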