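import Vale.Agent.P244.ST.M7Iface
import Vale.Agent.P244.ST.M7aMain
import Vale.Agent.P244.ST.S.RGauge
import Vale.Agent.P244.ST.M.QSpace

/-!
# P244-ST, block M7 : output of the first Bernstein estimate
-/

set_option linter.all false

open Set Filter Topology
open scoped ContDiff

namespace Vale.Agent.P244.ST.M7

/-! ### the linear solution -/

theorem contDiff_Fj (eps : ℝ) (j : ℕ) : ContDiff ℝ ∞ (fun q : ℝ × ℝ => Fj eps j q.1 q.2) := by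
  unfold Fj BD.PhiD
  have h1 : ContDiff ℝ ∞ fun q : ℝ × ℝ => Real.exp q.2 := Real.contDiff_exp.comp contDiff_snd
  have h2 : ContDiff ℝ ∞ fun q : ℝ × ℝ => (Real.exp q.2) ^ (-kap) :=
    h1.rpow_const_of_ne fun q => (Real.exp_pos _).ne'
  refine contDiff_const.mul (h2.mul (ContDiff.sum fun k _ => ?_))
  have h3 : ContDiff ℝ ∞ fun q : ℝ × ℝ => (1 - q.1) := contDiff_const.sub contDiff_fst
  exact (contDiff_const.mul ((h1.pow 2).div_const 4 |>.pow k)).mul (h3.pow _)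

theorem linSol_Fj (eps t₁ : ℝ) : M7a.LinSol (2 * ((20 : ℕ) : ℝ) - 1) (Fj eps) t₁ where
  cont := fun j => (contDiff_Fj eps j).continuous.continuousOn
  d := fun j t _ ρ => hasDerivAt_Fj eps j t ρ
  dt0 := fun t _ ρ => (Fj0_t eps t ρ).congr_deriv (by push_cast; ring)
  dt1 := fun t _ ρ => (Fj1_t eps t ρ).congr_deriv (by push_cast; ring)

/-! ### dictionary -/

theorem rh_eqB (w f : Fn) (t x : ℝ) : RG.rh 20 (w t) (f t) x = rho w f t x := by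
  unfold RG.rh rho RG.ze zeta0
  norm_num

theorem uu_eq (w f : Fn) (t x : ℝ) : RG.uu (w t) (f t) x = uu w f t x := rfl

theorem rhx_eq (w f : Fn) (t x : ℝ) : RG.rhx (w t) (f t) x = rhox w f t x := rfl

section

variable {w f : Fn} {T t x : ℝ} (h : ConfSol 20 w f T)

include h

theorem rhx_neg (ht : t ∈ Ico 0 T) (hx : x ∈ Ioo (-1 : ℝ) 1) (hr : 0 < rs w f t x) :
    RG.rhx (w t) (f t) x < 0 := by
  rw [rhx_eq]
  rw [h.rs_eq hx ht] at hr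
  have h1 : 0 < sx x * Real.exp (-w t x) := mul_pos (sx_posQ hx) (Real.exp_pos _)
  by_contra hc
  push Not at hc
  nlinarith only [hr, h1, hc, mul_nonneg h1.le hc]

theorem U1_eq (ht : t ∈ Ico 0 T) (hx : x ∈ Ioo (-1 : ℝ) 1) :
    RG.ux (w t) (f t) x / RG.rhx (w t) (f t) x = -GG w f t x := by
  have h1 : 0 < sx x * Real.exp (-w t x) := mul_pos (sx_posQ hx) (Real.exp_pos _)
  rw [GG, h.rs_eq hx ht, h.PP_eq hx ht, neg_neg, mul_div_mul_left _ _ (neg_neg_of_pos h1).ne]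
  rfl

theorem ZZ_eq (ht : t ∈ Ico 0 T) (hx : x ∈ Ioo (-1 : ℝ) 1) :
    RG.ZZ 20 (w t) (f t) x = ZZ w f t x := by
  have h1 := sx_posQ hx
  have h2 : sx x = Real.sqrt (1 - x ^ 2) := rfl
  have h3 : RG.ze 20 = zeta0 := by unfold RG.ze zeta0; norm_num
  rw [RG.ZZ, ZZ, rr_sq hx, h.rs_eq hx ht, ← h2, rhx_eq, h3, Real.exp_sub, Real.exp_neg]
  have := Real.exp_pos (w t x)
  have := zeta0_pos'
  field_simp

end

theorem yv_of_rho {w f : Fn} {t x ρ : ℝ} (hx : rho w f t x = ρ) :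
    yv w f t x = Real.exp ρ / Real.sqrt (1 - t) := by
  rw [yv, rr, hx, tau]

/-- window points in the region of the r-gauge -/
theorem win_sub_reg {q : Par} {g : ℝ → ℝ} {w f : Fn} {T t₁ : ℝ} (H : M.Hist q g w f T t₁)
    (hN : 2000 ≤ q.N) {y₀ : ℝ} : Win y₀ 400 t₁ ⊆ RG.reg 20 w f (Ico 0 T) := by
  rintro z ⟨hz, h1, h2⟩
  refine ⟨⟨hz.1, hz.2.trans_lt H.mem.2⟩, ?_⟩
  rw [rh_eqB]
  have h3 := H.boot.b0 z.1 hz
  have h4 : Real.sqrt (1 - z.1) ≤ 1 := Real.sqrt_le_one.2 (by linarith only [hz, hz.1])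
  have h5 : Real.exp z.2 < Real.exp (rho w f z.1 0) := by
    have : rr w f z.1 0 = Real.exp (rho w f z.1 0) := rfl
    rw [← this]
    linarith only [hN, h2, h3, h4]
  exact Real.exp_lt_exp.1 h5

theorem Hist.t₁_lt {q : Par} {g : ℝ → ℝ} {w f : Fn} {T t₁ : ℝ} (H : M.Hist q g w f T t₁) :
    t₁ < 1 := H.mem.2.trans_le H.T_le

/-- the abstract constant statement of Bernstein 1 -/
def B1P (y₀ y₁ lam CF C h₀ : ℝ) : Prop :=
  ∀ (w f : ℝ → ℝ → ℝ) (T : ℝ) (X U U1 U2 Z R : ℝ → ℝ → ℝ),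
      RG.RSol 20 w f T X U U1 U2 Z R → ∀ (F : ℕ → ℝ → ℝ → ℝ) (t₁ ε δ h : ℝ), t₁ < 1 → t₁ < T →
      M7a.LinSol (2 * ((20 : ℕ) : ℝ) - 1) F t₁ → 0 < ε → δ ≤ 1 → h ≤ h₀ →
      Win y₀ y₁ t₁ ⊆ RG.reg 20 w f (Ico 0 T) →
      (∀ q ∈ Win y₀ y₁ t₁, ∀ j ≤ 3, |F j q.1 q.2| ≤ CF * (ε * (1 - q.1) ^ lam)) →
      (∀ q ∈ Win y₀ y₁ t₁, |U q.1 q.2| ≤ h ∧ |U1 q.1 q.2| ≤ h ∧ |Z q.1 q.2 - 1| ≤ h ∧
        |Real.exp (2 * q.2) * R q.1 q.2| ≤ h) →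
      (∀ q ∈ Win y₀ y₁ t₁, |U q.1 q.2 - F 0 q.1 q.2| ≤ δ * (ε * (1 - q.1) ^ lam)) →
      (∀ q ∈ Win y₀ y₁ t₁, q.1 = 0 → |U1 q.1 q.2 - F 1 q.1 q.2| ≤ δ * ε) →
      ∀ q ∈ Win (2 * y₀) (y₁ / 2) t₁,
        |U1 q.1 q.2 - F 1 q.1 q.2| ≤ C * (δ + h) * (ε * (1 - q.1) ^ lam)

theorem exists_B1P {y₀ y₁ lam CF : ℝ} (hy₀ : 0 < y₀) (hy₁ : y₀ < y₁)
    (hlam : 0 ≤ lam) (hCF : 0 ≤ CF) : ∃ C h₀ : ℝ, 0 < C ∧ 0 < h₀ ∧ B1P y₀ y₁ lam CF C h₀ :=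
  M7a.bern1 (p := 20) (by norm_num) hy₀ hy₁ hlam hCF

theorem lam3_pos : 0 < lam 3 := by have := kap_lt'; rw [lam3_eq]; linarith only [this]

/-- closeness of `G` at `t = 0` -/
theorem close_init {q : Par} {g : ℝ → ℝ} {b : Fin 3 → ℝ} {w f : Fn} {T : ℝ}
    (hs : ConfSol 20 w f T) (h0 : (0 : ℝ) ∈ Ico 0 T) (hI : InitOK q g b w f) {x : ℝ}
    (hx : x ∈ Ioo (0 : ℝ) 1) (hr : 0 < rs w f 0 x) (h1 : q.rho0 / 16 ≤ rr w f 0 x)
    (h2 : rr w f 0 x ≤ 400) (hZ : |ZZ w f 0 x - 1| ≤ 1 / 2) :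
    |-GG w f 0 x - Fj q.eps 1 0 (rho w f 0 x)| ≤ 800 * Real.sqrt q.sg * q.eps := by
  have hx' : x ∈ Ioo (-1 : ℝ) 1 := ⟨by linarith only [hx, hx.1], hx.2⟩
  have hc := hI.close_P x hx h1 h2
  have e1 : q.eps * Ds w (fun t x => Ph 3 t (rr w f t x)) 0 x =
      rs w f 0 x * Fj q.eps 1 0 (rho w f 0 x) := by
    have d1 : HasDerivAt (fun y => Fj q.eps 0 0 (rho w f 0 y))
        (Fj q.eps 1 0 (rho w f 0 x) * rhox w f 0 x) x :=
      (hasDerivAt_Fj q.eps 0 0 (rho w f 0 x)).comp x (hs.hd_rho hx' h0)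
    have d2 : (fun y => Fj q.eps 0 0 (rho w f 0 y)) = fun y => q.eps * Ph 3 0 (rr w f 0 y) := by
      funext y
      rw [Fj_zero q.eps one_pos, rr]
    rw [d2] at d1
    have d3 : q.eps * Dx (fun t x => Ph 3 t (rr w f t x)) 0 x =
        Fj q.eps 1 0 (rho w f 0 x) * rhox w f 0 x := by
      rw [← d1.deriv]
      unfold Dx
      rw [deriv_const_mul_field]
    rw [hs.rs_eq hx' h0, Ds]
    linear_combination -(sx x * Real.exp (-w 0 x)) * d3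
  have e2 : PP w f 0 x = rs w f 0 x * -GG w f 0 x := by
    rw [GG]; field_simp
  rw [e1, e2, ← mul_sub, abs_mul, abs_of_pos hr] at hc
  have hrr : 0 < rr w f 0 x := Real.exp_pos _
  have e3 : 1 / 800 ≤ rs w f 0 x := by
    have h3 : ZZ w f 0 x = (rr w f 0 x * rs w f 0 x) ^ 2 := by rw [ZZ]; ring
    have h4 := (abs_le.1 hZ).1
    rw [h3] at h4
    have h5 : 1 / 2 ≤ rr w f 0 x * rs w f 0 x := by
      by_contra hcon
      push Not at hcon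
      have h6 : 0 < rr w f 0 x * rs w f 0 x := mul_pos hrr hr
      nlinarith only [h4, hcon, h6]
    have h7 : rr w f 0 x * rs w f 0 x ≤ 400 * rs w f 0 x := mul_le_mul_of_nonneg_right h2 hr.le
    linarith only [h5, h7]
  have h8 := mul_le_mul_of_nonneg_right e3 (abs_nonneg (-GG w f 0 x - Fj q.eps 1 0 (rho w f 0 x)))
  linarith only [hc, h8]

/-- the first Bernstein estimate for the solution -/
theorem b1Out (hw : WinIn) : B1Out := by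
  have key : ∀ ρ : ℝ, ∃ C h₀ CF : ℝ, 0 < C ∧ 0 < h₀ ∧ (0 < ρ → ρ ≤ 1 →
      B1P (ρ / 16) 400 (lam 3) CF C h₀ ∧ ∀ eps ≥ (0 : ℝ), ∀ j ≤ 3, ∀ t₁ < (1 : ℝ),
        ∀ q ∈ Win (ρ / 16) 400 t₁, |Fj eps j q.1 q.2| ≤ CF * (eps * (tau q.1) ^ (lam 3))) := by
    intro ρ
    by_cases hρ : 0 < ρ ∧ ρ ≤ 1
    · obtain ⟨CF, hCF, hF⟩ := exists_Fj_bound (ρ / 16) 400 (by linarith only [hρ, hρ.1])
      obtain ⟨C, h₀, hC, hh, hb⟩ := exists_B1P (y₀ := ρ / 16) (y₁ := 400) (lam := lam 3)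
        (CF := CF) (by linarith only [hρ, hρ.1]) (by linarith only [hρ, hρ.2]) lam3_pos.le hCF
      exact ⟨C, h₀, CF, hC, hh, fun _ _ => ⟨hb, hF⟩⟩
    · exact ⟨1, 1, 0, one_pos, one_pos, fun h1 h2 => absurd ⟨h1, h2⟩ hρ⟩
  choose C h₀ CF hC hh hkey using key
  refine ⟨fun ρ => 801 * C ρ, fun ρ _ => by have := hC ρ; positivity, ?_⟩
  have hP := EvH.of_ev (ev_P7 one_pos (fun ρ => min (h₀ ρ) (1 / 640000)) (fun _ => 0)
    (fun _ => 0) (fun _ => 0) (fun _ _ => 0) (fun ρ _ => lt_min (hh ρ) (by norm_num)))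
  refine (hw.and hP).mono ?_
  rintro q g b w f T t₁ hg H hI ⟨hW, hq⟩ t ht x hx hy1 hy2
  obtain ⟨hB, hF⟩ := hkey q.rho0 hq.rho0 hq.rho0_le
  have hsg1 : q.sg ≤ h₀ q.rho0 := hq.sg_le.trans (min_le_left _ _)
  have hsg2 : q.sg ≤ 1 / 640000 := hq.sg_le.trans (min_le_right _ _)
  have ht₁ := Hist.t₁_lt H
  have hrs : ∀ t ∈ Ico 0 T, ∀ x ∈ Ioo (0 : ℝ) 1, 0 < rs w f t x := H.qual.rs_pos
  have hneg : ∀ t ∈ Ico 0 T, ∀ x ∈ Ioo (0 : ℝ) 1, RG.rhx (w t) (f t) x < 0 := fun t ht x hx =>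
    rhx_neg H.sol ht ⟨by linarith only [hx, hx.1], hx.2⟩ (hrs t ht x hx)
  have hT : 0 < T := H.mem.1.trans_lt H.mem.2
  obtain ⟨X, U, U1, U2, Z, R, hR⟩ := RG.s8 20 (by norm_num) T hT w f H.sol hneg
  have hsub : Win (q.rho0 / 16) 400 t₁ ⊆ RG.reg 20 w f (Ico 0 T) := win_sub_reg H hq.N
  -- data at the window points
  have hpt : ∀ z ∈ Win (q.rho0 / 16) 400 t₁, z.1 ∈ Icc 0 t₁ ∧ X z.1 z.2 ∈ Ioo (0 : ℝ) 1 ∧
      rho w f z.1 (X z.1 z.2) = z.2 ∧ q.rho0 / 16 ≤ yv w f z.1 (X z.1 z.2) ∧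
      yv w f z.1 (X z.1 z.2) ≤ 400 ∧ U z.1 z.2 = uu w f z.1 (X z.1 z.2) ∧
      U1 z.1 z.2 = -GG w f z.1 (X z.1 z.2) ∧ Z z.1 z.2 = ZZ w f z.1 (X z.1 z.2) ∧
      Real.exp (2 * z.2) * R z.1 z.2 = (rr w f z.1 (X z.1 z.2)) ^ 2 * RR w f z.1 (X z.1 z.2) := by
    intro z hz
    have hr := hsub hz
    obtain ⟨hX1, hX2⟩ := hR.X_mem z hr
    rw [rh_eqB] at hX2
    have hX' : X z.1 z.2 ∈ Ioo (-1 : ℝ) 1 := ⟨by linarith only [hX1, hX1.1], hX1.2⟩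
    have hs : 0 < Real.sqrt (1 - z.1) := Real.sqrt_pos.2 (by linarith only [ht₁, hz, hz.1.2])
    refine ⟨hz.1, hX1, hX2, ?_, ?_, ?_, ?_, ?_, ?_⟩
    · rw [yv_of_rho hX2, le_div_iff₀ hs]; exact hz.2.1
    · rw [yv_of_rho hX2, div_le_iff₀ hs]; exact hz.2.2
    · rw [hR.U_eq z hr, uu_eq]
    · rw [hR.U1_eq z hr, U1_eq H.sol hr.1 hX']
    · rw [hR.Z_eq z hr, ZZ_eq H.sol hr.1 hX']
    · rw [hR.R_eq z hr, H.sol.RR_eq hX' hr.1, rr, hX2, ← Real.exp_nat_mul]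
      norm_num
  have hsq0 : 0 ≤ Real.sqrt q.sg := Real.sqrt_nonneg _
  have hsq : Real.sqrt q.sg ≤ 1 / 800 := by
    rw [show (1 : ℝ) / 800 = Real.sqrt (1 / 640000) by
      rw [show (1 : ℝ) / 640000 = (1 / 800) ^ 2 by norm_num, Real.sqrt_sq (by norm_num)]]
    exact Real.sqrt_le_sqrt hsg2
  have hsgsq : q.sg ≤ Real.sqrt q.sg := by
    have h1 : Real.sqrt q.sg * Real.sqrt q.sg = q.sg := Real.mul_self_sqrt hq.sg.le
    nlinarith only [hsq0, hsq, h1]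
  have hA : ∀ t, q.A t = q.eps * (1 - t) ^ lam 3 := fun t => rfl
  have main := hB w f T X U U1 U2 Z R hR (Fj q.eps) t₁ q.eps (800 * Real.sqrt q.sg) q.sg ht₁
    H.mem.2 (linSol_Fj q.eps t₁) hq.eps (by linarith only [hsq]) hsg1 hsub
    (fun z hz j hj => hF q.eps hq.eps.le j hj t₁ ht₁ z hz)
    (fun z hz => by
      obtain ⟨h1, h2, h3, h4, h5, h6, h7, h8, h9⟩ := hpt z hz
      obtain ⟨k1, k2, k3, k4, k5⟩ := hW z.1 h1 _ h2 h4 h5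
      rw [h6, h7, h8, h9, abs_neg]
      exact ⟨k1, k2, k3, k4⟩)
    (fun z hz => by
      obtain ⟨h1, h2, h3, h4, h5, h6, h7, h8, h9⟩ := hpt z hz
      have hz1 : z.1 < 1 := by linarith only [ht₁, h1, h1.2]
      have hτ : 0 < tau z.1 := by unfold tau; linarith only [hz1]
      have k1 := H.close z.1 h1 _ ⟨h2.1.le, h2.2⟩ h4 h5
      have k2 : Fj q.eps 0 z.1 z.2 = q.A z.1 * ph 3 (yv w f z.1 (X z.1 z.2)) := by
        rw [Fj_zero q.eps hz1, Ph, Par.A, yv, rr, h3]; ring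
      rw [h6, k2, ← hA]
      refine k1.trans ?_
      have hAp : 0 ≤ q.A z.1 := by
        unfold Par.A; have := hq.eps; positivity
      nlinarith only [hsq0, hAp, mul_nonneg hsq0 hAp])
    (fun z hz hz0 => by
      obtain ⟨h1, h2, h3, h4, h5, h6, h7, h8, h9⟩ := hpt z hz
      obtain ⟨k1, k2, k3, k4, k5⟩ := hW z.1 h1 _ h2 h4 h5
      rw [h7]
      rw [hz0] at h1 h2 h3 h4 h5 k3 ⊢
      have hyr : yv w f 0 (X 0 z.2) = rr w f 0 (X 0 z.2) := by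
        rw [yv, tau]; norm_num
      rw [hyr] at h4 h5
      have := close_init H.sol ⟨le_refl 0, hT⟩ hI h2 (hrs 0 ⟨le_refl 0, hT⟩ _ h2) h4 h5
        (k3.trans (by linarith only [hsg2]))
      rw [h3] at this
      exact this)
  -- conclusion
  have htT : t ∈ Ico 0 T := ⟨ht.1, ht.2.trans_lt H.mem.2⟩
  have ht1 : t < 1 := ht.2.trans_lt ht₁
  have hs : 0 < Real.sqrt (1 - t) := Real.sqrt_pos.2 (by linarith only [ht1])
  set z : ℝ × ℝ := (t, rho w f t x) with hz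
  have hyv : yv w f t x = Real.exp z.2 / Real.sqrt (1 - z.1) := yv_of_rho rfl
  have hzw : z ∈ Win (2 * (q.rho0 / 16)) (400 / 2) t₁ := by
    rw [hyv] at hy1 hy2
    refine ⟨ht, ?_, ?_⟩
    · rw [le_div_iff₀ hs] at hy1
      linarith only [hy1]
    · rw [div_le_iff₀ hs] at hy2
      linarith only [hy2]
  have hzw' : z ∈ Win (q.rho0 / 16) 400 t₁ := by
    refine ⟨ht, ?_, ?_⟩
    · have := hzw.2.1
      have := mul_nonneg hq.rho0.le hs.le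
      linarith
    · have := hzw.2.2
      linarith only [hs, this]
  have hXx : X t (rho w f t x) = x := by
    have := (hR.X_inv t htT x hx).2
    rwa [rh_eqB] at this
  have h := main z hzw
  obtain ⟨h1, h2, h3, h4, h5, h6, h7, h8, h9⟩ := hpt z hzw'
  rw [h7, ← hA] at h
  simp only [hz, hXx] at h
  rw [← abs_neg]
  have e : -(GG w f t x + Fj q.eps 1 t (rho w f t x)) =
      -GG w f t x - Fj q.eps 1 t (rho w f t x) := by ring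
  rw [e]
  refine h.trans ?_
  have hAp : 0 ≤ q.A t := by
    have : 0 < tau t := by unfold tau; linarith only [ht1]
    unfold Par.A; have := hq.eps; positivity
  have hCp := hC q.rho0
  refine mul_le_mul_of_nonneg_right ?_ hAp
  calc C q.rho0 * (800 * Real.sqrt q.sg + q.sg)
      ≤ C q.rho0 * (800 * Real.sqrt q.sg + Real.sqrt q.sg) := by gcongr
    _ = 801 * C q.rho0 * Real.sqrt q.sg := by ring

end Vale.Agent.P244.ST.M7
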