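import Mathlib
import Vale.Agent.P244.ST.M7Win

/-!
# P244-ST, block M7 : cut-off and amplitude in r-gauge coordinates `(t, ρ)`

`Y = y² = e^{2ρ}/(1-t)`; cut-off `ζ = (Y - y₀²)(y₁² - Y)`.  `Kw y₁` bounds `1, Y, ζ, ζ_ρ, r²ζ_t, ζ_ρρ`
on the window.
-/

set_option linter.all false

open Set Filter Topology

namespace Vale.Agent.P244.ST

/-- `Y = y²` -/
noncomputable def Yw (t ρ : ℝ) : ℝ := Real.exp (2 * ρ) / (1 - t)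

/-- the cut-off -/
noncomputable def zw (y₀ y₁ t ρ : ℝ) : ℝ := (Yw t ρ - y₀ ^ 2) * (y₁ ^ 2 - Yw t ρ)

/-- bound of the cut-off and its derivatives -/
noncomputable def Kw (y₁ : ℝ) : ℝ := 20 * (1 + y₁ ^ 2) ^ 3

/-- the amplitude -/
structure IsAmp (A : ℝ → ℝ) (l : ℝ) : Prop where
  l0 : 0 ≤ l
  l2 : l ≤ 2
  pos : ∀ t < 1, 0 < A t
  der : ∀ t < 1, HasDerivAt A (-(l * A t / (1 - t))) t

/-- `ζ_ρ` -/
noncomputable def zwr (y₀ y₁ t ρ : ℝ) : ℝ := 2 * Yw t ρ * (y₀ ^ 2 + y₁ ^ 2 - 2 * Yw t ρ)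

/-- `ζ_ρρ` -/
noncomputable def zwrr (y₀ y₁ t ρ : ℝ) : ℝ :=
  4 * Yw t ρ * (y₀ ^ 2 + y₁ ^ 2) - 16 * Yw t ρ ^ 2

/-- `r² ζ_t` -/
noncomputable def zwt (y₀ y₁ t ρ : ℝ) : ℝ := Yw t ρ ^ 2 * (y₀ ^ 2 + y₁ ^ 2 - 2 * Yw t ρ)

lemma Yw_rho (t ρ : ℝ) : HasDerivAt (fun z => Yw t z) (2 * Yw t ρ) ρ := by
  unfold Yw
  have h1 : HasDerivAt (fun z : ℝ => 2 * z) 2 ρ := by simpa using (hasDerivAt_id ρ).const_mul 2
  have h := (h1.exp).div_const (1 - t)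
  refine HasDerivAt.congr_deriv h ?_
  ring

lemma Yw_t {t : ℝ} (ht : t < 1) (ρ : ℝ) :
    HasDerivAt (fun s => Yw s ρ) (Real.exp (-2 * ρ) * Yw t ρ ^ 2) t := by
  unfold Yw
  have h1 : HasDerivAt (fun s : ℝ => 1 - s) (-1) t := by
    simpa using (hasDerivAt_id t).const_sub 1
  have hne : (1 - t) ≠ 0 := by linarith
  have h2 := (h1.inv hne).const_mul (Real.exp (2 * ρ))
  have e : Real.exp (-2 * ρ) * (Real.exp (2 * ρ) / (1 - t)) ^ 2 =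
      Real.exp (2 * ρ) * (-(-1) / (1 - t) ^ 2) := by
    have e1 : Real.exp (-2 * ρ) * Real.exp (2 * ρ) = 1 := by
      rw [← Real.exp_add]; simp
    calc Real.exp (-2 * ρ) * (Real.exp (2 * ρ) / (1 - t)) ^ 2
        = (Real.exp (-2 * ρ) * Real.exp (2 * ρ)) * (Real.exp (2 * ρ) / (1 - t) ^ 2) := by
          rw [div_pow]; ring
      _ = Real.exp (2 * ρ) * (-(-1) / (1 - t) ^ 2) := by rw [e1]; ring
  rw [e]
  simpa [div_eq_mul_inv] using h2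

lemma zw_rho (y₀ y₁ t ρ : ℝ) :
    HasDerivAt (fun z => zw y₀ y₁ t z) (zwr y₀ y₁ t ρ) ρ := by
  unfold zw zwr
  have h := ((Yw_rho t ρ).sub_const (y₀ ^ 2)).mul ((Yw_rho t ρ).const_sub (y₁ ^ 2))
  refine HasDerivAt.congr_deriv h ?_
  ring

lemma zwr_rho (y₀ y₁ t ρ : ℝ) :
    HasDerivAt (fun z => zwr y₀ y₁ t z) (zwrr y₀ y₁ t ρ) ρ := by
  unfold zwr zwrr
  have h := ((Yw_rho t ρ).const_mul 2).mul
    (((Yw_rho t ρ).const_mul 2).const_sub (y₀ ^ 2 + y₁ ^ 2))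
  refine HasDerivAt.congr_deriv h ?_
  ring

lemma zw_t (y₀ y₁ : ℝ) {t : ℝ} (ht : t < 1) (ρ : ℝ) :
    HasDerivAt (fun s => zw y₀ y₁ s ρ) (Real.exp (-2 * ρ) * zwt y₀ y₁ t ρ) t := by
  unfold zw zwt
  have h := ((Yw_t ht ρ).sub_const (y₀ ^ 2)).mul ((Yw_t ht ρ).const_sub (y₁ ^ 2))
  refine HasDerivAt.congr_deriv h ?_
  ring

lemma exp_mul_Yw {t : ℝ} (ht : t < 1) (ρ : ℝ) :
    Real.exp (-2 * ρ) * Yw t ρ = 1 / (1 - t) := by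
  unfold Yw
  have e1 : Real.exp (-2 * ρ) * Real.exp (2 * ρ) = 1 := by
    rw [← Real.exp_add]; simp
  rw [← mul_div_assoc, e1]

section bounds

variable {y₀ y₁ t₁ : ℝ}

lemma Win_lt {q : ℝ × ℝ} (ht₁ : t₁ < 1) (hq : q ∈ Win y₀ y₁ t₁) : q.1 < 1 :=
  lt_of_le_of_lt hq.1.2 ht₁

lemma Yw_bd (hy₀ : 0 < y₀) (hy : y₀ < y₁) (ht₁ : t₁ < 1) {q : ℝ × ℝ} (hq : q ∈ Win y₀ y₁ t₁) :
    y₀ ^ 2 ≤ Yw q.1 q.2 ∧ Yw q.1 q.2 ≤ y₁ ^ 2 := by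
  have h1 : 0 < 1 - q.1 := by linarith [Win_lt ht₁ hq]
  obtain ⟨-, hl, hr⟩ := hq
  have hs := Real.sq_sqrt h1.le
  have hs0 := Real.sqrt_pos.2 h1
  have he : Real.exp (2 * q.2) = Real.exp q.2 ^ 2 := by
    rw [← Real.exp_nat_mul]; norm_num
  unfold Yw
  rw [he, le_div_iff₀ h1, div_le_iff₀ h1]
  constructor
  · calc y₀ ^ 2 * (1 - q.1) = (y₀ * Real.sqrt (1 - q.1)) ^ 2 := by rw [mul_pow, hs]
      _ ≤ Real.exp q.2 ^ 2 := pow_le_pow_left₀ (by positivity) hl 2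
  · calc Real.exp q.2 ^ 2 ≤ (y₁ * Real.sqrt (1 - q.1)) ^ 2 :=
        pow_le_pow_left₀ (Real.exp_pos _).le hr 2
      _ = y₁ ^ 2 * (1 - q.1) := by rw [mul_pow, hs]

lemma Kw_ge (y₁ : ℝ) : 20 ≤ Kw y₁ := by
  unfold Kw
  have h1 : 1 ≤ (1 + y₁ ^ 2) ^ 3 := one_le_pow₀ (by nlinarith [sq_nonneg y₁])
  linarith

lemma Kw_ge1 (y₁ : ℝ) : y₁ ^ 2 ≤ Kw y₁ := by
  unfold Kw
  have h1 : 0 ≤ y₁ ^ 2 := sq_nonneg y₁
  nlinarith [pow_nonneg h1 2, pow_nonneg h1 3]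

lemma Kw_ge2 (y₁ : ℝ) : 20 * (y₁ ^ 2) ^ 2 ≤ Kw y₁ := by
  unfold Kw
  have h1 : 0 ≤ y₁ ^ 2 := sq_nonneg y₁
  nlinarith [pow_nonneg h1 2, pow_nonneg h1 3]

lemma Kw_ge3 (y₁ : ℝ) : 20 * (y₁ ^ 2) ^ 3 ≤ Kw y₁ := by
  unfold Kw
  have h1 : 0 ≤ y₁ ^ 2 := sq_nonneg y₁
  nlinarith [pow_nonneg h1 2, pow_nonneg h1 3]

lemma zw_bds (hy₀ : 0 < y₀) (hy : y₀ < y₁) (ht₁ : t₁ < 1) {q : ℝ × ℝ}
    (hq : q ∈ Win y₀ y₁ t₁) :
    0 < Yw q.1 q.2 ∧ Yw q.1 q.2 ≤ Kw y₁ ∧ 0 ≤ zw y₀ y₁ q.1 q.2 ∧ zw y₀ y₁ q.1 q.2 ≤ Kw y₁ ∧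
      |zwr y₀ y₁ q.1 q.2| ≤ Kw y₁ ∧ |zwrr y₀ y₁ q.1 q.2| ≤ Kw y₁ ∧
      |zwt y₀ y₁ q.1 q.2| ≤ Kw y₁ := by
  obtain ⟨ha, hb⟩ := Yw_bd hy₀ hy ht₁ hq
  have k1 := Kw_ge1 y₁
  have k2 := Kw_ge2 y₁
  have k3 := Kw_ge3 y₁
  have ha0 : 0 < y₀ ^ 2 := by positivity
  have hab : y₀ ^ 2 < y₁ ^ 2 := pow_lt_pow_left₀ hy hy₀.le (by norm_num)
  unfold zw zwr zwrr zwt
  generalize Yw q.1 q.2 = Y at *
  generalize y₀ ^ 2 = a at *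
  generalize y₁ ^ 2 = b at *
  generalize Kw y₁ = K at *
  have hY : 0 < Y := by linarith
  have hY2 : Y ^ 2 ≤ b ^ 2 := pow_le_pow_left₀ hY.le hb 2
  have hb0 : 0 < b := by linarith
  have hY3 : Y ^ 2 * b ≤ b ^ 3 := by nlinarith
  refine ⟨hY, by linarith, mul_nonneg (by linarith) (by linarith), ?_, ?_, ?_, ?_⟩
  · nlinarith [mul_nonneg (by linarith : 0 ≤ Y - a) (by linarith : 0 ≤ b - Y), sq_nonneg b,
      mul_nonneg (by linarith : 0 ≤ b - Y) (by linarith : (0 : ℝ) ≤ a),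
      mul_nonneg (by linarith : 0 ≤ b - Y) hY.le, mul_pos hb0 hb0]
  · rw [abs_le]
    constructor
    · nlinarith [mul_nonneg hY.le (by linarith : 0 ≤ b - Y), mul_pos hY ha0, sq_nonneg b, hY2]
    · nlinarith [mul_nonneg hY.le (by linarith : 0 ≤ Y - a), mul_nonneg hY.le (by linarith : 0 ≤ b - Y),
        mul_pos hY ha0, sq_nonneg b, hY2]
  · rw [abs_le]
    constructor
    · nlinarith [mul_pos hY ha0, mul_pos hY hb0, sq_nonneg b, hY2]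
    · nlinarith [mul_nonneg hY.le (by linarith : 0 ≤ Y - a), mul_nonneg hY.le (by linarith : 0 ≤ b - Y),
        mul_pos hY ha0, mul_nonneg hY.le (by linarith : 0 ≤ b - a), sq_nonneg b, hY2]
  · have c1 : a + b - 2 * Y ≤ b := by linarith
    have c2 : -b ≤ a + b - 2 * Y := by linarith
    have hb3 : 0 < b ^ 3 := by positivity
    rw [abs_le]
    constructor
    · nlinarith [mul_nonneg (sq_nonneg Y) (by linarith : 0 ≤ a + b - 2 * Y + b)]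
    · nlinarith [mul_nonneg (sq_nonneg Y) (by linarith : 0 ≤ b - (a + b - 2 * Y))]

lemma zw_lat (hy₀ : 0 < y₀) (hy : y₀ < y₁) (ht₁ : t₁ < 1) {q : ℝ × ℝ} (hq : q ∈ Win y₀ y₁ t₁)
    (h : Real.exp q.2 = y₀ * Real.sqrt (1 - q.1) ∨ Real.exp q.2 = y₁ * Real.sqrt (1 - q.1)) :
    zw y₀ y₁ q.1 q.2 = 0 := by
  have h1 : 0 < 1 - q.1 := by linarith [Win_lt ht₁ hq]
  have hs := Real.sq_sqrt h1.le
  have he : Real.exp (2 * q.2) = Real.exp q.2 ^ 2 := by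
    rw [← Real.exp_nat_mul]; norm_num
  unfold zw Yw
  rcases h with h | h
  · have : Real.exp (2 * q.2) / (1 - q.1) = y₀ ^ 2 := by
      rw [he, h, mul_pow, hs]; field_simp
    rw [this]; ring
  · have : Real.exp (2 * q.2) / (1 - q.1) = y₁ ^ 2 := by
      rw [he, h, mul_pow, hs]; field_simp
    rw [this]; ring

lemma zw_cont (ht₁ : t₁ < 1) :
    ContinuousOn (fun q : ℝ × ℝ => zw y₀ y₁ q.1 q.2) (Win y₀ y₁ t₁) := by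
  unfold zw Yw
  have hne : ∀ q ∈ Win y₀ y₁ t₁, (1 - q.1) ≠ 0 := fun q hq => by
    have := Win_lt ht₁ hq; intro h; linarith
  have h1 : ContinuousOn (fun q : ℝ × ℝ => Real.exp (2 * q.2) / (1 - q.1)) (Win y₀ y₁ t₁) :=
    ContinuousOn.div (by fun_prop) (by fun_prop) hne
  exact (h1.sub continuousOn_const).mul (continuousOn_const.sub h1)

lemma IsAmp.cont {A : ℝ → ℝ} {l : ℝ} (hA : IsAmp A l) (ht₁ : t₁ < 1) :
    ContinuousOn (fun q : ℝ × ℝ => A q.1) (Win y₀ y₁ t₁) := by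
  intro q hq
  have h : ContinuousAt A q.1 := (hA.der _ (Win_lt ht₁ hq)).continuousAt
  exact (ContinuousAt.comp (f := Prod.fst) h continuousAt_fst).continuousWithinAt

end bounds

end Vale.Agent.P244.ST
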