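import Mathlib
import Vale.Agent.P244.ST.M7Cut

/-!
# P244-ST, block M7 : Bernstein 2 in r-gauge coordinates `(t, ρ)`
-/

set_option linter.all false

open Set Filter Topology

namespace Vale.Agent.P244.ST

lemma b2_s1 {Z ζ ζr Q Q1 : ℝ} (hZ : 0 ≤ Z) :
    -(8 * Z * ζ * ζr * Q * Q1) - 2 * Z * (ζ ^ 2 * Q1 ^ 2) ≤ 8 * Z * ζr ^ 2 * Q ^ 2 := by
  nlinarith [mul_nonneg (by linarith : 0 ≤ 2 * Z) (sq_nonneg (ζ * Q1 + 2 * ζr * Q))]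

lemma b2_s2 {K ζ Q f m : ℝ} (hζ : ζ ^ 2 ≤ K ^ 2) (hf : f ^ 2 ≤ m ^ 2) :
    ζ ^ 2 * (2 * Q * f) ≤ K ^ 2 * Q ^ 2 + K ^ 2 * m ^ 2 := by
  have a1 : 2 * Q * f ≤ Q ^ 2 + f ^ 2 := by nlinarith only [sq_nonneg (Q - f)]
  have a2 : ζ ^ 2 * (2 * Q * f) ≤ ζ ^ 2 * (Q ^ 2 + f ^ 2) :=
    mul_le_mul_of_nonneg_left a1 (sq_nonneg _)
  have a3 : ζ ^ 2 * (Q ^ 2 + f ^ 2) ≤ K ^ 2 * (Q ^ 2 + f ^ 2) :=
    mul_le_mul_of_nonneg_right hζ (by positivity)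
  have a4 := mul_le_mul_of_nonneg_left hf (sq_nonneg K)
  linarith only [a2, a3, a4]

/-- `w x ≤ B K²` from `0 ≤ w ≤ B`, `x ≤ K²` -/
lemma b2_wx {w x B S : ℝ} (hw : 0 ≤ w) (hB : w ≤ B) (hx : x ≤ S) (hS : 0 ≤ S) :
    w * x ≤ B * S :=
  (mul_le_mul_of_nonneg_left hx hw).trans (mul_le_mul_of_nonneg_right hB hS)

lemma b2_coef {K Y ζ ζr ζrr ζt Z c k l : ℝ} (hK : 20 ≤ K)
    (hY0 : 0 < Y) (hY : Y ≤ K) (hζ0 : 0 ≤ ζ) (hζ : ζ ≤ K) (hζr : |ζr| ≤ K) (hζrr : |ζrr| ≤ K)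
    (hζt : |ζt| ≤ K) (hl0 : 0 ≤ l) (hl2 : l ≤ 2)
    (bZ : |Z - 1| ≤ 1 / 10) (bc : |c - 39| ≤ 1) (bk : |k| ≤ 7) :
    2 * ζ * ζt - 2 * Z * (ζr ^ 2 + ζ * ζrr) - 2 * (c - 4 * Z) * ζ * ζr +
      8 * Z * ζr ^ 2 + 2 * k * ζ ^ 2 + 2 * l * Y * ζ ^ 2 ≤ 97.8 * K ^ 2 + 4 * K ^ 3 := by
  obtain ⟨bZa, bZb⟩ := abs_le.1 bZ
  obtain ⟨bca, bcb⟩ := abs_le.1 bc
  obtain ⟨bka, bkb⟩ := abs_le.1 bk
  have hK0 : 0 < K := by linarith only [hK]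
  have habsζ : |ζ| ≤ K := by rw [abs_of_nonneg hζ0]; exact hζ
  have prod : ∀ x y : ℝ, |x| ≤ K → |y| ≤ K → |x * y| ≤ K ^ 2 := fun x y hx hy => by
    rw [abs_mul, sq]; exact mul_le_mul hx hy (abs_nonneg _) hK0.le
  have q1 := abs_le.1 (prod ζ ζt habsζ hζt)
  have q2 := abs_le.1 (prod ζ ζrr habsζ hζrr)
  have q3 := abs_le.1 (prod ζ ζr habsζ hζr)
  have q4 := abs_le.1 (prod ζr ζr hζr hζr)
  have q5 := abs_le.1 (prod ζ ζ habsζ habsζ)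
  have hS : 0 ≤ K ^ 2 := sq_nonneg K
  have c1 : 2 * (ζ * ζt) ≤ 2 * K ^ 2 := by linarith only [q1, q1.2]
  have c2 : (2 * Z) * (-(ζ * ζrr)) ≤ 2.2 * K ^ 2 :=
    b2_wx (by linarith only [bZa]) (by linarith only [bZb]) (by linarith only [q2, q2.1]) hS
  have c3 : (6 * Z) * (ζr * ζr) ≤ 6.6 * K ^ 2 :=
    b2_wx (by linarith only [bZa]) (by linarith only [bZb]) (by linarith only [q4, q4.2]) hS
  have c4 : (2 * (c - 4 * Z)) * (-(ζ * ζr)) ≤ 73 * K ^ 2 :=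
    b2_wx (by linarith only [bZb, bca]) (by linarith only [bZa, bcb]) (by linarith only [q3, q3.1]) hS
  have c5 : 14 * (ζ * ζ) ≤ 14 * K ^ 2 := by linarith only [q5, q5.2]
  have c5' : 2 * k * (ζ * ζ) ≤ 14 * (ζ * ζ) :=
    mul_le_mul_of_nonneg_right (by linarith only [bkb]) (mul_self_nonneg _)
  have a1 : l * Y ≤ 2 * K := mul_le_mul hl2 hY hY0.le (by norm_num)
  have c6 : (2 * (l * Y)) * (ζ * ζ) ≤ (4 * K) * K ^ 2 :=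
    b2_wx (by positivity) (by linarith only [a1]) q5.2 hS
  have e : 2 * ζ * ζt - 2 * Z * (ζr ^ 2 + ζ * ζrr) - 2 * (c - 4 * Z) * ζ * ζr +
      8 * Z * ζr ^ 2 + 2 * k * ζ ^ 2 + 2 * l * Y * ζ ^ 2 = 2 * (ζ * ζt) + (2 * Z) * (-(ζ * ζrr)) +
      (6 * Z) * (ζr * ζr) + (2 * (c - 4 * Z)) * (-(ζ * ζr)) + 2 * k * (ζ * ζ) +
      (2 * (l * Y)) * (ζ * ζ) := by ring
  have e' : (4 * K) * K ^ 2 = 4 * K ^ 3 := by ring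
  rw [e]
  linarith only [q1, q5, c2, c3, c4, c5', c6]

lemma b2_d {K Y Q Z Z1 h e p p1 l m : ℝ} (hK : 20 ≤ K)
    (hY0 : 0 < Y) (hY : Y ≤ K) (hl0 : 0 ≤ l) (hl2 : l ≤ 2)
    (bZ : |Z - 1| ≤ 1 / 10) (bZ1 : |Z1| ≤ 1)
    (h2 : h ^ 2 ≤ m ^ 2) (e2 : e ^ 2 ≤ m ^ 2) (p2 : p ^ 2 ≤ m ^ 2) (hQ : Q = Z * p1 + e) :
    2 * (Z1 + 2 * Z) * p * p1 + 2 * p * h - 2 * Z * p1 ^ 2 + 2 * l * Y * p ^ 2 ≤
      -(0.537 * Q ^ 2) + 23.6 * m ^ 2 + 4 * K * m ^ 2 := by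
  obtain ⟨bZa, bZb⟩ := abs_le.1 bZ
  obtain ⟨bZ1a, bZ1b⟩ := abs_le.1 bZ1
  have hK0 : 0 < K := by linarith only [hK]
  have d1 : 2 * (Z1 + 2 * Z) * p * p1 ≤ 0.5 * p1 ^ 2 + 20.48 * m ^ 2 := by
    have a0 : |Z1 + 2 * Z| ≤ 3.2 := abs_le.2 ⟨by linarith only [bZa, bZ1a], by linarith only [bZb, bZ1b]⟩
    have a1 : (Z1 + 2 * Z) * (p * p1) ≤ 3.2 * |p * p1| := by
      calc (Z1 + 2 * Z) * (p * p1) ≤ |(Z1 + 2 * Z) * (p * p1)| := le_abs_self _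
        _ = |Z1 + 2 * Z| * |p * p1| := abs_mul _ _
        _ ≤ 3.2 * |p * p1| := mul_le_mul_of_nonneg_right a0 (abs_nonneg _)
    have a2 : 6.4 * |p * p1| ≤ 0.5 * p1 ^ 2 + 20.48 * p ^ 2 := by
      rw [abs_mul]
      have := sq_nonneg (|p1| - 6.4 * |p|)
      have b1 := sq_abs p
      have b2 := sq_abs p1
      nlinarith
    have a3 : 2 * (Z1 + 2 * Z) * p * p1 = 2 * ((Z1 + 2 * Z) * (p * p1)) := by ring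
    rw [a3]
    linarith only [p2, a1, a2]
  have d2 : 2 * p * h ≤ 2 * m ^ 2 := by nlinarith only [h2, p2, sq_nonneg (p - h)]
  have d3 : Q ^ 2 ≤ 2.42 * p1 ^ 2 + 2 * m ^ 2 := by
    have a1 : Q ^ 2 ≤ 2 * (Z * p1) ^ 2 + 2 * e ^ 2 := by
      rw [hQ]; nlinarith only [sq_nonneg (Z * p1 - e)]
    have a2 : (Z * p1) ^ 2 ≤ 1.21 * p1 ^ 2 := by
      rw [mul_pow]
      exact mul_le_mul_of_nonneg_right (by nlinarith only [bZa, bZb]) (sq_nonneg _)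
    linarith only [e2, a1, a2]
  have d4 : 2 * l * Y * p ^ 2 ≤ 4 * K * m ^ 2 := by
    have a1 : l * Y ≤ 2 * K := mul_le_mul hl2 hY hY0.le (by norm_num)
    have a2 : l * Y * p ^ 2 ≤ 2 * K * m ^ 2 := mul_le_mul a1 p2 (sq_nonneg _) (by positivity)
    linarith only [a2]
  have d5 : 1.8 * p1 ^ 2 ≤ 2 * Z * p1 ^ 2 :=
    mul_le_mul_of_nonneg_right (by linarith only [bZa]) (sq_nonneg p1)
  have m0 := sq_nonneg m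
  have p0 := sq_nonneg p1
  linarith only [d1, d2, d3, d4, d5, m0, p0]

lemma b2_fin {K Q m : ℝ} (hK : 20 ≤ K)
    (fin : 0 ≤ -(1.74 * K ^ 3 * Q ^ 2) + K ^ 2 * m ^ 2 + 472 * K ^ 3 * m ^ 2 +
      80 * K ^ 4 * m ^ 2) : Q ^ 2 ≤ 60 * K * m ^ 2 := by
  have hK0 : 0 < K := by linarith only [hK]
  have k3 : 0 < K ^ 3 := by positivity
  have k2 : 0 < K ^ 2 := by positivity
  have a1 : 20 * K ^ 3 ≤ K ^ 4 := by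
    have := mul_le_mul_of_nonneg_right hK k3.le
    calc 20 * K ^ 3 ≤ K * K ^ 3 := this
      _ = K ^ 4 := by ring
  have a2 : 20 * K ^ 2 ≤ K ^ 3 := by
    have := mul_le_mul_of_nonneg_right hK k2.le
    calc 20 * K ^ 2 ≤ K * K ^ 2 := this
      _ = K ^ 3 := by ring
  have m0 := sq_nonneg m
  have a3 := mul_le_mul_of_nonneg_right a1 m0
  have a4 := mul_le_mul_of_nonneg_right a2 m0
  have a5 : 0 ≤ K ^ 3 * m ^ 2 := by positivity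
  have a6 : 0 ≤ K ^ 2 * m ^ 2 := by positivity
  have fin3 : K ^ 3 * Q ^ 2 ≤ K ^ 3 * (60 * K * m ^ 2) := by
    have e : K ^ 3 * (60 * K * m ^ 2) = 60 * (K ^ 4 * m ^ 2) := by ring
    rw [e]
    nlinarith only [fin, a3, a4, a5]
  exact le_of_mul_le_mul_left fin3 k3

/-- pure inequality at the maximum point -/
lemma bern2_alg {K Y ζ ζr ζrr ζt Q Q1 Z Z1 c k f h e p p1 l m : ℝ} (hK : 20 ≤ K)
    (hY0 : 0 < Y) (hY : Y ≤ K) (hζ0 : 0 ≤ ζ) (hζ : ζ ≤ K) (hζr : |ζr| ≤ K) (hζrr : |ζrr| ≤ K)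
    (hζt : |ζt| ≤ K) (hl0 : 0 ≤ l) (hl2 : l ≤ 2) (hm : 0 ≤ m)
    (bZ : |Z - 1| ≤ 1 / 10) (bZ1 : |Z1| ≤ 1) (bc : |c - 39| ≤ 1) (bk : |k| ≤ 7) (bf : |f| ≤ m)
    (bh : |h| ≤ m) (be : |e| ≤ m) (bp : |p| ≤ m) (hQ : Q = Z * p1 + e)
    (hmain : 0 ≤ Q ^ 2 * (2 * ζ * ζt - 2 * Z * (ζr ^ 2 + ζ * ζrr) - 2 * (c - 4 * Z) * ζ * ζr) -
      8 * Z * ζ * ζr * Q * Q1 + ζ ^ 2 * (2 * k * Q ^ 2 + 2 * Q * f - 2 * Z * Q1 ^ 2) +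
      20 * K ^ 3 * (2 * (Z1 + 2 * Z) * p * p1 + 2 * p * h - 2 * Z * p1 ^ 2) +
      2 * l * Y * (ζ ^ 2 * Q ^ 2 + 20 * K ^ 3 * p ^ 2)) :
    ζ ^ 2 * Q ^ 2 + 20 * K ^ 3 * p ^ 2 ≤ 80 * K ^ 3 * m ^ 2 := by
  have hK0 : 0 < K := by linarith only [hK]
  have sq_le : ∀ x : ℝ, |x| ≤ m → x ^ 2 ≤ m ^ 2 := fun x hx => sq_le_sq' (by linarith only [hx, (abs_le.1 hx).1])
    (abs_le.1 hx).2
  have p2 := sq_le p bp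
  have hζ2 : ζ ^ 2 ≤ K ^ 2 := pow_le_pow_left₀ hζ0 hζ 2
  have hZ0 : 0 ≤ Z := by linarith only [bZ, (abs_le.1 bZ).1]
  have s1 := b2_s1 (ζ := ζ) (ζr := ζr) (Q := Q) (Q1 := Q1) hZ0
  have s2 := b2_s2 (Q := Q) hζ2 (sq_le f bf)
  have s3 := mul_le_mul_of_nonneg_left (b2_coef hK hY0 hY hζ0 hζ hζr hζrr hζt hl0 hl2 bZ bc bk)
    (sq_nonneg Q)
  have k3 : 0 < K ^ 3 := by positivity
  have k2 : 0 < K ^ 2 := by positivity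
  have a2 : 20 * K ^ 2 ≤ K ^ 3 := by
    have := mul_le_mul_of_nonneg_right hK k2.le
    calc 20 * K ^ 2 ≤ K * K ^ 2 := this
      _ = K ^ 3 := by ring
  have s3' : Q ^ 2 * (98.8 * K ^ 2 + 4 * K ^ 3) ≤ Q ^ 2 * (9 * K ^ 3) :=
    mul_le_mul_of_nonneg_left (by linarith only [k2, a2]) (sq_nonneg Q)
  have s4 := mul_le_mul_of_nonneg_left (b2_d hK hY0 hY hl0 hl2 bZ bZ1 (sq_le h bh) (sq_le e be) p2 hQ)
    (by positivity : 0 ≤ 20 * K ^ 3)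
  have fin : 0 ≤ -(1.74 * K ^ 3 * Q ^ 2) + K ^ 2 * m ^ 2 + 472 * K ^ 3 * m ^ 2 +
      80 * K ^ 4 * m ^ 2 := by
    linarith only [hmain, s1, s2, s3, s3', s4]
  have fin4 := b2_fin hK fin
  have fin5 : ζ ^ 2 * Q ^ 2 ≤ K ^ 2 * (60 * K * m ^ 2) :=
    mul_le_mul hζ2 fin4 (sq_nonneg _) (by positivity)
  have fin6 : 20 * K ^ 3 * p ^ 2 ≤ 20 * K ^ 3 * m ^ 2 :=
    mul_le_mul_of_nonneg_left p2 (by positivity)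
  linarith only [fin5, fin6]

lemma zw_le {y₀ y₁ t₁ : ℝ} (hy₀ : 0 < y₀) (hy : y₀ < y₁) (ht₁ : t₁ < 1) {q : ℝ × ℝ}
    (hq : q ∈ Win y₀ y₁ t₁) : zw y₀ y₁ q.1 q.2 ≤ y₁ ^ 4 := by
  obtain ⟨ha, hb⟩ := Yw_bd hy₀ hy ht₁ hq
  have ha0 : 0 < y₀ ^ 2 := by positivity
  unfold zw
  have h : (Yw q.1 q.2 - y₀ ^ 2) * (y₁ ^ 2 - Yw q.1 q.2) ≤ y₁ ^ 2 * y₁ ^ 2 :=
    mul_le_mul (by linarith only [hb, ha0]) (by linarith only [ha, ha0]) (by linarith only [hb]) (by positivity)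
  calc _ ≤ _ := h
    _ = y₁ ^ 4 := by ring

/-- Bernstein 2. -/
theorem bern2 {y₀ y₁ t₁ M M₀ l : ℝ} {A : ℝ → ℝ} (hA : IsAmp A l) (hy₀ : 0 < y₀) (hy : y₀ < y₁)
    (ht₁ : t₁ < 1) (hM : 0 ≤ M) (hM₀ : 0 ≤ M₀) {p p1 p2 Q Q1 Q2 Z Z1 c k f h e : ℝ → ℝ → ℝ}
    (hpc : ContinuousOn (fun q : ℝ × ℝ => p q.1 q.2) (Win y₀ y₁ t₁))
    (hQc : ContinuousOn (fun q : ℝ × ℝ => Q q.1 q.2) (Win y₀ y₁ t₁))
    (h1 : ∀ q ∈ Win y₀ y₁ t₁, 0 < q.1 → HasDerivAt (p q.1) (p1 q.1 q.2) q.2)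
    (h2 : ∀ q ∈ Win y₀ y₁ t₁, 0 < q.1 → HasDerivAt (p1 q.1) (p2 q.1 q.2) q.2)
    (g1 : ∀ q ∈ Win y₀ y₁ t₁, 0 < q.1 → HasDerivAt (Q q.1) (Q1 q.1 q.2) q.2)
    (g2 : ∀ q ∈ Win y₀ y₁ t₁, 0 < q.1 → HasDerivAt (Q1 q.1) (Q2 q.1 q.2) q.2)
    (hpt : ∀ q ∈ Win y₀ y₁ t₁, 0 < q.1 → HasDerivAt (fun t => p t q.2)
      (Real.exp (-2 * q.2) * (Z q.1 q.2 * p2 q.1 q.2 +
        (Z1 q.1 q.2 + c q.1 q.2 - 2 * Z q.1 q.2) * p1 q.1 q.2 + h q.1 q.2)) q.1)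
    (hQt : ∀ q ∈ Win y₀ y₁ t₁, 0 < q.1 → HasDerivAt (fun t => Q t q.2)
      (Real.exp (-2 * q.2) * (Z q.1 q.2 * Q2 q.1 q.2 + (c q.1 q.2 - 4 * Z q.1 q.2) * Q1 q.1 q.2 +
        k q.1 q.2 * Q q.1 q.2 + f q.1 q.2)) q.1)
    (hQ : ∀ q ∈ Win y₀ y₁ t₁, 0 < q.1 → Q q.1 q.2 = Z q.1 q.2 * p1 q.1 q.2 + e q.1 q.2)
    (bZ : ∀ q ∈ Win y₀ y₁ t₁, |Z q.1 q.2 - 1| ≤ 1 / 10)
    (bZ1 : ∀ q ∈ Win y₀ y₁ t₁, |Z1 q.1 q.2| ≤ 1)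
    (bc : ∀ q ∈ Win y₀ y₁ t₁, |c q.1 q.2 - 39| ≤ 1)
    (bk : ∀ q ∈ Win y₀ y₁ t₁, |k q.1 q.2| ≤ 7)
    (bf : ∀ q ∈ Win y₀ y₁ t₁, |f q.1 q.2| ≤ M * A q.1)
    (bh : ∀ q ∈ Win y₀ y₁ t₁, |h q.1 q.2| ≤ M * A q.1)
    (be : ∀ q ∈ Win y₀ y₁ t₁, |e q.1 q.2| ≤ M * A q.1)
    (bp : ∀ q ∈ Win y₀ y₁ t₁, |p q.1 q.2| ≤ M * A q.1)
    (b0 : ∀ q ∈ Win y₀ y₁ t₁, q.1 = 0 → |Q q.1 q.2| ≤ M₀ * A q.1) :
    ∀ q ∈ Win y₀ y₁ t₁, |zw y₀ y₁ q.1 q.2| * |Q q.1 q.2| ≤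
      (y₁ ^ 4 * M₀ + 100 * Kw y₁ ^ 2 * M) * A q.1 := by
  have hy₁ : 0 < y₁ := hy₀.trans hy
  set K := Kw y₁ with hKdef
  have hK : 20 ≤ K := Kw_ge y₁
  have hK0 : 0 < K := by linarith only [hK]
  have hAp : ∀ q ∈ Win y₀ y₁ t₁, 0 < A q.1 := fun q hq => hA.pos _ (Win_lt ht₁ hq)
  have key : ∀ q ∈ Win y₀ y₁ t₁,
      (zw y₀ y₁ q.1 q.2 ^ 2 * Q q.1 q.2 ^ 2 + 20 * K ^ 3 * p q.1 q.2 ^ 2) / A q.1 ^ 2 ≤
        (y₁ ^ 4 * M₀) ^ 2 + 80 * K ^ 3 * M ^ 2 := by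
    refine win_max (B := (y₁ ^ 4 * M₀) ^ 2 + 80 * K ^ 3 * M ^ 2) hy₀ hy₁ ht₁
      (N := fun t ρ => (zw y₀ y₁ t ρ ^ 2 * Q t ρ ^ 2 + 20 * K ^ 3 * p t ρ ^ 2) / A t ^ 2)
      (N1 := fun t ρ => (2 * zw y₀ y₁ t ρ * zwr y₀ y₁ t ρ * Q t ρ ^ 2 +
        2 * zw y₀ y₁ t ρ ^ 2 * (Q t ρ * Q1 t ρ) + 20 * K ^ 3 * (2 * p t ρ * p1 t ρ)) / A t ^ 2)
      (N2 := fun t ρ => (2 * (zwr y₀ y₁ t ρ ^ 2 + zw y₀ y₁ t ρ * zwrr y₀ y₁ t ρ) * Q t ρ ^ 2 +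
        8 * zw y₀ y₁ t ρ * zwr y₀ y₁ t ρ * Q t ρ * Q1 t ρ +
        2 * zw y₀ y₁ t ρ ^ 2 * (Q1 t ρ ^ 2 + Q t ρ * Q2 t ρ) +
        20 * K ^ 3 * (2 * (p1 t ρ ^ 2 + p t ρ * p2 t ρ))) / A t ^ 2)
      (Nt := fun t ρ => (2 * zw y₀ y₁ t ρ * (Real.exp (-2 * ρ) * zwt y₀ y₁ t ρ) * Q t ρ ^ 2 +
        2 * zw y₀ y₁ t ρ ^ 2 * Q t ρ * (Real.exp (-2 * ρ) * (Z t ρ * Q2 t ρ +
          (c t ρ - 4 * Z t ρ) * Q1 t ρ + k t ρ * Q t ρ + f t ρ)) +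
        20 * K ^ 3 * (2 * p t ρ * (Real.exp (-2 * ρ) * (Z t ρ * p2 t ρ +
          (Z1 t ρ + c t ρ - 2 * Z t ρ) * p1 t ρ + h t ρ)))) / A t ^ 2 +
        2 * l * (Real.exp (-2 * ρ) * Yw t ρ) * ((zw y₀ y₁ t ρ ^ 2 * Q t ρ ^ 2 +
          20 * K ^ 3 * p t ρ ^ 2) / A t ^ 2)) ?_ ?_ ?_ ?_ ?_ ?_
    · -- continuity
      refine ContinuousOn.div ?_ ((hA.cont ht₁).pow 2) (fun q hq => (pow_pos (hAp q hq) 2).ne')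
      exact (((zw_cont ht₁).pow 2).mul (hQc.pow 2)).add (continuousOn_const.mul (hpc.pow 2))
    · -- N1
      intro q hq hq0
      have a := (((zw_rho y₀ y₁ q.1 q.2).pow 2).mul ((g1 q hq hq0).pow 2)).add
        (((h1 q hq hq0).pow 2).const_mul (20 * K ^ 3))
      refine HasDerivAt.congr_deriv (a.div_const (A q.1 ^ 2)) ?_
      simp only [Pi.pow_apply]
      push_cast
      ring
    · -- N2
      intro q hq hq0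
      have z0 := zw_rho y₀ y₁ q.1 q.2
      have z1 := zwr_rho y₀ y₁ q.1 q.2
      have a1 := (((z0.const_mul 2).mul z1).mul ((g1 q hq hq0).pow 2))
      have a2 := ((z0.pow 2).const_mul 2).mul ((g1 q hq hq0).mul (g2 q hq hq0))
      have a3 := ((((h1 q hq hq0).const_mul 2).mul (h2 q hq hq0)).const_mul (20 * K ^ 3))
      refine HasDerivAt.congr_deriv (((a1.add a2).add a3).div_const (A q.1 ^ 2)) ?_
      simp only [Pi.pow_apply, Pi.mul_apply]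
      push_cast
      ring
    · -- Nt
      intro q hq hq0
      have hlt := Win_lt ht₁ hq
      have a := (((zw_t y₀ y₁ hlt q.2).pow 2).mul ((hQt q hq hq0).pow 2)).add
        (((hpt q hq hq0).pow 2).const_mul (20 * K ^ 3))
      have hA2 := ((hA.der _ hlt).pow 2)
      have hne : A q.1 ^ 2 ≠ 0 := (pow_pos (hAp q hq) 2).ne'
      have hA0 : A q.1 ≠ 0 := (hAp q hq).ne'
      have h1t : (1 - q.1) ≠ 0 := by linarith only [hlt]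
      refine HasDerivAt.congr_deriv (a.div hA2 hne) ?_
      rw [exp_mul_Yw hlt]
      simp only [Pi.pow_apply, Pi.mul_apply, Pi.add_apply]
      push_cast
      field_simp
      ring
    · -- boundary
      intro q hq hb
      have hAq := hAp q hq
      rw [div_le_iff₀ (pow_pos hAq 2)]
      have hm : 0 ≤ M * A q.1 := mul_nonneg hM hAq.le
      have hp2 : p q.1 q.2 ^ 2 ≤ (M * A q.1) ^ 2 :=
        sq_le_sq' (by linarith only [bp, hq, (abs_le.1 (bp q hq)).1]) (abs_le.1 (bp q hq)).2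
      have hz := zw_bds hy₀ hy ht₁ hq
      have hK3 : 0 < K ^ 3 := by positivity
      have hpp := mul_le_mul_of_nonneg_left hp2 (by positivity : 0 ≤ 20 * K ^ 3)
      have hKm : 0 ≤ K ^ 3 * (M * A q.1) ^ 2 := by positivity
      have e0 : ((y₁ ^ 4 * M₀) ^ 2 + 80 * K ^ 3 * M ^ 2) * A q.1 ^ 2 =
          (y₁ ^ 4) ^ 2 * (M₀ * A q.1) ^ 2 + 80 * (K ^ 3 * (M * A q.1) ^ 2) := by ring
      rw [e0]
      rcases hb with hb | hb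
      · have hQ2 : Q q.1 q.2 ^ 2 ≤ (M₀ * A q.1) ^ 2 :=
          sq_le_sq' (by linarith only [b0, hq, hb, (abs_le.1 (b0 q hq hb)).1]) (abs_le.1 (b0 q hq hb)).2
        have hz2 : zw y₀ y₁ q.1 q.2 ^ 2 ≤ (y₁ ^ 4) ^ 2 :=
          pow_le_pow_left₀ hz.2.2.1 (zw_le hy₀ hy ht₁ hq) 2
        have hmm := mul_le_mul hz2 hQ2 (sq_nonneg _) (sq_nonneg _)
        linarith only [hpp, hKm, hmm]
      · rw [zw_lat hy₀ hy ht₁ hq hb]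
        have h8 : 0 ≤ (y₁ ^ 4) ^ 2 * (M₀ * A q.1) ^ 2 := by positivity
        nlinarith only [hpp, hKm, h8]
    · -- interior
      intro q hq hq0 hN1 hN2 hNt
      have hAq := hAp q hq
      have hz := zw_bds hy₀ hy ht₁ hq
      have hE : 0 < Real.exp (-2 * q.2) := Real.exp_pos _
      have hZ := abs_le.1 (bZ q hq)
      have hZ0 : 0 < Z q.1 q.2 := by linarith only [hZ, hZ.1]
      have hm : 0 ≤ M * A q.1 := mul_nonneg hM hAq.le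
      have alg := bern2_alg (K := K) (Q1 := Q1 q.1 q.2) hK hz.1 hz.2.1 hz.2.2.1 hz.2.2.2.1
        hz.2.2.2.2.1 hz.2.2.2.2.2.1
        hz.2.2.2.2.2.2 hA.l0 hA.l2 hm (bZ q hq) (bZ1 q hq) (bc q hq) (bk q hq) (bf q hq) (bh q hq)
        (be q hq) (bp q hq) (hQ q hq hq0) ?_
      · rw [div_le_iff₀ (pow_pos hAq 2)]
        have h8 : 0 ≤ (y₁ ^ 4 * M₀) ^ 2 * A q.1 ^ 2 := by positivity
        calc _ ≤ _ := alg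
          _ ≤ _ := by linarith only [h8]
      · beta_reduce at hN1 hN2 hNt
        have hA2 : 0 < A q.1 ^ 2 := pow_pos hAq 2
        have n1 : 2 * zw y₀ y₁ q.1 q.2 * zwr y₀ y₁ q.1 q.2 * Q q.1 q.2 ^ 2 +
            2 * zw y₀ y₁ q.1 q.2 ^ 2 * (Q q.1 q.2 * Q1 q.1 q.2) +
            20 * K ^ 3 * (2 * p q.1 q.2 * p1 q.1 q.2) = 0 := by
          rcases div_eq_zero_iff.1 hN1 with h | h
          · exact h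
          · exact absurd h hA2.ne'
        have n2 : 2 * (zwr y₀ y₁ q.1 q.2 ^ 2 + zw y₀ y₁ q.1 q.2 * zwrr y₀ y₁ q.1 q.2) *
              Q q.1 q.2 ^ 2 +
            8 * zw y₀ y₁ q.1 q.2 * zwr y₀ y₁ q.1 q.2 * Q q.1 q.2 * Q1 q.1 q.2 +
            2 * zw y₀ y₁ q.1 q.2 ^ 2 * (Q1 q.1 q.2 ^ 2 + Q q.1 q.2 * Q2 q.1 q.2) +
            20 * K ^ 3 * (2 * (p1 q.1 q.2 ^ 2 + p q.1 q.2 * p2 q.1 q.2)) ≤ 0 := by
          by_contra hcon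
          push Not at hcon
          exact absurd hN2 (not_le.2 (div_pos hcon hA2))
        have nt : 0 ≤ 2 * zw y₀ y₁ q.1 q.2 * zwt y₀ y₁ q.1 q.2 * Q q.1 q.2 ^ 2 +
            2 * zw y₀ y₁ q.1 q.2 ^ 2 * Q q.1 q.2 * (Z q.1 q.2 * Q2 q.1 q.2 +
              (c q.1 q.2 - 4 * Z q.1 q.2) * Q1 q.1 q.2 + k q.1 q.2 * Q q.1 q.2 + f q.1 q.2) +
            20 * K ^ 3 * (2 * p q.1 q.2 * (Z q.1 q.2 * p2 q.1 q.2 +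
              (Z1 q.1 q.2 + c q.1 q.2 - 2 * Z q.1 q.2) * p1 q.1 q.2 + h q.1 q.2)) +
            2 * l * Yw q.1 q.2 * (zw y₀ y₁ q.1 q.2 ^ 2 * Q q.1 q.2 ^ 2 +
              20 * K ^ 3 * p q.1 q.2 ^ 2) := by
          have e0 := mul_nonneg (mul_nonneg hNt hA2.le) (Real.exp_pos (2 * q.2)).le
          have ee : Real.exp (-2 * q.2) * Real.exp (2 * q.2) = 1 := by
            rw [← Real.exp_add]; simp
          generalize Real.exp (2 * q.2) = E2 at *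
          generalize Real.exp (-2 * q.2) = E1 at *
          have hA0 : A q.1 ≠ 0 := hAq.ne'
          refine le_of_le_of_eq e0 ?_
          have e1 : ∀ X W : ℝ, (X / A q.1 ^ 2 + 2 * l * (E1 * Yw q.1 q.2) * (W / A q.1 ^ 2)) *
              A q.1 ^ 2 * E2 = X * E2 + 2 * l * Yw q.1 q.2 * W * (E1 * E2) := by
            intro X W
            field_simp
          rw [e1, ee]
          linear_combination (2 * zw y₀ y₁ q.1 q.2 * zwt y₀ y₁ q.1 q.2 * Q q.1 q.2 ^ 2 +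
            2 * zw y₀ y₁ q.1 q.2 ^ 2 * Q q.1 q.2 * (Z q.1 q.2 * Q2 q.1 q.2 +
              (c q.1 q.2 - 4 * Z q.1 q.2) * Q1 q.1 q.2 + k q.1 q.2 * Q q.1 q.2 + f q.1 q.2) +
            20 * K ^ 3 * (2 * p q.1 q.2 * (Z q.1 q.2 * p2 q.1 q.2 +
              (Z1 q.1 q.2 + c q.1 q.2 - 2 * Z q.1 q.2) * p1 q.1 q.2 + h q.1 q.2))) * ee
        have n2' := mul_nonneg hZ0.le (neg_nonneg.2 n2)
        have n1' : (c q.1 q.2 - 4 * Z q.1 q.2) * (2 * zw y₀ y₁ q.1 q.2 * zwr y₀ y₁ q.1 q.2 *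
            Q q.1 q.2 ^ 2 +
            2 * zw y₀ y₁ q.1 q.2 ^ 2 * (Q q.1 q.2 * Q1 q.1 q.2) +
            20 * K ^ 3 * (2 * p q.1 q.2 * p1 q.1 q.2)) = 0 := by rw [n1, mul_zero]
        linarith only [nt, n2', n1', nt, n2', n1']
  intro q hq
  have hAq := hAp q hq
  have h3 := key q hq
  rw [div_le_iff₀ (pow_pos hAq 2)] at h3
  have hz := zw_bds hy₀ hy ht₁ hq
  rw [← abs_mul]
  refine abs_le_of_sq_le_sq ?_ (by positivity)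
  have h4 : 0 ≤ 20 * K ^ 3 * p q.1 q.2 ^ 2 := by positivity
  have h5 : 80 * K ^ 3 ≤ 10000 * K ^ 4 := by nlinarith only [hK, hK0, pow_pos hK0 3]
  have h6 := mul_le_mul_of_nonneg_right h5 (sq_nonneg (M * A q.1))
  have h7 : 0 ≤ y₁ ^ 4 * M₀ * (100 * K ^ 2 * M) * A q.1 ^ 2 := by positivity
  nlinarith only [h3, h4, h6, h7]

end Vale.Agent.P244.ST
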