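import Vale.Agent.P244.ST.Geo
import Vale.Agent.P244.ST.S.RGauge

/-!
# P244-ST, block M7 : chain rule for the functions of Geo.lean in r-gauge coordinates

`X = RG.XX 20 w f` is the inverse of `x ↦ ρ(t,x)`.  For `H(t,x)` differentiable,
`∂_ρ (H(t,X(t,ρ))) = (Dr H)(t,X)` and `∂_t (H(t,X(t,ρ))) = (Tr H)(t,X)`.
-/

set_option linter.all false

open Set Filter Topology
open scoped ContDiff

namespace Vale.Agent.P244.ST.M7

open Vale.Agent.P244.ST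
open Vale.Agent.P244.ST.Apr (Sx slice)

noncomputable section

variable {w f : Fn} {T : ℝ}

lemma ze20 : RG.ze 20 = zeta0 := by unfold RG.ze zeta0; norm_num

lemma rh_eq0 (t x : ℝ) : RG.rh 20 (w t) (f t) x = rho w f t x := by
  unfold RG.rh rho; rw [ze20]

lemma rh_eq0' (t : ℝ) : RG.rh 20 (w t) (f t) = rho w f t := funext (rh_eq0 t)

lemma one_sub_sq_pos {x : ℝ} (hx : x ∈ Ioo (-1 : ℝ) 1) : 0 < 1 - x ^ 2 := by
  nlinarith only [hx, hx.1, hx.2]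

lemma sx_pos {x : ℝ} (hx : x ∈ Ioo (-1 : ℝ) 1) : 0 < sx x := Real.sqrt_pos.2 (one_sub_sq_pos hx)

lemma sx_sq {x : ℝ} (hx : x ∈ Ioo (-1 : ℝ) 1) : sx x ^ 2 = 1 - x ^ 2 :=
  Real.sq_sqrt (one_sub_sq_pos hx).le

lemma sx_hasDeriv {x : ℝ} (hx : x ∈ Ioo (-1 : ℝ) 1) : HasDerivAt sx (-x / sx x) x := by
  have h3 : HasDerivAt (fun y : ℝ => 1 - y ^ 2) (-(2 * x)) x := by
    simpa using ((hasDerivAt_id x).pow 2).const_sub 1
  have h4 := h3.sqrt (one_sub_sq_pos hx).ne'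
  refine HasDerivAt.congr_deriv h4 ?_
  have : Real.sqrt (1 - x ^ 2) = sx x := rfl
  rw [this]
  have h0 := (sx_pos hx).ne'
  field_simp

section slice

variable (hs : ConfSol 20 w f T)
include hs

lemma w1 {t x : ℝ} (ht : t ∈ Ico 0 T) (hx : x ∈ Ioo (-1 : ℝ) 1) :
    HasDerivAt (w t) (dx (w t) x) x :=
  RG.hasDerivAt_of_sx (slice (h := w) hs.smooth_w ht) hx

lemma f1 {t x : ℝ} (ht : t ∈ Ico 0 T) (hx : x ∈ Ioo (-1 : ℝ) 1) :
    HasDerivAt (f t) (dx (f t) x) x :=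
  RG.hasDerivAt_of_sx (slice (h := f) hs.smooth_f ht) hx

lemma w2 {t x : ℝ} (ht : t ∈ Ico 0 T) (hx : x ∈ Ioo (-1 : ℝ) 1) :
    HasDerivAt (dx (w t)) (dx (dx (w t)) x) x :=
  RG.hasDerivAt_of_sx (slice (h := w) hs.smooth_w ht).dx hx

lemma f2 {t x : ℝ} (ht : t ∈ Ico 0 T) (hx : x ∈ Ioo (-1 : ℝ) 1) :
    HasDerivAt (dx (f t)) (dx (dx (f t)) x) x :=
  RG.hasDerivAt_of_sx (slice (h := f) hs.smooth_f ht).dx hx

lemma rho1 {t x : ℝ} (ht : t ∈ Ico 0 T) (hx : x ∈ Ioo (-1 : ℝ) 1) :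
    HasDerivAt (rho w f t) (RG.rhx (w t) (f t) x) x := by
  rw [← rh_eq0']
  exact RG.rh_deriv hs ht hx

lemma Dx_rho {t x : ℝ} (ht : t ∈ Ico 0 T) (hx : x ∈ Ioo (-1 : ℝ) 1) :
    Dx (rho w f) t x = RG.rhx (w t) (f t) x := (rho1 hs ht hx).deriv

lemma rhx1 {t x : ℝ} (ht : t ∈ Ico 0 T) (hx : x ∈ Ioo (-1 : ℝ) 1) :
    HasDerivAt (RG.rhx (w t) (f t))
      ((dx (dx (f t)) x + dx (dx (w t)) x - (1 + x ^ 2) / (1 - x ^ 2) ^ 2) / 2) x := by
  have h3 : HasDerivAt (fun y : ℝ => 1 - y ^ 2) (-(2 * x)) x := by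
    simpa using ((hasDerivAt_id x).pow 2).const_sub 1
  have hne := (one_sub_sq_pos hx).ne'
  have h4 := (hasDerivAt_id x).div h3 hne
  have h5 := (((f2 hs ht hx).add (w2 hs ht hx)).sub h4).div_const 2
  refine HasDerivAt.congr_deriv h5 ?_
  simp only [id]
  congr 2
  field_simp
  ring

lemma uu1 {t x : ℝ} (ht : t ∈ Ico 0 T) (hx : x ∈ Ioo (-1 : ℝ) 1) :
    HasDerivAt (uu w f t) (RG.ux (w t) (f t) x) x := by
  have h3 : HasDerivAt (fun y : ℝ => 1 - y ^ 2) (-(2 * x)) x := by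
    simpa using ((hasDerivAt_id x).pow 2).const_sub 1
  have hne := (one_sub_sq_pos hx).ne'
  have h4 := h3.log hne
  have h5 := (((f1 hs ht hx).sub (w1 hs ht hx)).sub (h4.div_const 2))
  refine HasDerivAt.congr_deriv h5 ?_
  unfold RG.ux
  field_simp
  ring

lemma ux1 {t x : ℝ} (ht : t ∈ Ico 0 T) (hx : x ∈ Ioo (-1 : ℝ) 1) :
    HasDerivAt (RG.ux (w t) (f t))
      (dx (dx (f t)) x - dx (dx (w t)) x + (1 + x ^ 2) / (1 - x ^ 2) ^ 2) x := by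
  have h3 : HasDerivAt (fun y : ℝ => 1 - y ^ 2) (-(2 * x)) x := by
    simpa using ((hasDerivAt_id x).pow 2).const_sub 1
  have hne := (one_sub_sq_pos hx).ne'
  have h4 := (hasDerivAt_id x).div h3 hne
  have h5 := (((f2 hs ht hx).sub (w2 hs ht hx)).add h4)
  refine HasDerivAt.congr_deriv h5 ?_
  simp only [id]
  congr 1
  field_simp
  ring

/-- `Ds (Ds H)` at a point, when `H_x = h1` near the point and `h1' = h2` -/
lemma DsDs {H : Fn} {h1 : ℝ → ℝ} {h2 t x : ℝ} (ht : t ∈ Ico 0 T) (hx : x ∈ Ioo (-1 : ℝ) 1)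
    (a : ∀ y ∈ Ioo (-1 : ℝ) 1, HasDerivAt (H t) (h1 y) y) (b : HasDerivAt h1 h2 x) :
    Ds w (Ds w H) t x = Real.exp (-2 * w t x) *
      (-x * h1 x - (1 - x ^ 2) * dx (w t) x * h1 x + (1 - x ^ 2) * h2) := by
  have hev : (fun y => Ds w H t y) =ᶠ[𝓝 x] fun y => -(sx y * Real.exp (-w t y)) * h1 y := by
    filter_upwards [isOpen_Ioo.mem_nhds hx] with y hy
    unfold Ds Dx
    rw [(a y hy).deriv]
  have c1 := (((sx_hasDeriv hx).mul ((w1 hs ht hx).neg.exp)).neg).mul b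
  have c2 : deriv (Ds w H t) x = _ := (c1.congr_of_eventuallyEq hev).deriv
  have c3 : Ds w (Ds w H) t x = -(sx x * Real.exp (-w t x)) * deriv (Ds w H t) x := rfl
  rw [c3, c2]
  have e1 : Real.exp (-2 * w t x) = Real.exp (-w t x) ^ 2 := by
    rw [← Real.exp_nat_mul]; congr 1; push_cast; ring
  have h0 := (sx_pos hx).ne'
  have hsq := sx_sq hx
  rw [e1, ← hsq]
  simp only [Pi.neg_apply, Pi.mul_apply]
  field_simp
  ring

lemma Ds_at {H : Fn} {h1 t x : ℝ} (a : HasDerivAt (H t) h1 x) :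
    Ds w H t x = -(sx x * Real.exp (-w t x)) * h1 := by
  unfold Ds Dx
  rw [a.deriv]

omit hs in
lemma cosh_r2 {t x : ℝ} (hx : x ∈ Ioo (-1 : ℝ) 1) :
    Real.cosh (uu w f t x) / (rr w f t x) ^ 2 =
      19 / 78 * (Real.exp (-2 * w t x) / (1 - x ^ 2) + Real.exp (-2 * f t x)) := by
  have hp := one_sub_sq_pos hx
  have hz : (0 : ℝ) < zeta0 := by unfold zeta0; norm_num
  have e0 : (rr w f t x) ^ 2 = Real.exp (f t x + w t x + Real.log (1 - x ^ 2) / 2) / zeta0 := by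
    unfold rr rho
    rw [← Real.exp_nat_mul]
    rw [show ((2 : ℕ) : ℝ) * ((f t x + w t x + Real.log (1 - x ^ 2) / 2 - Real.log zeta0) / 2) =
      f t x + w t x + Real.log (1 - x ^ 2) / 2 - Real.log zeta0 by push_cast; ring,
      Real.exp_sub, Real.exp_log hz]
  have e1 : Real.exp (-2 * w t x) / (1 - x ^ 2) = Real.exp (-2 * w t x - Real.log (1 - x ^ 2)) := by
    rw [Real.exp_sub, Real.exp_log hp]
  rw [e0, e1, Real.cosh_eq]
  unfold uu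
  set L := Real.log (1 - x ^ 2)
  have e2 : Real.exp (f t x - w t x - L / 2) =
      Real.exp (-2 * w t x - L) * Real.exp (f t x + w t x + L / 2) := by
    rw [← Real.exp_add]; congr 1; ring
  have e3 : Real.exp (-(f t x - w t x - L / 2)) =
      Real.exp (-2 * f t x) * Real.exp (f t x + w t x + L / 2) := by
    rw [← Real.exp_add]; congr 1; ring
  rw [e2, e3]
  have h1 := (Real.exp_pos (f t x + w t x + L / 2)).ne'
  unfold zeta0
  field_simp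
  ring

omit hs in
lemma sinh_r2 {t x : ℝ} (hx : x ∈ Ioo (-1 : ℝ) 1) :
    Real.sinh (uu w f t x) / (rr w f t x) ^ 2 =
      19 / 78 * (Real.exp (-2 * w t x) / (1 - x ^ 2) - Real.exp (-2 * f t x)) := by
  have hp := one_sub_sq_pos hx
  have hz : (0 : ℝ) < zeta0 := by unfold zeta0; norm_num
  have e0 : (rr w f t x) ^ 2 = Real.exp (f t x + w t x + Real.log (1 - x ^ 2) / 2) / zeta0 := by
    unfold rr rho
    rw [← Real.exp_nat_mul]
    rw [show ((2 : ℕ) : ℝ) * ((f t x + w t x + Real.log (1 - x ^ 2) / 2 - Real.log zeta0) / 2) =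
      f t x + w t x + Real.log (1 - x ^ 2) / 2 - Real.log zeta0 by push_cast; ring,
      Real.exp_sub, Real.exp_log hz]
  have e1 : Real.exp (-2 * w t x) / (1 - x ^ 2) = Real.exp (-2 * w t x - Real.log (1 - x ^ 2)) := by
    rw [Real.exp_sub, Real.exp_log hp]
  rw [e0, e1, Real.sinh_eq]
  unfold uu
  set L := Real.log (1 - x ^ 2)
  have e2 : Real.exp (f t x - w t x - L / 2) =
      Real.exp (-2 * w t x - L) * Real.exp (f t x + w t x + L / 2) := by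
    rw [← Real.exp_add]; congr 1; ring
  have e3 : Real.exp (-(f t x - w t x - L / 2)) =
      Real.exp (-2 * f t x) * Real.exp (f t x + w t x + L / 2) := by
    rw [← Real.exp_add]; congr 1; ring
  rw [e2, e3]
  have h1 := (Real.exp_pos (f t x + w t x + L / 2)).ne'
  unfold zeta0
  field_simp
  ring

/-- `D_t ρ = yy` -/
theorem DT_rho {t x : ℝ} (ht : t ∈ Ioo 0 T) (hx : x ∈ Ioo (-1 : ℝ) 1) :
    DT w f (rho w f) t x = yy w f t x := by
  have ht' : t ∈ Ico 0 T := ⟨ht.1.le, ht.2⟩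
  have hIco : Ico 0 T ∈ 𝓝 t := Ico_mem_nhds ht.1 ht.2
  have hwt := (hs.eq_w t ht' x (Ioo_subset_Icc_self hx)).hasDerivAt hIco
  have hft := (hs.eq_f t ht' x (Ioo_subset_Icc_self hx)).hasDerivAt hIco
  have hrt : HasDerivAt (fun s => rho w f s x)
      ((rhsF 20 (w t) (f t) x + rhsW 20 (w t) (f t) x) / 2) t :=
    (((hft.add hwt).add_const (Real.log (1 - x ^ 2) / 2)).sub_const (Real.log zeta0)).div_const 2
  have e1 : Dt (rho w f) t x = (rhsF 20 (w t) (f t) x + rhsW 20 (w t) (f t) x) / 2 := hrt.deriv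
  have e2 := DsDs hs ht' hx (H := rho w f) (fun y hy => rho1 hs ht' hy) (rhx1 hs ht' hx)
  have e3 : Ds w (rho w f) t x = -(sx x * Real.exp (-w t x)) * RG.rhx (w t) (f t) x :=
    Ds_at hs (rho1 hs ht' hx)
  have e4 : Dx (w) t x = dx (w t) x := (w1 hs ht' hx).deriv
  have e5 : Dx (f) t x = dx (f t) x := (f1 hs ht' hx).deriv
  have e6 : Real.exp (-2 * w t x) = Real.exp (-w t x) ^ 2 := by
    rw [← Real.exp_nat_mul]; congr 1; push_cast; ring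
  have e7 : 39 * Real.cosh (uu w f t x) / (rr w f t x) ^ 2 =
      19 / 2 * (Real.exp (-2 * w t x) / (1 - x ^ 2) + Real.exp (-2 * f t x)) := by
    rw [mul_div_assoc, cosh_r2 hx]; ring
  have hne := (one_sub_sq_pos hx).ne'
  have hsq := sx_sq hx
  unfold DT yy Lp
  rw [e1, e2, e3, e7, Dx_rho hs ht' hx]
  unfold Xg
  rw [e4, e5]
  unfold rhsF rhsW lap RG.rhx
  have e8 : (-(sx x * Real.exp (-w t x)) * ((dx (f t) x + dx (w t) x - x / (1 - x ^ 2)) / 2)) =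
    (-(sx x * Real.exp (-w t x)) * ((dx (f t) x + dx (w t) x - x / (1 - x ^ 2)) / 2)) := rfl
  have e9 : 40 * (-(sx x * Real.exp (-w t x)) *
      ((dx (f t) x + dx (w t) x - x / (1 - x ^ 2)) / 2)) * (-(sx x * Real.exp (-w t x)) *
      ((dx (f t) x + dx (w t) x - x / (1 - x ^ 2)) / 2)) =
      40 * ((1 - x ^ 2) * Real.exp (-2 * w t x)) *
        ((dx (f t) x + dx (w t) x - x / (1 - x ^ 2)) / 2) ^ 2 := by
    rw [e6, ← hsq]; ring
  rw [e9]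
  push_cast
  field_simp
  ring

/-- `D_t u = VV` -/
theorem DT_uu {t x : ℝ} (ht : t ∈ Ioo 0 T) (hx : x ∈ Ioo (-1 : ℝ) 1) :
    DT w f (uu w f) t x = VV w f t x := by
  have ht' : t ∈ Ico 0 T := ⟨ht.1.le, ht.2⟩
  have hIco : Ico 0 T ∈ 𝓝 t := Ico_mem_nhds ht.1 ht.2
  have hwt := (hs.eq_w t ht' x (Ioo_subset_Icc_self hx)).hasDerivAt hIco
  have hft := (hs.eq_f t ht' x (Ioo_subset_Icc_self hx)).hasDerivAt hIco
  have hrt : HasDerivAt (fun s => uu w f s x)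
      (rhsF 20 (w t) (f t) x - rhsW 20 (w t) (f t) x) t :=
    ((hft.sub hwt).sub_const (Real.log (1 - x ^ 2) / 2))
  have e1 : Dt (uu w f) t x = rhsF 20 (w t) (f t) x - rhsW 20 (w t) (f t) x := hrt.deriv
  have e2 := DsDs hs ht' hx (H := uu w f) (fun y hy => uu1 hs ht' hy) (ux1 hs ht' hx)
  have e3 : Ds w (rho w f) t x = -(sx x * Real.exp (-w t x)) * RG.rhx (w t) (f t) x :=
    Ds_at hs (rho1 hs ht' hx)
  have e3' : Ds w (uu w f) t x = -(sx x * Real.exp (-w t x)) * RG.ux (w t) (f t) x :=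
    Ds_at hs (uu1 hs ht' hx)
  have e4 : Dx (w) t x = dx (w t) x := (w1 hs ht' hx).deriv
  have e5 : Dx (f) t x = dx (f t) x := (f1 hs ht' hx).deriv
  have e6 : Real.exp (-2 * w t x) = Real.exp (-w t x) ^ 2 := by
    rw [← Real.exp_nat_mul]; congr 1; push_cast; ring
  have e7 : 78 * Real.sinh (uu w f t x) / (rr w f t x) ^ 2 =
      19 * (Real.exp (-2 * w t x) / (1 - x ^ 2) - Real.exp (-2 * f t x)) := by
    rw [mul_div_assoc, sinh_r2 hx]; ring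
  have hne := (one_sub_sq_pos hx).ne'
  have hsq := sx_sq hx
  have e10 : Dx (uu w f) t x = RG.ux (w t) (f t) x := (uu1 hs ht' hx).deriv
  unfold DT VV Lp
  rw [e1, e2, e3, e3', e7, e10]
  unfold Xg
  rw [e4, e5]
  unfold rhsF rhsW lap RG.rhx RG.ux
  have e9 : 40 * (-(sx x * Real.exp (-w t x)) *
      ((dx (f t) x + dx (w t) x - x / (1 - x ^ 2)) / 2)) * (-(sx x * Real.exp (-w t x)) *
      (dx (f t) x - dx (w t) x + x / (1 - x ^ 2))) =
      40 * ((1 - x ^ 2) * Real.exp (-2 * w t x)) *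
        ((dx (f t) x + dx (w t) x - x / (1 - x ^ 2)) / 2) *
        (dx (f t) x - dx (w t) x + x / (1 - x ^ 2)) := by
    rw [e6, ← hsq]; ring
  rw [e9]
  push_cast
  field_simp
  ring

/-! ### the chain rule -/

section chain

variable (hpos : ∀ t ∈ Ico 0 T, ∀ x ∈ Ioo (0 : ℝ) 1, 0 < rs w f t x)
include hpos

lemma hneg : ∀ t ∈ Ico 0 T, ∀ x ∈ Ioo (0 : ℝ) 1, RG.rhx (w t) (f t) x < 0 := by
  intro t ht x hx
  have hx' : x ∈ Ioo (-1 : ℝ) 1 := ⟨by linarith only [hx, hx.1], hx.2⟩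
  have h1 := hpos t ht x hx
  have h2 : rs w f t x = -(sx x * Real.exp (-w t x)) * RG.rhx (w t) (f t) x :=
    Ds_at hs (rho1 hs ht hx')
  rw [h2] at h1
  by_contra h
  push Not at h
  have h3 := mul_pos (sx_pos hx') (Real.exp_pos (-w t x))
  nlinarith only [h1, h, h3, mul_nonneg h3.le h]

/-- `X(t,ρ) ∈ (0,1)` and `ρ(t,X) = ρ` -/
lemma X_spec {q : ℝ × ℝ} (hq : q ∈ RG.reg 20 w f (Ico 0 T)) :
    RG.XX 20 w f q.1 q.2 ∈ Ioo (0 : ℝ) 1 ∧ rho w f q.1 (RG.XX 20 w f q.1 q.2) = q.2 := by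
  have h := RG.XX_spec hs hq
  rw [rh_eq0] at h
  exact h

lemma X_rho {q : ℝ × ℝ} (hq : q ∈ RG.reg 20 w f (Ico 0 T)) :
    HasDerivAt (RG.XX 20 w f q.1) (Dx (rho w f) q.1 (RG.XX 20 w f q.1 q.2))⁻¹ q.2 := by
  have h := RG.XX_spec hs hq
  rw [Dx_rho hs hq.1 ⟨by linarith only [h, h.1.1], h.1.2⟩]
  exact RG.XX_deriv hs (hneg hs hpos) hq

lemma Dr_eq {H : Fn} {t x : ℝ} (ht : t ∈ Ico 0 T) (hx : x ∈ Ioo (0 : ℝ) 1) :
    Dr w f H t x = Dx H t x / Dx (rho w f) t x := by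
  have hx' : x ∈ Ioo (-1 : ℝ) 1 := ⟨by linarith only [hx, hx.1], hx.2⟩
  have h3 := mul_pos (sx_pos hx') (Real.exp_pos (-w t x))
  unfold Dr rs Ds
  rw [mul_div_mul_left _ _ (by linarith only [h3] : -(sx x * Real.exp (-w t x)) ≠ 0)]

/-- chain rule in `ρ` -/
theorem chain_rho {q : ℝ × ℝ} (hq : q ∈ RG.reg 20 w f (Ico 0 T)) {H : Fn}
    (hH : DifferentiableAt ℝ (H q.1) (RG.XX 20 w f q.1 q.2)) :
    HasDerivAt (fun r => H q.1 (RG.XX 20 w f q.1 r)) (Dr w f H q.1 (RG.XX 20 w f q.1 q.2)) q.2 := by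
  have h := RG.XX_spec hs hq
  have h1 := hH.hasDerivAt.comp q.2 (X_rho hs hpos hq)
  rw [Dr_eq hs hpos hq.1 h.1]
  exact h1

lemma X_t {q : ℝ × ℝ} (hq : q ∈ RG.reg 20 w f (Ioo 0 T)) :
    HasDerivAt (fun s => RG.XX 20 w f s q.2)
      (-(Dt (rho w f) q.1 (RG.XX 20 w f q.1 q.2)) /
        Dx (rho w f) q.1 (RG.XX 20 w f q.1 q.2)) q.1 := by
  have hq' : q ∈ RG.reg 20 w f (Ico 0 T) := ⟨⟨hq.1.1.le, hq.1.2⟩, hq.2⟩
  have h := RG.XX_spec hs hq'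
  have hx' : RG.XX 20 w f q.1 q.2 ∈ Ioo (-1 : ℝ) 1 := ⟨by linarith only [h, h.1.1], h.1.2⟩
  have hIco : Ico 0 T ∈ 𝓝 q.1 := Ico_mem_nhds hq.1.1 hq.1.2
  have hwt := (hs.eq_w q.1 hq'.1 _ (Ioo_subset_Icc_self hx')).hasDerivAt hIco
  have hft := (hs.eq_f q.1 hq'.1 _ (Ioo_subset_Icc_self hx')).hasDerivAt hIco
  have hrt : Dt (rho w f) q.1 (RG.XX 20 w f q.1 q.2) =
      (rhsF 20 (w q.1) (f q.1) (RG.XX 20 w f q.1 q.2) +
        rhsW 20 (w q.1) (f q.1) (RG.XX 20 w f q.1 q.2)) / 2 := by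
    have h5 := (((hft.add hwt).add_const (Real.log (1 - (RG.XX 20 w f q.1 q.2) ^ 2) / 2)).sub_const
      (Real.log zeta0)).div_const 2
    exact h5.deriv
  rw [hrt, Dx_rho hs hq'.1 hx']
  exact RG.XX_time hs (hneg hs hpos) hq

/-- chain rule in `t` -/
theorem chain_t {q : ℝ × ℝ} (hq : q ∈ RG.reg 20 w f (Ioo 0 T)) {H : Fn}
    (hH : DifferentiableAt ℝ (fun z : ℝ × ℝ => H z.1 z.2) (q.1, RG.XX 20 w f q.1 q.2)) :
    HasDerivAt (fun s => H s (RG.XX 20 w f s q.2)) (Tr w f H q.1 (RG.XX 20 w f q.1 q.2)) q.1 := by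
  have hq' : q ∈ RG.reg 20 w f (Ico 0 T) := ⟨⟨hq.1.1.le, hq.1.2⟩, hq.2⟩
  have hspec := RG.XX_spec hs hq'
  set x₀ := RG.XX 20 w f q.1 q.2 with hx₀
  have hx' : x₀ ∈ Ioo (-1 : ℝ) 1 := ⟨by linarith only [hspec, hspec.1.1], hspec.1.2⟩
  have hd := hH.hasFDerivAt
  set D := fderiv ℝ (fun z : ℝ × ℝ => H z.1 z.2) (q.1, x₀) with hD
  have e1 : D (1, 0) = Dt H q.1 x₀ := by
    have h1 : HasDerivAt (fun s : ℝ => ((s, x₀) : ℝ × ℝ)) (1, 0) q.1 :=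
      (hasDerivAt_id q.1).prodMk (hasDerivAt_const q.1 x₀)
    have h2 := HasFDerivAt.comp_hasDerivAt (l := fun z : ℝ × ℝ => H z.1 z.2)
      (f := fun s : ℝ => ((s, x₀) : ℝ × ℝ)) q.1 hd h1
    exact (HasDerivAt.deriv h2).symm
  have e2 : D (0, 1) = Dx H q.1 x₀ := by
    have h1 : HasDerivAt (fun y : ℝ => ((q.1, y) : ℝ × ℝ)) (0, 1) x₀ :=
      (hasDerivAt_const x₀ q.1).prodMk (hasDerivAt_id x₀)
    have h2 := HasFDerivAt.comp_hasDerivAt (l := fun z : ℝ × ℝ => H z.1 z.2)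
      (f := fun y : ℝ => ((q.1, y) : ℝ × ℝ)) x₀ hd h1
    exact (HasDerivAt.deriv h2).symm
  have hX := X_t hs hpos hq
  have h1 : HasDerivAt (fun s : ℝ => ((s, RG.XX 20 w f s q.2) : ℝ × ℝ))
      (1, -(Dt (rho w f) q.1 x₀) / Dx (rho w f) q.1 x₀) q.1 :=
    (hasDerivAt_id q.1).prodMk hX
  have h2 := HasFDerivAt.comp_hasDerivAt (l := fun z : ℝ × ℝ => H z.1 z.2)
    (f := fun s : ℝ => ((s, RG.XX 20 w f s q.2) : ℝ × ℝ)) q.1 hd h1
  have e3 : D (1, -(Dt (rho w f) q.1 x₀) / Dx (rho w f) q.1 x₀) = Tr w f H q.1 x₀ := by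
    have hsplit : ((1 : ℝ), -(Dt (rho w f) q.1 x₀) / Dx (rho w f) q.1 x₀) =
        ((1 : ℝ), (0 : ℝ)) + (-(Dt (rho w f) q.1 x₀) / Dx (rho w f) q.1 x₀) •
          ((0 : ℝ), (1 : ℝ)) := by ext <;> simp
    rw [hsplit, map_add, map_smul, e1, e2, smul_eq_mul]
    have hr := DT_rho hs hq.1 hx'
    unfold Tr
    rw [← hr, Dr_eq hs hpos hq'.1 hspec.1]
    have hne : Dx (rho w f) q.1 x₀ ≠ 0 := by
      rw [Dx_rho hs hq'.1 hx']
      exact (hneg hs hpos q.1 hq'.1 _ hspec.1).ne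
    unfold DT
    field_simp
    ring
  rw [e3] at h2
  exact h2

end chain

end slice

end

end Vale.Agent.P244.ST.M7
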