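import Mathlib
import Vale.Agent.P244.ST.Frame

/-!
# P244-ST, block M7 : the equations of `p = Dr u` and `Q = r² V` in the `r`-gauge (abstract)
-/

set_option linter.all false

namespace Vale.Agent.P244.ST

namespace Frame

variable {R : Type*} [CommRing R] [Algebra ℝ R] (A : Frame R) {κ : R}

lemma Dr_ch : A.Dr κ A.ch = A.sh * A.Dr κ A.u := by
  have h : A.Ds A.ch = A.sh * A.Ds A.u := A.Ds_ch
  rw [Dr, Dr, h]; ring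

lemma Dr_sh : A.Dr κ A.sh = A.ch * A.Dr κ A.u := by
  have h : A.Ds A.sh = A.ch * A.Ds A.u := A.Ds_sh
  rw [Dr, Dr, h]; ring

/-- the equation of `p = Dr u` -/
lemma Tr_p (hκ : κ * A.ρs = 1) : A.r2 * A.Tr κ (A.Dr κ A.u) =
    A.Z * A.Dr κ (A.Dr κ (A.Dr κ A.u)) +
      (A.Dr κ A.Z + 39 * A.ch - 2 * A.Z) * A.Dr κ (A.Dr κ A.u) +
      39 * A.sh * (A.Dr κ A.u ^ 2 - 4) := by
  have h1 := congrArg (A.Dr κ) (A.E1 hκ)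
  rw [A.Tr_Dr hκ A.u]
  simp only [Dr_mul, Dr_add, Dr_ofNat, Dr_ch, Dr_sh, A.Dr_r2 hκ] at h1
  have h2 := A.E1 hκ
  linear_combination h1 - 2 * h2

/-- `Q = r² V` in the `r`-gauge -/
lemma Q_eq (hκ : κ * A.ρs = 1) : 2 * (A.r2 * A.V) =
    2 * (A.Z * A.Dr κ (A.Dr κ A.u) + 39 * A.ch * A.Dr κ A.u + 78 * A.sh) +
      (A.Dr κ A.Z + 78 * A.Z - 78 * A.ch) * A.Dr κ A.u := by
  have h1 := A.E1 hκ
  have h2 : A.Tr κ A.u = A.V - A.yt * A.Dr κ A.u := rfl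
  have h3 := A.E2y hκ
  rw [h2] at h1
  linear_combination 2 * h1 + A.Dr κ A.u * h3

/-- the equation of `Q = r² V` -/
lemma Tr_Q (hκ : κ * A.ρs = 1) : 10 * (A.r2 * A.Tr κ (A.r2 * A.V)) =
    10 * (A.Z * A.Dr κ (A.Dr κ (A.r2 * A.V)) + (39 * A.ch - 4 * A.Z) * A.Dr κ (A.r2 * A.V) +
      (4 * A.Z - 20 * A.Z * A.G κ ^ 2 + 2 * (A.r2 * A.E0)) * (A.r2 * A.V)) +
      (20 * A.Z * A.G κ - 39 * A.sh) * (A.r2 * (41 * A.E0 - A.Rs)) := by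
  have h1 : A.Dt A.V = A.Tr κ A.V + A.yt * A.Dr κ A.V := by
    rw [Tr, Dr]; ring
  have h2 := A.F5
  rw [h1] at h2
  have h3 := A.E2 hκ A.V
  have h4 := A.E2y hκ
  have h5 := A.r2_ir
  have h6 : A.P = -A.G κ * A.ρs := A.P_eq hκ
  have hb : A.b20 = -20 * A.ρs * A.P - 39 * A.sh * A.ir := rfl
  have hZ : A.Z = A.r2 * A.ρs ^ 2 := rfl
  have hD1 : A.Dr κ (A.r2 * A.V) = A.r2 * A.Dr κ A.V + 2 * A.r2 * A.V := by
    rw [Dr_mul, A.Dr_r2 hκ]; ring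
  have hD2 : A.Dr κ (A.Dr κ (A.r2 * A.V)) = A.r2 * A.Dr κ (A.Dr κ A.V) +
      4 * A.r2 * A.Dr κ A.V + 4 * A.r2 * A.V := by
    rw [hD1]
    simp only [Dr_mul, Dr_add, Dr_ofNat, A.Dr_r2 hκ]; ring
  have hT : A.Tr κ (A.r2 * A.V) = A.r2 * A.Tr κ A.V := by
    rw [Tr_mul, A.Tr_r2 hκ]; ring
  rw [hT, hD2, hD1]
  rw [hb, h6] at h2
  rw [← sub_eq_zero]
  have key : 10 * (A.r2 * A.Tr κ A.V) = 10 * (A.Z * A.Dr κ (A.Dr κ A.V) + 39 * A.ch * A.Dr κ A.V) +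
      10 * (78 * A.ch - 20 * A.Z * A.G κ ^ 2 + 2 * (A.r2 * A.E0)) * A.V +
      (20 * A.Z * A.G κ - 39 * A.sh) * (41 * A.E0 - A.Rs) := by
    linear_combination A.r2 * h2 + 5 * h3 - 5 * A.Dr κ A.V * h4 +
      (780 * A.ch * A.V - 39 * A.sh * (41 * A.E0 - A.Rs)) * h5 +
      (200 * A.G κ ^ 2 * A.V - 20 * A.G κ * (41 * A.E0 - A.Rs)) * hZ
  linear_combination A.r2 * key

end Frame

end Vale.Agent.P244.ST
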