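import Vale.Agent.P244.ST.Bridge
import Vale.Agent.P244.ST.M7Frame
import Vale.Agent.P244.ST.M7Chain

/-!
# P244-ST, block M7 : the `r`-gauge identities for the functions of Geo.lean

`0 < t < T`, `0 < x < 1`, hypothesis `0 < ρ_s`.
-/

set_option linter.all false

open Set Filter TopologicalSpace
open scoped ContDiff Topology

namespace Vale.Agent.P244.ST.M7

open Vale.Agent.P244.ST

noncomputable section

variable {w f : Fn} {T : ℝ}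

/-- `(0,T) × (0,1)` -/
def DomP (T : ℝ) : Opens (ℝ × ℝ) := ⟨Ioo 0 T ×ˢ Ioo 0 1, isOpen_Ioo.prod isOpen_Ioo⟩

lemma DomP_le : DomP T ≤ Dom T := fun _ hz => ⟨hz.1, by linarith only [hz, hz.2.1], hz.2.2⟩

lemma mem_DomP {t x : ℝ} : (t, x) ∈ DomP T ↔ t ∈ Ioo 0 T ∧ x ∈ Ioo (0 : ℝ) 1 := Iff.rfl

section

variable (hs : ConfSol 20 w f T) (hpos : ∀ t ∈ Ico 0 T, ∀ x ∈ Ioo (0 : ℝ) 1, 0 < rs w f t x)
include hs hpos

lemma rs_ne : ∀ z ∈ (DomP T : Set (ℝ × ℝ)), rs w f z.1 z.2 ≠ 0 :=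
  fun z hz => (hpos z.1 ⟨hz.1.1.le, hz.1.2⟩ z.2 hz.2).ne'

lemma sm_ki : Sm (DomP T : Set (ℝ × ℝ)) (fun t x => (rs w f t x)⁻¹) :=
  Sm.inv (sm_rs hs DomP_le) (rs_ne hs hpos)

lemma sm_Dr {H : Fn} (hH : Sm (DomP T : Set (ℝ × ℝ)) H) :
    Sm (DomP T : Set (ℝ × ℝ)) (Dr w f H) :=
  (sm_Ds hs DomP_le hH).div (sm_rs hs DomP_le) (rs_ne hs hpos)

lemma sm_Tr {H : Fn} (hH : Sm (DomP T : Set (ℝ × ℝ)) H) :
    Sm (DomP T : Set (ℝ × ℝ)) (Tr w f H) :=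
  (sm_DT hs DomP_le hH).sub ((sm_yy hs DomP_le).mul (sm_Dr hs hpos hH))

lemma sm_GG : Sm (DomP T : Set (ℝ × ℝ)) (GG w f) :=
  ((sm_PP hs DomP_le).div (sm_rs hs DomP_le) (rs_ne hs hpos)).neg

/-- the inverse of `ρ_s` -/
def ki : sO (DomP T) := mk (fun t x => (rs w f t x)⁻¹) (sm_ki hs hpos)

lemma ki_rs : ki hs hpos * (fr hs DomP_le).ρs = 1 := by
  rw [fr_ρs]
  refine sO_ext fun t x hz => ?_
  unfold ki
  rw [toFn_mul, toFn_mk _ hz, toFn_mk _ hz, toFn_one hz]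
  exact inv_mul_cancel₀ (rs_ne hs hpos _ hz)

lemma fr_Dr {H : Fn} (hH : Sm (DomP T : Set (ℝ × ℝ)) H) :
    (fr hs DomP_le).Dr (ki hs hpos) (mk H hH) = mk (Dr w f H) (sm_Dr hs hpos hH) := by
  rw [Frame.Dr, fr_Ds]
  refine sO_ext fun t x hz => ?_
  unfold ki
  rw [toFn_mul, toFn_mk _ hz, toFn_mk _ hz, toFn_mk _ hz]
  unfold Dr
  rw [div_eq_mul_inv, mul_comm]

lemma fr_Tr {H : Fn} (hH : Sm (DomP T : Set (ℝ × ℝ)) H) :
    (fr hs DomP_le).Tr (ki hs hpos) (mk H hH) = mk (Tr w f H) (sm_Tr hs hpos hH) := by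
  rw [Frame.Tr, fr_Dt, fr_yt, fr_Ds]
  refine sO_ext fun t x hz => ?_
  unfold ki
  rw [toFn_sub _ _ hz, toFn_mul, toFn_mul, toFn_mk _ hz, toFn_mk _ hz, toFn_mk _ hz, toFn_mk _ hz,
    toFn_mk _ hz]
  unfold Tr Dr
  rw [div_eq_mul_inv, mul_comm (Ds w H t x)]

lemma fr_G : (fr hs DomP_le).G (ki hs hpos) = mk (GG w f) (sm_GG hs hpos) := by
  rw [Frame.G, fr_P]
  refine sO_ext fun t x hz => ?_
  unfold ki
  rw [toFn_neg _ hz, toFn_mul, toFn_mk _ hz, toFn_mk _ hz, toFn_mk _ hz]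
  unfold GG
  rw [div_eq_mul_inv, mul_comm (PP w f t x)]

/-- `r² V` -/
def QQ (w f : Fn) : Fn := fun t x => (rr w f t x) ^ 2 * VV w f t x

omit hpos in
lemma sm_QQ : Sm (DomP T : Set (ℝ × ℝ)) (QQ w f) :=
  ((hs.sm_rr.le DomP_le).pow 2).mul (sm_VV hs DomP_le)

omit hpos in
lemma fr_QQ : (fr hs DomP_le).r2 * (fr hs DomP_le).V = mk (QQ w f) (sm_QQ hs) := by
  rw [fr_r2, fr_V]
  refine sO_ext fun t x hz => ?_
  rw [toFn_mul, toFn_mk _ hz, toFn_mk _ hz, toFn_mk _ hz]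
  rfl

variable {t x : ℝ} (ht : t ∈ Ioo 0 T) (hx : x ∈ Ioo (0 : ℝ) 1)
include ht hx

/-- `Dr u = -G` -/
lemma Dr_uu_eq : Dr w f (uu w f) t x = -(GG w f t x) := by
  unfold Dr GG PP; ring

/-- (E3) -/
theorem DrZ_geo : Dr w f (ZZ w f) t x = 39 * (Real.cosh (uu w f t x) - ZZ w f t x) -
    ZZ w f t x * GG w f t x ^ 2 / 4 - rr w f t x ^ 2 * RR w f t x / 40 := by
  have hz : (t, x) ∈ DomP T := mem_DomP.mpr ⟨ht, hx⟩
  have h := (fr hs DomP_le).E3 (ki_rs hs hpos)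
  rw [fr_Z, fr_Dr, fr_G, fr_R, fr_ch, fr_r2] at h
  have h2 := congrArg (fun k => toFn k t x) h
  simp only [toFn_mk _ hz, toFn_mul, toFn_add, toFn_sub _ _ hz, toFn_pow _ _ hz,
    toFn_ofNat _ hz] at h2
  linarith only [h2]

/-- equation of `p = Dr u` -/
theorem Tr_p_geo : rr w f t x ^ 2 * Tr w f (Dr w f (uu w f)) t x =
    ZZ w f t x * Dr w f (Dr w f (Dr w f (uu w f))) t x +
      (Dr w f (ZZ w f) t x + 39 * Real.cosh (uu w f t x) - 2 * ZZ w f t x) *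
        Dr w f (Dr w f (uu w f)) t x +
      39 * Real.sinh (uu w f t x) * (Dr w f (uu w f) t x ^ 2 - 4) := by
  have hz : (t, x) ∈ DomP T := mem_DomP.mpr ⟨ht, hx⟩
  have h := (fr hs DomP_le).Tr_p (ki_rs hs hpos)
  rw [fr_u, fr_Dr hs hpos, fr_Dr hs hpos, fr_Dr hs hpos, fr_Tr hs hpos, fr_Z, fr_Dr hs hpos, fr_ch,
    fr_sh, fr_r2] at h
  have h2 := congrArg (fun k => toFn k t x) h
  simp only [toFn_mk _ hz, toFn_mul, toFn_add, toFn_sub _ _ hz, toFn_pow _ _ hz,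
    toFn_ofNat _ hz] at h2
  exact h2

/-- `r² V` in the `r`-gauge -/
theorem QQ_geo : 2 * QQ w f t x = 2 * (ZZ w f t x * Dr w f (Dr w f (uu w f)) t x +
      39 * Real.cosh (uu w f t x) * Dr w f (uu w f) t x + 78 * Real.sinh (uu w f t x)) +
      (Dr w f (ZZ w f) t x + 78 * ZZ w f t x - 78 * Real.cosh (uu w f t x)) *
        Dr w f (uu w f) t x := by
  have hz : (t, x) ∈ DomP T := mem_DomP.mpr ⟨ht, hx⟩
  have h := (fr hs DomP_le).Q_eq (ki_rs hs hpos)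
  rw [fr_QQ, fr_u, fr_Dr hs hpos, fr_Dr hs hpos, fr_Z, fr_Dr hs hpos, fr_ch, fr_sh] at h
  have h2 := congrArg (fun k => toFn k t x) h
  simp only [toFn_mk _ hz, toFn_mul, toFn_add, toFn_sub _ _ hz, toFn_pow _ _ hz,
    toFn_ofNat _ hz] at h2
  exact h2

/-- the equation of `Q = r² V` -/
theorem Tr_QQ_geo : 10 * (rr w f t x ^ 2 * Tr w f (QQ w f) t x) =
    10 * (ZZ w f t x * Dr w f (Dr w f (QQ w f)) t x +
      (39 * Real.cosh (uu w f t x) - 4 * ZZ w f t x) * Dr w f (QQ w f) t x +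
      (4 * ZZ w f t x - 20 * ZZ w f t x * GG w f t x ^ 2 + 2 * (rr w f t x ^ 2 * E0 w f t x)) *
        QQ w f t x) +
      (20 * ZZ w f t x * GG w f t x - 39 * Real.sinh (uu w f t x)) *
        (rr w f t x ^ 2 * (41 * E0 w f t x - RR w f t x)) := by
  have hz : (t, x) ∈ DomP T := mem_DomP.mpr ⟨ht, hx⟩
  have h := (fr hs DomP_le).Tr_Q (ki_rs hs hpos)
  rw [fr_QQ, fr_Tr hs hpos, fr_Dr hs hpos, fr_Dr hs hpos, fr_Z, fr_G hs hpos, fr_ch, fr_sh, fr_r2,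
    fr_E0, fr_R] at h
  have h2 := congrArg (fun k => toFn k t x) h
  simp only [toFn_mk _ hz, toFn_mul, toFn_add, toFn_sub _ _ hz, toFn_pow _ _ hz,
    toFn_ofNat _ hz] at h2
  exact h2

end

end

end Vale.Agent.P244.ST.M7
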