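import Vale.Agent.P244.ST.M7Iface
import Vale.Agent.P244.ST.M7Inst
import Vale.Agent.P244.ST.M7B2

/-!
# P244-ST, block M7 : Bernstein 2 for the functions of Geo.lean
-/

set_option linter.all false

open Set Filter TopologicalSpace
open scoped ContDiff Topology

namespace Vale.Agent.P244.ST.M7

open Vale.Agent.P244.ST

noncomputable section

variable {w f : Fn} {T : ℝ}

/-! ### continuity up to `t = 0` -/

section cont

variable (hs : ConfSol 20 w f T)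
include hs

lemma strip_sub {a b : ℝ} (ha : -1 ≤ a) (hb : b ≤ 1) :
    Ico 0 T ×ˢ Ioo a b ⊆ Ico 0 T ×ˢ Icc (-1 : ℝ) 1 :=
  prod_mono subset_rfl (fun x hx => ⟨by linarith only [ha, hx, hx.1], by linarith only [hb, hx, hx.2]⟩)

lemma c_w : ContinuousOn (fun z : ℝ × ℝ => w z.1 z.2) (Ico 0 T ×ˢ Ioo (0 : ℝ) 1) :=
  (ContDiffOn.continuousOn hs.smooth_w).mono (strip_sub hs (by norm_num) le_rfl)

lemma c_f : ContinuousOn (fun z : ℝ × ℝ => f z.1 z.2) (Ico 0 T ×ˢ Ioo (0 : ℝ) 1) :=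
  (ContDiffOn.continuousOn hs.smooth_f).mono (strip_sub hs (by norm_num) le_rfl)

lemma c_w1 : ContinuousOn (fun z : ℝ × ℝ => dx (w z.1) z.2) (Ico 0 T ×ˢ Ioo (0 : ℝ) 1) :=
  (ContDiffOn.continuousOn (Apr.sm_dx (h := w) hs.smooth_w)).mono
    (strip_sub hs (by norm_num) le_rfl)

lemma c_f1 : ContinuousOn (fun z : ℝ × ℝ => dx (f z.1) z.2) (Ico 0 T ×ˢ Ioo (0 : ℝ) 1) :=
  (ContDiffOn.continuousOn (Apr.sm_dx (h := f) hs.smooth_f)).mono
    (strip_sub hs (by norm_num) le_rfl)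

lemma c_w2 : ContinuousOn (fun z : ℝ × ℝ => dx (dx (w z.1)) z.2) (Ico 0 T ×ˢ Ioo (0 : ℝ) 1) :=
  (ContDiffOn.continuousOn (Apr.sm_dx (h := fun t x => dx (w t) x)
    (Apr.sm_dx (h := w) hs.smooth_w))).mono (strip_sub hs (by norm_num) le_rfl)

lemma c_f2 : ContinuousOn (fun z : ℝ × ℝ => dx (dx (f z.1)) z.2) (Ico 0 T ×ˢ Ioo (0 : ℝ) 1) :=
  (ContDiffOn.continuousOn (Apr.sm_dx (h := fun t x => dx (f t) x)
    (Apr.sm_dx (h := f) hs.smooth_f))).mono (strip_sub hs (by norm_num) le_rfl)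

lemma ne_1x : ∀ z ∈ Ico 0 T ×ˢ Ioo (0 : ℝ) 1, (1 - z.2 ^ 2) ≠ 0 := fun z hz =>
  (one_sub_sq_pos ⟨by linarith only [hz, hz.2.1], hz.2.2⟩).ne'

lemma c_1x : ContinuousOn (fun z : ℝ × ℝ => 1 - z.2 ^ 2) (Ico 0 T ×ˢ Ioo (0 : ℝ) 1) := by
  fun_prop

lemma c_rhx : ContinuousOn (fun z : ℝ × ℝ => RG.rhx (w z.1) (f z.1) z.2)
    (Ico 0 T ×ˢ Ioo (0 : ℝ) 1) :=
  (((c_f1 hs).add (c_w1 hs)).sub (continuousOn_snd.div (c_1x hs) (ne_1x hs))).div_const 2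

lemma c_ux : ContinuousOn (fun z : ℝ × ℝ => RG.ux (w z.1) (f z.1) z.2)
    (Ico 0 T ×ˢ Ioo (0 : ℝ) 1) :=
  ((c_f1 hs).sub (c_w1 hs)).add (continuousOn_snd.div (c_1x hs) (ne_1x hs))

lemma c_uxx : ContinuousOn (fun z : ℝ × ℝ => dx (dx (f z.1)) z.2 - dx (dx (w z.1)) z.2 +
    (1 + z.2 ^ 2) / (1 - z.2 ^ 2) ^ 2) (Ico 0 T ×ˢ Ioo (0 : ℝ) 1) :=
  ((c_f2 hs).sub (c_w2 hs)).add (ContinuousOn.div (by fun_prop) ((c_1x hs).pow 2)
    (fun z hz => pow_ne_zero 2 (ne_1x hs z hz)))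

lemma c_rho : ContinuousOn (fun z : ℝ × ℝ => rho w f z.1 z.2) (Ico 0 T ×ˢ Ioo (0 : ℝ) 1) :=
  ((((c_f hs).add (c_w hs)).add (((c_1x hs).log (ne_1x hs)).div_const 2)).sub
    continuousOn_const).div_const 2

lemma c_rr : ContinuousOn (fun z : ℝ × ℝ => rr w f z.1 z.2) (Ico 0 T ×ˢ Ioo (0 : ℝ) 1) :=
  (c_rho hs).rexp

lemma VV_formula {t x : ℝ} (ht : t ∈ Ico 0 T) (hx : x ∈ Ioo (-1 : ℝ) 1) :
    VV w f t x = Real.exp (-2 * w t x) *
      (-x * RG.ux (w t) (f t) x - (1 - x ^ 2) * dx (w t) x * RG.ux (w t) (f t) x +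
        (1 - x ^ 2) * (dx (dx (f t)) x - dx (dx (w t)) x + (1 + x ^ 2) / (1 - x ^ 2) ^ 2)) +
      40 * ((1 - x ^ 2) * Real.exp (-2 * w t x)) * RG.rhx (w t) (f t) x * RG.ux (w t) (f t) x +
      19 * (Real.exp (-2 * w t x) / (1 - x ^ 2) - Real.exp (-2 * f t x)) := by
  have e2 := DsDs hs ht hx (H := uu w f) (fun y hy => uu1 hs ht hy) (ux1 hs ht hx)
  have e3 : Ds w (rho w f) t x = -(sx x * Real.exp (-w t x)) * RG.rhx (w t) (f t) x :=
    Ds_at hs (rho1 hs ht hx)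
  have e3' : Ds w (uu w f) t x = -(sx x * Real.exp (-w t x)) * RG.ux (w t) (f t) x :=
    Ds_at hs (uu1 hs ht hx)
  have e6 : Real.exp (-2 * w t x) = Real.exp (-w t x) ^ 2 := by
    rw [← Real.exp_nat_mul]; congr 1; push_cast; ring
  have e7 : 78 * Real.sinh (uu w f t x) / (rr w f t x) ^ 2 =
      19 * (Real.exp (-2 * w t x) / (1 - x ^ 2) - Real.exp (-2 * f t x)) := by
    rw [mul_div_assoc, sinh_r2 hx]; ring
  have hsq := sx_sq hx
  unfold VV Lp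
  rw [e2, e3, e3', e7]
  have e9 : 40 * (-(sx x * Real.exp (-w t x)) * RG.rhx (w t) (f t) x) *
      (-(sx x * Real.exp (-w t x)) * RG.ux (w t) (f t) x) =
      40 * ((1 - x ^ 2) * Real.exp (-2 * w t x)) * RG.rhx (w t) (f t) x * RG.ux (w t) (f t) x := by
    rw [e6, ← hsq]; ring
  rw [e9]

lemma c_VV : ContinuousOn (fun z : ℝ × ℝ => VV w f z.1 z.2) (Ico 0 T ×ˢ Ioo (0 : ℝ) 1) := by
  have h2w : ContinuousOn (fun z : ℝ × ℝ => Real.exp (-2 * w z.1 z.2))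
      (Ico 0 T ×ˢ Ioo (0 : ℝ) 1) := (continuousOn_const.mul (c_w hs)).rexp
  have h2f : ContinuousOn (fun z : ℝ × ℝ => Real.exp (-2 * f z.1 z.2))
      (Ico 0 T ×ˢ Ioo (0 : ℝ) 1) := (continuousOn_const.mul (c_f hs)).rexp
  have hx : ContinuousOn (fun z : ℝ × ℝ => -z.2) (Ico 0 T ×ˢ Ioo (0 : ℝ) 1) := by fun_prop
  have h1 := h2w.mul (((hx.mul (c_ux hs)).sub (((c_1x hs).mul (c_w1 hs)).mul (c_ux hs))).add
    ((c_1x hs).mul (c_uxx hs)))
  have h2 := ((continuousOn_const (c := (40 : ℝ)).mul ((c_1x hs).mul h2w)).mul (c_rhx hs)).mul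
    (c_ux hs)
  have h3 := continuousOn_const (c := (19 : ℝ)).mul ((h2w.div (c_1x hs) (ne_1x hs)).sub h2f)
  refine ContinuousOn.congr ((h1.add h2).add h3) ?_
  intro z hz
  exact VV_formula hs hz.1 ⟨by linarith only [hz, hz.2.1], hz.2.2⟩

lemma c_QQ : ContinuousOn (fun z : ℝ × ℝ => QQ w f z.1 z.2) (Ico 0 T ×ˢ Ioo (0 : ℝ) 1) :=
  ((c_rr hs).pow 2).mul (c_VV hs)

variable (hpos : ∀ t ∈ Ico 0 T, ∀ x ∈ Ioo (0 : ℝ) 1, 0 < rs w f t x)
include hpos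

lemma c_p : ContinuousOn (fun z : ℝ × ℝ => Dr w f (uu w f) z.1 z.2)
    (Ico 0 T ×ˢ Ioo (0 : ℝ) 1) := by
  refine ContinuousOn.congr ((c_ux hs).div (c_rhx hs)
    (fun z hz => (hneg hs hpos z.1 hz.1 z.2 hz.2).ne)) ?_
  intro z hz
  have hx : z.2 ∈ Ioo (-1 : ℝ) 1 := ⟨by linarith only [hz, hz.2.1], hz.2.2⟩
  show Dr w f (uu w f) z.1 z.2 = _
  rw [Dr_eq hs hpos hz.1 hz.2, Dx_rho hs hz.1 hx]
  have : Dx (uu w f) z.1 z.2 = RG.ux (w z.1) (f z.1) z.2 := (uu1 hs hz.1 hx).deriv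
  rw [this]
  rfl

/-- continuity of a composition with `X` -/
lemma c_comp {H : Fn} (hH : ContinuousOn (fun z : ℝ × ℝ => H z.1 z.2) (Ico 0 T ×ˢ Ioo (0 : ℝ) 1)) :
    ContinuousOn (fun q : ℝ × ℝ => H q.1 (RG.XX 20 w f q.1 q.2)) (RG.reg 20 w f (Ico 0 T)) := by
  have h1 : ContinuousOn (fun q : ℝ × ℝ => ((q.1, RG.XX 20 w f q.1 q.2) : ℝ × ℝ))
      (RG.reg 20 w f (Ico 0 T)) := continuousOn_fst.prodMk (RG.XX_cont hs (hneg hs hpos))
  have h2 : MapsTo (fun q : ℝ × ℝ => ((q.1, RG.XX 20 w f q.1 q.2) : ℝ × ℝ))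
      (RG.reg 20 w f (Ico 0 T)) (Ico 0 T ×ˢ Ioo (0 : ℝ) 1) :=
    fun q hq => ⟨hq.1, (RG.XX_spec hs hq).1⟩
  exact ContinuousOn.comp (g := fun z : ℝ × ℝ => H z.1 z.2) hH h1 h2

end cont

/-! ### amplitude -/

lemma isAmp_A {q : Par} (he : 0 < q.eps) : IsAmp q.A (lam 3) where
  l0 := by rw [lam3_eq]; linarith only [kap_lt']
  l2 := by rw [lam3_eq]; linarith only [kap_gt']
  pos := fun t ht => mul_pos he (Real.rpow_pos_of_pos (by unfold tau; linarith only [ht]) _)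
  der := by
    intro t ht
    have h0 : (0 : ℝ) < 1 - t := by linarith only [ht]
    have h1 : HasDerivAt (fun s : ℝ => 1 - s) (-1) t := by
      simpa using (hasDerivAt_id t).const_sub 1
    have h2 := (h1.rpow_const (p := lam 3) (Or.inl h0.ne')).const_mul q.eps
    refine HasDerivAt.congr_deriv h2 ?_
    unfold Par.A tau
    rw [Real.rpow_sub_one h0.ne']
    field_simp

/-! ### elementary bounds -/

lemma b2_sinh {u : ℝ} (hu : |u| ≤ 1 / 1000) : |Real.sinh u| ≤ 1.1 * |u| ∧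
    |Real.cosh u - 1| ≤ 1 / 1000 ∧ Real.cosh u ≤ 1.1 := by
  have h1 : |Real.exp u - 1 - u| ≤ u ^ 2 := Real.abs_exp_sub_one_sub_id_le (by linarith only [hu])
  have h2 : |Real.exp (-u) - 1 - -u| ≤ (-u) ^ 2 :=
    Real.abs_exp_sub_one_sub_id_le (by rw [abs_neg]; linarith only [hu])
  have h3 : u ^ 2 ≤ 1 / 1000 * |u| := by
    rw [← sq_abs, sq]; exact mul_le_mul_of_nonneg_right hu (abs_nonneg _)
  have h4 := abs_nonneg u
  have h5 : |Real.sinh u - u| ≤ u ^ 2 := by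
    rw [Real.sinh_eq]
    rw [abs_le] at *
    constructor <;> nlinarith only [h1, h2, h1.1, h1.2, h2.1, h2.2]
  have h6 : |Real.cosh u - 1| ≤ u ^ 2 := by
    rw [Real.cosh_eq]
    rw [abs_le] at *
    constructor <;> nlinarith only [h1, h2, h1.1, h1.2, h2.1, h2.2]
  refine ⟨?_, ?_, ?_⟩
  · have := abs_add_le (Real.sinh u - u) u
    rw [sub_add_cancel] at this
    linarith only [h3, h4, h5, this]
  · linarith only [hu, h3, h6]
  · linarith only [hu, h3, h6, (abs_le.1 h6).2]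

/-- the bounds needed by `bern2`, at a point -/
lemma b2_pt {u G Z r2R r2E D A : ℝ} (hD : 1 ≤ D) (hA : 0 ≤ A)
    (hu : |u| ≤ 1 / 1000) (hG : |G| ≤ 1 / 1000) (hZ : |Z - 1| ≤ 1 / 1000)
    (hR : |r2R| ≤ 1 / 1000) (hE : |r2E| ≤ 1 / 1000) (hu' : |u| ≤ D * A) (hG' : |G| ≤ D * A) :
    |Z - 1| ≤ 1 / 10 ∧
    |39 * (Real.cosh u - Z) - Z * G ^ 2 / 4 - r2R / 40| ≤ 1 ∧
    |39 * Real.cosh u - 39| ≤ 1 ∧
    |4 * Z - 20 * Z * G ^ 2 + 2 * r2E| ≤ 7 ∧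
    |(20 * Z * G - 39 * Real.sinh u) * (41 * r2E - r2R) / 10| ≤ 400 * D * A ∧
    |39 * Real.sinh u * ((-G) ^ 2 - 4)| ≤ 400 * D * A ∧
    |39 * Real.cosh u * (-G) + 78 * Real.sinh u + (39 * (Real.cosh u - Z) - Z * G ^ 2 / 4 -
      r2R / 40 + 78 * Z - 78 * Real.cosh u) * (-G) / 2| ≤ 400 * D * A ∧
    |(-G)| ≤ 400 * D * A := by
  obtain ⟨s1, c1, c2⟩ := b2_sinh hu
  have c0 := Real.one_le_cosh u
  have hDA : 0 ≤ D * A := by positivity
  have hZ2 := abs_le.1 hZ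
  have hZ0 : 0 ≤ Z := by linarith only [hZ2, hZ2.1]
  have hG2 : G ^ 2 ≤ 1 / 1000 := by
    rw [← sq_abs]; nlinarith only [hG, abs_nonneg G]
  have hG20 := sq_nonneg G
  have hZG : 0 ≤ Z * G ^ 2 := by positivity
  have hZG2 : Z * G ^ 2 ≤ 1 / 500 := by nlinarith only [hZ2, hG2]
  obtain ⟨c1a, c1b⟩ := abs_le.1 c1
  obtain ⟨r1, r2⟩ := abs_le.1 hR
  obtain ⟨e1, e2⟩ := abs_le.1 hE
  have hs : |Real.sinh u| ≤ 1.1 * (D * A) := by linarith only [hu', s1]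
  have z1 : |39 * (Real.cosh u - Z) - Z * G ^ 2 / 4 - r2R / 40| ≤ 1 := by
    rw [abs_le]; constructor <;> linarith only [c0, hZ2, hZG2, r2, hZG, c1b, r1]
  refine ⟨by linarith only [hZ], z1, ?_, ?_, ?_, ?_, ?_, ?_⟩
  · rw [abs_le]; constructor <;> linarith only [c0, c1b]
  · rw [abs_le]; constructor <;> linarith only [hZ2, hZG2, e1, hZG, e2]
  · have a1 : |20 * Z * G - 39 * Real.sinh u| ≤ 70 * (D * A) := by
      have b1 : |20 * Z * G| ≤ 21 * (D * A) := by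
        rw [abs_mul, abs_of_nonneg (by positivity : 0 ≤ 20 * Z)]
        exact mul_le_mul (by linarith only [hZ2]) hG' (abs_nonneg _) (by norm_num)
      have b2 : |39 * Real.sinh u| ≤ 43 * (D * A) := by
        rw [abs_mul, abs_of_nonneg (by norm_num : (0:ℝ) ≤ 39)]; linarith only [hu', s1, hDA]
      have := abs_sub (20 * Z * G) (39 * Real.sinh u)
      linarith only [hDA, b1, b2, this]
    have a2 : |41 * r2E - r2R| ≤ 1 := by rw [abs_le]; constructor <;> linarith only [r2, e1, r1, e2]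
    rw [abs_div, abs_mul, abs_of_pos (by norm_num : (0:ℝ) < 10), div_le_iff₀ (by norm_num)]
    have a3 := mul_le_mul a1 a2 (abs_nonneg _) (by positivity)
    linarith only [hDA, a3]
  · have a2 : |(-G) ^ 2 - 4| ≤ 4 := by
      rw [neg_sq, abs_le]; constructor <;> linarith only [hG20, hG2]
    rw [abs_mul, abs_mul, abs_of_nonneg (by norm_num : (0:ℝ) ≤ 39)]
    have a3 := mul_le_mul (by linarith only [hu', s1, hDA] : 39 * |Real.sinh u| ≤ 43 * (D * A)) a2 (abs_nonneg _)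
      (by positivity)
    linarith only [hDA, a3]
  · have b1 : |39 * Real.cosh u * (-G)| ≤ 43 * (D * A) := by
      rw [abs_mul, abs_neg, abs_of_nonneg (by positivity : 0 ≤ 39 * Real.cosh u)]
      exact mul_le_mul (by linarith only [c1b]) hG' (abs_nonneg _) (by norm_num)
    have b2 : |78 * Real.sinh u| ≤ 86 * (D * A) := by
      rw [abs_mul, abs_of_nonneg (by norm_num : (0:ℝ) ≤ 78)]; linarith only [hu', s1, hDA]
    have b3 : |(39 * (Real.cosh u - Z) - Z * G ^ 2 / 4 - r2R / 40 + 78 * Z -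
        78 * Real.cosh u) * (-G) / 2| ≤ 2 * (D * A) := by
      have d1 : |39 * (Real.cosh u - Z) - Z * G ^ 2 / 4 - r2R / 40 + 78 * Z -
        78 * Real.cosh u| ≤ 2 := by
        obtain ⟨z1a, z1b⟩ := abs_le.1 z1
        rw [abs_le]; constructor <;> linarith only [hZ2, hZG2, c1b, r2, c0, hZG, r1]
      rw [abs_div, abs_mul, abs_neg, abs_of_pos (by norm_num : (0:ℝ) < 2),
        div_le_iff₀ (by norm_num)]
      have d2 := mul_le_mul d1 hG' (abs_nonneg _) (by norm_num)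
      linarith only [hDA, d2]
    have := abs_add_three (39 * Real.cosh u * (-G)) (78 * Real.sinh u)
      ((39 * (Real.cosh u - Z) - Z * G ^ 2 / 4 - r2R / 40 + 78 * Z -
        78 * Real.cosh u) * (-G) / 2)
    linarith only [hDA, b1, b2, b3, this]
  · rw [abs_neg]; linarith only [hG', hDA]

/-! ### the window and the region -/

lemma Win.fst_mem {y₀ y₁ t₁ : ℝ} {z : ℝ × ℝ} (hz : z ∈ Win y₀ y₁ t₁) : z.1 ∈ Icc 0 t₁ := hz.1


section win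

variable {q : Par} {g : ℝ → ℝ} {t₁ : ℝ}

lemma exp_lt_rr {y₀ y₁ : ℝ} (hN : 2000 ≤ q.N) (hy₁0 : 0 < y₁) (hy₁ : y₁ ≤ 200)
    (hb0 : ∀ t ∈ Icc 0 t₁, q.N / 4 ≤ rr w f t 0)
    {z : ℝ × ℝ} (hz : z ∈ Win y₀ y₁ t₁) : z.2 < rho w f z.1 0 := by
  have h1 := hb0 z.1 hz.1
  have h2 : Real.sqrt (1 - z.1) ≤ 1 := Real.sqrt_le_one.2 (by linarith only [hz, hz.1.1])
  have h3 : Real.exp z.2 ≤ 200 := by
    refine hz.2.2.trans ?_
    calc y₁ * Real.sqrt (1 - z.1) ≤ y₁ * 1 := mul_le_mul_of_nonneg_left h2 hy₁0.le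
      _ ≤ 200 := by linarith only [hy₁]
  have h4 : Real.exp z.2 < Real.exp (rho w f z.1 0) := by
    have : rr w f z.1 0 = Real.exp (rho w f z.1 0) := rfl
    rw [← this]; linarith only [hN, h1, h3]
  exact Real.exp_lt_exp.1 h4

/-- MAIN POINT: `bern2` applied to a history. -/
theorem b2_core {q : Par} {g : ℝ → ℝ} {b : Fin 3 → ℝ} {T t₁ y₀ y₁ D : ℝ}
    (hH : M.Hist q g w f T t₁) (hI : InitOK q g b w f) (he : 0 < q.eps) (hBV : 0 ≤ q.BV)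
    (hN : 2000 ≤ q.N) (hρ : 0 < q.rho0) (hD : 1 ≤ D)
    (hy₀ : q.rho0 / 8 ≤ y₀) (hy : y₀ < y₁) (hy₁ : y₁ ≤ 200)
    (hb : ∀ t ∈ Icc 0 t₁, ∀ x ∈ Ioo (0 : ℝ) 1, y₀ ≤ yv w f t x → yv w f t x ≤ y₁ →
      |uu w f t x| ≤ 1 / 1000 ∧ |GG w f t x| ≤ 1 / 1000 ∧ |ZZ w f t x - 1| ≤ 1 / 1000 ∧
      |(rr w f t x) ^ 2 * RR w f t x| ≤ 1 / 1000 ∧ |(rr w f t x) ^ 2 * E0 w f t x| ≤ 1 / 1000 ∧
      |uu w f t x| ≤ D * q.A t ∧ |GG w f t x| ≤ D * q.A t) :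
    ∀ t ∈ Icc 0 t₁, ∀ x ∈ Ioo (0 : ℝ) 1, y₀ ≤ yv w f t x → yv w f t x ≤ y₁ →
      |(yv w f t x ^ 2 - y₀ ^ 2) * (y₁ ^ 2 - yv w f t x ^ 2)| * |QQ w f t x| ≤
        (y₁ ^ 4 * (y₁ ^ 2 * (q.BV / 2)) + 100 * Kw y₁ ^ 2 * (400 * D)) * q.A t := by
  have hs := hH.sol
  have hpos := hH.qual.rs_pos
  have hT1 := hH.T_le
  have ht₁ : t₁ < 1 := by linarith only [hH, hT1, hH.mem.2]
  have hy₀0 : 0 < y₀ := by linarith only [hρ, hy₀]
  have hy₁0 : 0 < y₁ := by linarith only [hy, hy₀0]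
  set X := RG.XX 20 w f with hX
  have hsub : Win y₀ y₁ t₁ ⊆ RG.reg 20 w f (Ico 0 T) := by
    intro z hz
    refine ⟨⟨hz.1.1, lt_of_le_of_lt hz.1.2 hH.mem.2⟩, ?_⟩
    show z.2 < RG.rh 20 (w z.1) (f z.1) 0
    rw [rh_eq0]
    exact exp_lt_rr hN hy₁0 hy₁ hH.boot.b0 hz
  have hsub' : ∀ z ∈ Win y₀ y₁ t₁, 0 < z.1 → z ∈ RG.reg 20 w f (Ioo 0 T) :=
    fun z hz h => ⟨⟨h, (hsub hz).1.2⟩, (hsub hz).2⟩
  have hXm : ∀ z ∈ Win y₀ y₁ t₁, X z.1 z.2 ∈ Ioo (0 : ℝ) 1 ∧ rho w f z.1 (X z.1 z.2) = z.2 :=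
    fun z hz => X_spec hs hpos (hsub hz)
  have hrr : ∀ z ∈ Win y₀ y₁ t₁, rr w f z.1 (X z.1 z.2) = Real.exp z.2 := fun z hz => by
    unfold rr; rw [(hXm z hz).2]
  have hyv : ∀ z ∈ Win y₀ y₁ t₁, y₀ ≤ yv w f z.1 (X z.1 z.2) ∧ yv w f z.1 (X z.1 z.2) ≤ y₁ := by
    intro z hz
    have hsq : 0 < Real.sqrt (1 - z.1) := Real.sqrt_pos.2 (by linarith only [ht₁, hz, hz.1.2])
    unfold yv tau
    rw [hrr z hz]
    exact ⟨(le_div_iff₀ hsq).2 hz.2.1, (div_le_iff₀ hsq).2 hz.2.2⟩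
  have hzb := fun z hz => hb z.1 (Win.fst_mem hz) (X z.1 z.2) (hXm z hz).1 (hyv z hz).1 (hyv z hz).2
  have hA0 : ∀ z ∈ Win y₀ y₁ t₁, 0 ≤ q.A z.1 := fun z hz =>
    ((isAmp_A he).pos z.1 (by linarith only [ht₁, hz, hz.1.2])).le
  have hpt := fun z hz => b2_pt hD (hA0 z hz) (hzb z hz).1 (hzb z hz).2.1 (hzb z hz).2.2.1
    (hzb z hz).2.2.2.1 (hzb z hz).2.2.2.2.1 (hzb z hz).2.2.2.2.2.1 (hzb z hz).2.2.2.2.2.2
  have hmem : ∀ z ∈ Win y₀ y₁ t₁, 0 < z.1 → (z.1, X z.1 z.2) ∈ (DomP T : Set (ℝ × ℝ)) :=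
    fun z hz h => ⟨(hsub' z hz h).1, (hXm z hz).1⟩
  have smu := (hs.sm_uu.le (DomP_le (T := T)))
  have sm1 := sm_Dr hs hpos smu
  have sm2 := sm_Dr hs hpos sm1
  have smQ := sm_QQ hs
  have smQ1 := sm_Dr hs hpos smQ
  have er : ∀ z ∈ Win y₀ y₁ t₁, Real.exp (-2 * z.2) * rr w f z.1 (X z.1 z.2) ^ 2 = 1 := by
    intro z hz
    rw [hrr z hz, ← Real.exp_nat_mul, ← Real.exp_add]; simp
  have main := bern2 (y₀ := y₀) (y₁ := y₁) (t₁ := t₁) (M := 400 * D) (M₀ := y₁ ^ 2 * (q.BV / 2))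
    (l := lam 3) (A := q.A) (isAmp_A he) hy₀0 hy ht₁ (by positivity) (by positivity)
    (p := fun t ρ => Dr w f (uu w f) t (X t ρ))
    (p1 := fun t ρ => Dr w f (Dr w f (uu w f)) t (X t ρ))
    (p2 := fun t ρ => Dr w f (Dr w f (Dr w f (uu w f))) t (X t ρ))
    (Q := fun t ρ => QQ w f t (X t ρ))
    (Q1 := fun t ρ => Dr w f (QQ w f) t (X t ρ))
    (Q2 := fun t ρ => Dr w f (Dr w f (QQ w f)) t (X t ρ))
    (Z := fun t ρ => ZZ w f t (X t ρ))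
    (Z1 := fun t ρ => 39 * (Real.cosh (uu w f t (X t ρ)) - ZZ w f t (X t ρ)) -
      ZZ w f t (X t ρ) * GG w f t (X t ρ) ^ 2 / 4 -
        rr w f t (X t ρ) ^ 2 * RR w f t (X t ρ) / 40)
    (c := fun t ρ => 39 * Real.cosh (uu w f t (X t ρ)))
    (k := fun t ρ => 4 * ZZ w f t (X t ρ) - 20 * ZZ w f t (X t ρ) * GG w f t (X t ρ) ^ 2 +
      2 * (rr w f t (X t ρ) ^ 2 * E0 w f t (X t ρ)))
    (f := fun t ρ => (20 * ZZ w f t (X t ρ) * GG w f t (X t ρ) -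
      39 * Real.sinh (uu w f t (X t ρ))) * (41 * (rr w f t (X t ρ) ^ 2 * E0 w f t (X t ρ)) -
        rr w f t (X t ρ) ^ 2 * RR w f t (X t ρ)) / 10)
    (h := fun t ρ => 39 * Real.sinh (uu w f t (X t ρ)) * ((-(GG w f t (X t ρ))) ^ 2 - 4))
    (e := fun t ρ => 39 * Real.cosh (uu w f t (X t ρ)) * (-(GG w f t (X t ρ))) +
      78 * Real.sinh (uu w f t (X t ρ)) +
      (39 * (Real.cosh (uu w f t (X t ρ)) - ZZ w f t (X t ρ)) -
      ZZ w f t (X t ρ) * GG w f t (X t ρ) ^ 2 / 4 -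
        rr w f t (X t ρ) ^ 2 * RR w f t (X t ρ) / 40 + 78 * ZZ w f t (X t ρ) -
        78 * Real.cosh (uu w f t (X t ρ))) * (-(GG w f t (X t ρ))) / 2)
    ((c_comp hs hpos (c_p hs hpos)).mono hsub) ((c_comp hs hpos (c_QQ hs)).mono hsub)
    (fun z hz h => chain_rho hs hpos (hsub hz)
      ((sm1.at_x (DomP T).isOpen (hmem z hz h)).differentiableAt (by simp)))
    (fun z hz h => chain_rho hs hpos (hsub hz)
      ((sm2.at_x (DomP T).isOpen (hmem z hz h)).differentiableAt (by simp)))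
    (fun z hz h => chain_rho hs hpos (hsub hz)
      ((smQ.at_x (DomP T).isOpen (hmem z hz h)).differentiableAt (by simp)))
    (fun z hz h => chain_rho hs hpos (hsub hz)
      ((smQ1.at_x (DomP T).isOpen (hmem z hz h)).differentiableAt (by simp)))
    ?_ ?_ ?_ (fun z hz => (hpt z hz).1) (fun z hz => (hpt z hz).2.1)
    (fun z hz => (hpt z hz).2.2.1) (fun z hz => (hpt z hz).2.2.2.1)
    (fun z hz => (hpt z hz).2.2.2.2.1) (fun z hz => (hpt z hz).2.2.2.2.2.1)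
    (fun z hz => (hpt z hz).2.2.2.2.2.2.1) ?_ ?_
  · -- conclusion
    intro t ht x hx h0 h1
    have hTt : t ∈ Ico 0 T := ⟨ht.1, lt_of_le_of_lt ht.2 hH.mem.2⟩
    have htt : t < 1 := by linarith only [ht₁, ht, ht.2]
    have hsq : 0 < Real.sqrt (1 - t) := Real.sqrt_pos.2 (by linarith only [htt])
    have hz : (t, rho w f t x) ∈ Win y₀ y₁ t₁ := by
      have e : yv w f t x = Real.exp (rho w f t x) / Real.sqrt (1 - t) := rfl
      rw [e] at h0 h1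
      exact ⟨ht, (le_div_iff₀ hsq).1 h0, (div_le_iff₀ hsq).1 h1⟩
    have hXx : X t (rho w f t x) = x := by
      have := (RG.XX_inv hs (hneg hs hpos) hTt hx).2
      rw [rh_eq0] at this
      exact this
    have h3 := main _ hz
    simp only [hXx] at h3
    have hzw : zw y₀ y₁ t (rho w f t x) =
        (yv w f t x ^ 2 - y₀ ^ 2) * (y₁ ^ 2 - yv w f t x ^ 2) := by
      have e : yv w f t x ^ 2 = Yw t (rho w f t x) := by
        unfold yv Yw rr tau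
        rw [div_pow, Real.sq_sqrt (by linarith only [htt]), ← Real.exp_nat_mul]
        norm_num
      unfold zw
      rw [e]
    rw [hzw] at h3
    exact h3
  · -- equation of p
    intro z hz h
    have hd := chain_t hs hpos (hsub' z hz h) (H := Dr w f (uu w f))
      ((sm1.at (DomP T).isOpen (hmem z hz h)).differentiableAt (by simp))
    refine hd.congr_deriv ?_
    have h1 := Tr_p_geo hs hpos (hsub' z hz h).1 (hXm z hz).1
    have h2 := DrZ_geo hs hpos (hsub' z hz h).1 (hXm z hz).1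
    have h4 := Dr_uu_eq hs hpos (hsub' z hz h).1 (hXm z hz).1
    have h5 := er z hz
    beta_reduce
    rw [← h2, ← h4]
    linear_combination Real.exp (-2 * z.2) * h1 -
      Tr w f (Dr w f (uu w f)) z.1 (X z.1 z.2) * h5
  · -- equation of Q
    intro z hz h
    have hd := chain_t hs hpos (hsub' z hz h) (H := QQ w f)
      ((smQ.at (DomP T).isOpen (hmem z hz h)).differentiableAt (by simp))
    refine hd.congr_deriv ?_
    have h1 := Tr_QQ_geo hs hpos (hsub' z hz h).1 (hXm z hz).1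
    have h5 := er z hz
    beta_reduce
    linear_combination (1 / 10) * Real.exp (-2 * z.2) * h1 -
      Tr w f (QQ w f) z.1 (X z.1 z.2) * h5
  · -- Q = Z p1 + e
    intro z hz h
    have h1 := QQ_geo hs hpos (hsub' z hz h).1 (hXm z hz).1
    have h2 := DrZ_geo hs hpos (hsub' z hz h).1 (hXm z hz).1
    have h4 := Dr_uu_eq hs hpos (hsub' z hz h).1 (hXm z hz).1
    beta_reduce
    rw [← h2, ← h4]
    linear_combination (1 / 2) * h1
  · -- bound of p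
    intro z hz
    have h1 : Dr w f (uu w f) z.1 (X z.1 z.2) = -(GG w f z.1 (X z.1 z.2)) := by
      unfold Dr GG PP; ring
    beta_reduce
    rw [h1]
    exact (hpt z hz).2.2.2.2.2.2.2
  · -- t = 0
    intro z hz h0
    have hy2 := hyv z hz
    have hA : q.A z.1 = q.eps := by
      rw [h0]; unfold Par.A tau; simp
    have e : yv w f z.1 (X z.1 z.2) = rr w f 0 (X 0 z.2) := by
      rw [h0]; unfold yv tau; simp
    rw [e] at hy2
    have hX0 : X 0 z.2 ∈ Ioo (0 : ℝ) 1 := by have := (hXm z hz).1; rwa [h0] at this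
    have h1 := hI.bound_V (X 0 z.2) hX0 (by linarith only [hy₀, hy₀0, hy2]) (by linarith only [hy₁, hy2])
    beta_reduce
    rw [hA, h0]
    unfold QQ
    rw [abs_mul, abs_of_nonneg (sq_nonneg (rr w f 0 (X 0 z.2)))]
    have hr0 : 0 ≤ rr w f 0 (X 0 z.2) := (Real.exp_pos _).le
    have h2 := mul_le_mul (pow_le_pow_left₀ hr0 hy2.2 2) h1 (abs_nonneg _) (sq_nonneg y₁)
    linarith only [h2]

end win

end

end Vale.Agent.P244.ST.M7
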