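import Vale.Agent.P244.ST.M7B2Core

/-!
# P244-ST, block M7 : the output of Bernstein 2
-/

set_option linter.all false

open Set Filter TopologicalSpace
open scoped ContDiff Topology

namespace Vale.Agent.P244.ST.M7

open Vale.Agent.P244.ST

noncomputable section

lemma exists_CF : ∃ CF : ℝ → ℝ, (∀ r, 0 ≤ CF r) ∧ ∀ r, 0 < r → ∀ eps ≥ (0 : ℝ), ∀ j ≤ 3,
    ∀ t₁ < (1 : ℝ), ∀ q ∈ Win (r / 8) 200 t₁,
      |Fj eps j q.1 q.2| ≤ CF r * (eps * (tau q.1) ^ (lam 3)) := by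
  have hF : ∀ r : ℝ, ∃ C : ℝ, 0 ≤ C ∧ (0 < r → ∀ eps ≥ (0 : ℝ), ∀ j ≤ 3, ∀ t₁ < (1 : ℝ),
      ∀ q ∈ Win (r / 8) 200 t₁, |Fj eps j q.1 q.2| ≤ C * (eps * (tau q.1) ^ (lam 3))) := by
    intro r
    by_cases hr : 0 < r
    · obtain ⟨C, hC, h⟩ := exists_Fj_bound (r / 8) 200 (by positivity)
      exact ⟨C, hC, fun _ => h⟩
    · exact ⟨0, le_rfl, fun h => absurd h hr⟩
  choose CF hCF0 hCF using hF
  exact ⟨CF, hCF0, hCF⟩

/-- elementary: the weight on the two windows -/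
lemma wt1 {r V K : ℝ} (hr : 0 < r)
    (h : |(r ^ 2 - (r / 8) ^ 2) * ((8 * r) ^ 2 - r ^ 2)| * (r ^ 2 * V) ≤ K) :
    62 * r ^ 6 * V ≤ K ∨ V < 0 := by
  by_cases hV : V < 0
  · exact Or.inr hV
  · left
    push Not at hV
    have e : (r ^ 2 - (r / 8) ^ 2) * ((8 * r) ^ 2 - r ^ 2) = 3969 / 64 * r ^ 4 := by ring
    rw [e, abs_of_nonneg (by positivity)] at h
    have h6 : 0 ≤ r ^ 6 * V := by positivity
    nlinarith only [h, h6]

theorem b2Out (hw : WinIn) (h1 : B1Out) : B2Out := by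
  obtain ⟨C1, hC1, h1⟩ := h1
  obtain ⟨CF, hCF0, hCF⟩ := exists_CF
  set D : ℝ → ℝ := fun r => CF r + |C1 r| + 1 with hDdef
  have hD : ∀ r, 1 ≤ D r := fun r => by
    simp only [hDdef]; linarith only [hCF0, hCF0 r, abs_nonneg (C1 r)]
  refine ⟨fun r => 40000 * Kw (8 * r) ^ 2 * D r / (62 * r ^ 6) +
    (200 ^ 6 + 40000 * Kw 200 ^ 2 * D r) / (15000 * r ^ 4) + 1, ?_, ?_⟩
  · intro r hr
    have := hD r
    have h0 : 0 < D r := by linarith only [this]
    positivity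
  intro g hg
  refine (((hw g hg).and (h1 g hg)).and (ev_P7 (r₁ := 1) one_pos (fun _ => 1 / 1000) (fun _ => 0)
    (fun _ => 0) (fun _ => 0) (fun _ _ => 0) (fun _ _ => by norm_num))).mono ?_
  rintro q ⟨⟨k1, k2⟩, hp⟩ b w f T t₁ hH hI t ht x hx
  have hr0 := hp.rho0
  have hr1 := hp.rho0_le
  have ht₁1 : t₁ < 1 := by linarith only [hH, hH.mem.2, hH.T_le]
  have hBV : 0 ≤ q.BV := by linarith only [hp, hp.BV1]
  have hDr := hD q.rho0
  have hD0 : 0 < D q.rho0 := by linarith only [hDr]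
  have hsg : Real.sqrt q.sg ≤ 1 := Real.sqrt_le_one.2 (by linarith only [hp, hp.sg_le])
  have hsg1 : q.sg ≤ 1 / 1000 := hp.sg_le
  -- the bounds on the large window
  have hb : ∀ t ∈ Icc 0 t₁, ∀ x ∈ Ioo (0 : ℝ) 1, q.rho0 / 8 ≤ yv w f t x → yv w f t x ≤ 200 →
      |uu w f t x| ≤ 1 / 1000 ∧ |GG w f t x| ≤ 1 / 1000 ∧ |ZZ w f t x - 1| ≤ 1 / 1000 ∧
      |(rr w f t x) ^ 2 * RR w f t x| ≤ 1 / 1000 ∧ |(rr w f t x) ^ 2 * E0 w f t x| ≤ 1 / 1000 ∧
      |uu w f t x| ≤ D q.rho0 * q.A t ∧ |GG w f t x| ≤ D q.rho0 * q.A t := by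
    intro t ht x hx hy0 hy1
    obtain ⟨a1, a2, a3, a4, a5⟩ := k1 b w f T t₁ hH hI t ht x hx (by linarith only [hr0, hy0]) (by linarith only [hy1])
    have a6 := k2 b w f T t₁ hH hI t ht x hx hy0 hy1
    have htt : t < 1 := by linarith only [ht₁1, ht, ht.2]
    have hsq : 0 < Real.sqrt (1 - t) := Real.sqrt_pos.2 (by linarith only [htt])
    have hA : 0 < q.A t := (isAmp_A hp.eps).pos t htt
    have hz : (t, rho w f t x) ∈ Win (q.rho0 / 8) 200 t₁ := by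
      have e : yv w f t x = Real.exp (rho w f t x) / Real.sqrt (1 - t) := rfl
      rw [e] at hy0 hy1
      exact ⟨ht, (le_div_iff₀ hsq).1 hy0, (div_le_iff₀ hsq).1 hy1⟩
    have c0 := hCF q.rho0 hr0 q.eps hp.eps.le 0 (by norm_num) t₁ ht₁1 _ hz
    have c1 := hCF q.rho0 hr0 q.eps hp.eps.le 1 (by norm_num) t₁ ht₁1 _ hz
    have c7 : q.eps * tau t ^ lam 3 = q.A t := rfl
    simp only [c7] at c0 c1
    have c3 : Fj q.eps 0 t (rho w f t x) = q.A t * ph 3 (yv w f t x) := by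
      rw [Fj_zero q.eps htt]
      unfold Ph Par.A yv rr
      ring
    rw [c3] at c0
    have c4 := hH.close t ht x ⟨hx.1.le, hx.2⟩ (by linarith only [hr0, hy0]) (by linarith only [hy1])
    have c5 : Real.sqrt q.sg * q.A t ≤ 1 * q.A t := mul_le_mul_of_nonneg_right hsg hA.le
    have c6 : C1 q.rho0 * Real.sqrt q.sg * q.A t ≤ |C1 q.rho0| * 1 * q.A t :=
      mul_le_mul_of_nonneg_right (mul_le_mul (le_abs_self _) hsg (Real.sqrt_nonneg _)
        (abs_nonneg _)) hA.le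
    refine ⟨by linarith only [hsg1, a1], by linarith only [hsg1, a2], by linarith only [hsg1, a3], by linarith only [hsg1, a4], by linarith only [hsg1, a5], ?_, ?_⟩
    · have d1 := abs_add_le (uu w f t x - q.A t * ph 3 (yv w f t x)) (q.A t * ph 3 (yv w f t x))
      rw [sub_add_cancel] at d1
      have d2 : 0 ≤ |C1 q.rho0| * q.A t := by positivity
      simp only [hDdef]
      linarith only [c0, c4, c5, d1, d2]
    · have d1 := abs_sub (GG w f t x + Fj q.eps 1 t (rho w f t x)) (Fj q.eps 1 t (rho w f t x))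
      rw [add_sub_cancel_right] at d1
      simp only [hDdef]
      linarith only [a6, hA, c1, c6, d1]
  have htt : t < 1 := by linarith only [ht, ht₁1, ht.2]
  have hτ : 0 < tau t := by unfold tau; linarith
  have hA : 0 < q.A t := (isAmp_A hp.eps).pos t htt
  have hyr : rr w f t x ^ 2 = yv w f t x ^ 2 * tau t := by
    unfold yv
    rw [div_pow, Real.sq_sqrt hτ.le]
    field_simp
  have hQ : |QQ w f t x| = yv w f t x ^ 2 * (tau t * |VV w f t x|) := by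
    unfold QQ
    rw [abs_mul, hyr, abs_of_nonneg (by positivity)]
    ring
  constructor
  · intro hy
    have m := b2_core (y₀ := q.rho0 / 8) (y₁ := 8 * q.rho0) hH hI hp.eps hBV hp.N hr0 hDr le_rfl
      (by linarith only [hr0]) (by linarith only [hr1])
      (fun t ht x hx a a' => hb t ht x hx a (by linarith only [hr1, a'])) t ht x hx (by linarith only [hr0, hy]) (by linarith only [hr0, hy])
    rw [hQ, hy] at m
    have m2 := (wt1 hr0 m).resolve_right (by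
      have : 0 ≤ tau t * |VV w f t x| := by positivity
      linarith only [this])
    have e1 : ((8 * q.rho0) ^ 4 * ((8 * q.rho0) ^ 2 * (q.BV / 2)) +
        100 * Kw (8 * q.rho0) ^ 2 * (400 * D q.rho0)) * q.A t =
        62 * q.rho0 ^ 6 * ((131072 / 62 * q.BV + 40000 * Kw (8 * q.rho0) ^ 2 * D q.rho0 /
          (62 * q.rho0 ^ 6)) * q.A t) := by
      field_simp
      ring
    rw [e1] at m2
    have m3 := le_of_mul_le_mul_left m2 (by positivity)
    have m4 : 0 ≤ (200 ^ 6 + 40000 * Kw 200 ^ 2 * D q.rho0) / (15000 * q.rho0 ^ 4) := by positivity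
    have m5 : (131072 / 62 * q.BV + 40000 * Kw (8 * q.rho0) ^ 2 * D q.rho0 /
          (62 * q.rho0 ^ 6)) * q.A t ≤ (2200 * q.BV + (40000 * Kw (8 * q.rho0) ^ 2 * D q.rho0 /
          (62 * q.rho0 ^ 6) + (200 ^ 6 + 40000 * Kw 200 ^ 2 * D q.rho0) / (15000 * q.rho0 ^ 4) +
          1)) * q.A t := mul_le_mul_of_nonneg_right (by linarith only [hBV, m4]) hA.le
    exact m3.trans m5
  · intro hy0 hy1
    have m := b2_core (y₀ := q.rho0 / 8) (y₁ := 200) hH hI hp.eps hBV hp.N hr0 hDr le_rfl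
      (by linarith only [hr1]) le_rfl hb t ht x hx (by linarith only [hr0, hy0]) (by linarith only [hy1])
    set y := yv w f t x with hy
    have hy0' : 0 < y := by linarith only [hr0, hy0]
    rw [hQ] at m
    have w1 : q.rho0 ^ 2 ≤ y ^ 2 := pow_le_pow_left₀ hr0.le hy0 2
    have w2 : y ^ 2 ≤ 100 ^ 2 := pow_le_pow_left₀ hy0'.le hy1 2
    have w3 : q.rho0 ^ 2 / 2 ≤ y ^ 2 - (q.rho0 / 8) ^ 2 := by nlinarith only [w1, sq_nonneg q.rho0]
    have w4 : (30000 : ℝ) ≤ 200 ^ 2 - y ^ 2 := by linarith only [w2]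
    have w5 : q.rho0 ^ 2 / 2 * 30000 ≤ (y ^ 2 - (q.rho0 / 8) ^ 2) * (200 ^ 2 - y ^ 2) :=
      mul_le_mul w3 w4 (by norm_num) (by nlinarith only [w1, sq_nonneg q.rho0])
    have w6 : q.rho0 ^ 2 / 2 * 30000 ≤ |(y ^ 2 - (q.rho0 / 8) ^ 2) * (200 ^ 2 - y ^ 2)| :=
      w5.trans (le_abs_self _)
    have hV0 : 0 ≤ tau t * |VV w f t x| := by positivity
    have w7 : q.rho0 ^ 2 / 2 * 30000 * (q.rho0 ^ 2 * (tau t * |VV w f t x|)) ≤
        |(y ^ 2 - (q.rho0 / 8) ^ 2) * (200 ^ 2 - y ^ 2)| * (y ^ 2 * (tau t * |VV w f t x|)) :=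
      mul_le_mul w6 (mul_le_mul_of_nonneg_right w1 hV0) (by positivity) (abs_nonneg _)
    have m2 := w7.trans m
    have e1 : (200 ^ 4 * (200 ^ 2 * (q.BV / 2)) + 100 * Kw 200 ^ 2 * (400 * D q.rho0)) * q.A t =
        15000 * q.rho0 ^ 4 * (((200 ^ 6 / 2 * q.BV + 40000 * Kw 200 ^ 2 * D q.rho0) /
          (15000 * q.rho0 ^ 4)) * q.A t) := by
      field_simp
      ring
    rw [e1] at m2
    have m3 : tau t * |VV w f t x| ≤ ((200 ^ 6 / 2 * q.BV + 40000 * Kw 200 ^ 2 * D q.rho0) /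
          (15000 * q.rho0 ^ 4)) * q.A t := by
      have hp4 : (0 : ℝ) < 15000 * q.rho0 ^ 4 := by positivity
      refine le_of_mul_le_mul_left (le_trans (le_of_eq ?_) m2) hp4
      ring
    refine m3.trans (mul_le_mul_of_nonneg_right ?_ hA.le)
    have hK2 : 0 ≤ 40000 * Kw 200 ^ 2 * D q.rho0 := by positivity
    have m4 : (200 ^ 6 / 2 * q.BV + 40000 * Kw 200 ^ 2 * D q.rho0) / (15000 * q.rho0 ^ 4) ≤
        (200 ^ 6 + 40000 * Kw 200 ^ 2 * D q.rho0) / (15000 * q.rho0 ^ 4) * (1 + q.BV) := by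
      have hp4 : (0 : ℝ) ≤ 15000 * q.rho0 ^ 4 := by positivity
      have hnum : 200 ^ 6 / 2 * q.BV + 40000 * Kw 200 ^ 2 * D q.rho0 ≤
          (200 ^ 6 + 40000 * Kw 200 ^ 2 * D q.rho0) * (1 + q.BV) := by
        nlinarith only [hBV, hK2, mul_nonneg hK2 hBV]
      refine (div_le_div_of_nonneg_right hnum hp4).trans (le_of_eq ?_)
      ring
    have m5 : 0 ≤ 40000 * Kw (8 * q.rho0) ^ 2 * D q.rho0 / (62 * q.rho0 ^ 6) + 1 := by positivity
    have m6 := mul_nonneg m5 (by linarith only [hBV] : 0 ≤ 1 + q.BV)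
    linarith only [m4, m6]

end

end Vale.Agent.P244.ST.M7
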