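import Vale.Agent.P244.ST.M7Iface

/-!
# P244-ST, block M7 : strict (b4) from the Bernstein estimates
-/

open Set Filter Topology

namespace Vale.Agent.P244.ST.M7

noncomputable section

/-- strict (b4) -/
theorem m7fin (h1 : B1Out) (h2 : B2Out) (hw : WinIn) : M7Fin := by
  obtain ⟨C₁, hC₁, H₁⟩ := h1
  obtain ⟨C₂, hC₂, H₂⟩ := h2
  have hF : ∀ ρ : ℝ, ∃ C : ℝ, 0 ≤ C ∧ (0 < ρ → ∀ eps ≥ (0 : ℝ), ∀ j ≤ 3, ∀ t₁ < (1 : ℝ),
      ∀ z ∈ Win ρ 25 t₁, |Fj eps j z.1 z.2| ≤ C * (eps * (tau z.1) ^ (lam 3))) := by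
    intro ρ
    by_cases h : 0 < ρ
    · obtain ⟨C, hC, h'⟩ := exists_Fj_bound ρ 25 h
      exact ⟨C, hC, fun _ => h'⟩
    · exact ⟨0, le_rfl, fun h' => absurd h' h⟩
  choose Cf hCf hF using hF
  have hP := ev_P7 one_pos (fun _ => 1) (fun _ => 0) (fun ρ => Cf ρ + 2)
    (fun ρ => 2 * (Cf ρ + C₁ ρ) / ρ + 1) (fun ρ BV => C₂ ρ * (1 + BV) + 1) (fun _ _ => one_pos)
  refine (((H₁.and H₂).and hw).and (EvH.of_ev hP)).mono ?_
  rintro q g b w f T t₁ hg hH hI ⟨⟨⟨a1, a2⟩, a3⟩, hq⟩ t ht x hx hy1 hy2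
  have ht1 : t < 1 := lt_of_lt_of_le (ht.2.trans_lt hH.mem.2) hH.T_le
  have hτ : 0 < tau t := by unfold tau; linarith only [ht1]
  have hsτ : 0 < Real.sqrt (tau t) := Real.sqrt_pos.2 hτ
  have hρ := hq.rho0
  have hρ1 := hq.rho0_le
  have hA : 0 < q.A t := by
    unfold Par.A
    exact mul_pos hq.eps (Real.rpow_pos_of_pos hτ _)
  have hsg1 : q.sg ≤ 1 := hq.sg_le
  have hssg : Real.sqrt q.sg ≤ 1 := by
    rw [← Real.sqrt_one]; exact Real.sqrt_le_sqrt hsg1
  have hr0 : 0 < rr w f t x := Real.exp_pos _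
  have hry : rr w f t x = yv w f t x * Real.sqrt (tau t) := by
    unfold yv; field_simp
  -- the window
  have hwin : ((t, rho w f t x) : ℝ × ℝ) ∈ Win q.rho0 25 t := by
    refine ⟨⟨ht.1, le_rfl⟩, ?_, ?_⟩
    · change q.rho0 * Real.sqrt (tau t) ≤ rr w f t x
      rw [hry]; exact mul_le_mul_of_nonneg_right hy1 hsτ.le
    · change rr w f t x ≤ 25 * Real.sqrt (tau t)
      rw [hry]; exact mul_le_mul_of_nonneg_right hy2 hsτ.le
  have hF0 : |Fj q.eps 0 t (rho w f t x)| ≤ Cf q.rho0 * q.A t :=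
    hF q.rho0 hρ q.eps hq.eps.le 0 (by norm_num) t ht1 _ hwin
  have hF1 : |Fj q.eps 1 t (rho w f t x)| ≤ Cf q.rho0 * q.A t :=
    hF q.rho0 hρ q.eps hq.eps.le 1 (by norm_num) t ht1 _ hwin
  have hsgA : Real.sqrt q.sg * q.A t ≤ 1 * q.A t := mul_le_mul_of_nonneg_right hssg hA.le
  have hx' : x ∈ Ico (0 : ℝ) 1 := ⟨hx.1.le, hx.2⟩
  -- `u`
  have hu : |uu w f t x| < q.MU * q.A t := by
    have hcl := hH.close t ht x hx' (by linarith only [hy1, hρ]) (by linarith)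
    have e1 : q.A t * ph 3 (yv w f t x) = Fj q.eps 0 t (rho w f t x) := by
      rw [Fj_zero _ ht1]
      unfold Ph Par.A yv rr
      ring
    rw [e1] at hcl
    have h3 : |uu w f t x| ≤ (Cf q.rho0 + 1) * q.A t := by
      calc |uu w f t x| = |(uu w f t x - Fj q.eps 0 t (rho w f t x)) +
            Fj q.eps 0 t (rho w f t x)| := by congr 1; ring
        _ ≤ Real.sqrt q.sg * q.A t + Cf q.rho0 * q.A t := (abs_add_le _ _).trans (add_le_add hcl hF0)
        _ ≤ (Cf q.rho0 + 1) * q.A t := by linarith only [hsgA]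
    have h4 : Cf q.rho0 + 2 ≤ q.MU := hq.MU
    nlinarith only [hA, h3, h4]
  -- `P`
  have hP' : |PP w f t x| < q.MP * q.A t / Real.sqrt (tau t) := by
    have hb := a1 t ht x hx (by linarith only [hy1, hρ]) (by linarith only [hy2])
    have hG : |GG w f t x| ≤ (Cf q.rho0 + C₁ q.rho0) * q.A t := by
      have h5 : C₁ q.rho0 * Real.sqrt q.sg * q.A t ≤ C₁ q.rho0 * q.A t := by
        have := mul_le_mul_of_nonneg_left hsgA (hC₁ _ hρ).le
        linarith only [this]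
      calc |GG w f t x| = |(GG w f t x + Fj q.eps 1 t (rho w f t x)) -
            Fj q.eps 1 t (rho w f t x)| := by congr 1; ring
        _ ≤ C₁ q.rho0 * Real.sqrt q.sg * q.A t + Cf q.rho0 * q.A t :=
            (abs_sub _ _).trans (add_le_add hb hF1)
        _ ≤ (Cf q.rho0 + C₁ q.rho0) * q.A t := by linarith only [h5]
    have hrs : 0 < rs w f t x :=
      hH.qual.rs_pos t ⟨ht.1, ht.2.trans_lt hH.mem.2⟩ x hx
    have hZ := (a3 t ht x hx (by linarith only [hy1, hρ]) (by linarith only [hy2])).2.2.1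
    have hrrs : rr w f t x * rs w f t x ≤ 2 := by
      have h6 : (rr w f t x * rs w f t x) ^ 2 ≤ 2 ^ 2 := by
        have h7 : (rr w f t x * rs w f t x) ^ 2 = ZZ w f t x := by unfold ZZ; ring
        rw [h7]
        have := (abs_le.1 hZ).2
        linarith only [hsg1, this]
      exact abs_le_of_sq_le_sq' h6 (by norm_num) |>.2
    have hPG : |PP w f t x| = |GG w f t x| * rs w f t x := by
      have h8 : PP w f t x = -(GG w f t x * rs w f t x) := by
        unfold GG; field_simp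
      rw [h8, abs_neg, abs_mul, abs_of_pos hrs]
    have hrρ : q.rho0 * Real.sqrt (tau t) ≤ rr w f t x := by
      rw [hry]; exact mul_le_mul_of_nonneg_right hy1 hsτ.le
    rw [lt_div_iff₀ hsτ, hPG]
    -- rho0 * (|G| rs sqrt τ) ≤ |G| (r rs) ≤ 2 |G|
    have h9 : q.rho0 * (|GG w f t x| * rs w f t x * Real.sqrt (tau t)) ≤
        2 * ((Cf q.rho0 + C₁ q.rho0) * q.A t) := by
      calc q.rho0 * (|GG w f t x| * rs w f t x * Real.sqrt (tau t))
          = |GG w f t x| * (rs w f t x * (q.rho0 * Real.sqrt (tau t))) := by ring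
        _ ≤ |GG w f t x| * (rs w f t x * rr w f t x) :=
            mul_le_mul_of_nonneg_left (mul_le_mul_of_nonneg_left hrρ hrs.le) (abs_nonneg _)
        _ ≤ |GG w f t x| * 2 :=
            mul_le_mul_of_nonneg_left (by linarith only [hrrs]) (abs_nonneg _)
        _ ≤ 2 * ((Cf q.rho0 + C₁ q.rho0) * q.A t) := by linarith only [hG]
    have h10 : 2 * (Cf q.rho0 + C₁ q.rho0) / q.rho0 + 1 ≤ q.MP := hq.MP
    have h11 : |GG w f t x| * rs w f t x * Real.sqrt (tau t) ≤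
        2 * (Cf q.rho0 + C₁ q.rho0) / q.rho0 * q.A t := by
      rw [div_mul_eq_mul_div, le_div_iff₀ hρ]
      linarith only [h9]
    nlinarith only [hA, h10, h11]
  -- `V`
  have hV : |VV w f t x| < q.MV * q.A t / tau t := by
    have hb := (a2 t ht x hx).2 hy1 (by linarith only [hy2])
    rw [lt_div_iff₀ hτ]
    have h12 : C₂ q.rho0 * (1 + q.BV) + 1 ≤ q.MV := hq.MV
    nlinarith only [hA, hb, h12]
  exact ⟨hu, hP', hV⟩

end

end Vale.Agent.P244.ST.M7
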