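import Vale.Agent.P244.ST.S.LagDefs

/-!
# P244-ST, block B : the solutions `Φ_i(r,τ) = r^{-κ} τ^i l_i(r²/4τ)` of the linear equation
-/

open Set Filter Topology
open scoped ContDiff

namespace Vale.Agent.P244.ST.BD

/-- `PhiD κ a i j = (r ∂_r)^j Φ_i`, where `Φ_i = r^{-κ} τ^i l_i(r²/4τ)`. -/
noncomputable def PhiD (κ a : ℝ) (i j : ℕ) (r τ : ℝ) : ℝ :=
  r ^ (-κ) * ∑ k ∈ Finset.range (i + 1),
    (2 * (k : ℝ) - κ) ^ j * Lag.cf a i k * (r ^ 2 / 4) ^ k * τ ^ (i - k)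

/-- `Φ_i`. -/
noncomputable def Phi (κ a : ℝ) (i : ℕ) (r τ : ℝ) : ℝ := PhiD κ a i 0 r τ

/-- The `τ`-derivative of `PhiD`. -/
noncomputable def PhiDt (κ a : ℝ) (i j : ℕ) (r τ : ℝ) : ℝ :=
  r ^ (-κ) * ∑ k ∈ Finset.range (i + 1),
    (2 * (k : ℝ) - κ) ^ j * Lag.cf a i k * (r ^ 2 / 4) ^ k * (((i - k : ℕ) : ℝ) * τ ^ (i - k - 1))

theorem Phi_eq_ell {κ a : ℝ} (i : ℕ) (r : ℝ) {τ : ℝ} (hτ : τ ≠ 0) :
    Phi κ a i r τ = r ^ (-κ) * (τ ^ i * (Lag.ell a i).eval (r ^ 2 / (4 * τ))) := by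
  unfold Phi PhiD Lag.ell
  rw [Polynomial.eval_finsetSum]
  congr 1
  rw [Finset.mul_sum]
  refine Finset.sum_congr rfl fun k hk => ?_
  rw [Polynomial.eval_monomial, pow_zero, one_mul]
  have hk' : k ≤ i := Nat.lt_succ_iff.1 (Finset.mem_range.1 hk)
  have h1 : τ ^ i = τ ^ (i - k) * τ ^ k := by
    rw [← pow_add, Nat.sub_add_cancel hk']
  rw [h1]
  have h2 : (r ^ 2 / (4 * τ)) ^ k * τ ^ k = (r ^ 2 / 4) ^ k := by
    rw [← mul_pow]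
    congr 1
    field_simp
  calc Lag.cf a i k * (r ^ 2 / 4) ^ k * τ ^ (i - k)
      = Lag.cf a i k * ((r ^ 2 / (4 * τ)) ^ k * τ ^ k) * τ ^ (i - k) := by rw [h2]
    _ = _ := by ring

/-- `r ∂_r` raises the index `j`. -/
theorem hasDerivAt_PhiD (κ a : ℝ) (i j : ℕ) {r : ℝ} (hr : 0 < r) (τ : ℝ) :
    HasDerivAt (fun r => PhiD κ a i j r τ) (PhiD κ a i (j + 1) r τ / r) r := by
  have h1 : HasDerivAt (fun r : ℝ => r ^ (-κ)) (-κ * r ^ (-κ - 1)) r :=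
    Real.hasDerivAt_rpow_const (Or.inl hr.ne')
  have h2 : HasDerivAt (fun r : ℝ => ∑ k ∈ Finset.range (i + 1),
      (2 * (k : ℝ) - κ) ^ j * Lag.cf a i k * (r ^ 2 / 4) ^ k * τ ^ (i - k))
      (∑ k ∈ Finset.range (i + 1),
      (2 * (k : ℝ) - κ) ^ j * Lag.cf a i k * ((k : ℝ) * (r ^ 2 / 4) ^ (k - 1) * (2 * r / 4)) *
        τ ^ (i - k)) r := by
    refine HasDerivAt.fun_sum fun k _ => ?_
    have h3 : HasDerivAt (fun r : ℝ => r ^ 2 / 4) (2 * r / 4) r := by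
      have := (hasDerivAt_pow 2 r).div_const 4
      simpa using this
    exact ((h3.pow k).const_mul _).mul_const _
  refine (h1.mul h2).congr_deriv ?_
  unfold PhiD
  rw [Finset.mul_sum, Finset.mul_sum, Finset.mul_sum, ← Finset.sum_add_distrib, Finset.sum_div]
  refine Finset.sum_congr rfl fun k _ => ?_
  have h4 : r ^ (-κ - 1) = r ^ (-κ) / r := Real.rpow_sub_one hr.ne' _
  have h5 : (k : ℝ) * (r ^ 2 / 4) ^ (k - 1) * (2 * r / 4) = 2 * k * (r ^ 2 / 4) ^ k / r := by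
    rcases Nat.eq_zero_or_pos k with h | h
    · subst h
      simp
    · have h6 : (r ^ 2 / 4) ^ k = (r ^ 2 / 4) ^ (k - 1) * (r ^ 2 / 4) := by
        rw [← pow_succ, Nat.sub_add_cancel h]
      rw [h6]
      field_simp
  rw [h4, h5, pow_succ]
  field_simp
  ring

theorem hasDerivAt_PhiD_tau (κ a : ℝ) (i j : ℕ) (r τ : ℝ) :
    HasDerivAt (fun τ => PhiD κ a i j r τ) (PhiDt κ a i j r τ) τ := by
  unfold PhiD PhiDt
  refine HasDerivAt.const_mul _ (HasDerivAt.fun_sum fun k _ => ?_)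
  exact (hasDerivAt_pow (i - k) τ).const_mul _

/-- The linear equation: `-r² ∂_τ Φ_i = (r∂_r)² Φ_i + (m-1) r∂_r Φ_i + 2 (m-1) Φ_i`. -/
theorem Phi_linear_aux {m κ a : ℝ} (hk : κ ^ 2 - (m - 1) * κ + 2 * (m - 1) = 0)
    (ha : m - 1 = 2 * a + 2 * κ) (ha1 : -1 < a) (i : ℕ) (r τ : ℝ) :
    -(r ^ 2 * PhiDt κ a i 0 r τ) = PhiD κ a i 2 r τ +
      (m - 1) * PhiD κ a i 1 r τ + 2 * (m - 1) * PhiD κ a i 0 r τ := by
  unfold PhiD PhiDt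
  have e0 : ∀ S T U V : ℝ, -(r ^ 2 * S) = T + (m - 1) * U + 2 * (m - 1) * V →
      -(r ^ 2 * (r ^ (-κ) * S)) = r ^ (-κ) * T + (m - 1) * (r ^ (-κ) * U) +
        2 * (m - 1) * (r ^ (-κ) * V) := by
    intro S T U V h
    have : -(r ^ 2 * (r ^ (-κ) * S)) = r ^ (-κ) * (-(r ^ 2 * S)) := by ring
    rw [this, h]
    ring
  apply e0
  -- the coefficients
  have e1 : (∑ k ∈ Finset.range (i + 1), (2 * (k : ℝ) - κ) ^ 2 * Lag.cf a i k *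
      (r ^ 2 / 4) ^ k * τ ^ (i - k)) + (m - 1) * (∑ k ∈ Finset.range (i + 1),
      (2 * (k : ℝ) - κ) ^ 1 * Lag.cf a i k * (r ^ 2 / 4) ^ k * τ ^ (i - k)) +
      2 * (m - 1) * (∑ k ∈ Finset.range (i + 1), (2 * (k : ℝ) - κ) ^ 0 * Lag.cf a i k *
      (r ^ 2 / 4) ^ k * τ ^ (i - k)) = ∑ k ∈ Finset.range (i + 1),
      (4 * ((k : ℝ) * (a + k)) * Lag.cf a i k) * (r ^ 2 / 4) ^ k * τ ^ (i - k) := by
    rw [Finset.mul_sum, Finset.mul_sum, ← Finset.sum_add_distrib, ← Finset.sum_add_distrib]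
    refine Finset.sum_congr rfl fun k _ => ?_
    have e2 : (2 * (k : ℝ) - κ) ^ 2 + (m - 1) * (2 * (k : ℝ) - κ) + 2 * (m - 1) =
        4 * ((k : ℝ) * (a + k)) := by
      have e3 : (2 * (k : ℝ) - κ) ^ 2 + (m - 1) * (2 * (k : ℝ) - κ) + 2 * (m - 1) =
        4 * (k : ℝ) ^ 2 + 2 * k * (m - 1 - 2 * κ) + (κ ^ 2 - (m - 1) * κ + 2 * (m - 1)) := by ring
      rw [e3, hk, ha]
      ring
    rw [← e2]
    ring
  have e8 : ∑ k ∈ Finset.range (i + 1), (2 * (k : ℝ) - κ) ^ 0 * Lag.cf a i k * (r ^ 2 / 4) ^ k *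
      (((i - k : ℕ) : ℝ) * τ ^ (i - k - 1)) = ∑ k ∈ Finset.range i, (2 * (k : ℝ) - κ) ^ 0 *
      Lag.cf a i k * (r ^ 2 / 4) ^ k * (((i - k : ℕ) : ℝ) * τ ^ (i - k - 1)) := by
    rw [Finset.sum_range_succ]
    simp
  have e9 : ∑ k ∈ Finset.range (i + 1), (4 * ((k : ℝ) * (a + k)) * Lag.cf a i k) *
      (r ^ 2 / 4) ^ k * τ ^ (i - k) = ∑ k ∈ Finset.range i, (4 * (((k + 1 : ℕ) : ℝ) *
      (a + ((k + 1 : ℕ) : ℝ))) * Lag.cf a i (k + 1)) * (r ^ 2 / 4) ^ (k + 1) *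
      τ ^ (i - (k + 1)) := by
    rw [Finset.sum_range_succ']
    simp
  rw [e1, e8, e9, Finset.mul_sum, ← Finset.sum_neg_distrib]
  refine Finset.sum_congr rfl fun k hk' => ?_
  have hki : k < i := Finset.mem_range.1 hk'
  have e4 := Lag.cf_succ ha1 i k
  have e5 : ((i - k : ℕ) : ℝ) = (i : ℝ) - k := by
    rw [Nat.cast_sub hki.le]
  have e6 : i - (k + 1) = i - k - 1 := by omega
  rw [e5, e6, pow_succ (r ^ 2 / 4) k]
  have e7 : 4 * (((k + 1 : ℕ) : ℝ) * (a + ((k + 1 : ℕ) : ℝ))) * Lag.cf a i (k + 1) =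
      -(4 * ((i : ℝ) - k) * Lag.cf a i k) := by
    push_cast
    linarith only [e4]
  rw [e7, pow_zero, one_mul]
  ring

/-- Bound of the derivatives of `Φ_i`. -/
theorem exists_PhiD_bound (κ a : ℝ) (i j : ℕ) : ∃ C : ℝ, 0 ≤ C ∧ ∀ r τ : ℝ, 0 < r → 0 ≤ τ →
    |PhiD κ a i j r τ| ≤ C * (r ^ (-κ) * (r ^ 2 + τ) ^ i) := by
  refine ⟨∑ k ∈ Finset.range (i + 1), |(2 * (k : ℝ) - κ) ^ j * Lag.cf a i k|,
    Finset.sum_nonneg fun _ _ => abs_nonneg _, fun r τ hr hτ => ?_⟩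
  unfold PhiD
  have h0 : 0 < r ^ (-κ) := Real.rpow_pos_of_pos hr _
  rw [abs_mul, abs_of_pos h0]
  have h1 : |∑ k ∈ Finset.range (i + 1), (2 * (k : ℝ) - κ) ^ j * Lag.cf a i k *
      (r ^ 2 / 4) ^ k * τ ^ (i - k)| ≤ ∑ k ∈ Finset.range (i + 1),
      |(2 * (k : ℝ) - κ) ^ j * Lag.cf a i k| * (r ^ 2 + τ) ^ i := by
    refine (Finset.abs_sum_le_sum_abs _ _).trans (Finset.sum_le_sum fun k hk => ?_)
    rw [mul_assoc _ ((r ^ 2 / 4) ^ k), abs_mul]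
    refine mul_le_mul_of_nonneg_left ?_ (abs_nonneg _)
    rw [abs_of_nonneg (by positivity)]
    have hk' : k ≤ i := Nat.lt_succ_iff.1 (Finset.mem_range.1 hk)
    have h2 : (r ^ 2 + τ) ^ i = (r ^ 2 + τ) ^ k * (r ^ 2 + τ) ^ (i - k) := by
      rw [← pow_add, Nat.add_sub_cancel' hk']
    rw [h2]
    refine mul_le_mul (pow_le_pow_left₀ (by positivity) (by nlinarith only [hτ, sq_nonneg r]) k)
      (pow_le_pow_left₀ hτ (by nlinarith only [sq_nonneg r]) _) (by positivity) (by positivity)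
  rw [← Finset.sum_mul] at h1
  calc r ^ (-κ) * |∑ k ∈ Finset.range (i + 1), (2 * (k : ℝ) - κ) ^ j * Lag.cf a i k *
      (r ^ 2 / 4) ^ k * τ ^ (i - k)|
      ≤ r ^ (-κ) * ((∑ k ∈ Finset.range (i + 1), |(2 * (k : ℝ) - κ) ^ j * Lag.cf a i k|) *
        (r ^ 2 + τ) ^ i) := mul_le_mul_of_nonneg_left h1 h0.le
    _ = _ := by ring

end Vale.Agent.P244.ST.BD
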