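import Mathlib
import Vale.Agent.P244.ST.Geo
import Vale.Agent.P244.ST.Phi
import Vale.Agent.P244.ST.M7Win

/-!
# P244-ST, block M7 : the linear solution `ε Φ₃` in the coordinates `(t, ρ)`
-/

set_option linter.all false

open Set Filter Topology

namespace Vale.Agent.P244.ST

noncomputable section

/-- the Laguerre parameter `a = D/2 - 1` -/
def aL : ℝ := DD / 2 - 1

theorem kap_sq : kap ^ 2 - 39 * kap + 78 = 0 := by
  have h : Real.sqrt 1209 ^ 2 = 1209 := Real.sq_sqrt (by norm_num)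
  unfold kap
  linear_combination (1 / 4) * h

theorem kap_lt' : kap < 2.1147 := by
  have h : (34.7706 : ℝ) < Real.sqrt 1209 := by rw [Real.lt_sqrt (by norm_num)]; norm_num
  unfold kap; linarith only [h]

theorem kap_gt' : 2.1146 < kap := by
  have h : Real.sqrt 1209 < (34.7708 : ℝ) := by rw [Real.sqrt_lt' (by norm_num)]; norm_num
  unfold kap; linarith only [h]

theorem aL_eq : aL = 39 / 2 - kap := by unfold aL DD; ring

theorem aL_gt : -1 < aL := by have := kap_lt'; rw [aL_eq]; linarith only [this]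

theorem lam3_eq : lam 3 = 3 - kap / 2 := by unfold lam; norm_num

theorem ll_eq (i : ℕ) (z : ℝ) : ll i z = ∑ k ∈ Finset.range (i + 1), Lag.cf aL i k * z ^ k := by
  unfold ll Lag.cf aL
  refine Finset.sum_congr rfl fun k _ => ?_
  congr 2
  refine Finset.prod_congr rfl fun l _ => ?_
  ring

theorem Ph_eq (i : ℕ) {t r : ℝ} (ht : t < 1) (hr : 0 < r) :
    Ph i t r = BD.PhiD kap aL i 0 r (1 - t) := by
  have hτ : 0 < tau t := by unfold tau; linarith only [ht]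
  have hs : 0 < Real.sqrt (tau t) := Real.sqrt_pos.2 hτ
  unfold Ph ph BD.PhiD lam
  rw [ll_eq, Real.div_rpow hr.le hs.le]
  have h1 : Real.sqrt (tau t) ^ (-kap) = (tau t) ^ (-kap / 2) := by
    rw [Real.sqrt_eq_rpow, ← Real.rpow_mul hτ.le]; congr 1; ring
  have h2 : (tau t) ^ ((i : ℝ) - kap / 2) = (tau t) ^ i * (tau t) ^ (-kap / 2) := by
    rw [← Real.rpow_natCast, ← Real.rpow_add hτ]; congr 1; ring
  have h3 : (tau t) ^ (-kap / 2) ≠ 0 := (Real.rpow_pos_of_pos hτ _).ne'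
  have h4 : (r / Real.sqrt (tau t)) ^ 2 = r ^ 2 / tau t := by
    rw [div_pow, Real.sq_sqrt hτ.le]
  rw [h1, h2, h4]
  have h5 : ∑ k ∈ Finset.range (i + 1), (2 * (k : ℝ) - kap) ^ 0 * Lag.cf aL i k *
      (r ^ 2 / 4) ^ k * (1 - t) ^ (i - k) =
      (tau t) ^ i * ∑ k ∈ Finset.range (i + 1), Lag.cf aL i k * (r ^ 2 / tau t / 4) ^ k := by
    rw [Finset.mul_sum]
    refine Finset.sum_congr rfl fun k hk => ?_
    have hk' : k ≤ i := Nat.lt_succ_iff.1 (Finset.mem_range.1 hk)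
    have h6 : (tau t) ^ i = (tau t) ^ (i - k) * (tau t) ^ k := by
      rw [← pow_add, Nat.sub_add_cancel hk']
    have h7 : (r ^ 2 / tau t / 4) ^ k * (tau t) ^ k = (r ^ 2 / 4) ^ k := by
      rw [← mul_pow]; congr 1; field_simp
    rw [h6, ← h7]
    unfold tau
    ring
  rw [h5]
  field_simp

/-- `(r∂_r)^j (ε Φ₃)` at `(t, ρ)` -/
def Fj (eps : ℝ) (j : ℕ) (t ρ : ℝ) : ℝ := eps * BD.PhiD kap aL 3 j (Real.exp ρ) (1 - t)

theorem Fj_zero (eps : ℝ) {t ρ : ℝ} (ht : t < 1) : Fj eps 0 t ρ = eps * Ph 3 t (Real.exp ρ) := by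
  rw [Fj, Ph_eq 3 ht (Real.exp_pos ρ)]

theorem hasDerivAt_Fj (eps : ℝ) (j : ℕ) (t ρ : ℝ) :
    HasDerivAt (Fj eps j t) (Fj eps (j + 1) t ρ) ρ := by
  have h1 := (BD.hasDerivAt_PhiD kap aL 3 j (Real.exp_pos ρ) (1 - t)).comp ρ
    (Real.hasDerivAt_exp ρ)
  have h2 := h1.const_mul eps
  refine h2.congr_deriv ?_
  have := (Real.exp_pos ρ).ne'
  unfold Fj
  field_simp

theorem hasDerivAt_Fj_t (eps : ℝ) (j : ℕ) (t ρ : ℝ) :
    HasDerivAt (fun t => Fj eps j t ρ) (-(eps * BD.PhiDt kap aL 3 j (Real.exp ρ) (1 - t))) t := by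
  have h1 := (BD.hasDerivAt_PhiD_tau kap aL 3 j (Real.exp ρ) (1 - t)).comp t
    ((hasDerivAt_id t).const_sub 1)
  have h2 := h1.const_mul eps
  refine h2.congr_deriv ?_
  ring

theorem PhiDt0 (r τ : ℝ) : -(r ^ 2 * BD.PhiDt kap aL 3 0 r τ) = BD.PhiD kap aL 3 2 r τ +
    39 * BD.PhiD kap aL 3 1 r τ + 78 * BD.PhiD kap aL 3 0 r τ := by
  have h := BD.Phi_linear_aux (m := 40) (κ := kap) (a := aL)
    (by have := kap_sq; linear_combination this) (by rw [aL_eq]; ring) aL_gt 3 r τ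
  rw [h]; norm_num

theorem PhiDt1 (r τ : ℝ) : -(r ^ 2 * BD.PhiDt kap aL 3 1 r τ) = BD.PhiD kap aL 3 3 r τ +
    37 * BD.PhiD kap aL 3 2 r τ - 156 * BD.PhiD kap aL 3 0 r τ := by
  have e0 := Lag.cf_succ aL_gt 3 0
  have e1 := Lag.cf_succ aL_gt 3 1
  have e2 := Lag.cf_succ aL_gt 3 2
  have ha := aL_eq
  have hk := kap_sq
  rw [ha] at e0 e1 e2
  norm_num at e0 e1 e2
  unfold BD.PhiDt BD.PhiD
  rw [ha]
  simp only [Finset.sum_range_succ, Finset.sum_range_zero]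
  norm_num
  generalize Lag.cf (39 / 2 - kap) 3 0 = c0 at *
  generalize Lag.cf (39 / 2 - kap) 3 1 = c1 at *
  generalize Lag.cf (39 / 2 - kap) 3 2 = c2 at *
  generalize Lag.cf (39 / 2 - kap) 3 3 = c3 at *
  generalize r ^ (-kap) = X
  generalize kap = k at *
  linear_combination X * (4 * k * (r ^ 2 / 4) * τ ^ 2) * e0 -
    X * (4 * (2 - k) * (r ^ 2 / 4) ^ 2 * τ) * e1 - X * (4 * (4 - k) * (r ^ 2 / 4) ^ 3) * e2 +
    X * ((k + 2) * c0 * τ ^ 3 + k * c1 * (r ^ 2 / 4) * τ ^ 2 + (k - 2) * c2 * (r ^ 2 / 4) ^ 2 * τ +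
      (k - 4) * c3 * (r ^ 2 / 4) ^ 3) * hk

theorem exp_neg_two (ρ x : ℝ) : Real.exp (-2 * ρ) * (Real.exp ρ ^ 2 * x) = x := by
  have h : Real.exp (-2 * ρ) * Real.exp ρ ^ 2 = 1 := by
    rw [pow_two, ← Real.exp_add, ← Real.exp_add, ← Real.exp_zero]; congr 1; ring
  linear_combination x * h

theorem Fj0_t (eps t ρ : ℝ) : HasDerivAt (fun t => Fj eps 0 t ρ)
    (Real.exp (-2 * ρ) * (Fj eps 2 t ρ + 39 * Fj eps 1 t ρ + 78 * Fj eps 0 t ρ)) t := by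
  refine (hasDerivAt_Fj_t eps 0 t ρ).congr_deriv ?_
  have h1 := PhiDt0 (Real.exp ρ) (1 - t)
  have h2 := exp_neg_two ρ (-(eps * BD.PhiDt kap aL 3 0 (Real.exp ρ) (1 - t)))
  unfold Fj
  linear_combination -h2 + (Real.exp (-2 * ρ) * eps) * h1

theorem Fj1_t (eps t ρ : ℝ) : HasDerivAt (fun t => Fj eps 1 t ρ)
    (Real.exp (-2 * ρ) * (Fj eps 3 t ρ + 37 * Fj eps 2 t ρ - 156 * Fj eps 0 t ρ)) t := by
  refine (hasDerivAt_Fj_t eps 1 t ρ).congr_deriv ?_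
  have h1 := PhiDt1 (Real.exp ρ) (1 - t)
  have h2 := exp_neg_two ρ (-(eps * BD.PhiDt kap aL 3 1 (Real.exp ρ) (1 - t)))
  unfold Fj
  linear_combination -h2 + (Real.exp (-2 * ρ) * eps) * h1

/-- bound of `Fj` on the window -/
theorem exists_Fj_bound (y₀ y₁ : ℝ) (hy₀ : 0 < y₀) : ∃ C : ℝ, 0 ≤ C ∧ ∀ eps ≥ (0 : ℝ), ∀ j ≤ 3,
    ∀ t₁ < (1 : ℝ), ∀ q ∈ Win y₀ y₁ t₁, |Fj eps j q.1 q.2| ≤ C * (eps * (tau q.1) ^ (lam 3)) := by
  obtain ⟨C0, h00, h0⟩ := BD.exists_PhiD_bound kap aL 3 0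
  obtain ⟨C1, h10, h1⟩ := BD.exists_PhiD_bound kap aL 3 1
  obtain ⟨C2, h20, h2⟩ := BD.exists_PhiD_bound kap aL 3 2
  obtain ⟨C3, h30, h3⟩ := BD.exists_PhiD_bound kap aL 3 3
  have hC : ∀ j ≤ 3, ∀ r τ : ℝ, 0 < r → 0 ≤ τ →
      |BD.PhiD kap aL 3 j r τ| ≤ (C0 + C1 + C2 + C3) * (r ^ (-kap) * (r ^ 2 + τ) ^ 3) := by
    intro j hj r τ hr hτ
    have hx : 0 ≤ r ^ (-kap) * (r ^ 2 + τ) ^ 3 := by positivity
    have : j = 0 ∨ j = 1 ∨ j = 2 ∨ j = 3 := by omega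
    rcases this with rfl | rfl | rfl | rfl
    · refine (h0 r τ hr hτ).trans (mul_le_mul_of_nonneg_right (by linarith only [h10, h20, h30]) hx)
    · refine (h1 r τ hr hτ).trans (mul_le_mul_of_nonneg_right (by linarith only [h00, h20, h30]) hx)
    · refine (h2 r τ hr hτ).trans (mul_le_mul_of_nonneg_right (by linarith only [h00, h10, h30]) hx)
    · refine (h3 r τ hr hτ).trans (mul_le_mul_of_nonneg_right (by linarith only [h00, h10, h20]) hx)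
  set C := C0 + C1 + C2 + C3 with hCd
  have hC0 : 0 ≤ C := by positivity
  refine ⟨C * (y₀ ^ (-kap) * (1 + y₁ ^ 2) ^ 3), by positivity, ?_⟩
  intro eps heps j hj t₁ ht₁ q hq
  obtain ⟨⟨ht0, ht1⟩, hl, hr⟩ := hq
  have hτ : 0 < 1 - q.1 := by linarith only [ht₁, ht1]
  have hs : 0 < Real.sqrt (1 - q.1) := Real.sqrt_pos.2 hτ
  have hss : Real.sqrt (1 - q.1) ^ 2 = 1 - q.1 := Real.sq_sqrt hτ.le
  have he := Real.exp_pos q.2
  have hb := hC j hj (Real.exp q.2) (1 - q.1) he hτ.le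
  have hk : (0 : ℝ) < kap := by linarith only [kap_gt']
  have e1 : Real.exp q.2 ^ (-kap) ≤ y₀ ^ (-kap) * (1 - q.1) ^ (-kap / 2) := by
    have h5 : Real.exp q.2 ^ (-kap) ≤ (y₀ * Real.sqrt (1 - q.1)) ^ (-kap) :=
      Real.rpow_le_rpow_of_nonpos (by positivity) hl (by linarith only [hk])
    rw [Real.mul_rpow hy₀.le hs.le] at h5
    have h6 : Real.sqrt (1 - q.1) ^ (-kap) = (1 - q.1) ^ (-kap / 2) := by
      rw [Real.sqrt_eq_rpow, ← Real.rpow_mul hτ.le]; congr 1; ring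
    rwa [h6] at h5
  have e2 : Real.exp q.2 ^ 2 + (1 - q.1) ≤ (1 + y₁ ^ 2) * (1 - q.1) := by
    have h5 : Real.exp q.2 ^ 2 ≤ (y₁ * Real.sqrt (1 - q.1)) ^ 2 :=
      pow_le_pow_left₀ he.le hr 2
    rw [mul_pow, hss] at h5
    linarith only [h5]
  have e3 : (Real.exp q.2 ^ 2 + (1 - q.1)) ^ 3 ≤ (1 + y₁ ^ 2) ^ 3 * (1 - q.1) ^ 3 := by
    rw [← mul_pow]
    exact pow_le_pow_left₀ (by positivity) e2 3
  have e4 : (1 - q.1) ^ (-kap / 2) * (1 - q.1) ^ 3 = (tau q.1) ^ (lam 3) := by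
    rw [lam3_eq, tau, ← Real.rpow_natCast, ← Real.rpow_add hτ]; congr 1; push_cast; ring
  unfold Fj
  rw [abs_mul, abs_of_nonneg heps]
  calc eps * |BD.PhiD kap aL 3 j (Real.exp q.2) (1 - q.1)|
      ≤ eps * (C * (Real.exp q.2 ^ (-kap) * (Real.exp q.2 ^ 2 + (1 - q.1)) ^ 3)) :=
        mul_le_mul_of_nonneg_left hb heps
    _ ≤ eps * (C * ((y₀ ^ (-kap) * (1 - q.1) ^ (-kap / 2)) *
        ((1 + y₁ ^ 2) ^ 3 * (1 - q.1) ^ 3))) := by
        gcongr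
    _ = C * (y₀ ^ (-kap) * (1 + y₁ ^ 2) ^ 3) * (eps * (tau q.1) ^ (lam 3)) := by
        rw [← e4]; ring

end

end Vale.Agent.P244.ST
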