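import Vale.Agent.P244.ST.A.EvLem
import Vale.Agent.P244.ST.M.Skel
import Vale.Agent.P244.ST.M7Phi

/-!
# P244-ST, block M7 : interfaces (target: `M.M7Statement` of M/Skel.lean)

* `WinIn`  : smallness on the window `ρ₀/16 ≤ y ≤ 400` (from `M.Hist`);
* `B1Out` (output of Bernstein 1): `G = -Φ₁ + O(√σ A)` on `ρ₀/8 ≤ y ≤ 200`;
* `B2Out` (output of Bernstein 2): bounds of `τ V`;
* `M3Bd`, `M4Bd`, `M7Fin` : the final pieces.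

`Fj eps j t ρ = (r∂_r)^j (ε Φ₃)` at `ρ = log r` (M7Phi).
-/

set_option linter.all false

open Set Filter Topology

namespace Vale.Agent.P244.ST.M7

noncomputable section

/-- for all bubble functions, for all parameters in order, `C` holds for all histories. -/
def EvH (C : Par → (ℝ → ℝ) → Fn → Fn → ℝ → Prop) : Prop :=
  ∀ g : ℝ → ℝ, IsBub g → Ev fun q => ∀ b w f T t₁, M.Hist q g w f T t₁ → InitOK q g b w f →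
    C q g w f t₁

theorem EvH.and {C D : Par → (ℝ → ℝ) → Fn → Fn → ℝ → Prop} (hC : EvH C) (hD : EvH D) :
    EvH fun q g w f t₁ => C q g w f t₁ ∧ D q g w f t₁ := fun g hg =>
  (((hC g hg).and (hD g hg)).mono fun _ h b w f T t₁ hM hI =>
    ⟨h.1 b w f T t₁ hM hI, h.2 b w f T t₁ hM hI⟩)

/-- Facts about the parameters alone. -/
theorem EvH.of_ev {C : Par → Prop} (hC : Ev C) : EvH fun q _ _ _ _ => C q := fun _ _ =>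
  hC.mono fun _ h _ _ _ _ _ _ _ => h

theorem EvH.mono {C D : Par → (ℝ → ℝ) → Fn → Fn → ℝ → Prop} (hC : EvH C)
    (h : ∀ q g b w f T t₁, IsBub g → M.Hist q g w f T t₁ → InitOK q g b w f →
      C q g w f t₁ → D q g w f t₁) : EvH D :=
  fun g hg => (hC g hg).mono fun q hq b w f T t₁ hM hI =>
    h q g b w f T t₁ hg hM hI (hq b w f T t₁ hM hI)

/-- Standard smallness facts of the parameters; `s bv mu mp mv` arbitrary functions. -/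
structure P7 (r₁ : ℝ) (s bv mu mp : ℝ → ℝ) (mv : ℝ → ℝ → ℝ) (q : Par) : Prop where
  B : 1 ≤ q.B
  rho0 : 0 < q.rho0
  rho0_le : q.rho0 ≤ r₁
  BV : bv q.rho0 ≤ q.BV
  BV1 : 1 ≤ q.BV
  MU : mu q.rho0 ≤ q.MU
  MP : mp q.rho0 ≤ q.MP
  MV : mv q.rho0 q.BV ≤ q.MV
  CU : q.MU ≤ q.CU
  CP : q.MP ≤ q.CP
  CV : q.MV ≤ q.CV
  sg : 0 < q.sg
  sg_le : q.sg ≤ s q.rho0
  N : 2000 ≤ q.N
  eps : 0 < q.eps
  eps_le : q.eps ≤ s q.rho0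

theorem ev_P7 {r₁ : ℝ} (hr₁ : 0 < r₁) (s bv mu mp : ℝ → ℝ) (mv : ℝ → ℝ → ℝ)
    (hs : ∀ ρ > 0, 0 < s ρ) : Ev (P7 r₁ s bv mu mp mv) := by
  refine ⟨1, fun B hB => ⟨r₁, hr₁, fun rho0 h1 => ⟨max 1 (bv rho0), fun BV h2 =>
    ⟨mu rho0, fun MU h3 => ⟨mp rho0, fun MP h4 => ⟨mv rho0 BV, fun MV h5 => ⟨MU, fun CU h6 =>
    ⟨MP, fun CP h7 => ⟨MV, fun CV h8 => ⟨0, fun GR h9 => ⟨s rho0, hs _ h1.1, fun sg h10 =>
    ⟨1, one_pos, fun d0 h11 => ⟨1, one_pos, fun rb h12 => ⟨2000, fun N h13 =>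
    ⟨s rho0, hs _ h1.1, fun eps h14 => ?_⟩⟩⟩⟩⟩⟩⟩⟩⟩⟩⟩⟩⟩⟩⟩
  exact ⟨hB, h1.1, h1.2, (le_max_right _ _).trans h2, (le_max_left _ _).trans h2, h3, h4, h5, h6,
    h7, h8, h10.1, h10.2, h13, h14.1, h14.2⟩

/-- INPUT: everything is small on the window `ρ₀/16 ≤ y ≤ 400`. -/
def WinIn : Prop := EvH fun q _g w f t₁ => ∀ t ∈ Icc 0 t₁, ∀ x ∈ Ioo (0 : ℝ) 1,
  q.rho0 / 16 ≤ yv w f t x → yv w f t x ≤ 400 →
    |uu w f t x| ≤ q.sg ∧ |GG w f t x| ≤ q.sg ∧ |ZZ w f t x - 1| ≤ q.sg ∧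
      |(rr w f t x) ^ 2 * RR w f t x| ≤ q.sg ∧ |(rr w f t x) ^ 2 * E0 w f t x| ≤ q.sg

/-- OUTPUT of Bernstein 1. -/
def B1Out : Prop := ∃ C : ℝ → ℝ, (∀ ρ > 0, 0 < C ρ) ∧
  EvH fun q _g w f t₁ => ∀ t ∈ Icc 0 t₁, ∀ x ∈ Ioo (0 : ℝ) 1,
    q.rho0 / 8 ≤ yv w f t x → yv w f t x ≤ 200 →
      |GG w f t x + Fj q.eps 1 t (rho w f t x)| ≤ C q.rho0 * Real.sqrt q.sg * q.A t

/-- OUTPUT of Bernstein 2. -/
def B2Out : Prop := ∃ C : ℝ → ℝ, (∀ ρ > 0, 0 < C ρ) ∧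
  EvH fun q _g w f t₁ => ∀ t ∈ Icc 0 t₁, ∀ x ∈ Ioo (0 : ℝ) 1,
    (yv w f t x = q.rho0 → tau t * |VV w f t x| ≤ (2200 * q.BV + C q.rho0) * q.A t) ∧
    (q.rho0 ≤ yv w f t x → yv w f t x ≤ 100 →
      tau t * |VV w f t x| ≤ C q.rho0 * (1 + q.BV) * q.A t)

/-- boundary value for (b1) at `y = ρ₀` -/
def M3Bd : Prop := EvH fun q g w f t₁ => ∀ t ∈ Icc 0 t₁, ∀ x ∈ Ioo (0 : ℝ) 1,
  yv w f t x = q.rho0 → |ff g w f t x| < q.fb t (uu w f t x)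

/-- boundary value for (b2) at `y = ρ₀` -/
def M4Bd : Prop := EvH fun q _g w f t₁ => ∀ t ∈ Icc 0 t₁, ∀ x ∈ Ioo (0 : ℝ) 1,
  yv w f t x = q.rho0 → |VV w f t x| < q.Vb t (uu w f t x)

/-- strict (b4) -/
def M7Fin : Prop := EvH fun q _g w f t₁ => ∀ t ∈ Icc 0 t₁, ∀ x ∈ Ioo (0 : ℝ) 1,
  q.rho0 ≤ yv w f t x → yv w f t x ≤ 25 →
    |uu w f t x| < q.MU * q.A t ∧ |PP w f t x| < q.MP * q.A t / Real.sqrt (tau t) ∧
      |VV w f t x| < q.MV * q.A t / tau t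

end

end Vale.Agent.P244.ST.M7
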