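import Vale.Agent.P244.ST.M7Iface
import Vale.Agent.P244.ST.BubDer

/-!
# P244-ST, block M7 : the boundary `y = ρ₀` of the closure M3, from Bernstein 1 and closeness
-/

set_option linter.all false

open Set Filter Topology

namespace Vale.Agent.P244.ST.M3B

open Vale.Agent.P244.ST

noncomputable section

/-- `l₃(z)` -/
def S0 (z : ℝ) : ℝ := ∑ k ∈ Finset.range 4, Lag.cf aL 3 k * z ^ k

/-- `2 z l₃'(z)` -/
def D1 (z : ℝ) : ℝ := ∑ k ∈ Finset.range 4, (2 * (k : ℝ)) * Lag.cf aL 3 k * z ^ k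

lemma cf0 : Lag.cf aL 3 0 = 1 := by
  unfold Lag.cf; simp

lemma aL_ge : 17 ≤ aL := by
  have := kap_lt'
  rw [aL_eq]; linarith only [this]

lemma cf1 : |Lag.cf aL 3 1| ≤ 0.17 := by
  have h := Lag.cf_succ aL_gt 3 0
  have ha := aL_ge
  rw [cf0] at h
  norm_num at h
  have hp : 0 < aL + 1 := by linarith only [ha]
  have e : Lag.cf aL 3 1 = -(3 / (aL + 1)) := by
    field_simp
    linarith only [h]
  rw [e, abs_neg, abs_of_pos (by positivity), div_le_iff₀ hp]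
  nlinarith only [ha]

lemma cf2 : |Lag.cf aL 3 2| ≤ 0.01 := by
  have h := Lag.cf_succ aL_gt 3 1
  have ha := aL_ge
  norm_num at h
  have hp : 0 < aL + 1 + 1 := by linarith only [ha]
  have e : Lag.cf aL 3 2 = -(Lag.cf aL 3 1 / (aL + 1 + 1)) := by
    field_simp
    linarith only [h]
  rw [e, abs_neg, abs_div, abs_of_pos hp, div_le_iff₀ hp]
  have := cf1
  nlinarith only [ha, this]

lemma cf3 : |Lag.cf aL 3 3| ≤ 0.001 := by
  have h := Lag.cf_succ aL_gt 3 2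
  have ha := aL_ge
  norm_num at h
  have hp : 0 < aL + 2 + 1 := by linarith only [ha]
  have e : Lag.cf aL 3 3 = -(Lag.cf aL 3 2 / (3 * (aL + 2 + 1))) := by
    field_simp
    linarith only [h]
  rw [e, abs_neg, abs_div, abs_of_pos (by positivity : 0 < 3 * (aL + 2 + 1)),
    div_le_iff₀ (by positivity)]
  have := cf2
  nlinarith only [ha, this]

lemma mono_bd {c z b : ℝ} {k : ℕ} (hz : 0 ≤ z) (hz1 : z ≤ 1) (hc : |c| ≤ b) (hk : 1 ≤ k) :
    |c * z ^ k| ≤ b * z := by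
  rw [abs_mul, abs_of_nonneg (pow_nonneg hz k)]
  have h1 : z ^ k ≤ z := by
    calc z ^ k ≤ z ^ 1 := pow_le_pow_of_le_one hz hz1 hk
      _ = z := pow_one z
  exact mul_le_mul hc h1 (pow_nonneg hz k) ((abs_nonneg c).trans hc)

lemma S0_bd {z : ℝ} (hz : 0 ≤ z) (hz1 : z ≤ 1) : |S0 z - 1| ≤ 0.2 * z := by
  unfold S0
  simp only [Finset.sum_range_succ, Finset.sum_range_zero]
  rw [cf0]
  have h1 := abs_le.1 (mono_bd hz hz1 cf1 (le_refl 1))
  have h2 := abs_le.1 (mono_bd hz hz1 cf2 (by norm_num : 1 ≤ 2))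
  have h3 := abs_le.1 (mono_bd hz hz1 cf3 (by norm_num : 1 ≤ 3))
  rw [abs_le]
  simp only [pow_zero]
  constructor <;> linarith only [hz, h1, h2, h3]

lemma D1_bd {z : ℝ} (hz : 0 ≤ z) (hz1 : z ≤ 1) : |D1 z| ≤ 0.4 * z := by
  unfold D1
  simp only [Finset.sum_range_succ, Finset.sum_range_zero]
  have h1 := abs_le.1 (mono_bd hz hz1 cf1 (le_refl 1))
  have h2 := abs_le.1 (mono_bd hz hz1 cf2 (by norm_num : 1 ≤ 2))
  have h3 := abs_le.1 (mono_bd hz hz1 cf3 (by norm_num : 1 ≤ 3))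
  rw [abs_le]
  push_cast
  constructor <;> linarith only [hz, h1, h2, h3]

lemma ph3_eq (y : ℝ) : ph 3 y = y ^ (-kap) * S0 (y ^ 2 / 4) := by
  unfold ph S0
  rw [ll_eq]

lemma Fj_one_eq {eps t ρ y : ℝ} (ht : t < 1) (hy : 0 < y)
    (h : Real.exp ρ = y * Real.sqrt (tau t)) :
    Fj eps 1 t ρ = eps * (tau t) ^ (lam 3) * y ^ (-kap) *
      (D1 (y ^ 2 / 4) - kap * S0 (y ^ 2 / 4)) := by
  have hτ : 0 < tau t := by unfold tau; linarith only [ht]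
  have hs : 0 < Real.sqrt (tau t) := Real.sqrt_pos.2 hτ
  unfold Fj BD.PhiD
  rw [h, Real.mul_rpow hy.le hs.le]
  have h1 : Real.sqrt (tau t) ^ (-kap) = (tau t) ^ (-kap / 2) := by
    rw [Real.sqrt_eq_rpow, ← Real.rpow_mul hτ.le]; congr 1; ring
  have h2 : (tau t) ^ (lam 3) = (tau t) ^ (3 : ℕ) * (tau t) ^ (-kap / 2) := by
    rw [lam3_eq, ← Real.rpow_natCast, ← Real.rpow_add hτ]; congr 1; push_cast; ring
  rw [h1, h2]
  have h5 : ∑ k ∈ Finset.range (3 + 1), (2 * (k : ℝ) - kap) ^ 1 * Lag.cf aL 3 k *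
      ((y * Real.sqrt (tau t)) ^ 2 / 4) ^ k * (1 - t) ^ (3 - k) =
      (tau t) ^ 3 * (D1 (y ^ 2 / 4) - kap * S0 (y ^ 2 / 4)) := by
    unfold D1 S0
    rw [Finset.mul_sum, ← Finset.sum_sub_distrib, Finset.mul_sum]
    refine Finset.sum_congr rfl fun k hk => ?_
    have hk' : k ≤ 3 := Nat.lt_succ_iff.1 (Finset.mem_range.1 hk)
    have h6 : (tau t) ^ 3 = (tau t) ^ (3 - k) * (tau t) ^ k := by
      rw [← pow_add, Nat.sub_add_cancel hk']
    have h7 : ((y * Real.sqrt (tau t)) ^ 2 / 4) ^ k = (y ^ 2 / 4) ^ k * (tau t) ^ k := by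
      rw [← mul_pow, mul_pow y, Real.sq_sqrt hτ.le]; congr 1; ring
    rw [h6, h7]
    unfold tau
    ring
  rw [h5]
  ring

/-- the pointwise estimate of `e = 1 - G/g(u)` -/
lemma e_bd {g : ℝ → ℝ} {Cg : ℝ} (hC0 : 0 ≤ Cg)
    (hCg : ∀ u > 0, 0 < kap * u - g u ∧ kap * u - g u ≤ Cg * u ^ 3) {u G T s0 d1 ρ : ℝ}
    (hT : 0 < T) (hCT : Cg * T ^ 2 ≤ ρ ^ 2 / 20) (hρ : 0 < ρ) (hρ1 : ρ ≤ 1 / 100)
    (hs0 : |s0 - 1| ≤ 0.01) (hd1 : |d1| ≤ 0.1 * ρ ^ 2)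
    (hu : |u - T * s0| ≤ T * (ρ ^ 2 / 30)) (hG : |G + T * (d1 - kap * s0)| ≤ T * (ρ ^ 2 / 30)) :
    0.9 * T ≤ u ∧ u ≤ 1.1 * T ∧ |1 - G / g u| ≤ 0.2 * ρ ^ 2 := by
  have hk1 := kap_lt'
  have hk2 := kap_gt'
  have hρ2 : ρ ^ 2 ≤ 0.0001 := by nlinarith only [hρ, hρ1]
  have hρ0 : 0 < ρ ^ 2 := by positivity
  obtain ⟨s1, s2⟩ := abs_le.1 hs0
  obtain ⟨u1, u2⟩ := abs_le.1 hu
  obtain ⟨G1, G2⟩ := abs_le.1 hG
  obtain ⟨d2, d3⟩ := abs_le.1 hd1
  have hTρ : T * (ρ ^ 2 / 30) ≤ T * 0.0001 := mul_le_mul_of_nonneg_left (by linarith only [hρ2, hρ0]) hT.le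
  have hTs1 : T * 0.99 ≤ T * s0 := mul_le_mul_of_nonneg_left (by linarith only [s1]) hT.le
  have hTs2 : T * s0 ≤ T * 1.01 := mul_le_mul_of_nonneg_left (by linarith only [s2]) hT.le
  have hlo : 0.9 * T ≤ u := by linarith only [hT, u1, hTρ, hTs1]
  have hhi : u ≤ 1.1 * T := by linarith only [hT, u2, hTρ, hTs2]
  refine ⟨hlo, hhi, ?_⟩
  have hu0 : 0 < u := by linarith only [hT, u1, hTρ, hTs1]
  obtain ⟨g1, g2⟩ := hCg u hu0
  -- Cg u^3 ≤ 0.0605 ρ² u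
  have hc3 : Cg * u ^ 3 ≤ 0.0605 * ρ ^ 2 * u := by
    have e1 : u ^ 2 ≤ 1.21 * T ^ 2 := by nlinarith only [hT, hρ2, hρ0, s2, u1, u2, hTρ, hTs1, hTs2]
    have e2 : Cg * u ^ 2 ≤ Cg * (1.21 * T ^ 2) := mul_le_mul_of_nonneg_left e1 hC0
    have e3 : Cg * u ^ 2 ≤ 0.0605 * ρ ^ 2 := by linarith only [hCT, e2]
    have e4 := mul_le_mul_of_nonneg_right e3 hu0.le
    linarith only [e4, (by ring : Cg * u ^ 3 = Cg * u ^ 2 * u)]
  have hgl : 2 * u ≤ g u := by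
    have : 0.0605 * ρ ^ 2 * u ≤ 0.0605 * 0.0001 * u :=
      mul_le_mul_of_nonneg_right (by linarith only [hρ2]) hu0.le
    nlinarith only [hT, hρ, hρ1, hk1, hk2, u1, u2, hTρ, hTs1, hTs2, g1, g2, hc3, this]
  have hg0 : 0 < g u := by linarith only [hu0, hgl]
  -- |κ u - G|
  have hkuG : |kap * u - G| ≤ 0.21 * ρ ^ 2 * T := by
    have e1 : kap * u - G = kap * (u - T * s0) - (G + T * (d1 - kap * s0)) + T * d1 := by ring
    have e2 : |kap * (u - T * s0)| ≤ 2.1147 * (T * (ρ ^ 2 / 30)) := by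
      rw [abs_mul, abs_of_pos (by linarith only [hk2, hρ2, hρ0] : 0 < kap)]
      exact mul_le_mul hk1.le hu (abs_nonneg _) (by norm_num)
    have e3 : |T * d1| ≤ T * (0.1 * ρ ^ 2) := by
      rw [abs_mul, abs_of_pos hT]
      exact mul_le_mul_of_nonneg_left hd1 hT.le
    have e4 := abs_le.1 e2
    have e5 := abs_le.1 e3
    have e6 : 0 < T * ρ ^ 2 := by positivity
    rw [e1, abs_le]
    constructor <;> linarith only [G2, e4, e5, e6, G1]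
  have hgG : |g u - G| ≤ 0.0605 * ρ ^ 2 * u + 0.21 * ρ ^ 2 * T := by
    obtain ⟨k1, k2⟩ := abs_le.1 hkuG
    have : 0 < ρ ^ 2 * u := by positivity
    rw [abs_le]
    constructor <;> linarith only [g2, hc3, k1, g1, k2]
  have he : 1 - G / g u = (g u - G) / g u := by field_simp
  rw [he, abs_div, abs_of_pos hg0, div_le_iff₀ hg0]
  have e7 : 0.2 * ρ ^ 2 * (2 * u) ≤ 0.2 * ρ ^ 2 * g u :=
    mul_le_mul_of_nonneg_left hgl (by positivity)
  have e8 : ρ ^ 2 * (0.9 * T) ≤ ρ ^ 2 * u := mul_le_mul_of_nonneg_left hlo hρ0.le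
  linarith only [g1, g2, hc3, hgG, e7, e8]

lemma fb_ge {q : Par} {t u : ℝ} (hB : 1 ≤ q.B) (hτ : 0 < tau t) (hT0 : 0 < q.T0 t)
    (hT1 : q.T0 t ≤ 1 / 4) (hu1 : 0.9 * q.T0 t ≤ u) (hu2 : u ≤ 1.1 * q.T0 t) :
    0.5 / tau t ≤ q.fb t u := by
  have hu0 : 0 < u := by linarith only [hT0, hu1]
  have hu3 : u ≤ 0.275 := by linarith only [hT1, hu2]
  have htg := Vale.Agent.P244.ST.BD.BA.ba_tanh_ge hu0.le
  have htl : 0.97 * u ≤ Real.tanh u := by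
    have : u ^ 3 ≤ 0.09 * u := by nlinarith only [hT0, hT1, hu1, hu2, hu0, mul_pos hu0 hu0]
    linarith only [htg, this]
  have hq : 0.8 ≤ Real.tanh u / q.T0 t := by
    rw [le_div_iff₀ hT0]; linarith only [hu1, hu0, htl]
  have h1 : (0.8 : ℝ) ≤ (Real.tanh u / q.T0 t) ^ aa := by
    have e1 : (0.8 : ℝ) ^ (1 : ℝ) ≤ (0.8 : ℝ) ^ aa :=
      Real.rpow_le_rpow_of_exponent_ge (by norm_num) (by norm_num) (by unfold aa; norm_num)
    rw [Real.rpow_one] at e1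
    exact e1.trans (Real.rpow_le_rpow (by norm_num) hq (by unfold aa; norm_num))
  have hch : Real.cosh u ≤ 1.2 := by
    have e1 := Real.cosh_le_exp_half_sq u
    have e2 : Real.exp (u ^ 2 / 2) ≤ Real.exp 0.04 := Real.exp_le_exp.2 (by nlinarith only [hT0, hT1, hu1, hu2])
    have e3 : Real.exp 0.04 ≤ 1.2 := by
      have := Real.exp_bound_div_one_sub_of_interval' (x := 0.04) (by norm_num) (by norm_num)
      linarith only [this, this, (by norm_num : (1 : ℝ) / (1 - 0.04) ≤ 1.2)]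
    linarith only [e1, e2, e3]
  have hch1 := Real.one_le_cosh u
  have h2 : (0.8 : ℝ) ≤ Real.cosh u ^ (-(1 - aa)) := by
    have e1 : Real.cosh u ^ (-1 : ℝ) ≤ Real.cosh u ^ (-(1 - aa)) :=
      Real.rpow_le_rpow_of_exponent_le hch1 (by unfold aa; norm_num)
    refine le_trans ?_ e1
    rw [Real.rpow_neg_one, le_inv_comm₀ (by norm_num) (by linarith only [hT0, hT1, hch1])]
    refine hch.trans (by norm_num)
  unfold Par.fb
  have h3 : 1 / tau t ≤ q.B / tau t := div_le_div_of_nonneg_right hB hτ.le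
  have h4 : (1 / tau t) * 0.8 ≤ q.B / tau t * (Real.tanh u / q.T0 t) ^ aa :=
    mul_le_mul h3 h1 (by norm_num) (by positivity)
  have h5 : (1 / tau t) * 0.8 * 0.8 ≤ q.B / tau t * (Real.tanh u / q.T0 t) ^ aa *
      Real.cosh u ^ (-(1 - aa)) :=
    mul_le_mul h4 h2 (by norm_num) (le_trans (by positivity) h4)
  refine le_trans ?_ h5
  rw [div_eq_mul_one_div]
  have : 0 < 1 / tau t := by positivity
  linarith only [this]

/-- facts on the parameters -/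
structure PF (C : ℝ → ℝ) (Cg : ℝ) (q : Par) : Prop where
  B : 1 ≤ q.B
  rho0 : 0 < q.rho0
  rho1 : q.rho0 ≤ 1 / 100
  sg : 0 < q.sg
  sg1 : Real.sqrt q.sg * (1 + C q.rho0) * q.rho0 ^ kap ≤ q.rho0 ^ 2 / 30
  eps : 0 < q.eps
  eps1 : q.eps * q.rho0 ^ (-kap) ≤ q.rho0 / (20 * (1 + Cg))

lemma ev_PF {C : ℝ → ℝ} {Cg : ℝ} (hC : ∀ ρ > 0, 0 < C ρ) (hCg : 0 ≤ Cg) : Ev (PF C Cg) := by
  refine ⟨1, fun B hB => ⟨1 / 100, by norm_num, fun rho0 hr => ?_⟩⟩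
  have hr0 : 0 < rho0 := hr.1
  have hc := hC rho0 hr0
  have hk : 0 < rho0 ^ kap := Real.rpow_pos_of_pos hr0 _
  have hk' : 0 < rho0 ^ (-kap) := Real.rpow_pos_of_pos hr0 _
  have hx : 0 < rho0 ^ 2 / 30 / ((1 + C rho0) * rho0 ^ kap) := by positivity
  have hy : 0 < rho0 / (20 * (1 + Cg)) / rho0 ^ (-kap) := by positivity
  refine ⟨0, fun BV _ => ⟨0, fun MU _ => ⟨0, fun MP _ => ⟨0, fun MV _ => ⟨0, fun CU _ =>
    ⟨0, fun CP _ => ⟨0, fun CV _ => ⟨0, fun GR _ =>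
    ⟨(rho0 ^ 2 / 30 / ((1 + C rho0) * rho0 ^ kap)) ^ 2, by positivity, fun sg hsg =>
    ⟨1, one_pos, fun d0 _ => ⟨1, one_pos, fun rb _ => ⟨0, fun N _ =>
    ⟨rho0 / (20 * (1 + Cg)) / rho0 ^ (-kap), hy, fun eps heps => ?_⟩⟩⟩⟩⟩⟩⟩⟩⟩⟩⟩⟩⟩
  refine ⟨hB, hr0, hr.2, hsg.1, ?_, heps.1, ?_⟩
  · have h1 : Real.sqrt sg ≤ rho0 ^ 2 / 30 / ((1 + C rho0) * rho0 ^ kap) := by
      rw [Real.sqrt_le_left hx.le]; exact hsg.2
    have h2 := (le_div_iff₀ (by positivity : 0 < (1 + C rho0) * rho0 ^ kap)).1 h1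
    show Real.sqrt sg * (1 + C rho0) * rho0 ^ kap ≤ rho0 ^ 2 / 30
    linarith only [h2, h2]
  · exact (le_div_iff₀ hk').1 heps.2

end

end Vale.Agent.P244.ST.M3B

namespace Vale.Agent.P244.ST.M7

/-- The boundary `y = ρ₀` of the closure of (b1). -/
theorem m3bd (h : B1Out) : M3Bd := by
  obtain ⟨C, hC, hB1⟩ := h
  intro g hg
  obtain ⟨Cg, hCg0, hCg⟩ := BDer.kap_mul_sub_g hg
  refine ((hB1 g hg).and (M3B.ev_PF hC hCg0)).mono fun q hq b w f T t₁ hM hI t ht x hx hy => ?_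
  obtain ⟨hb1, hP⟩ := hq
  have hb := hb1 b w f T t₁ hM hI t ht x hx
  have hcl := hM.close t ht x ⟨hx.1.le, hx.2⟩
  have hr0 := hP.rho0
  rw [hy] at hb hcl
  have hB := hb (by linarith only [hr0]) (by linarith only [hP, hP.rho1])
  have hcl := hcl (by linarith only [hr0]) (by linarith only [hP, hP.rho1])
  have ht1 : t < 1 := lt_of_le_of_lt ht.2 (lt_of_lt_of_le hM.mem.2 hM.T_le)
  have hτ : 0 < tau t := by unfold tau; linarith only [ht1]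
  have hτ1 : tau t ≤ 1 := by unfold tau; linarith only [ht, ht.1]
  have hs : 0 < Real.sqrt (tau t) := Real.sqrt_pos.2 hτ
  have hrr : rr w f t x = q.rho0 * Real.sqrt (tau t) := by
    have : rr w f t x / Real.sqrt (tau t) = q.rho0 := hy
    rw [div_eq_iff hs.ne'] at this
    exact this
  have hz0 : 0 ≤ q.rho0 ^ 2 / 4 := by positivity
  have hz2 : q.rho0 ^ 2 ≤ 0.0001 := by nlinarith only [hP, hr0, hP.rho1]
  have hS0 := M3B.S0_bd hz0 (by linarith only [hz2])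
  have hD1 := M3B.D1_bd hz0 (by linarith only [hz2])
  rw [M3B.Fj_one_eq (y := q.rho0) ht1 hr0 (by rw [← hrr]; rfl)] at hB
  rw [M3B.ph3_eq] at hcl
  have hk : 0 < q.rho0 ^ kap := Real.rpow_pos_of_pos hr0 _
  have hk' : 0 < q.rho0 ^ (-kap) := Real.rpow_pos_of_pos hr0 _
  have hkk : q.rho0 ^ (-kap) * q.rho0 ^ kap = 1 := by
    rw [← Real.rpow_add hr0]; simp
  have hA : 0 < q.A t := mul_pos hP.eps (Real.rpow_pos_of_pos hτ _)
  have hT0 : 0 < q.T0 t := mul_pos hA hk'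
  have hAT : q.A t = q.T0 t * q.rho0 ^ kap := by
    unfold Par.T0
    rw [mul_assoc, hkk, mul_one]
  have hAe : q.A t ≤ q.eps := by
    have : (tau t) ^ (lam 3) ≤ 1 := by
      refine Real.rpow_le_one hτ.le hτ1 ?_
      rw [lam3_eq]; linarith only [kap_lt']
    unfold Par.A
    nlinarith only [hP, this, hP.eps]
  have hTb : q.T0 t ≤ q.rho0 / (20 * (1 + Cg)) := by
    refine le_trans ?_ hP.eps1
    exact mul_le_mul_of_nonneg_right hAe hk'.le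
  have hCg1 : 0 < 1 + Cg := by linarith only [hCg0]
  have hT1 : q.T0 t ≤ q.rho0 / 20 := by
    refine hTb.trans ?_
    exact div_le_div_of_nonneg_left hr0.le (by norm_num) (by linarith only [hCg0])
  have hCT : Cg * q.T0 t ^ 2 ≤ q.rho0 ^ 2 / 20 := by
    have e1 : (1 + Cg) * q.T0 t ≤ q.rho0 / 20 := by
      have := mul_le_mul_of_nonneg_left hTb hCg1.le
      refine this.trans (le_of_eq ?_)
      field_simp
    have e2 : Cg * q.T0 t ≤ q.rho0 / 20 := by nlinarith only [hT0, e1]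
    calc Cg * q.T0 t ^ 2 = (Cg * q.T0 t) * q.T0 t := by ring
      _ ≤ (q.rho0 / 20) * (q.rho0 / 20) :=
        mul_le_mul e2 hT1 hT0.le (by positivity)
      _ ≤ q.rho0 ^ 2 / 20 := by nlinarith only [sq_nonneg q.rho0]
  have hsq : 0 ≤ Real.sqrt q.sg := Real.sqrt_nonneg _
  have hcC := hC q.rho0 hr0
  have hsa : Real.sqrt q.sg * q.rho0 ^ kap ≤ q.rho0 ^ 2 / 30 := by
    refine le_trans ?_ hP.sg1
    have : 0 ≤ Real.sqrt q.sg * C q.rho0 * q.rho0 ^ kap := by positivity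
    nlinarith only [this]
  have hsb : C q.rho0 * Real.sqrt q.sg * q.rho0 ^ kap ≤ q.rho0 ^ 2 / 30 := by
    refine le_trans ?_ hP.sg1
    have : 0 ≤ Real.sqrt q.sg * q.rho0 ^ kap := by positivity
    nlinarith only [this]
  have hu : |uu w f t x - q.T0 t * M3B.S0 (q.rho0 ^ 2 / 4)| ≤ q.T0 t * (q.rho0 ^ 2 / 30) := by
    have e1 : q.T0 t * M3B.S0 (q.rho0 ^ 2 / 4) =
        q.A t * (q.rho0 ^ (-kap) * M3B.S0 (q.rho0 ^ 2 / 4)) := by unfold Par.T0; ring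
    rw [e1]
    refine hcl.trans ?_
    have e2 := mul_le_mul_of_nonneg_left hsa hT0.le
    calc Real.sqrt q.sg * q.A t = q.T0 t * (Real.sqrt q.sg * q.rho0 ^ kap) := by rw [hAT]; ring
      _ ≤ _ := e2
  have hG : |GG w f t x + q.T0 t * (M3B.D1 (q.rho0 ^ 2 / 4) - kap * M3B.S0 (q.rho0 ^ 2 / 4))| ≤
      q.T0 t * (q.rho0 ^ 2 / 30) := by
    have e1 : q.T0 t * (M3B.D1 (q.rho0 ^ 2 / 4) - kap * M3B.S0 (q.rho0 ^ 2 / 4)) =
        q.eps * (tau t) ^ (lam 3) * q.rho0 ^ (-kap) *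
          (M3B.D1 (q.rho0 ^ 2 / 4) - kap * M3B.S0 (q.rho0 ^ 2 / 4)) := by
      unfold Par.T0 Par.A; ring
    rw [e1]
    refine hB.trans ?_
    have e2 := mul_le_mul_of_nonneg_left hsb hT0.le
    calc C q.rho0 * Real.sqrt q.sg * q.A t =
        q.T0 t * (C q.rho0 * Real.sqrt q.sg * q.rho0 ^ kap) := by rw [hAT]; ring
      _ ≤ _ := e2
  obtain ⟨k1, k2, k3⟩ := M3B.e_bd hCg0 hCg hT0 hCT hr0 hP.rho1 (hS0.trans (by linarith only [hz2]))
    (hD1.trans (by linarith only [])) hu hG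
  have hfb := M3B.fb_ge hP.B hτ hT0 (by linarith only [hP, hT0, hT1, hP.rho1]) k1 k2
  refine lt_of_lt_of_le ?_ hfb
  unfold ff ee
  rw [hrr, mul_pow, Real.sq_sqrt hτ.le, abs_div,
    abs_of_pos (by positivity : 0 < q.rho0 ^ 2 * tau t), div_lt_div_iff₀ (by positivity) hτ]
  have e9 := mul_le_mul_of_nonneg_right k3 hτ.le
  have e10 : 0 < q.rho0 ^ 2 * tau t := by positivity
  nlinarith only [e9, e10]

end Vale.Agent.P244.ST.M7
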