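import Vale.Agent.P244.ST.M7Iface
import Vale.Agent.P244.ST.BAux

/-!
# P244-ST, block M7 : the boundary value of `V` at `y = ρ₀` (helper155)
-/

open Set Filter Topology

namespace Vale.Agent.P244.ST.M7

theorem kap_gt_two : 2 < kap := by
  unfold kap
  have h2 : Real.sqrt 1209 < 35 := by
    rw [Real.sqrt_lt' (by norm_num)]
    norm_num
  linarith only [h2]

/-- boundary value for (b2) at `y = ρ₀` -/
theorem m4bd (h : B2Out) : M4Bd := by
  obtain ⟨C, hC, h⟩ := h
  refine (h.and (EvH.of_ev (ev_P7 (r₁ := 1 / 1000) (by norm_num) (fun _ => 1) C (fun _ => 0)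
    (fun _ => 0) (fun _ _ => 0) (fun _ _ => one_pos)))).mono ?_
  rintro q g b w f T t₁ - hM - ⟨h1, h2⟩ t ht x hx hy
  have hτ : 0 < tau t := by
    unfold tau
    linarith only [hM, ht, ht.2, hM.mem.2, hM.T_le]
  have hF := hM.fI t ht x hx hy.le
  set u := uu w f t x with hu
  have hr0 := h2.rho0
  have hA : 0 < q.A t := mul_pos h2.eps (Real.rpow_pos_of_pos hτ _)
  have hB := (h1 t ht x hx).1 hy
  have hBV := h2.BV1
  have hCB : C q.rho0 ≤ q.BV := h2.BV
  -- `ρ₀^{-κ} ≥ 10^6`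
  have hk : (10 : ℝ) ^ 6 ≤ q.rho0 ^ (-kap) := by
    have e1 : q.rho0 ^ (-(2 : ℝ)) ≤ q.rho0 ^ (-kap) := by
      refine Real.rpow_le_rpow_of_exponent_ge hr0 (h2.rho0_le.trans (by norm_num)) ?_
      linarith only [kap_gt_two]
    refine le_trans ?_ e1
    rw [Real.rpow_neg hr0.le, Real.rpow_two]
    rw [le_inv_comm₀ (by norm_num) (by positivity)]
    have : q.rho0 ^ 2 ≤ (1 / 1000) ^ 2 := pow_le_pow_left₀ hr0.le h2.rho0_le 2
    refine this.trans (by norm_num)
  have hT0 : q.T0 t = q.A t * q.rho0 ^ (-kap) := rfl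
  have hT0pos : 0 < q.T0 t := mul_pos hA (by linarith only [hk])
  have hge : 9 / 10 * q.T0 t ≤ Real.tanh u := hF.T_ge
  have htpos : 0 < Real.tanh u := by
    have := mul_pos (by norm_num : (0 : ℝ) < 9 / 10) hT0pos
    linarith only [hT0pos, hge]
  have hratio : 9 / 10 ≤ Real.tanh u / q.T0 t := by
    rw [le_div_iff₀ hT0pos]; exact hge
  have hpow : 9 / 10 ≤ (Real.tanh u / q.T0 t) ^ aa := by
    have e1 : (9 / 10 : ℝ) ^ (1 : ℝ) ≤ (9 / 10) ^ aa :=
      Real.rpow_le_rpow_of_exponent_ge (by norm_num) (by norm_num) (by unfold aa; norm_num)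
    rw [Real.rpow_one] at e1
    exact e1.trans (Real.rpow_le_rpow (by norm_num) hratio (by unfold aa; norm_num))
  have hcosh : 1 ≤ (Real.cosh u) ^ aa :=
    Real.one_le_rpow (Real.one_le_cosh u) (by unfold aa; norm_num)
  have hV : q.BV / tau t * (9 / 10) * (9 / 10 * q.T0 t) * 1 ≤ q.Vb t u := by
    unfold Par.Vb
    gcongr
  refine lt_of_lt_of_le ?_ hV
  have hlt : tau t * |VV w f t x| < q.BV * (9 / 10) * (9 / 10 * q.T0 t) := by
    refine lt_of_le_of_lt hB ?_
    rw [hT0]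
    have e2 : (2200 * q.BV + C q.rho0) * q.A t ≤ 2201 * q.BV * q.A t := by
      have := mul_le_mul_of_nonneg_right (show 2200 * q.BV + C q.rho0 ≤ 2201 * q.BV by linarith only [hCB])
        hA.le
      exact this
    refine lt_of_le_of_lt e2 ?_
    have e3 : 0 < q.BV * q.A t := mul_pos (by linarith only [hBV]) hA
    have e4 : q.BV * q.A t * 10 ^ 6 ≤ q.BV * q.A t * q.rho0 ^ (-kap) :=
      mul_le_mul_of_nonneg_left hk e3.le
    nlinarith only [e3, e4]
  have e5 : q.BV / tau t * (9 / 10) * (9 / 10 * q.T0 t) * 1 =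
      (q.BV * (9 / 10) * (9 / 10 * q.T0 t)) / tau t := by ring
  rw [e5, lt_div_iff₀ hτ]
  linarith only [hlt, mul_comm (tau t) |VV w f t x|]

end Vale.Agent.P244.ST.M7
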