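import Vale.Agent.P244.ST.M7Iface
import Vale.Agent.P244.ST.MAsm

/-!
# P244-ST, block M7 : `M.M7Statement` from the boundary values and the strict (b4)
-/

open Set Filter Topology

namespace Vale.Agent.P244.ST.M7

noncomputable section

/-- MODULE M7 from its pieces. -/
theorem m7Statement_of (h3 : M3Bd) (h4 : M4Bd) (h7 : M7Fin) : M.M7Statement := by
  intro g hg
  refine (((h3 g hg).and (h4 g hg)).and (h7 g hg)).and ev_parAsm |>.mono ?_
  rintro q ⟨⟨⟨c3, c4⟩, c7⟩, hq⟩ b w f T t₁ hH hI t ht x hx hy1 hy2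
  have htc : t ∈ Icc 0 t₁ := ⟨ht.1.le, ht.2⟩
  have hτ : 0 < tau t := by
    unfold tau
    have h1 := hH.mem.2
    have h2 := hH.T_le
    linarith only [ht, h1, h2, ht.2]
  have d7 := c7 b w f T t₁ hH hI t htc x hx hy1 hy2
  refine ⟨d7, fun hy => ⟨c3 b w f T t₁ hH hI t htc x hx hy, c4 b w f T t₁ hH hI t htc x hx hy⟩,
    fun hy => ?_⟩
  have hs : 0 < Real.sqrt (tau t) := Real.sqrt_pos.2 hτ
  have hr : rr w f t x = 25 * Real.sqrt (tau t) := by
    have h : yv w f t x = rr w f t x / Real.sqrt (tau t) := rfl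
    rw [h] at hy
    field_simp at hy
    linarith only [hy]
  exact bd25 hq htc.1 hτ hr d7.1 d7.2.1 d7.2.2

end

end Vale.Agent.P244.ST.M7
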