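import Vale.Agent.P244.ST.M7Iface
import Vale.Agent.P244.ST.M.MB
import Vale.Agent.P244.ST.M.M2FO

/-!
# P244-ST, block M7 : the input `WinIn` (smallness on the window `ρ₀/16 ≤ y ≤ 400`)
-/

open Set Filter Topology

namespace Vale.Agent.P244.ST.M

open Vale.Agent.P244.ST

noncomputable section

/-- smallness of the parameters for the window `ρ₀/16 ≤ y ≤ 400` -/
structure WinPar (q : Par) : Prop where
  rho0 : 0 < q.rho0
  rho0_le : q.rho0 ≤ 1
  sg : 0 < q.sg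
  sg_le : q.sg ≤ 1 / 5
  K1n : 0 ≤ K1 q
  N : 5 ≤ q.N
  eps : 0 < q.eps
  eta : 480000 * q.eta ≤ q.sg / 4
  xi : K1 q * q.eps * 400 ^ bb ≤ q.sg / 100
  T0 : 6 / 5 * (q.eps * q.rho0 ^ (-kap)) * 16 ^ kapp ≤ q.sg / 100

theorem ev_WinPar : Ev WinPar := by
  refine ev_of_N (K := 5) (by norm_num) fun q hq => ?_
  have h5 : (0 : ℝ) ≤ 5 := by norm_num
  have hK1 : 0 ≤ K1 q := K1_nonneg_of hq.rho0 (h5.trans hq.MU) (h5.trans hq.MP)
    (h5.trans hq.MV) (h5.trans hq.CU) (h5.trans hq.CP) (h5.trans hq.CV)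
  have hs := hq.sg
  refine ⟨max 5 (1 / q.sg * (4 * 480000 * 10 ^ 4)), fun N hN => ?_⟩
  have hN5 : 5 ≤ N := (le_max_left _ _).trans hN
  have hN2 : 1 / q.sg * (4 * 480000 * 10 ^ 4) ≤ N := (le_max_right _ _).trans hN
  have hr : 0 < q.rho0 ^ (-kap) := Real.rpow_pos_of_pos hq.rho0 _
  obtain ⟨e1, he1, h1⟩ := exists_mul_le (F := K1 q * 400 ^ bb) (c := q.sg / 100)
    (mul_nonneg hK1 (by positivity)) (by positivity)
  obtain ⟨e2, he2, h2⟩ := exists_mul_le (F := 6 / 5 * q.rho0 ^ (-kap) * 16 ^ kapp)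
    (c := q.sg / 100) (by positivity) (by positivity)
  refine ⟨min e1 e2, lt_min he1 he2, fun eps he => ?_⟩
  have a1 := h1 eps ⟨he.1, he.2.trans (min_le_left _ _)⟩
  have a2 := h2 eps ⟨he.1, he.2.trans (min_le_right _ _)⟩
  refine
    { rho0 := hq.rho0
      rho0_le := hq.rho0'.trans (by norm_num)
      sg := hq.sg
      sg_le := hq.sg'
      K1n := hK1
      N := hN5
      eps := he.1
      eta := ?_
      xi := ?_
      T0 := ?_ }
  · show 480000 * (10 ^ 4 / N ^ 2) ≤ q.sg / 4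
    have hNp : 0 < N := by linarith only [hN5]
    have h3 : 4 * 480000 * 10 ^ 4 ≤ q.sg * N := by
      have := mul_le_mul_of_nonneg_left hN2 hs.le
      rw [← mul_assoc, mul_one_div_cancel hs.ne', one_mul] at this
      exact this
    have h4 : q.sg * N ≤ q.sg * N ^ 2 := mul_le_mul_of_nonneg_left (by nlinarith only [hN5]) hs.le
    rw [← mul_div_assoc, div_le_div_iff₀ (by positivity) (by norm_num)]
    linarith only [h3, h4]
  · calc K1 q * eps * 400 ^ bb = K1 q * 400 ^ bb * eps := by ring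
      _ ≤ _ := a1
  · calc 6 / 5 * (eps * q.rho0 ^ (-kap)) * 16 ^ kapp
        = 6 / 5 * q.rho0 ^ (-kap) * 16 ^ kapp * eps := by ring
      _ ≤ _ := a2

variable {q : Par} {g : ℝ → ℝ} {w f : Fn} {t : ℝ}

theorem A_le_eps (he : 0 < q.eps) (ht0 : 0 ≤ t) (ht : t < 1) : q.A t ≤ q.eps := by
  have h1 : 0 < tau t := M2.tau_pos ht
  have h2 : tau t ≤ 1 := by unfold tau; linarith only [ht0]
  have h3 : (tau t) ^ (lam 3) ≤ 1 := Real.rpow_le_one h1.le h2 mb_lam3_pos.le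
  calc q.A t = q.eps * (tau t) ^ (lam 3) := rfl
    _ ≤ q.eps * 1 := mul_le_mul_of_nonneg_left h3 he.le
    _ = q.eps := mul_one _

theorem rr_le_yv (ht0 : 0 ≤ t) (ht : t < 1) (x : ℝ) : rr w f t x ≤ yv w f t x := by
  have hs := Real.sqrt_pos.2 (M2.tau_pos ht)
  have h1 : Real.sqrt (tau t) ≤ 1 := Real.sqrt_le_one.2 (by unfold tau; linarith only [ht0])
  have hr := M2.rr_pos (w := w) (f := f) (t := t) x
  have hy : yv w f t x = rr w f t x / Real.sqrt (tau t) := rfl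
  rw [hy, le_div_iff₀ hs]
  nlinarith only [h1, hr]

/-- the outer part `ρ₀ ≤ y ≤ 400` -/
theorem win_outer (hq : WinPar q) (ht0 : 0 ≤ t) (ht : t < 1) {x : ℝ}
    (hrs : 0 < rs w f t x) (hO : FO q w f t x) (hy : yv w f t x ≤ 400) :
    |uu w f t x| ≤ q.sg ∧ |GG w f t x| ≤ q.sg ∧ |ZZ w f t x - 1| ≤ q.sg ∧
      |(rr w f t x) ^ 2 * RR w f t x| ≤ q.sg ∧ |(rr w f t x) ^ 2 * E0 w f t x| ≤ q.sg := by
  have hs := hq.sg
  have hs5 := hq.sg_le
  have hr := M2.rr_pos (w := w) (f := f) (t := t) x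
  have hr4 : rr w f t x ≤ 400 := (rr_le_yv ht0 ht x).trans hy
  have hb := bb_pos
  have hNp : 0 < q.N := by linarith only [hq, hs, hs5, hq.N]
  have hη : 0 < q.eta := by unfold Par.eta; positivity
  have hξ : xi q (rr w f t x) ≤ q.sg / 100 := by
    refine le_trans ?_ hq.xi
    unfold xi
    exact mul_le_mul_of_nonneg_left (Real.rpow_le_rpow hr.le hr4 (by linarith only [hs, hs5, hb]))
      (mul_nonneg hq.K1n hq.eps.le)
  have hξ0 : 0 ≤ xi q (rr w f t x) := (abs_nonneg _).trans hO.u_le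
  have hr2 : (rr w f t x) ^ 2 ≤ 160000 := by nlinarith only [hs, hs5, hr, hr4]
  have hr2p : 0 < (rr w f t x) ^ 2 := by positivity
  have hrη : (rr w f t x) ^ 2 * (3 * q.eta) ≤ q.sg / 4 := by
    refine le_trans ?_ hq.eta
    nlinarith only [hs, hs5, hη, hr2]
  have hξ2 : xi q (rr w f t x) ^ 2 ≤ q.sg / 50000 := by
    have : xi q (rr w f t x) ^ 2 ≤ (q.sg / 100) ^ 2 := pow_le_pow_left₀ hξ0 hξ 2
    nlinarith only [hs, hs5, this]
  have hZlo : -(q.sg / 2) ≤ ZZ w f t x - 1 := by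
    refine le_trans ?_ hO.Z_ge
    have : (rr w f t x) ^ 2 * (3 * q.eta) / 1640 ≤ q.sg / 4 := by
      have h1 : 0 ≤ (rr w f t x) ^ 2 * (3 * q.eta) := by positivity
      have h2 : (rr w f t x) ^ 2 * (3 * q.eta) / 1640 ≤ (rr w f t x) ^ 2 * (3 * q.eta) :=
        div_le_self h1 (by norm_num)
      linarith only [hs, hrη]
    linarith only [hs, hrη, hξ2]
  have hZ2 : 1 / 2 ≤ ZZ w f t x := by linarith only [hs, hs5, hZlo]
  refine ⟨?_, ?_, ?_, ?_, ?_⟩
  · exact (hO.u_le.trans hξ).trans (by linarith only [hs])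
  · refine abs_le_of_sq_le_sq' ?_ hs.le |> abs_le.2
    have h1 : (GG w f t x) ^ 2 * ZZ w f t x = (rr w f t x * |PP w f t x|) ^ 2 := by
      unfold GG ZZ
      rw [mul_pow, sq_abs]
      field_simp
    have h2 : (rr w f t x * |PP w f t x|) ^ 2 ≤ xi q (rr w f t x) ^ 2 :=
      pow_le_pow_left₀ (mul_nonneg hr.le (abs_nonneg _)) hO.P_le 2
    have h3 : (GG w f t x) ^ 2 * (1 / 2) ≤ (GG w f t x) ^ 2 * ZZ w f t x :=
      mul_le_mul_of_nonneg_left hZ2 (sq_nonneg _)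
    have h4 : xi q (rr w f t x) ^ 2 ≤ (q.sg / 100) ^ 2 := pow_le_pow_left₀ hξ0 hξ 2
    nlinarith only [h1, h2, h3, h4]
  · rw [abs_le]
    have := hO.Z_le
    constructor <;> linarith only [hs, hZlo, hξ2, this]
  · have h1 : 0 ≤ (rr w f t x) ^ 2 * RR w f t x := mul_nonneg hr2p.le hO.R_nonneg
    rw [abs_of_nonneg h1]
    have h2 := mul_le_mul_of_nonneg_left hO.R_le hr2p.le
    linarith only [hs, hrη, h2]
  · rw [abs_mul, abs_of_pos hr2p]
    have h1 := mul_le_mul_of_nonneg_left hO.E0_le hr2p.le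
    have h2 : (rr w f t x) ^ 2 * (3 / 2 * q.eta + 3000 * xi q (rr w f t x) ^ 2 /
        (rr w f t x) ^ 2) = (rr w f t x) ^ 2 * (3 * q.eta) / 2 + 3000 * xi q (rr w f t x) ^ 2 := by
      field_simp
    rw [h2] at h1
    linarith only [hs, hrη, hξ2, h1]

/-- the inner part `ρ₀/16 ≤ y ≤ ρ₀` -/
theorem win_inner (hg : IsBub g) (hq : WinPar q) (ht0 : 0 ≤ t) (ht : t < 1) {x : ℝ}
    (hI : FI q g w f t x) (hy0 : q.rho0 / 16 ≤ yv w f t x) (hy : yv w f t x ≤ q.rho0) :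
    |uu w f t x| ≤ q.sg ∧ |GG w f t x| ≤ q.sg ∧ |ZZ w f t x - 1| ≤ q.sg ∧
      |(rr w f t x) ^ 2 * RR w f t x| ≤ q.sg ∧ |(rr w f t x) ^ 2 * E0 w f t x| ≤ q.sg := by
  have hs := hq.sg
  have hs5 := hq.sg_le
  have hr := M2.rr_pos (w := w) (f := f) (t := t) x
  have hr1 : rr w f t x ≤ 1 := (rr_le_yv ht0 ht x).trans (hy.trans hq.rho0_le)
  have hNp : 0 < q.N := lt_of_lt_of_le (by norm_num) hq.N
  have hη : 0 < q.eta := by unfold Par.eta; positivity
  have hη1 : q.eta ≤ q.sg / 1920000 := by have := hq.eta; linarith only [this]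
  have hu := hI.u_pos
  have hyp : 0 < yv w f t x := M2.yv_pos ht x
  have hkp : 0 < kapp := by unfold kapp; linarith only [hs5, hη, hη1, M2.kap_gt]
  have hA := A_le_eps (q := q) hq.eps ht0 ht
  have hrk : 0 < q.rho0 ^ (-kap) := Real.rpow_pos_of_pos hq.rho0 _
  -- `sinh u ≤ σ/100`
  have hsinh : Real.sinh (uu w f t x) ≤ q.sg / 100 := by
    refine hI.sinh_le.trans (le_trans ?_ hq.T0)
    have h1 : q.T0 t ≤ q.eps * q.rho0 ^ (-kap) := mul_le_mul_of_nonneg_right hA hrk.le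
    have h0 : 0 ≤ q.rho0 / yv w f t x := div_nonneg hq.rho0.le hyp.le
    have h2 : (q.rho0 / yv w f t x) ^ kapp ≤ 16 ^ kapp := by
      refine Real.rpow_le_rpow h0 ?_ hkp.le
      rw [div_le_iff₀ hyp]; linarith only [hy0]
    have h4 : 0 ≤ q.eps * q.rho0 ^ (-kap) := mul_nonneg hq.eps.le hrk.le
    exact mul_le_mul (mul_le_mul_of_nonneg_left h1 (by norm_num)) h2 (Real.rpow_nonneg h0 _)
      (mul_nonneg (by norm_num) h4)
  have hsp : 0 < Real.sinh (uu w f t x) := Real.sinh_pos_iff.2 hu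
  have hus : uu w f t x ≤ Real.sinh (uu w f t x) := Real.self_le_sinh_iff.2 hu.le
  have hc1 := Real.one_le_cosh (uu w f t x)
  have hcs : Real.cosh (uu w f t x) ^ 2 = 1 + Real.sinh (uu w f t x) ^ 2 := by
    rw [Real.cosh_sq]; ring
  have hs2 : Real.sinh (uu w f t x) ^ 2 ≤ q.sg / 50000 := by
    have : Real.sinh (uu w f t x) ^ 2 ≤ (q.sg / 100) ^ 2 := pow_le_pow_left₀ hsp.le hsinh 2
    nlinarith only [this, hs, hs5]
  have hcu : Real.cosh (uu w f t x) ≤ 1 + Real.sinh (uu w f t x) ^ 2 / 2 := by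
    nlinarith only [hcs, sq_nonneg (Real.cosh (uu w f t x) - 1)]
  have hg0 := M2.g_pos hg hu
  have htanh : Real.tanh (uu w f t x) ≤ Real.sinh (uu w f t x) := by
    rw [Real.tanh_eq_sinh_div_cosh]
    exact div_le_self hsp.le hc1
  have hgle : g (uu w f t x) ≤ 2.12 * Real.sinh (uu w f t x) := by
    have h1 := hg.upper _ hu
    have h2 := M2.kap_lt
    have h3 := M2.tanh_pos hu
    have h4 : kap * Real.tanh (uu w f t x) ≤ 2.12 * Real.tanh (uu w f t x) :=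
      mul_le_mul_of_nonneg_right (by linarith only [h2]) h3.le
    linarith only [h1, h4, htanh]
  have hg2 : g (uu w f t x) ^ 2 ≤ q.sg / 10000 := by
    have h1 : g (uu w f t x) ^ 2 ≤ (2.12 * Real.sinh (uu w f t x)) ^ 2 :=
      pow_le_pow_left₀ hg0.le hgle 2
    have h2 : (2.12 * Real.sinh (uu w f t x)) ^ 2 = 2.12 ^ 2 * Real.sinh (uu w f t x) ^ 2 := by
      ring
    rw [h2] at h1
    norm_num at h1
    linarith only [h1, hs2, hs]
  have hg2p : 0 ≤ g (uu w f t x) ^ 2 := sq_nonneg _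
  have heb0 : 0 ≤ eb q w f t x := (abs_nonneg _).trans hI.e_le
  have heb : eb q w f t x ≤ 1 / 10 ^ 4 := by
    have h1 := hI.eb_le
    have h2 := mul_le_mul_of_nonneg_left hc1 heb0
    linarith only [h1, h2]
  have hq1 := M2.q_lo hg hu
  have hZs1 : Zs g (uu w f t x) ≤ 2 := by
    have h1 := M2.Zs_le hg hu
    linarith only [h1, hcu, hs2, hs5]
  have hZs0 : 1 ≤ Zs g (uu w f t x) := hc1.trans (M2.cosh_le_Zs hg hu)
  have hZs2 : Zs g (uu w f t x) - 1 ≤ q.sg / 4 := by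
    have h1 := M2.Zs_q hg hu
    have h2 : qb g (uu w f t x) = 39 - g (uu w f t x) ^ 2 / 4 := rfl
    have h3 : (Zs g (uu w f t x) - 1) * qb g (uu w f t x) =
        39 * (Real.cosh (uu w f t x) - 1) + g (uu w f t x) ^ 2 / 4 := by
      rw [sub_mul, h1, h2]; ring
    have h4 : (Zs g (uu w f t x) - 1) * 38 ≤ (Zs g (uu w f t x) - 1) * qb g (uu w f t x) :=
      mul_le_mul_of_nonneg_left hq1.le (sub_nonneg.2 hZs0)
    linarith only [h3, h4, hcu, hs2, hg2, hs]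
  -- `θ`
  have hZp : 0 < Zs g (uu w f t x) := lt_of_lt_of_le one_pos hZs0
  have hZ : ZZ w f t x - 1 = (Zs g (uu w f t x) - 1) +
      Zs g (uu w f t x) * th g w f t x := by
    unfold th
    field_simp
    ring
  have hth0 := hI.th_le
  have hr2 : (rr w f t x) ^ 2 ≤ 1 := pow_le_one₀ hr.le hr1
  have hr2p : 0 < (rr w f t x) ^ 2 := by positivity
  have h7 : (rr w f t x) ^ 2 * (3 * q.eta) ≤ 1 * (3 * q.eta) :=
    mul_le_mul_of_nonneg_right hr2 (by positivity)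
  have hZg : Zs g (uu w f t x) * (g (uu w f t x) ^ 2 * 1) ≤ 2 * (g (uu w f t x) ^ 2 * 1) :=
    mul_le_mul_of_nonneg_right hZs1 (by linarith only [hg2p])
  have hth1 : -(Zs g (uu w f t x) * th g w f t x) ≤ q.sg / 4 := by
    have h1 := mul_le_mul_of_nonneg_left hI.th_ge hZp.le
    have h2 : Zs g (uu w f t x) * (g (uu w f t x) ^ 2 * eb q w f t x ^ 2 / 148 +
        (rr w f t x) ^ 2 * (3 * q.eta) / (1640 * Zs g (uu w f t x))) =
        Zs g (uu w f t x) * (g (uu w f t x) ^ 2 * eb q w f t x ^ 2) / 148 +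
        (rr w f t x) ^ 2 * (3 * q.eta) / 1640 := by
      field_simp
    rw [h2] at h1
    have h3 : eb q w f t x ^ 2 ≤ 1 := pow_le_one₀ heb0 (heb.trans (by norm_num))
    have h4 : g (uu w f t x) ^ 2 * eb q w f t x ^ 2 ≤ g (uu w f t x) ^ 2 * 1 :=
      mul_le_mul_of_nonneg_left h3 hg2p
    have h5 : Zs g (uu w f t x) * (g (uu w f t x) ^ 2 * eb q w f t x ^ 2) ≤
        Zs g (uu w f t x) * (g (uu w f t x) ^ 2 * 1) :=
      mul_le_mul_of_nonneg_left h4 hZp.le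
    have h8 : -(Zs g (uu w f t x) * th g w f t x) = Zs g (uu w f t x) * -th g w f t x := by ring
    rw [h8]
    linarith only [h1, h5, hZg, hg2, h7, hη1, hs]
  refine ⟨?_, ?_, ?_, ?_, ?_⟩
  · rw [abs_of_pos hu]; linarith only [hus, hsinh, hs]
  · have h1 : GG w f t x = g (uu w f t x) * (1 - ee g w f t x) := by
      unfold ee
      field_simp
      ring
    rw [h1, abs_mul, abs_of_pos hg0]
    have h2 : |1 - ee g w f t x| ≤ 2 := by
      have h3 := abs_le.1 (hI.e_le.trans heb)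
      rw [abs_le]
      constructor <;> linarith only [h3.1, h3.2]
    have h3 : g (uu w f t x) * |1 - ee g w f t x| ≤ g (uu w f t x) * 2 :=
      mul_le_mul_of_nonneg_left h2 hg0.le
    norm_num at hgle
    linarith only [h3, hgle, hsinh, hs]
  · rw [hZ, abs_le]
    have h9 : Zs g (uu w f t x) * th g w f t x ≤ 0 := mul_nonpos_of_nonneg_of_nonpos hZp.le hth0
    constructor <;> linarith only [h9, hth1, hZs0, hZs2, hs]
  · have h1 : 0 ≤ (rr w f t x) ^ 2 * RR w f t x := mul_nonneg hr2p.le hI.R_nonneg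
    rw [abs_of_nonneg h1]
    have h2 := mul_le_mul_of_nonneg_left hI.R_le hr2p.le
    linarith only [h2, h7, hη1, hs]
  · rw [abs_mul, abs_of_pos hr2p]
    have h1 := mul_le_mul_of_nonneg_left hI.E0_le hr2p.le
    have h2 : (rr w f t x) ^ 2 * (11 / 10 * (3 * q.eta) +
        11 * Zs g (uu w f t x) * g (uu w f t x) ^ 2 * q.fb t (uu w f t x)) =
        11 / 10 * ((rr w f t x) ^ 2 * (3 * q.eta)) +
        11 * (Zs g (uu w f t x) * (g (uu w f t x) ^ 2 * eb q w f t x)) := by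
      unfold eb; ring
    rw [h2] at h1
    have h4 : g (uu w f t x) ^ 2 * eb q w f t x ≤ g (uu w f t x) ^ 2 * 1 :=
      mul_le_mul_of_nonneg_left (heb.trans (by norm_num)) hg2p
    have h5 : Zs g (uu w f t x) * (g (uu w f t x) ^ 2 * eb q w f t x) ≤
        Zs g (uu w f t x) * (g (uu w f t x) ^ 2 * 1) :=
      mul_le_mul_of_nonneg_left h4 hZp.le
    linarith only [h1, h5, hZg, hg2, h7, hη1, hs]

end

end Vale.Agent.P244.ST.M

namespace Vale.Agent.P244.ST.M7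

/-- **Input of M7**: everything is small on the window `ρ₀/16 ≤ y ≤ 400`. -/
theorem winIn : WinIn := by
  intro g hg
  refine M.ev_WinPar.mono ?_
  intro q hq b w f T t₁ H _ t ht x hx hy0 hy
  have ht1 : t < 1 := lt_of_le_of_lt ht.2 (H.mem.2.trans_le H.T_le)
  have htT : t ∈ Ico 0 T := ⟨ht.1, lt_of_le_of_lt ht.2 H.mem.2⟩
  rcases le_total (yv w f t x) q.rho0 with h | h
  · exact M.win_inner hg hq ht.1 ht1 (H.fI t ht x hx h) hy0 h
  · exact M.win_outer hq ht.1 ht1 (H.qual.rs_pos t htT x hx)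
      (H.fO t ht x ⟨hx.1.le, hx.2⟩ h) hy

end Vale.Agent.P244.ST.M7
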