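import Mathlib

/-!
# P244-ST, block M7a : the pointwise inequality of the first Bernstein estimate
-/

namespace Vale.Agent.P244.ST.M7a

/-- the algebraic combination of the three touching conditions -/
lemma bern_comb {m1 lam y2 z z' z'' A1 v w w1 w2 Z Zr ch c NL NLr : ℝ} (hZ : 0 ≤ Z)
    (E1 : 2 * z * z' * w ^ 2 + 2 * z ^ 2 * (w * w1) + 2 * A1 * (v * w) = 0)
    (E2 : (2 * z' ^ 2 + 2 * z * z'') * w ^ 2 + 8 * z * z' * (w * w1) +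
      2 * z ^ 2 * (w1 ^ 2 + w * w2) + 2 * A1 * (w ^ 2 + v * w1) ≤ 0)
    (E3 : 0 ≤ 2 * lam * y2 * (z ^ 2 * w ^ 2 + A1 * v ^ 2) + y2 * z * z' * w ^ 2 +
      2 * z ^ 2 * w * (Z * w2 + (Zr + m1 * ch - 2 * Z) * w1 + c * w - 4 * m1 * v + NLr) +
      2 * A1 * v * (Z * w1 + m1 * ch * w + 2 * m1 * v + NL)) :
    2 * Z * A1 * w ^ 2 ≤ (2 * lam * y2 * z ^ 2 + y2 * z * z' - Z * (2 * z' ^ 2 + 2 * z * z'') -
      2 * (Zr + m1 * ch - 2 * Z) * z * z' + 2 * z ^ 2 * c + 8 * Z * z' ^ 2) * w ^ 2 +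
      (2 * A1 * (2 * Z - Zr) - 8 * m1 * z ^ 2) * (v * w) + 2 * z ^ 2 * (w * NLr) +
      A1 * (4 * m1 + 2 * lam * y2) * v ^ 2 + 2 * A1 * (v * NL) := by
  have h1 := mul_le_mul_of_nonneg_left E2 hZ
  have h2 : 0 ≤ 2 * Z * (z * w1 + 2 * z' * w) ^ 2 := by positivity
  have h3 : (Zr + m1 * ch - 2 * Z) * (2 * z * z' * w ^ 2 + 2 * z ^ 2 * (w * w1) +
      2 * A1 * (v * w)) = 0 := by rw [E1, mul_zero]
  linarith only [E3, h1, h2, h3, h1, h2, h3, E3]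

lemma abs_mul_le' {a b A B : ℝ} (ha : |a| ≤ A) (hb : |b| ≤ B) : |a * b| ≤ A * B := by
  rw [abs_mul]
  exact mul_le_mul ha hb (abs_nonneg _) ((abs_nonneg _).trans ha)

lemma bern_K {lam y2 z z' z'' Z b c D Bb Cc : ℝ}
    (hlam : 0 ≤ lam) (hy0 : 0 ≤ y2) (hy : y2 ≤ D)
    (hz : |z| ≤ D) (hz' : |z'| ≤ D) (hz'' : |z''| ≤ D)
    (hZ1 : 0 ≤ Z) (hZ2 : Z ≤ 2) (hb : |b| ≤ Bb) (hc : |c| ≤ Cc) :
    2 * lam * y2 * z ^ 2 + y2 * z * z' - Z * (2 * z' ^ 2 + 2 * z * z'') -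
      2 * b * z * z' + 2 * z ^ 2 * c + 8 * Z * z' ^ 2 ≤
      (2 * lam + 1) * D ^ 3 + (24 + 2 * Bb + 2 * Cc) * D ^ 2 := by
  have zz : |z ^ 2| ≤ D ^ 2 := by rw [abs_pow]; exact pow_le_pow_left₀ (abs_nonneg _) hz 2
  have zz' : |z * z'| ≤ D ^ 2 := by rw [sq]; exact abs_mul_le' hz hz'
  have zz'' : |z * z''| ≤ D ^ 2 := by rw [sq]; exact abs_mul_le' hz hz''
  have z'2 : |z' ^ 2| ≤ D ^ 2 := by rw [abs_pow]; exact pow_le_pow_left₀ (abs_nonneg _) hz' 2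
  have ay : |y2| ≤ D := by rw [abs_of_nonneg hy0]; exact hy
  have aZ : |Z| ≤ 2 := by rw [abs_of_nonneg hZ1]; exact hZ2
  have t1 : |y2 * z ^ 2| ≤ D * D ^ 2 := abs_mul_le' ay zz
  have t2 : |y2 * (z * z')| ≤ D * D ^ 2 := abs_mul_le' ay zz'
  have t3 : |Z * z' ^ 2| ≤ 2 * D ^ 2 := abs_mul_le' aZ z'2
  have t4 : |Z * (z * z'')| ≤ 2 * D ^ 2 := abs_mul_le' aZ zz''
  have t5 : |b * (z * z')| ≤ Bb * D ^ 2 := abs_mul_le' hb zz'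
  have t6 : |z ^ 2 * c| ≤ D ^ 2 * Cc := abs_mul_le' zz hc
  have s1 := mul_le_mul_of_nonneg_left (abs_le.1 t1).2 (by linarith only [hlam] : (0:ℝ) ≤ 2 * lam)
  have s2 := (abs_le.1 t2).2
  have s3 := (abs_le.1 t3).2
  have s4 := (abs_le.1 t4).1
  have s5 := (abs_le.1 t5).1
  have s6 := (abs_le.1 t6).2
  clear t1 t2 t3 t4 t5 t6 zz zz' zz'' z'2 ay aZ hb hc hz hz' hz''
  have e : 2 * lam * y2 * z ^ 2 + y2 * z * z' - Z * (2 * z' ^ 2 + 2 * z * z'') -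
      2 * b * z * z' + 2 * z ^ 2 * c + 8 * Z * z' ^ 2 =
      2 * lam * (y2 * z ^ 2) + y2 * (z * z') + 6 * (Z * z' ^ 2) - 2 * (Z * (z * z'')) -
      2 * (b * (z * z')) + 2 * (z ^ 2 * c) := by ring
  have e2 : (2 * lam + 1) * D ^ 3 + (24 + 2 * Bb + 2 * Cc) * D ^ 2 =
      2 * lam * (D * D ^ 2) + D * D ^ 2 + 12 * D ^ 2 + 12 * D ^ 2 + 2 * (Bb * D ^ 2) +
      2 * (D ^ 2 * Cc) := by ring
  rw [e, e2]
  generalize D * D ^ 2 = X1 at *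
  generalize y2 * z ^ 2 = X2 at *
  generalize y2 * (z * z') = X3 at *
  generalize Z * z' ^ 2 = X4 at *
  generalize Z * (z * z'') = X5 at *
  generalize b * (z * z') = X6 at *
  generalize z ^ 2 * c = X7 at *
  generalize Bb * D ^ 2 = X8 at *
  generalize D ^ 2 * Cc = X9 at *
  have : 0 ≤ D ^ 2 := sq_nonneg D
  generalize D ^ 2 = X10 at *
  linarith only [s1, s2, s5, s6, s3, s4, this]

lemma bern_L1 {m1 A1 z Z Zr v w D e0 : ℝ} (hm1 : 0 ≤ m1) (hz : |z| ≤ D)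
    (hZ1 : 1 / 2 ≤ Z) (hZ2 : Z ≤ 2) (hZr : |Zr| ≤ 1) (hv : |v| ≤ e0) (hA : 0 ≤ A1)
    (hA2 : m1 * D ^ 2 ≤ A1) :
    (2 * A1 * (2 * Z - Zr) - 8 * m1 * z ^ 2) * (v * w) ≤ A1 * (w ^ 2 / 8 + 648 * e0 ^ 2) := by
  have zz : |z ^ 2| ≤ D ^ 2 := by rw [abs_pow]; exact pow_le_pow_left₀ (abs_nonneg _) hz 2
  have b1 : |2 * A1 * (2 * Z - Zr) - 8 * m1 * z ^ 2| ≤ 18 * A1 := by
    have c1 : |2 * A1 * (2 * Z - Zr)| ≤ 10 * A1 := by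
      have : |2 * Z - Zr| ≤ 5 := by
        rw [abs_le] at hZr ⊢; constructor <;> linarith only [hZ1, hZr, hZ2, hZr.1, hZr.2]
      have := abs_mul_le' (by rw [abs_of_nonneg (by linarith only [hA])] : |2 * A1| ≤ 2 * A1) this
      linarith only [this]
    have c2 : |8 * m1 * z ^ 2| ≤ 8 * A1 := by
      have := abs_mul_le' (by rw [abs_of_nonneg (by linarith only [hm1])] : |8 * m1| ≤ 8 * m1) zz
      calc _ ≤ 8 * m1 * D ^ 2 := this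
        _ ≤ 8 * A1 := by linarith only [hA2]
    exact (abs_sub _ _).trans (by linarith only [c1, c2])
  have b2 : |v * w| ≤ e0 * |w| := by
    rw [abs_mul]; exact mul_le_mul_of_nonneg_right hv (abs_nonneg w)
  have := (le_abs_self _).trans (abs_mul_le' b1 b2)
  have h9 : 18 * e0 * |w| ≤ w ^ 2 / 8 + 648 * e0 ^ 2 := by
    nlinarith only [sq_nonneg (|w| - 72 * e0), sq_abs w]
  calc _ ≤ 18 * A1 * (e0 * |w|) := this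
    _ = A1 * (18 * e0 * |w|) := by ring
    _ ≤ _ := mul_le_mul_of_nonneg_left h9 hA

lemma bern_L2 {A1 z w D NLr e1 e2 : ℝ} (hz : |z| ≤ D) (hNLr : |NLr| ≤ e1 + e2 * |w|)
    (hA0 : D ^ 2 ≤ A1) :
    2 * z ^ 2 * (w * NLr) ≤ A1 * (w ^ 2 / 8 + 8 * e1 ^ 2) + 2 * D ^ 2 * e2 * w ^ 2 := by
  have zz : |z ^ 2| ≤ D ^ 2 := by rw [abs_pow]; exact pow_le_pow_left₀ (abs_nonneg _) hz 2
  have b1 : |w * NLr| ≤ |w| * (e1 + e2 * |w|) := by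
    rw [abs_mul]; exact mul_le_mul_of_nonneg_left hNLr (abs_nonneg w)
  have h1 := (le_abs_self _).trans (abs_mul_le' zz b1)
  have h6 : 2 * (e1 * |w|) ≤ w ^ 2 / 8 + 8 * e1 ^ 2 := by
    nlinarith only [sq_nonneg (|w| - 8 * e1), sq_abs w]
  have h7 : 0 ≤ w ^ 2 / 8 + 8 * e1 ^ 2 := by positivity
  calc 2 * z ^ 2 * (w * NLr) = 2 * (z ^ 2 * (w * NLr)) := by ring
    _ ≤ 2 * (D ^ 2 * (|w| * (e1 + e2 * |w|))) := by linarith only [h1]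
    _ = D ^ 2 * (2 * (e1 * |w|)) + 2 * D ^ 2 * e2 * |w| ^ 2 := by ring
    _ = D ^ 2 * (2 * (e1 * |w|)) + 2 * D ^ 2 * e2 * w ^ 2 := by rw [sq_abs w]
    _ ≤ D ^ 2 * (w ^ 2 / 8 + 8 * e1 ^ 2) + 2 * D ^ 2 * e2 * w ^ 2 := by
        gcongr
    _ ≤ A1 * (w ^ 2 / 8 + 8 * e1 ^ 2) + 2 * D ^ 2 * e2 * w ^ 2 := by
        gcongr

lemma bern_L3 {m1 lam y2 A1 v D e0 : ℝ} (hm1 : 0 ≤ m1) (hlam : 0 ≤ lam) (hy0 : 0 ≤ y2)
    (hy : y2 ≤ D) (hv : |v| ≤ e0) (hA : 0 ≤ A1) :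
    A1 * (4 * m1 + 2 * lam * y2) * v ^ 2 ≤ A1 * ((4 * m1 + 2 * lam * D) * e0 ^ 2) := by
  have vv : v ^ 2 ≤ e0 ^ 2 := by
    rw [← sq_abs v]; exact pow_le_pow_left₀ (abs_nonneg _) hv 2
  have hD : 0 ≤ D := hy0.trans hy
  have b1 : (4 * m1 + 2 * lam * y2) * v ^ 2 ≤ (4 * m1 + 2 * lam * D) * e0 ^ 2 := by
    refine mul_le_mul ?_ vv (sq_nonneg _) (by positivity)
    have := mul_le_mul_of_nonneg_left hy hlam
    linarith only [this]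
  calc _ = A1 * ((4 * m1 + 2 * lam * y2) * v ^ 2) := by ring
    _ ≤ _ := mul_le_mul_of_nonneg_left b1 hA

lemma bern_L4 {A1 v NL e0 e1 : ℝ} (hv : |v| ≤ e0) (hNL : |NL| ≤ e1) (hA : 0 ≤ A1) :
    2 * A1 * (v * NL) ≤ A1 * (e0 ^ 2 + e1 ^ 2) := by
  have := (le_abs_self _).trans (abs_mul_le' hv hNL)
  have h5 : 2 * (v * NL) ≤ e0 ^ 2 + e1 ^ 2 := by nlinarith only [this, sq_nonneg (e0 - e1)]
  calc 2 * A1 * (v * NL) = A1 * (2 * (v * NL)) := by ring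
    _ ≤ _ := mul_le_mul_of_nonneg_left h5 hA

/-- the pointwise estimate -/
lemma bern_pt {m1 lam y2 z z' z'' A1 v w w1 w2 Z Zr ch c NL NLr D Bb Cc e0 e1 e2 : ℝ}
    (hm1 : 0 ≤ m1) (hlam : 0 ≤ lam) (hD : 1 ≤ D) (hy0 : 0 ≤ y2) (hy : y2 ≤ D)
    (hz : |z| ≤ D) (hz' : |z'| ≤ D) (hz'' : |z''| ≤ D)
    (hZ1 : 1 / 2 ≤ Z) (hZ2 : Z ≤ 2) (hZr : |Zr| ≤ 1) (hb : |Zr + m1 * ch - 2 * Z| ≤ Bb)
    (hc : |c| ≤ Cc) (hv : |v| ≤ e0) (hNL : |NL| ≤ e1) (hNLr : |NLr| ≤ e1 + e2 * |w|)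
    (he2 : 0 ≤ e2)
    (hA1 : 4 * ((2 * lam + 1) * D ^ 3 + (24 + 2 * Bb + 2 * Cc + 2 * e2) * D ^ 2) ≤ A1)
    (hA2 : m1 * D ^ 2 ≤ A1)
    (E1 : 2 * z * z' * w ^ 2 + 2 * z ^ 2 * (w * w1) + 2 * A1 * (v * w) = 0)
    (E2 : (2 * z' ^ 2 + 2 * z * z'') * w ^ 2 + 8 * z * z' * (w * w1) +
      2 * z ^ 2 * (w1 ^ 2 + w * w2) + 2 * A1 * (w ^ 2 + v * w1) ≤ 0)
    (E3 : 0 ≤ 2 * lam * y2 * (z ^ 2 * w ^ 2 + A1 * v ^ 2) + y2 * z * z' * w ^ 2 +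
      2 * z ^ 2 * w * (Z * w2 + (Zr + m1 * ch - 2 * Z) * w1 + c * w - 4 * m1 * v + NLr) +
      2 * A1 * v * (Z * w1 + m1 * ch * w + 2 * m1 * v + NL)) :
    w ^ 2 ≤ (1298 + 8 * m1 + 4 * lam * D) * e0 ^ 2 + 18 * e1 ^ 2 := by
  have hBb : 0 ≤ Bb := (abs_nonneg _).trans hb
  have hCc : 0 ≤ Cc := (abs_nonneg _).trans hc
  have hD2 : 0 ≤ D ^ 2 := sq_nonneg D
  have hA0 : D ^ 2 ≤ A1 := by
    have i1 : 0 ≤ Bb * D ^ 2 := by positivity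
    have i2 : 0 ≤ Cc * D ^ 2 := by positivity
    have i3 : 0 ≤ e2 * D ^ 2 := by positivity
    have i4 : 0 ≤ lam * D ^ 3 := by positivity
    have i5 : 0 ≤ D ^ 3 := by positivity
    linarith only [hA1, hD2, i1, i2, i3, i4, i5]
  have hA : 0 ≤ A1 := by linarith only [hD2, hA0]
  have hApos : 0 < A1 := by
    have : 0 < D ^ 2 := by positivity
    linarith only [hA0, this]
  have H := bern_comb (by linarith only [hZ1] : (0:ℝ) ≤ Z) E1 E2 E3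
  have K := bern_K (lam := lam) hlam hy0 hy hz hz' hz'' (by linarith only [hZ1] : (0:ℝ) ≤ Z) hZ2 hb hc
  have L1 := bern_L1 (w := w) hm1 hz hZ1 hZ2 hZr hv hA hA2
  have L2 := bern_L2 hz hNLr hA0
  have L3 := bern_L3 hm1 hlam hy0 hy hv hA
  have L4 := bern_L4 hv hNL hA
  have w0 : 0 ≤ w ^ 2 := sq_nonneg w
  have L0 : A1 * w ^ 2 ≤ 2 * Z * A1 * w ^ 2 := by
    have : 0 ≤ (2 * Z - 1) * (A1 * w ^ 2) := mul_nonneg (by linarith only [hZ1]) (by positivity)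
    linarith only [this]
  have LK := mul_le_mul_of_nonneg_right K w0
  have S1 : ((2 * lam + 1) * D ^ 3 + (24 + 2 * Bb + 2 * Cc) * D ^ 2) * w ^ 2 +
      2 * D ^ 2 * e2 * w ^ 2 ≤ A1 / 4 * w ^ 2 := by
    have h : (2 * lam + 1) * D ^ 3 + (24 + 2 * Bb + 2 * Cc + 2 * e2) * D ^ 2 ≤ A1 / 4 := by
      linarith only [hA1]
    have := mul_le_mul_of_nonneg_right h w0
    calc _ = ((2 * lam + 1) * D ^ 3 + (24 + 2 * Bb + 2 * Cc + 2 * e2) * D ^ 2) * w ^ 2 := by ring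
      _ ≤ _ := this
  have fin0 : A1 * w ^ 2 ≤ A1 / 4 * w ^ 2 + A1 * (w ^ 2 / 8 + 648 * e0 ^ 2) +
      A1 * (w ^ 2 / 8 + 8 * e1 ^ 2) + A1 * ((4 * m1 + 2 * lam * D) * e0 ^ 2) +
      A1 * (e0 ^ 2 + e1 ^ 2) := by
    have H' := L0.trans H
    clear H L0 E1 E2 E3 K hA1 hA2 hb
    generalize (2 * lam * y2 * z ^ 2 + y2 * z * z' - Z * (2 * z' ^ 2 + 2 * z * z'') -
      2 * (Zr + m1 * ch - 2 * Z) * z * z' + 2 * z ^ 2 * c + 8 * Z * z' ^ 2) * w ^ 2 = X1 at *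
    generalize ((2 * lam + 1) * D ^ 3 + (24 + 2 * Bb + 2 * Cc) * D ^ 2) * w ^ 2 = X2 at *
    generalize (2 * A1 * (2 * Z - Zr) - 8 * m1 * z ^ 2) * (v * w) = X3 at *
    generalize 2 * z ^ 2 * (w * NLr) = X4 at *
    generalize A1 * (4 * m1 + 2 * lam * y2) * v ^ 2 = X5 at *
    generalize 2 * A1 * (v * NL) = X6 at *
    generalize 2 * D ^ 2 * e2 * w ^ 2 = X7 at *
    generalize A1 * (w ^ 2 / 8 + 648 * e0 ^ 2) = X8 at *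
    generalize A1 * (w ^ 2 / 8 + 8 * e1 ^ 2) = X9 at *
    generalize A1 * ((4 * m1 + 2 * lam * D) * e0 ^ 2) = X10 at *
    generalize A1 * (e0 ^ 2 + e1 ^ 2) = X11 at *
    generalize A1 / 4 * w ^ 2 = X12 at *
    linarith only [LK, H', L1, L2, L3, L4, S1]
  have fin : A1 * w ^ 2 ≤ A1 * (w ^ 2 / 2 + (649 + 4 * m1 + 2 * lam * D) * e0 ^ 2 +
      9 * e1 ^ 2) := by
    refine fin0.trans (le_of_eq ?_)
    ring
  have fin2 := le_of_mul_le_mul_left fin hApos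
  linarith only [fin2]

end Vale.Agent.P244.ST.M7a
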