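import Vale.Agent.P244.ST.M7Win
import Vale.Agent.P244.ST.M7aPt

/-!
# P244-ST, block M7a : the first Bernstein estimate on a parabolic window, abstract form
-/

open Set Filter Topology

namespace Vale.Agent.P244.ST.M7a

/-- `y = e^ρ / √(1-t)` -/
noncomputable def yv (t ρ : ℝ) : ℝ := Real.exp ρ / Real.sqrt (1 - t)

lemma yv_pos {t ρ : ℝ} (ht : t < 1) : 0 < yv t ρ :=
  div_pos (Real.exp_pos _) (Real.sqrt_pos.2 (by linarith only [ht]))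

lemma yv_mem {y₀ y₁ t₁ : ℝ} (ht₁ : t₁ < 1) {q : ℝ × ℝ} (hq : q ∈ Win y₀ y₁ t₁) :
    y₀ ≤ yv q.1 q.2 ∧ yv q.1 q.2 ≤ y₁ := by
  have hs : 0 < Real.sqrt (1 - q.1) := Real.sqrt_pos.2 (by linarith only [ht₁, hq, hq.1.2])
  exact ⟨(le_div_iff₀ hs).2 hq.2.1, (div_le_iff₀ hs).2 hq.2.2⟩

lemma yv_sq {t ρ : ℝ} (ht : t < 1) : Real.exp (-2 * ρ) = 1 / ((yv t ρ) ^ 2 * (1 - t)) := by
  have h1 : Real.sqrt (1 - t) ^ 2 = 1 - t := Real.sq_sqrt (by linarith only [ht])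
  have h2 : (1 - t) ≠ 0 := by linarith only [ht]
  rw [yv, div_pow, h1, div_mul_cancel₀ _ h2, ← Real.exp_nat_mul, one_div, ← Real.exp_neg]
  congr 1
  push_cast
  ring

lemma yv_hasDerivAt_rho (t ρ : ℝ) : HasDerivAt (fun ρ => yv t ρ) (yv t ρ) ρ := by
  unfold yv
  exact (Real.hasDerivAt_exp ρ).div_const _

lemma yv_hasDerivAt_t {t : ℝ} (ρ : ℝ) (ht : t < 1) :
    HasDerivAt (fun t => yv t ρ) (yv t ρ / (2 * (1 - t))) t := by
  unfold yv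
  have h0 : 0 < 1 - t := by linarith only [ht]
  have hs : 0 < Real.sqrt (1 - t) := Real.sqrt_pos.2 h0
  have h1 : HasDerivAt (fun t : ℝ => 1 - t) (-1) t := by
    simpa using (hasDerivAt_id t).const_sub 1
  have h2 := h1.sqrt h0.ne'
  have h3 := (hasDerivAt_const t (Real.exp ρ)).div h2 hs.ne'
  refine h3.congr_deriv ?_
  have h4 : Real.sqrt (1 - t) ^ 2 = 1 - t := Real.sq_sqrt h0.le
  rw [h4]
  field_simp
  ring_nf

/-- cut-off function -/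
noncomputable def zt (y₀ y₁ y : ℝ) : ℝ := (y - y₀) * (y₁ - y)
/-- its first logarithmic derivative -/
noncomputable def zt1 (y₀ y₁ y : ℝ) : ℝ := y * (y₀ + y₁ - 2 * y)
/-- its second logarithmic derivative -/
noncomputable def zt2 (y₀ y₁ y : ℝ) : ℝ := y * (y₀ + y₁ - 4 * y)

lemma zt_rho (y₀ y₁ t ρ : ℝ) :
    HasDerivAt (fun ρ => zt y₀ y₁ (yv t ρ)) (zt1 y₀ y₁ (yv t ρ)) ρ := by
  unfold zt zt1
  have h := yv_hasDerivAt_rho t ρ
  refine ((h.sub_const y₀).mul (h.const_sub y₁)).congr_deriv ?_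
  ring

lemma zt1_rho (y₀ y₁ t ρ : ℝ) :
    HasDerivAt (fun ρ => zt1 y₀ y₁ (yv t ρ)) (zt2 y₀ y₁ (yv t ρ)) ρ := by
  unfold zt1 zt2
  have h := yv_hasDerivAt_rho t ρ
  refine (h.mul ((h.const_mul 2).const_sub (y₀ + y₁))).congr_deriv ?_
  ring

lemma zt_t {t : ℝ} (y₀ y₁ ρ : ℝ) (ht : t < 1) :
    HasDerivAt (fun t => zt y₀ y₁ (yv t ρ)) (zt1 y₀ y₁ (yv t ρ) / (2 * (1 - t))) t := by
  unfold zt zt1
  have h := yv_hasDerivAt_t ρ ht
  refine ((h.sub_const y₀).mul (h.const_sub y₁)).congr_deriv ?_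
  ring

lemma zt_bounds {y₀ y₁ y : ℝ} (hy₀ : 0 < y₀) (h0 : y₀ ≤ y) (h1 : y ≤ y₁) :
    |zt y₀ y₁ y| ≤ 1 + 4 * y₁ ^ 2 ∧ |zt1 y₀ y₁ y| ≤ 1 + 4 * y₁ ^ 2 ∧
    |zt2 y₀ y₁ y| ≤ 1 + 4 * y₁ ^ 2 ∧ y ^ 2 ≤ 1 + 4 * y₁ ^ 2 := by
  have hy : 0 < y := by linarith only [hy₀, h0]
  have hy₁ : 0 < y₁ := by linarith only [hy₀, h0, h1]
  unfold zt zt1 zt2
  refine ⟨?_, ?_, ?_, ?_⟩
  · rw [abs_of_nonneg (mul_nonneg (by linarith only [h0]) (by linarith only [h1]))]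
    nlinarith only [hy₀, h0, h1]
  · have : |y₀ + y₁ - 2 * y| ≤ y₁ := by rw [abs_le]; constructor <;> linarith only [hy₀, h1, h0]
    have h := abs_mul_le' (by rw [abs_of_pos hy]; exact h1 : |y| ≤ y₁) this
    nlinarith only [h]
  · have : |y₀ + y₁ - 4 * y| ≤ 4 * y₁ := by rw [abs_le]; constructor <;> linarith only [hy₀, h0, h1]
    have h := abs_mul_le' (by rw [abs_of_pos hy]; exact h1 : |y| ≤ y₁) this
    nlinarith only [h]
  · nlinarith only [hy₀, h0, h1]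

lemma pow_t {t : ℝ} (a : ℝ) (ht : t < 1) :
    HasDerivAt (fun t : ℝ => (1 - t) ^ (-a)) ((1 - t) ^ (-a) * (a / (1 - t))) t := by
  have h0 : 0 < 1 - t := by linarith only [ht]
  have h1 : HasDerivAt (fun t : ℝ => 1 - t) (-1) t := by
    simpa using (hasDerivAt_id t).const_sub 1
  refine (h1.rpow_const (Or.inl h0.ne')).congr_deriv ?_
  rw [Real.rpow_sub_one h0.ne']
  field_simp

/-- FIRST BERNSTEIN ESTIMATE, abstract form. -/
theorem bern1_abs {m1 lam y₀ y₁ t₁ ε Bb Cc e0 e1 e2 D A1 B : ℝ} (hy₀ : 0 < y₀) (hy₁ : y₀ < y₁)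
    (ht₁ : t₁ < 1) (hm1 : 0 ≤ m1) (hlam : 0 ≤ lam) (hε : 0 < ε) (he2 : 0 ≤ e2)
    (hDdef : D = 1 + 4 * y₁ ^ 2)
    (hA1 : 4 * ((2 * lam + 1) * D ^ 3 + (24 + 2 * Bb + 2 * Cc + 2 * e2) * D ^ 2) ≤ A1)
    (hA2 : m1 * D ^ 2 ≤ A1)
    (hB : B = D ^ 2 * ((1298 + 8 * m1 + 4 * lam * D) * e0 ^ 2 + 18 * e1 ^ 2) + A1 * e0 ^ 2)
    {v w w1 w2 Z Zr ch c NL NLr : ℝ → ℝ → ℝ}
    (cv : ContinuousOn (fun q : ℝ × ℝ => v q.1 q.2) (Win y₀ y₁ t₁))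
    (cw : ContinuousOn (fun q : ℝ × ℝ => w q.1 q.2) (Win y₀ y₁ t₁))
    (hv : ∀ q ∈ Win y₀ y₁ t₁, 0 < q.1 → HasDerivAt (v q.1) (w q.1 q.2) q.2)
    (hw : ∀ q ∈ Win y₀ y₁ t₁, 0 < q.1 → HasDerivAt (w q.1) (w1 q.1 q.2) q.2)
    (hw1 : ∀ q ∈ Win y₀ y₁ t₁, 0 < q.1 → HasDerivAt (w1 q.1) (w2 q.1 q.2) q.2)
    (hvt : ∀ q ∈ Win y₀ y₁ t₁, 0 < q.1 → HasDerivAt (fun t => v t q.2)
      (Real.exp (-2 * q.2) * (Z q.1 q.2 * w1 q.1 q.2 + m1 * ch q.1 q.2 * w q.1 q.2 +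
        2 * m1 * v q.1 q.2 + NL q.1 q.2)) q.1)
    (hwt : ∀ q ∈ Win y₀ y₁ t₁, 0 < q.1 → HasDerivAt (fun t => w t q.2)
      (Real.exp (-2 * q.2) * (Z q.1 q.2 * w2 q.1 q.2 +
        (Zr q.1 q.2 + m1 * ch q.1 q.2 - 2 * Z q.1 q.2) * w1 q.1 q.2 + c q.1 q.2 * w q.1 q.2 -
        4 * m1 * v q.1 q.2 + NLr q.1 q.2)) q.1)
    (bZ1 : ∀ q ∈ Win y₀ y₁ t₁, 1 / 2 ≤ Z q.1 q.2) (bZ2 : ∀ q ∈ Win y₀ y₁ t₁, Z q.1 q.2 ≤ 2)
    (bZr : ∀ q ∈ Win y₀ y₁ t₁, |Zr q.1 q.2| ≤ 1)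
    (bb : ∀ q ∈ Win y₀ y₁ t₁, |Zr q.1 q.2 + m1 * ch q.1 q.2 - 2 * Z q.1 q.2| ≤ Bb)
    (bc : ∀ q ∈ Win y₀ y₁ t₁, |c q.1 q.2| ≤ Cc)
    (bv : ∀ q ∈ Win y₀ y₁ t₁, |v q.1 q.2| ≤ e0 * (ε * (1 - q.1) ^ lam))
    (bNL : ∀ q ∈ Win y₀ y₁ t₁, |NL q.1 q.2| ≤ e1 * (ε * (1 - q.1) ^ lam))
    (bNLr : ∀ q ∈ Win y₀ y₁ t₁, |NLr q.1 q.2| ≤ e1 * (ε * (1 - q.1) ^ lam) + e2 * |w q.1 q.2|)
    (b0 : ∀ q ∈ Win y₀ y₁ t₁, q.1 = 0 → |w q.1 q.2| ≤ e0 * ε) :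
    ∀ q ∈ Win y₀ y₁ t₁, (zt y₀ y₁ (yv q.1 q.2)) ^ 2 * (w q.1 q.2) ^ 2 ≤
      B * (ε * (1 - q.1) ^ lam) ^ 2 := by
  have hy1 : 0 < y₁ := by linarith only [hy₀, hy₁]
  have hD : 1 ≤ D := by rw [hDdef]; nlinarith only [sq_nonneg y₁]
  -- positivity of `A1`
  have key : ∀ q ∈ Win y₀ y₁ t₁, (fun t ρ => ((zt y₀ y₁ (yv t ρ)) ^ 2 * (w t ρ) ^ 2 +
      A1 * (v t ρ) ^ 2) * (1 - t) ^ (-(2 * lam))) q.1 q.2 ≤ B * ε ^ 2 := by
    have tpos : ∀ q ∈ Win y₀ y₁ t₁, 0 < 1 - q.1 := fun q hq => by linarith only [ht₁, hq, hq.1.2]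
    have gA : ∀ q ∈ Win y₀ y₁ t₁, (1 - q.1) ^ (-(2 * lam)) * ((1 - q.1) ^ lam) ^ 2 = 1 := by
      intro q hq
      rw [← Real.rpow_natCast, ← Real.rpow_mul (tpos q hq).le, ← Real.rpow_add (tpos q hq)]
      norm_num
      rw [show -(2 * lam) + lam * 2 = 0 by ring, Real.rpow_zero]
    by_cases hne : (Win y₀ y₁ t₁).Nonempty
    swap
    · intro q hq; exact absurd ⟨q, hq⟩ hne
    obtain ⟨qq, hqq⟩ := hne
    have hBb : 0 ≤ Bb := (abs_nonneg _).trans (bb qq hqq)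
    have hCc : 0 ≤ Cc := (abs_nonneg _).trans (bc qq hqq)
    have hApos : 0 ≤ A1 := by
      have i1 : 0 ≤ Bb * D ^ 2 := by positivity
      have i2 : 0 ≤ Cc * D ^ 2 := by positivity
      have i3 : 0 ≤ e2 * D ^ 2 := by positivity
      have i4 : 0 ≤ lam * D ^ 3 := by positivity
      have i5 : 0 ≤ D ^ 3 := by positivity
      have i6 : 0 ≤ D ^ 2 := by positivity
      linarith only [hA1, i1, i2, i3, i4, i5, i6]
    have hK : 0 ≤ 1298 + 8 * m1 + 4 * lam * D := by positivity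
    -- the general passage from pointwise bounds to the bound of N
    have pass : ∀ q ∈ Win y₀ y₁ t₁, ∀ P : ℝ, P ≤ B * (ε * (1 - q.1) ^ lam) ^ 2 →
        P * (1 - q.1) ^ (-(2 * lam)) ≤ B * ε ^ 2 := by
      intro q hq P hP
      have h1 : 0 ≤ (1 - q.1) ^ (-(2 * lam)) := (Real.rpow_pos_of_pos (tpos q hq) _).le
      have h2 := mul_le_mul_of_nonneg_right hP h1
      have h3 := gA q hq
      calc _ ≤ _ := h2
        _ = B * ε ^ 2 * ((1 - q.1) ^ (-(2 * lam)) * ((1 - q.1) ^ lam) ^ 2) := by ring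
        _ = _ := by rw [h3, mul_one]
    have vsq : ∀ q ∈ Win y₀ y₁ t₁, A1 * (v q.1 q.2) ^ 2 ≤
        A1 * e0 ^ 2 * (ε * (1 - q.1) ^ lam) ^ 2 := by
      intro q hq
      have h1 := bv q hq
      have h2 : (v q.1 q.2) ^ 2 ≤ (e0 * (ε * (1 - q.1) ^ lam)) ^ 2 := by
        rw [← sq_abs]; exact pow_le_pow_left₀ (abs_nonneg _) h1 2
      calc _ ≤ A1 * (e0 * (ε * (1 - q.1) ^ lam)) ^ 2 := mul_le_mul_of_nonneg_left h2 hApos
        _ = _ := by ring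
    refine win_max (N := fun t ρ => ((zt y₀ y₁ (yv t ρ)) ^ 2 * (w t ρ) ^ 2 +
        A1 * (v t ρ) ^ 2) * (1 - t) ^ (-(2 * lam))) (N1 := fun t ρ => (2 * zt y₀ y₁ (yv t ρ) * zt1 y₀ y₁ (yv t ρ) * (w t ρ) ^ 2 +
        2 * (zt y₀ y₁ (yv t ρ)) ^ 2 * (w t ρ * w1 t ρ) + 2 * A1 * (v t ρ * w t ρ)) *
        (1 - t) ^ (-(2 * lam)))
      (N2 := fun t ρ => ((2 * (zt1 y₀ y₁ (yv t ρ)) ^ 2 + 2 * zt y₀ y₁ (yv t ρ) *
        zt2 y₀ y₁ (yv t ρ)) * (w t ρ) ^ 2 + 8 * zt y₀ y₁ (yv t ρ) * zt1 y₀ y₁ (yv t ρ) *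
        (w t ρ * w1 t ρ) + 2 * (zt y₀ y₁ (yv t ρ)) ^ 2 * ((w1 t ρ) ^ 2 + w t ρ * w2 t ρ) +
        2 * A1 * ((w t ρ) ^ 2 + v t ρ * w1 t ρ)) * (1 - t) ^ (-(2 * lam)))
      (Nt := fun t ρ => (2 * zt y₀ y₁ (yv t ρ) * (zt1 y₀ y₁ (yv t ρ) / (2 * (1 - t))) *
        (w t ρ) ^ 2 + (zt y₀ y₁ (yv t ρ)) ^ 2 * (2 * w t ρ * (Real.exp (-2 * ρ) * (Z t ρ * w2 t ρ +
        (Zr t ρ + m1 * ch t ρ - 2 * Z t ρ) * w1 t ρ + c t ρ * w t ρ - 4 * m1 * v t ρ +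
        NLr t ρ))) + A1 * (2 * v t ρ * (Real.exp (-2 * ρ) * (Z t ρ * w1 t ρ +
        m1 * ch t ρ * w t ρ + 2 * m1 * v t ρ + NL t ρ)))) * (1 - t) ^ (-(2 * lam)) +
        ((zt y₀ y₁ (yv t ρ)) ^ 2 * (w t ρ) ^ 2 + A1 * (v t ρ) ^ 2) *
        ((1 - t) ^ (-(2 * lam)) * (2 * lam / (1 - t))))
      hy₀ hy1 ht₁ ?_ ?_ ?_ ?_ ?_ ?_
    · -- continuity
      have c1 : ContinuousOn (fun q : ℝ × ℝ => yv q.1 q.2) (Win y₀ y₁ t₁) := by
        unfold yv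
        refine ContinuousOn.div (by fun_prop) (by fun_prop) fun q hq => ?_
        exact (Real.sqrt_pos.2 (tpos q hq)).ne'
      have c2 : ContinuousOn (fun q : ℝ × ℝ => zt y₀ y₁ (yv q.1 q.2)) (Win y₀ y₁ t₁) := by
        unfold zt
        exact (c1.sub continuousOn_const).mul (continuousOn_const.sub c1)
      have c3 : ContinuousOn (fun q : ℝ × ℝ => (1 - q.1) ^ (-(2 * lam))) (Win y₀ y₁ t₁) := by
        refine ContinuousOn.rpow_const (by fun_prop) fun q hq => ?_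
        exact Or.inl (tpos q hq).ne'
      exact (((c2.pow 2).mul (cw.pow 2)).add (continuousOn_const.mul (cv.pow 2))).mul c3
    · -- first derivative
      intro q hq hq0
      have d1 := zt_rho y₀ y₁ q.1 q.2
      have d2 := hw q hq hq0
      have d3 := hv q hq hq0
      have := ((((d1.pow 2).mul (d2.pow 2)).add ((d3.pow 2).const_mul A1)).mul_const
        ((1 - q.1) ^ (-(2 * lam))))
      refine this.congr_deriv ?_
      simp only [Pi.pow_apply]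
      push_cast
      ring
    · -- second derivative
      intro q hq hq0
      have d1 := zt_rho y₀ y₁ q.1 q.2
      have d1' := zt1_rho y₀ y₁ q.1 q.2
      have d2 := hw q hq hq0
      have d2' := hw1 q hq hq0
      have d3 := hv q hq hq0
      have e1' := ((d1.const_mul 2).mul d1').mul (d2.pow 2)
      have e2' := ((d1.pow 2).const_mul 2).mul (d2.mul d2')
      have e3' := (d3.mul d2).const_mul (2 * A1)
      have := ((e1'.add e2').add e3').mul_const ((1 - q.1) ^ (-(2 * lam)))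
      refine this.congr_deriv ?_
      simp only [Pi.pow_apply, Pi.mul_apply]
      push_cast
      ring
    · -- time derivative
      intro q hq hq0
      have ht' : q.1 < 1 := by linarith only [tpos, hq, tpos q hq]
      have d1 := zt_t y₀ y₁ q.2 ht'
      have d2 := hwt q hq hq0
      have d3 := hvt q hq hq0
      have d4 := pow_t (2 * lam) ht'
      have := (((d1.pow 2).mul (d2.pow 2)).add ((d3.pow 2).const_mul A1)).mul d4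
      refine this.congr_deriv ?_
      simp only [Pi.pow_apply, Pi.mul_apply, Pi.add_apply]
      push_cast
      ring
    · -- parabolic boundary
      intro q hq hbd
      refine pass q hq _ ?_
      have hBge : A1 * e0 ^ 2 ≤ B := by
        rw [hB]
        have : 0 ≤ D ^ 2 * ((1298 + 8 * m1 + 4 * lam * D) * e0 ^ 2 + 18 * e1 ^ 2) := by
          positivity
        linarith only [this]
      have hvs := vsq q hq
      rcases hbd with h | h | h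
      · have hw0 := b0 q hq h
        have hz := (zt_bounds hy₀ (yv_mem ht₁ hq).1 (yv_mem ht₁ hq).2).1
        rw [← hDdef] at hz
        have h1 : (1 - q.1) ^ lam = 1 := by rw [h]; simp
        rw [h1, mul_one] at hvs ⊢
        have h2 : (w q.1 q.2) ^ 2 ≤ (e0 * ε) ^ 2 := by
          rw [← sq_abs]; exact pow_le_pow_left₀ (abs_nonneg _) hw0 2
        have h3 : (zt y₀ y₁ (yv q.1 q.2)) ^ 2 ≤ D ^ 2 := by
          rw [← sq_abs]; exact pow_le_pow_left₀ (abs_nonneg _) hz 2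
        have h4 : (zt y₀ y₁ (yv q.1 q.2)) ^ 2 * (w q.1 q.2) ^ 2 ≤ D ^ 2 * (e0 * ε) ^ 2 :=
          mul_le_mul h3 h2 (sq_nonneg _) (sq_nonneg _)
        have h5 : D ^ 2 * (e0 * ε) ^ 2 ≤
            (D ^ 2 * ((1298 + 8 * m1 + 4 * lam * D) * e0 ^ 2 + 18 * e1 ^ 2)) * ε ^ 2 := by
          have : e0 ^ 2 ≤ (1298 + 8 * m1 + 4 * lam * D) * e0 ^ 2 + 18 * e1 ^ 2 := by
            have i1 : 0 ≤ m1 * e0 ^ 2 := by positivity
            have i2 : 0 ≤ lam * D * e0 ^ 2 := by positivity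
            nlinarith only [i1, i2, sq_nonneg e0, sq_nonneg e1]
          have h6 := mul_le_mul_of_nonneg_left this (by positivity : 0 ≤ D ^ 2 * ε ^ 2)
          calc D ^ 2 * (e0 * ε) ^ 2 = D ^ 2 * ε ^ 2 * e0 ^ 2 := by ring
            _ ≤ _ := h6
            _ = _ := by ring
        rw [hB]
        linarith only [hvs, h4, h5]
      · have hy : yv q.1 q.2 = y₀ := by
          rw [yv, h, mul_div_cancel_right₀ _ (Real.sqrt_pos.2 (tpos q hq)).ne']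
        have : zt y₀ y₁ (yv q.1 q.2) = 0 := by rw [hy]; unfold zt; ring
        rw [this]
        have h7 := mul_le_mul_of_nonneg_right hBge (sq_nonneg (ε * (1 - q.1) ^ lam))
        linarith only [hvs, h7]
      · have hy : yv q.1 q.2 = y₁ := by
          rw [yv, h, mul_div_cancel_right₀ _ (Real.sqrt_pos.2 (tpos q hq)).ne']
        have : zt y₀ y₁ (yv q.1 q.2) = 0 := by rw [hy]; unfold zt; ring
        rw [this]
        have h7 := mul_le_mul_of_nonneg_right hBge (sq_nonneg (ε * (1 - q.1) ^ lam))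
        linarith only [hvs, h7]
    · -- interior
      intro q hq hq0 h1 h2 h3
      have tq := tpos q hq
      have hg : 0 < (1 - q.1) ^ (-(2 * lam)) := Real.rpow_pos_of_pos tq _
      have yb := yv_mem ht₁ hq
      have zb := zt_bounds hy₀ yb.1 yb.2
      rw [← hDdef] at zb
      have hyp : 0 < yv q.1 q.2 := by linarith only [hy₀, yb, yb.1]
      refine pass q hq _ ?_
      set A : ℝ := ε * (1 - q.1) ^ lam with hAdef
      have E1 := (mul_eq_zero.1 h1).resolve_right hg.ne'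
      have E2 := nonpos_of_mul_nonpos_left h2 hg
      have E3 : 0 ≤ 2 * lam * (yv q.1 q.2) ^ 2 * ((zt y₀ y₁ (yv q.1 q.2)) ^ 2 * (w q.1 q.2) ^ 2 +
          A1 * (v q.1 q.2) ^ 2) + (yv q.1 q.2) ^ 2 * (zt y₀ y₁ (yv q.1 q.2)) *
          (zt1 y₀ y₁ (yv q.1 q.2)) * (w q.1 q.2) ^ 2 +
          2 * (zt y₀ y₁ (yv q.1 q.2)) ^ 2 * (w q.1 q.2) * (Z q.1 q.2 * w2 q.1 q.2 +
          (Zr q.1 q.2 + m1 * ch q.1 q.2 - 2 * Z q.1 q.2) * w1 q.1 q.2 + c q.1 q.2 * w q.1 q.2 -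
          4 * m1 * v q.1 q.2 + NLr q.1 q.2) +
          2 * A1 * v q.1 q.2 * (Z q.1 q.2 * w1 q.1 q.2 + m1 * ch q.1 q.2 * w q.1 q.2 +
          2 * m1 * v q.1 q.2 + NL q.1 q.2) := by
        simp only [yv_sq (ρ := q.2) (by linarith only [tq] : q.1 < 1)] at h3
        have hmul : 0 < (yv q.1 q.2) ^ 2 * (1 - q.1) := by positivity
        have h4 := mul_nonneg h3 hmul.le
        refine nonneg_of_mul_nonneg_left (b := (1 - q.1) ^ (-(2 * lam))) ?_ hg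
        refine h4.trans (le_of_eq ?_)
        field_simp
        ring
      have hwv := bern_pt hm1 hlam hD (sq_nonneg _) zb.2.2.2 zb.1 zb.2.1 zb.2.2.1 (bZ1 q hq)
        (bZ2 q hq) (bZr q hq) (bb q hq) (bc q hq) (bv q hq) (bNL q hq) (bNLr q hq) he2 hA1 hA2
        E1 E2 E3
      have h8 : (zt y₀ y₁ (yv q.1 q.2)) ^ 2 ≤ D ^ 2 := by
        rw [← sq_abs]; exact pow_le_pow_left₀ (abs_nonneg _) zb.1 2
      have h9 : (zt y₀ y₁ (yv q.1 q.2)) ^ 2 * (w q.1 q.2) ^ 2 ≤ D ^ 2 *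
          ((1298 + 8 * m1 + 4 * lam * D) * (e0 * A) ^ 2 + 18 * (e1 * A) ^ 2) :=
        mul_le_mul h8 hwv (sq_nonneg _) (sq_nonneg _)
      have h10 := vsq q hq
      rw [hB]
      calc _ ≤ D ^ 2 * ((1298 + 8 * m1 + 4 * lam * D) * (e0 * A) ^ 2 + 18 * (e1 * A) ^ 2) +
            A1 * e0 ^ 2 * A ^ 2 := add_le_add h9 h10
        _ = _ := by ring
  intro q hq
  have tq : 0 < 1 - q.1 := by linarith only [ht₁, hq, hq.1.2]
  by_cases hne : (Win y₀ y₁ t₁).Nonempty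
  swap
  · exact absurd ⟨q, hq⟩ hne
  have hBb : 0 ≤ Bb := (abs_nonneg _).trans (bb q hq)
  have hCc : 0 ≤ Cc := (abs_nonneg _).trans (bc q hq)
  have hApos : 0 ≤ A1 := by
    have i1 : 0 ≤ Bb * D ^ 2 := by positivity
    have i2 : 0 ≤ Cc * D ^ 2 := by positivity
    have i3 : 0 ≤ e2 * D ^ 2 := by positivity
    have i4 : 0 ≤ lam * D ^ 3 := by positivity
    have i5 : 0 ≤ D ^ 3 := by positivity
    have i6 : 0 ≤ D ^ 2 := by positivity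
    linarith only [hA1, i1, i2, i3, i4, i5, i6]
  have h := key q hq
  have hpos : 0 ≤ ((1 - q.1) ^ lam) ^ 2 := sq_nonneg _
  have h2 := mul_le_mul_of_nonneg_right h hpos
  have gA : (1 - q.1) ^ (-(2 * lam)) * ((1 - q.1) ^ lam) ^ 2 = 1 := by
    rw [← Real.rpow_natCast, ← Real.rpow_mul tq.le, ← Real.rpow_add tq]
    norm_num
    rw [show -(2 * lam) + lam * 2 = 0 by ring, Real.rpow_zero]
  have h3 : (zt y₀ y₁ (yv q.1 q.2)) ^ 2 * (w q.1 q.2) ^ 2 + A1 * (v q.1 q.2) ^ 2 ≤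
      B * (ε * (1 - q.1) ^ lam) ^ 2 := by
    calc _ = ((zt y₀ y₁ (yv q.1 q.2)) ^ 2 * (w q.1 q.2) ^ 2 + A1 * (v q.1 q.2) ^ 2) *
          ((1 - q.1) ^ (-(2 * lam)) * ((1 - q.1) ^ lam) ^ 2) := by rw [gA, mul_one]
      _ = ((zt y₀ y₁ (yv q.1 q.2)) ^ 2 * (w q.1 q.2) ^ 2 + A1 * (v q.1 q.2) ^ 2) *
          (1 - q.1) ^ (-(2 * lam)) * ((1 - q.1) ^ lam) ^ 2 := by ring
      _ ≤ _ := h2
      _ = _ := by ring
  have h4 : 0 ≤ A1 * (v q.1 q.2) ^ 2 := mul_nonneg hApos (sq_nonneg _)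
  linarith only [h3, h4]

end Vale.Agent.P244.ST.M7a
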