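import Vale.Agent.P244.ST.Iface
import Vale.Agent.P244.ST.M2Static
import Vale.Agent.P244.ST.M.QSpace

/-!
# P244-ST, block C1, part T1: static bounds in regions II and III

* `ZZ_le_cosh` : `Z ≤ (39/37) cosh u` on `[0,1)`, from (Q1), (Q2) only;
* `T1` : on `{y ≥ ρ₀}` and `t < T < 1` the functions `u`, `F`, `w + log(1-x²)/2`, `Z` are bounded.
-/

open Set Filter Topology
open scoped ContDiff

namespace Vale.Agent.P244.ST.MC757

open Vale.Agent.P244.ST.M2

noncomputable section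

variable {w f : Fn} {T t : ℝ}

/-- a monotonicity lemma: a monotone function on `(0,1)` dominated by a function tending to `0`
at `1` is nonpositive -/
lemma nonpos_of_mono {K L : ℝ → ℝ} (hK : MonotoneOn K (Ioo 0 1))
    (hL : Tendsto L (𝓝[<] 1) (𝓝 0)) (hle : ∀ x ∈ Ioo (0 : ℝ) 1, K x ≤ L x) :
    ∀ x ∈ Ioo (0 : ℝ) 1, K x ≤ 0 := by
  intro x hx
  refine ge_of_tendsto hL ?_
  filter_upwards [Ioo_mem_nhdsLT hx.2] with z hz
  exact (hK hx ⟨hx.1.trans hz.1, hz.2⟩ hz.1.le).trans (hle z ⟨hx.1.trans hz.1, hz.2⟩)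

/-- the function `r^37 (Z/cosh u - 39/37)` -/
def KK (w f : Fn) (t x : ℝ) : ℝ :=
  (rr w f t x) ^ 37 * (ZZ w f t x / Real.cosh (uu w f t x) - 39 / 37)

/-- the derivative of `r^37 (Z/cosh u - 39/37)` -/
lemma hasDerivAt_K (sl : Slice w f t) {x : ℝ} (hx : x ∈ Ioo (-1 : ℝ) 1)
    (hr : rs w f t x ≠ 0) : HasDerivAt (KK w f t)
    (r1 w f t x * ((rr w f t x) ^ 37 *
      (-2 * (ZZ w f t x / Real.cosh (uu w f t x))
        + ZZ w f t x / Real.cosh (uu w f t x) * (GG w f t x * Real.tanh (uu w f t x))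
        - ((rr w f t x) ^ 2 * (PP w f t x) ^ 2 / 4 + (rr w f t x) ^ 2 * RR w f t x / 40) /
          Real.cosh (uu w f t x)))) x := by
  have h1 := hasDerivAt_ZZ sl hx
  have h2 := hasDerivAt_uu sl hx hr
  have h3 := hasDerivAt_rr sl hx
  have hc := Real.cosh_pos (uu w f t x)
  have h4 := (h3.pow 37).mul ((h1.div h2.cosh hc.ne').sub_const (39 / 37))
  refine h4.congr_deriv ?_
  rw [Real.tanh_eq_sinh_div_cosh]
  simp only [Pi.pow_apply, Pi.div_apply]
  field_simp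
  push_cast
  ring

lemma abs_tanh_le (u : ℝ) : |Real.tanh u| ≤ 1 := by
  rw [abs_le]
  exact ⟨(Real.neg_one_lt_tanh u).le, (Real.tanh_lt_one u).le⟩

lemma K_mono (h : ConfSol 20 w f T) (hQ : Qual w f T) (ht : t ∈ Ico 0 T) :
    MonotoneOn (KK w f t) (Ioo 0 1) := by
  have sl := slice_of_confSol h ht
  have hd : ∀ x ∈ Ioo (0 : ℝ) 1, HasDerivAt (KK w f t) _ x := fun x hx =>
    hasDerivAt_K sl ⟨by linarith only [hx, hx.1], hx.2⟩ (hQ.rs_pos t ht x hx).ne'
  refine monotoneOn_of_deriv_nonneg (convex_Ioo 0 1)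
    (fun x hx => (hd x hx).continuousAt.continuousWithinAt)
    (fun x hx => (hd x (interior_subset hx)).differentiableAt.differentiableWithinAt) ?_
  intro x hx
  rw [interior_Ioo] at hx
  rw [(hd x hx).deriv]
  have hx' : x ∈ Ioo (-1 : ℝ) 1 := ⟨by linarith only [hx, hx.1], hx.2⟩
  have hr1 := r1_neg hx' (hQ.rs_pos t ht x hx)
  refine mul_nonneg_of_nonpos_of_nonpos hr1.le (mul_nonpos_of_nonneg_of_nonpos
    (pow_nonneg (rr_pos x).le 37) ?_)
  have hc := Real.cosh_pos (uu w f t x)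
  have hZ := ZZ_nonneg (w := w) (f := f) (t := t) x
  have hR := hQ.R_nonneg t ht x ⟨hx.1.le, hx.2⟩
  have hG := hQ.G_le t ht x hx
  have hGT : GG w f t x * Real.tanh (uu w f t x) ≤ 2 := by
    refine (le_abs_self _).trans ?_
    rw [abs_mul]
    calc |GG w f t x| * |Real.tanh (uu w f t x)| ≤ 2 * 1 :=
          mul_le_mul hG (abs_tanh_le _) (abs_nonneg _) (by norm_num)
      _ = 2 := by norm_num
  have h1 : 0 ≤ ZZ w f t x / Real.cosh (uu w f t x) := div_nonneg hZ hc.le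
  have h2 : 0 ≤ ((rr w f t x) ^ 2 * (PP w f t x) ^ 2 / 4 + (rr w f t x) ^ 2 * RR w f t x / 40) /
      Real.cosh (uu w f t x) := by positivity
  nlinarith only [hGT, h1, h2, mul_le_mul_of_nonneg_left hGT h1]

/-- the derivative bounds at a fixed time -/
lemma exists_dx_bound {h : ℝ → ℝ} (hh : ContDiffOn ℝ ∞ h (Icc (-1) 1)) :
    ∃ C : ℝ, 0 ≤ C ∧ ∀ x ∈ Icc (-1 : ℝ) 1, |h x| ≤ C ∧ |dx h x| ≤ C := by
  have h1 : ContinuousOn (dx h) (Icc (-1) 1) :=
    hh.continuousOn_derivWithin (uniqueDiffOn_Icc (by norm_num)) (by simp)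
  obtain ⟨C1, hC1⟩ := isCompact_Icc.exists_bound_of_continuousOn h1
  obtain ⟨C2, hC2⟩ := isCompact_Icc.exists_bound_of_continuousOn hh.continuousOn
  refine ⟨max (max C1 C2) 0, le_max_right _ _, fun x hx => ⟨?_, ?_⟩⟩
  · exact (hC2 x hx).trans ((le_max_right _ _).trans (le_max_left _ _))
  · exact (hC1 x hx).trans ((le_max_left _ _).trans (le_max_left _ _))

/-- `Z / cosh u` explicitly -/
lemma ZZ_div_le (h : ConfSol 20 w f T) (ht : t ∈ Ico 0 T) {x : ℝ} (hx : x ∈ Ioo (-1 : ℝ) 1) :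
    ZZ w f t x / Real.cosh (uu w f t x) ≤
      ((1 - x ^ 2) * (dx (f t) x + dx (w t) x) - x) ^ 2 / (2 * zeta0) := by
  have hs := Vale.Agent.P244.ST.sx_posQ hx
  have hs2 := sx_sqQ hx
  have hS := Vale.Agent.P244.ST.one_sub_sq_pos hx
  have hz := zeta0_pos'
  have hc := Real.cosh_pos (uu w f t x)
  have hcosh : Real.exp (uu w f t x) ≤ 2 * Real.cosh (uu w f t x) := by
    rw [Real.cosh_eq]; linarith only [Real.exp_pos (-uu w f t x)]
  have hexp := exp_uuQ (w := w) (f := f) (t := t) hx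
  have hrr := rr_sq (w := w) (f := f) (t := t) hx
  have hrs : (rs w f t x) ^ 2 = Real.exp (-2 * w t x) * (1 - x ^ 2) * (rhox w f t x) ^ 2 := by
    rw [h.rs_eq hx ht, exp_two, ← sx_sqQ hx]; ring
  have hw : Real.exp (-2 * w t x) * Real.exp (w t x) ^ 2 = 1 := by
    rw [← Real.exp_nat_mul, ← Real.exp_add]
    simp
  have key : ZZ w f t x = Real.exp (uu w f t x) *
      (((1 - x ^ 2) * (dx (f t) x + dx (w t) x) - x) ^ 2 / (4 * zeta0)) := by
    have h4 : (1 - x ^ 2) * rhox w f t x =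
        ((1 - x ^ 2) * (dx (f t) x + dx (w t) x) - x) / 2 := by
      rw [rhox]; field_simp
    have h5 : ((1 - x ^ 2) * (dx (f t) x + dx (w t) x) - x) ^ 2 =
        4 * ((1 - x ^ 2) ^ 2 * rhox w f t x ^ 2) := by
      rw [← mul_pow, h4]; ring
    rw [ZZ, hrr, hrs, hexp, h5]
    have he := Real.exp_pos (w t x)
    generalize Real.exp (-2 * w t x) = E2 at hw ⊢
    field_simp
    rw [hs2]
    linear_combination (1 - x ^ 2) * hw * rhox w f t x ^ 2
  rw [key, div_le_iff₀ hc]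
  have h6 : 0 ≤ ((1 - x ^ 2) * (dx (f t) x + dx (w t) x) - x) ^ 2 / (4 * zeta0) := by positivity
  calc Real.exp (uu w f t x) *
        (((1 - x ^ 2) * (dx (f t) x + dx (w t) x) - x) ^ 2 / (4 * zeta0))
      ≤ 2 * Real.cosh (uu w f t x) *
        (((1 - x ^ 2) * (dx (f t) x + dx (w t) x) - x) ^ 2 / (4 * zeta0)) :=
        mul_le_mul_of_nonneg_right hcosh h6
    _ = _ := by field_simp; ring

lemma tendsto_rr (h : ConfSol 20 w f T) (ht : t ∈ Ico 0 T) :
    Tendsto (rr w f t) (𝓝[<] 1) (𝓝 0) := by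
  have sl := slice_of_confSol h ht
  have hIoo : Ioo (-1 : ℝ) 1 ∈ 𝓝[<] (1 : ℝ) := Ioo_mem_nhdsLT (by norm_num)
  have hle : 𝓝[<] (1 : ℝ) ≤ 𝓝[Icc (-1) 1] 1 := by
    rw [nhdsWithin_le_iff]
    filter_upwards [hIoo] with x hx using ⟨hx.1.le, hx.2.le⟩
  have hcw : Tendsto (w t) (𝓝[<] 1) (𝓝 (w t 1)) :=
    (sl.hw.continuousOn 1 ⟨by norm_num, le_rfl⟩).mono_left hle
  have hcf : Tendsto (f t) (𝓝[<] 1) (𝓝 (f t 1)) :=
    (sl.hf.continuousOn 1 ⟨by norm_num, le_rfl⟩).mono_left hle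
  have hsx : Tendsto sx (𝓝[<] 1) (𝓝 0) := by
    have h1 : ContinuousAt sx 1 := by unfold sx; fun_prop
    have h2 : sx 1 = 0 := by unfold sx; simp
    rw [ContinuousAt, h2] at h1
    exact h1.mono_left nhdsWithin_le_nhds
  have h1 : Tendsto (fun x => (rr w f t x) ^ 2) (𝓝[<] 1) (𝓝 0) := by
    have h2 : Tendsto (fun x => Real.exp (f t x) * Real.exp (w t x) * sx x / zeta0) (𝓝[<] 1)
        (𝓝 (Real.exp (f t 1) * Real.exp (w t 1) * 0 / zeta0)) :=
      (((Real.continuous_exp.tendsto _).comp hcf).mul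
        ((Real.continuous_exp.tendsto _).comp hcw)).mul hsx |>.div_const _
    simp only [mul_zero, zero_div] at h2
    refine h2.congr' ?_
    filter_upwards [hIoo] with x hx
    exact (rr_sq hx).symm
  have h3 : Tendsto (fun x => Real.sqrt ((rr w f t x) ^ 2)) (𝓝[<] 1) (𝓝 (Real.sqrt 0)) :=
    (Real.continuous_sqrt.tendsto 0).comp h1
  rw [Real.sqrt_zero] at h3
  refine h3.congr fun x => ?_
  exact Real.sqrt_sq (rr_pos x).le

/-- `Z ≤ (39/37) cosh u` on `(0,1)` -/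
lemma ZZ_le_cosh_aux (h : ConfSol 20 w f T) (hQ : Qual w f T) (ht : t ∈ Ico 0 T) {x : ℝ}
    (hx : x ∈ Ioo (0 : ℝ) 1) : ZZ w f t x ≤ 39 / 37 * Real.cosh (uu w f t x) := by
  have sl := slice_of_confSol h ht
  obtain ⟨C1, hC1, hw⟩ := exists_dx_bound sl.hw
  obtain ⟨C2, hC2, hf⟩ := exists_dx_bound sl.hf
  have hz := zeta0_pos'
  set C : ℝ := (C1 + C2 + 1) ^ 2 / (2 * zeta0)
  have hL : Tendsto (fun x => (rr w f t x) ^ 37 * C) (𝓝[<] 1) (𝓝 0) := by
    have := ((tendsto_rr h ht).pow 37).mul_const C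
    simpa using this
  have hle : ∀ x ∈ Ioo (0 : ℝ) 1, KK w f t x ≤ (rr w f t x) ^ 37 * C := by
    intro x hx
    have hx' : x ∈ Ioo (-1 : ℝ) 1 := ⟨by linarith only [hx, hx.1], hx.2⟩
    refine mul_le_mul_of_nonneg_left ?_ (pow_nonneg (rr_pos x).le 37)
    have h1 := ZZ_div_le h ht hx'
    have h2 : |(1 - x ^ 2) * (dx (f t) x + dx (w t) x) - x| ≤ C1 + C2 + 1 := by
      have hS : 0 ≤ 1 - x ^ 2 := by nlinarith only [hx, hx.1, hx.2]
      have hS1 : 1 - x ^ 2 ≤ 1 := by nlinarith only [hx.1, hx.2]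
      have a1 := (hw x (Ioo_subset_Icc_self hx')).2
      have a2 := (hf x (Ioo_subset_Icc_self hx')).2
      have a3 : |(1 - x ^ 2) * (dx (f t) x + dx (w t) x)| ≤ C1 + C2 := by
        rw [abs_mul, abs_of_nonneg hS]
        have a4 : |dx (f t) x + dx (w t) x| ≤ C1 + C2 :=
          (abs_add_le _ _).trans (by linarith only [a1, a2])
        calc (1 - x ^ 2) * |dx (f t) x + dx (w t) x| ≤ 1 * (C1 + C2) :=
              mul_le_mul hS1 a4 (abs_nonneg _) (by norm_num)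
          _ = C1 + C2 := one_mul _
      have a5 : |x| ≤ 1 := abs_le.2 ⟨by linarith only [hx, hx.1], hx.2.le⟩
      calc |(1 - x ^ 2) * (dx (f t) x + dx (w t) x) - x|
          ≤ |(1 - x ^ 2) * (dx (f t) x + dx (w t) x)| + |x| := abs_sub _ _
        _ ≤ C1 + C2 + 1 := by linarith only [a3, a5]
    have h3 : ((1 - x ^ 2) * (dx (f t) x + dx (w t) x) - x) ^ 2 ≤ (C1 + C2 + 1) ^ 2 :=
      sq_le_sq' (by linarith only [h2, (abs_le.1 h2).1]) (abs_le.1 h2).2
    have h4 : ((1 - x ^ 2) * (dx (f t) x + dx (w t) x) - x) ^ 2 / (2 * zeta0) ≤ C :=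
      div_le_div_of_nonneg_right h3 (by positivity)
    linarith only [h1, h4]
  have h5 := nonpos_of_mono (K_mono h hQ ht) hL hle x hx
  have h6 : 0 < (rr w f t x) ^ 37 := pow_pos (rr_pos x) 37
  have h7 : ZZ w f t x / Real.cosh (uu w f t x) - 39 / 37 ≤ 0 := by
    by_contra hcon
    push Not at hcon
    have := mul_pos h6 hcon
    unfold KK at h5
    linarith only [h5, this]
  have h8 : ZZ w f t x / Real.cosh (uu w f t x) ≤ 39 / 37 := by linarith only [h7]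
  rwa [div_le_iff₀ (Real.cosh_pos _)] at h8

/-- `Z ≤ (39/37) cosh u` on `[0,1)` -/
theorem ZZ_le_cosh (h : ConfSol 20 w f T) (hQ : Qual w f T) (ht : t ∈ Ico 0 T) {x : ℝ}
    (hx : x ∈ Ico (0 : ℝ) 1) : ZZ w f t x ≤ 39 / 37 * Real.cosh (uu w f t x) := by
  rcases hx.1.eq_or_lt with h0 | h0
  · subst h0
    have sl := slice_of_confSol h ht
    have h0 : (0 : ℝ) ∈ Ioo (-1 : ℝ) 1 := by constructor <;> norm_num
    have c1 : ContinuousAt (ZZ w f t) 0 :=
      (smooth_ZZ sl).continuousOn.continuousAt (isOpen_Ioo.mem_nhds h0)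
    have c2 : ContinuousAt (fun x => 39 / 37 * Real.cosh (uu w f t x)) 0 :=
      continuousAt_const.mul (Real.continuous_cosh.continuousAt.comp
        ((smooth_uu sl).continuousOn.continuousAt (isOpen_Ioo.mem_nhds h0)))
    have c1' : Tendsto (ZZ w f t) (𝓝[>] 0) (𝓝 (ZZ w f t 0)) := c1.mono_left nhdsWithin_le_nhds
    have c2' : Tendsto (fun x => 39 / 37 * Real.cosh (uu w f t x)) (𝓝[>] 0)
        (𝓝 (39 / 37 * Real.cosh (uu w f t 0))) := c2.mono_left nhdsWithin_le_nhds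
    refine le_of_tendsto_of_tendsto c1' c2' ?_
    filter_upwards [Ioo_mem_nhdsGT (zero_lt_one' ℝ)] with z hz
    exact ZZ_le_cosh_aux h hQ ht hz
  · exact ZZ_le_cosh_aux h hQ ht ⟨h0, hx.2⟩

/-! ### region II and III -/

lemma lam3_nonneg : 0 ≤ lam 3 := by
  have := kap_lt
  unfold lam
  push_cast
  linarith only [this]

lemma bb_nonneg : 0 ≤ bb := by
  have := kap_lt
  unfold bb
  linarith only [this]

lemma A_le {q : Par} (he : 0 ≤ q.eps) {t : ℝ} (h0 : 0 ≤ t) (h1 : t < 1) :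
    0 ≤ q.A t ∧ q.A t ≤ q.eps := by
  have ht : 0 < tau t := by unfold tau; linarith only [h1]
  have ht1 : tau t ≤ 1 := by unfold tau; linarith only [h0]
  have h2 : (tau t) ^ (lam 3) ≤ 1 := Real.rpow_le_one ht.le ht1 lam3_nonneg
  have h3 : 0 ≤ (tau t) ^ (lam 3) := Real.rpow_nonneg ht.le _
  unfold Par.A
  exact ⟨mul_nonneg he h3, by nlinarith only [he, h2]⟩

/-- (T1) bounds on `{y ≥ ρ₀}` -/
theorem T1 {q : Par} {g : ℝ → ℝ} (hrho : 0 < q.rho0) (he : 0 ≤ q.eps) (hMU : 0 ≤ q.MU)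
    (hMe : q.MU * q.eps ≤ 1) (hCU : 0 ≤ q.CU) (hT : T < 1) (h : ConfSol 20 w f T)
    (hQ : Qual w f T) (hB : ∀ t₁ ∈ Ico 0 T, Boot q g w f t₁) :
    ∃ C : ℝ, 1 ≤ C ∧ ∀ t ∈ Ico 0 T, ∀ x ∈ Ico (0 : ℝ) 1, q.rho0 ≤ yv w f t x →
      |uu w f t x| ≤ C ∧ |f t x| ≤ C ∧ |w t x + Real.log (1 - x ^ 2) / 2| ≤ C ∧
      ZZ w f t x ≤ C ∧ (yv w f t x ≤ 25 → |uu w f t x| ≤ 1) := by
  rcases le_or_gt T 0 with hT0 | hT0
  · exact ⟨1, le_rfl, fun t ht => absurd (ht.1.trans_lt ht.2) (not_lt.2 hT0)⟩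
  set r0 : ℝ := rr w f 0 0
  have hr0 : 0 < r0 := rr_pos 0
  set Cu : ℝ := max 1 (q.CU * q.eps * r0 ^ bb)
  have hCu1 : 1 ≤ Cu := le_max_left _ _
  set lo : ℝ := Real.log (q.rho0 * Real.sqrt (1 - T))
  set hi : ℝ := Real.log r0
  set Cr : ℝ := |lo| + |hi| + |Real.log zeta0|
  refine ⟨Cu + Cr + 39 / 37 * Real.cosh Cu, ?_, ?_⟩
  · have := Real.cosh_pos Cu
    have : 0 ≤ Cr := by positivity
    linarith
  intro t ht x hx hy
  have ht1 : t < 1 := ht.2.trans hT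
  have hτ : 0 < tau t := by unfold tau; linarith only [ht1]
  have hb := (hB t ht).b5 t ⟨ht.1, le_rfl⟩ x hx
  have hrp := rr_pos (w := w) (f := f) (t := t) x
  have hrle := hQ.r_le t ht x hx
  have hA := A_le (q := q) he ht.1 ht1
  have hu1 : yv w f t x ≤ 25 → |uu w f t x| ≤ 1 := by
    intro h25
    refine ((hb.b4 hy h25).1).trans ?_
    calc q.MU * q.A t ≤ q.MU * q.eps := mul_le_mul_of_nonneg_left hA.2 hMU
      _ ≤ 1 := hMe
  have hu : |uu w f t x| ≤ Cu := by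
    rcases le_total (yv w f t x) 25 with h25 | h25
    · exact (hu1 h25).trans hCu1
    · refine ((hb.b5 h25).1).trans (le_trans ?_ (le_max_right _ _))
      unfold Par.UB
      have h1 : 0 ≤ rr w f t x ^ (bb - 2) := Real.rpow_nonneg hrp.le _
      have h2 : rr w f t x ^ bb ≤ r0 ^ bb := Real.rpow_le_rpow hrp.le hrle bb_nonneg
      refine mul_le_mul_of_nonneg_left ?_ (mul_nonneg hCU he)
      have h3 : 0 ≤ 300 * tau t * rr w f t x ^ (bb - 2) := by positivity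
      linarith only [h2, h3]
  have hrho1 : lo ≤ rho w f t x := by
    have h1 : q.rho0 * Real.sqrt (1 - T) ≤ rr w f t x := by
      have h2 : q.rho0 * Real.sqrt (tau t) ≤ rr w f t x := by
        have h3 : 0 < Real.sqrt (tau t) := Real.sqrt_pos.2 hτ
        unfold yv at hy
        rwa [le_div_iff₀ h3] at hy
      refine le_trans (mul_le_mul_of_nonneg_left (Real.sqrt_le_sqrt ?_) hrho.le) h2
      unfold tau; linarith only [ht, ht.2]
    have h4 : 0 < q.rho0 * Real.sqrt (1 - T) := mul_pos hrho (Real.sqrt_pos.2 (by linarith only [hT]))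
    have h5 := Real.log_le_log h4 h1
    rwa [rr, Real.log_exp] at h5
  have hrho2 : rho w f t x ≤ hi := by
    have h5 := Real.log_le_log hrp hrle
    rwa [rr, Real.log_exp] at h5
  have e1 : f t x = rho w f t x + Real.log zeta0 / 2 + uu w f t x / 2 := by
    unfold rho uu; ring
  have e2 : w t x + Real.log (1 - x ^ 2) / 2 =
      rho w f t x + Real.log zeta0 / 2 - uu w f t x / 2 := by
    unfold rho uu; ring
  have hch := Real.cosh_pos Cu
  have hcu : Real.cosh (uu w f t x) ≤ Real.cosh Cu := by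
    rw [Real.cosh_le_cosh]
    exact hu.trans (le_abs_self _)
  have a1 := neg_abs_le lo
  have a2 := le_abs_self hi
  have a3 := neg_abs_le (Real.log zeta0)
  have a4 := le_abs_self (Real.log zeta0)
  have a5 := abs_nonneg lo
  have a6 := abs_nonneg hi
  have a7 := abs_nonneg (Real.log zeta0)
  have a8 := abs_le.1 hu
  have hZ := ZZ_le_cosh h hQ ht hx
  have hCr : Cr = |lo| + |hi| + |Real.log zeta0| := rfl
  have hCr0 : 0 ≤ Cr := by positivity
  refine ⟨by linarith only [hu, hrho1, hrho2, hch, a1, a2, a3, a4], ?_, ?_, ?_, hu1⟩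
  · rw [e1, abs_le]
    constructor <;> linarith only [hT, hT0, hCu1, hrho1, hch, a1, a3, a4, a6, a8, hrho2, a2, a5, a8.1, a8.2]
  · rw [e2, abs_le]
    constructor <;> linarith only [hT, hT0, hCu1, hrho1, hch, a1, a3, a4, a6, a8, hrho2, a2, a5, a8.1, a8.2]
  · have : 39 / 37 * Real.cosh (uu w f t x) ≤ 39 / 37 * Real.cosh Cu := by linarith only [hcu]
    linarith only [hT, hT0, hCu1, hrho1, hrho2, hcu, a1, a2, a3, a4, hZ]

end

end Vale.Agent.P244.ST.MC757
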