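import Vale.Agent.P244.ST.MCTip
import Vale.Agent.P244.ST.MC757
import Vale.Agent.P244.ST.M2D7c
import Vale.Agent.P244.ST.M.Skel
import Vale.Agent.P244.ST.A.EvLem

/-!
# P244-ST, block C (M8) : assembly of `C1Statement`
-/

open Set Filter Topology
open scoped ContDiff

namespace Vale.Agent.P244.ST.MC

open Vale.Agent.P244.ST.M2 (Slice)
open Vale.Agent.P244.ST.M (FT FI eb)

noncomputable section

/-- volume bound (block B) -/
def VolStatement : Prop := ∀ (w f : Fn) (T : ℝ), 0 < T → ConfSol 20 w f T → Qual w f T →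
  ∃ V0 > 0, ∀ t ∈ Ico 0 T, ∀ x ∈ Ico (0 : ℝ) 1, ∀ c > 0,
    (∀ y ∈ Icc 0 x, c ≤ Real.exp (f t y) * Real.exp (w t y) * sx y) →
    (∀ y ∈ Icc 0 x, c ≤ Real.exp (w t y) * sx y) →
    c ^ 21 * (Real.log ((1 + x) / (1 - x)) / 2) ≤ V0

/-- smallness of the parameters used in block C1 -/
structure SmC (q : Par) : Prop where
  B : 0 ≤ q.B
  rho0 : 0 < q.rho0
  rho1 : q.rho0 ≤ 1
  MU : 0 ≤ q.MU
  MUe : q.MU * q.eps ≤ 1
  CU : 0 ≤ q.CU
  N : 1000 ≤ q.N
  eps : 0 < q.eps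

theorem ev_smC : Ev SmC := by
  refine ⟨0, fun B hB => ⟨1, one_pos, fun rho0 hr => ⟨0, fun BV _ => ⟨0, fun MU hMU => ⟨0,
    fun MP _ => ⟨0, fun MV _ => ⟨0, fun CU hCU => ⟨0, fun CP _ => ⟨0, fun CV _ => ⟨0,
    fun GR _ => ⟨1, one_pos, fun sg _ => ⟨1, one_pos, fun d0 _ => ⟨1, one_pos, fun rb _ => ⟨1000,
    fun N hN => ⟨1 / (MU + 1), ?_, fun eps he => ?_⟩⟩⟩⟩⟩⟩⟩⟩⟩⟩⟩⟩⟩⟩⟩
  · have : (0 : ℝ) < MU + 1 := by linarith only [hMU, hMU.le]
    positivity
  · have hM : (0 : ℝ) < MU + 1 := by linarith only [hMU, hMU.le]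
    have he2 := he.2
    rw [le_div_iff₀ hM] at he2
    exact
      { B := hB
        rho0 := hr.1
        rho1 := hr.2
        MU := hMU
        MUe := by
          show MU * eps ≤ 1
          nlinarith only [he, he2, he.1]
        CU := hCU
        N := hN
        eps := he.1 }

section

variable {q : Par} {g : ℝ → ℝ} {w f : Fn} {T t x : ℝ}

lemma eta_le (hq : SmC q) : q.eta ≤ 1 ∧ 0 ≤ q.eta := by
  have hN := hq.N
  unfold Par.eta
  refine ⟨?_, by positivity⟩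
  rw [div_le_one (by positivity)]
  nlinarith only [hN]

lemma tau_mem (hT : T < 1) (ht : t ∈ Ico 0 T) : 1 - T ≤ tau t ∧ tau t ≤ 1 ∧ 0 < tau t := by
  unfold tau
  refine ⟨by linarith only [ht, ht.2], by linarith only [ht, ht.1], by linarith only [hT, ht, ht.2]⟩

/-- lower bound of `T₀` -/
def T0m (q : Par) (T : ℝ) : ℝ := q.eps * (1 - T) ^ (lam 3) * q.rho0 ^ (-kap)

lemma lam3_pos : 0 < lam 3 := by
  unfold lam
  have := M2.kap_lt
  push_cast
  linarith only [this]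

lemma T0m_pos (hq : SmC q) (hT : T < 1) : 0 < T0m q T := by
  unfold T0m
  have h1 := Real.rpow_pos_of_pos (by linarith only [hT] : (0 : ℝ) < 1 - T) (lam 3)
  have h2 := Real.rpow_pos_of_pos hq.rho0 (-kap)
  have h3 := hq.eps
  positivity

lemma T0m_le (hq : SmC q) (hT : T < 1) (ht : t ∈ Ico 0 T) : T0m q T ≤ q.T0 t := by
  unfold T0m Par.T0 Par.A
  have h2 := Real.rpow_pos_of_pos hq.rho0 (-kap)
  refine mul_le_mul_of_nonneg_right ?_ h2.le
  refine mul_le_mul_of_nonneg_left ?_ hq.eps.le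
  exact Real.rpow_le_rpow (by linarith only [hT]) (tau_mem hT ht).1 lam3_pos.le

lemma one_le_cosh_pow (u : ℝ) {a b : ℝ} (h : a ≤ b) :
    (Real.cosh u) ^ a ≤ (Real.cosh u) ^ b :=
  Real.rpow_le_rpow_of_exponent_le (Real.one_le_cosh u) h

/-- `eb ≤ C (cosh u)^{-39/20}` -/
lemma eb_le_cosh (hq : SmC q) (hT : T < 1) (ht : t ∈ Ico 0 T) (F : FI q g w f t x) :
    eb q w f t x ≤ (11 / 10 * q.B * (T0m q T) ^ (-(1 / 20) : ℝ)) *
      (Real.cosh (uu w f t x)) ^ (-(39 / 20) : ℝ) := by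
  obtain ⟨-, -, hτ⟩ := tau_mem hT ht
  have hc := Real.cosh_pos (uu w f t x)
  have hT0 := T0m_pos hq hT
  have hT0' := T0m_le hq hT ht
  have hTu := M2.tanh_pos F.u_pos
  have hTu1 := Real.tanh_lt_one (uu w f t x)
  have h1 : (Real.tanh (uu w f t x) / q.T0 t) ^ aa ≤ (T0m q T) ^ (-(1 / 20) : ℝ) := by
    rw [Real.rpow_neg hT0.le, ← Real.inv_rpow hT0.le]
    have e : aa = 1 / 20 := rfl
    rw [e]
    refine Real.rpow_le_rpow (div_nonneg hTu.le (hT0.le.trans hT0')) ?_ (by norm_num)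
    rw [div_eq_mul_inv]
    calc Real.tanh (uu w f t x) * (q.T0 t)⁻¹ ≤ 1 * (T0m q T)⁻¹ :=
          mul_le_mul hTu1.le (inv_anti₀ hT0 hT0') (inv_nonneg.2 (hT0.le.trans hT0')) zero_le_one
      _ = _ := one_mul _
  have h2 : (Real.cosh (uu w f t x)) ^ (-(1 - aa)) =
      (Real.cosh (uu w f t x)) ^ (-(39 / 20) : ℝ) * Real.cosh (uu w f t x) := by
    have e : (-(1 - aa) : ℝ) = -(39 / 20) + 1 := by unfold aa; norm_num
    rw [e, Real.rpow_add hc, Real.rpow_one]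
  have h3 := F.r2cosh
  have hB := hq.B
  have hcp := Real.rpow_nonneg hc.le (-(39 / 20) : ℝ)
  have hT0n := Real.rpow_nonneg hT0.le (-(1 / 20) : ℝ)
  have hA : 0 ≤ (Real.tanh (uu w f t x) / q.T0 t) ^ aa :=
    Real.rpow_nonneg (div_nonneg hTu.le (hT0.le.trans hT0')) _
  calc eb q w f t x = (q.B / tau t * (Real.tanh (uu w f t x) / q.T0 t) ^ aa *
        (Real.cosh (uu w f t x)) ^ (-(39 / 20) : ℝ)) *
        ((rr w f t x) ^ 2 * Real.cosh (uu w f t x)) := by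
        unfold eb Par.fb; rw [h2]; ring
    _ ≤ (q.B / tau t * (Real.tanh (uu w f t x) / q.T0 t) ^ aa *
        (Real.cosh (uu w f t x)) ^ (-(39 / 20) : ℝ)) * (11 / 10 * q.rho0 ^ 2 * tau t) :=
        mul_le_mul_of_nonneg_left h3 (mul_nonneg (mul_nonneg (div_nonneg hB hτ.le) hA) hcp)
    _ = (11 / 10 * q.B * q.rho0 ^ 2 * (Real.tanh (uu w f t x) / q.T0 t) ^ aa) *
        (Real.cosh (uu w f t x)) ^ (-(39 / 20) : ℝ) := by field_simp
    _ ≤ _ := by
        refine mul_le_mul_of_nonneg_right ?_ hcp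
        have h4 : q.rho0 ^ 2 ≤ 1 := pow_le_one₀ hq.rho0.le hq.rho1
        calc 11 / 10 * q.B * q.rho0 ^ 2 * (Real.tanh (uu w f t x) / q.T0 t) ^ aa ≤
            11 / 10 * q.B * 1 * (T0m q T) ^ (-(1 / 20) : ℝ) :=
              mul_le_mul (mul_le_mul_of_nonneg_left h4 (by positivity)) h1 hA (by positivity)
          _ = _ := by ring

lemma eb_small (F : FI q g w f t x) : 0 ≤ eb q w f t x ∧ eb q w f t x ≤ 1 / 10 ^ 4 := by
  have h1 := F.e_le
  have h2 := F.eb_le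
  have h3 := Real.one_le_cosh (uu w f t x)
  have h4 : 0 ≤ eb q w f t x := (abs_nonneg _).trans h1
  exact ⟨h4, by nlinarith only [h2, h3, h4]⟩

/-- `|θ|` -/
lemma th_le_cosh (hq : SmC q) (hT : T < 1) (ht : t ∈ Ico 0 T) (hg : IsBub g)
    (F : FI q g w f t x) :
    -th g w f t x ≤ eb q w f t x + (Real.cosh (uu w f t x)) ^ (-(39 / 20) : ℝ) ∧
    -th g w f t x ≤ 1 / 100 := by
  obtain ⟨-, hτ1, hτ⟩ := tau_mem hT ht
  obtain ⟨e0, e1⟩ := eb_small F
  obtain ⟨he1, he0⟩ := eta_le hq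
  have hc := Real.cosh_pos (uu w f t x)
  have hc1 := Real.one_le_cosh (uu w f t x)
  have hg0 := M2.g_pos hg F.u_pos
  have hg2 := hg.lt_two _ F.u_pos
  have hZ := M2.cosh_le_Zs hg F.u_pos
  have h1 := F.th_ge
  have h3 := F.r2cosh
  have hr0 := sq_nonneg (rr w f t x)
  have a1 : g (uu w f t x) ^ 2 * eb q w f t x ^ 2 / 148 ≤ 1 / 200 * eb q w f t x := by
    have : g (uu w f t x) ^ 2 ≤ 4 := by nlinarith only [hg0, hg2]
    have h5 : eb q w f t x ^ 2 ≤ 1 / 10 ^ 4 * eb q w f t x := by nlinarith only [e0, e1]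
    have h6 : g (uu w f t x) ^ 2 * eb q w f t x ^ 2 ≤ 4 * (1 / 10 ^ 4 * eb q w f t x) :=
      mul_le_mul this h5 (sq_nonneg _) (by norm_num)
    linarith only [e0, h6]
  have h4 : (rr w f t x) ^ 2 ≤ 11 / 10 * (Real.cosh (uu w f t x))⁻¹ := by
    have h5 : q.rho0 ^ 2 ≤ 1 := pow_le_one₀ hq.rho0.le hq.rho1
    have h6 : 11 / 10 * q.rho0 ^ 2 * tau t ≤ 11 / 10 := by
      calc 11 / 10 * q.rho0 ^ 2 * tau t ≤ 11 / 10 * 1 * 1 :=
            mul_le_mul (mul_le_mul_of_nonneg_left h5 (by norm_num)) hτ1 hτ.le (by norm_num)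
        _ = 11 / 10 := by norm_num
    have h7 : (rr w f t x) ^ 2 * Real.cosh (uu w f t x) ≤ 11 / 10 := h3.trans h6
    rw [← div_eq_mul_inv, le_div_iff₀ hc]
    exact h7
  have a2 : (rr w f t x) ^ 2 * (3 * q.eta) / (1640 * Zs g (uu w f t x)) ≤
      1 / 200 * ((Real.cosh (uu w f t x))⁻¹ * (Real.cosh (uu w f t x))⁻¹) := by
    have hZ0 : 0 < Zs g (uu w f t x) := hc.trans_le hZ
    have h8 : (Zs g (uu w f t x))⁻¹ ≤ (Real.cosh (uu w f t x))⁻¹ := inv_anti₀ hc hZ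
    have hi0 : 0 ≤ (Real.cosh (uu w f t x))⁻¹ := inv_nonneg.2 hc.le
    calc (rr w f t x) ^ 2 * (3 * q.eta) / (1640 * Zs g (uu w f t x)) =
        (3 / 1640 * q.eta) * ((rr w f t x) ^ 2 * (Zs g (uu w f t x))⁻¹) := by field_simp
      _ ≤ (3 / 1640 * 1) * ((11 / 10 * (Real.cosh (uu w f t x))⁻¹) *
          (Real.cosh (uu w f t x))⁻¹) :=
          mul_le_mul (mul_le_mul_of_nonneg_left he1 (by norm_num))
            (mul_le_mul h4 h8 (inv_nonneg.2 hZ0.le) (by positivity)) (by positivity)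
            (by norm_num)
      _ ≤ _ := by nlinarith only [mul_nonneg hi0 hi0]
  have a3 : (Real.cosh (uu w f t x))⁻¹ * (Real.cosh (uu w f t x))⁻¹ ≤
      (Real.cosh (uu w f t x)) ^ (-(39 / 20) : ℝ) := by
    have : (Real.cosh (uu w f t x))⁻¹ * (Real.cosh (uu w f t x))⁻¹ =
        (Real.cosh (uu w f t x)) ^ (-2 : ℝ) := by
      rw [Real.rpow_neg hc.le, ← mul_inv]
      congr 1
      rw [show (2 : ℝ) = ((2 : ℕ) : ℝ) by norm_num, Real.rpow_natCast]; ring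
    rw [this]
    exact one_le_cosh_pow _ (by norm_num)
  have a4 : (Real.cosh (uu w f t x))⁻¹ * (Real.cosh (uu w f t x))⁻¹ ≤ 1 := by
    have : (Real.cosh (uu w f t x))⁻¹ ≤ 1 := inv_le_one_of_one_le₀ hc1
    have h0 : 0 ≤ (Real.cosh (uu w f t x))⁻¹ := inv_nonneg.2 hc.le
    nlinarith only [h4, this]
  have hcp := Real.rpow_nonneg hc.le (-(39 / 20) : ℝ)
  constructor
  · linarith only [e0, h1, a1, a2, a3, hcp]
  · linarith only [e1, h1, a1, a2, a4]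

/-- from the facts of block M2 to the input of the static analysis -/
lemma ptI_of (hq : SmC q) (hT : T < 1) (ht : t ∈ Ico 0 T) (hg : IsBub g) (hQ : Qual w f T)
    (hx : x ∈ Ioo (0 : ℝ) 1) (F : FI q g w f t x) :
    PtI g w f t x ∧ del g w f t x ≤ (1 + 2 * (11 / 10 * q.B * (T0m q T) ^ (-(1 / 20) : ℝ)) + 1) *
      (Real.cosh (uu w f t x)) ^ (-(39 / 20) : ℝ) := by
  obtain ⟨e0, e1⟩ := eb_small F
  obtain ⟨t1, t2⟩ := th_le_cosh hq hT ht hg F
  have hG := (abs_le.1 (hQ.G_le t ht x hx)).2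
  refine ⟨⟨hx, F.rs_pos, F.u_pos, hG, F.e_le.trans e1, F.th_le, by linarith only [t2]⟩, ?_⟩
  have h1 := eb_le_cosh hq hT ht F
  have h2 := F.e_le
  have h3 : |th g w f t x| = -th g w f t x := abs_of_nonpos F.th_le
  have h4 : Real.exp (-2 * uu w f t x) ≤ (Real.cosh (uu w f t x)) ^ (-(39 / 20) : ℝ) := by
    have hc := Real.cosh_pos (uu w f t x)
    have e : Real.exp (-2 * uu w f t x) ≤ (Real.cosh (uu w f t x)) ^ (-2 : ℝ) := by
      have h5 : Real.cosh (uu w f t x) ≤ Real.exp (uu w f t x) := by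
        rw [Real.cosh_eq]
        have : Real.exp (-uu w f t x) ≤ Real.exp (uu w f t x) :=
          Real.exp_le_exp.2 (by linarith only [F, F.u_pos])
        linarith only [this]
      have h6 : Real.exp (-2 * uu w f t x) = (Real.exp (uu w f t x)) ^ (-2 : ℝ) := by
        rw [← Real.exp_mul]; congr 1; ring
      rw [h6]
      exact Real.rpow_le_rpow_of_nonpos hc h5 (by norm_num)
    exact e.trans (one_le_cosh_pow _ (by norm_num))
  unfold del
  rw [h3]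
  set c := (Real.cosh (uu w f t x)) ^ (-(39 / 20) : ℝ)
  have : (1 + 2 * (11 / 10 * q.B * (T0m q T) ^ (-(1 / 20) : ℝ)) + 1) * c =
      c + 2 * (11 / 10 * q.B * (T0m q T) ^ (-(1 / 20) : ℝ) * c) + c := by ring
  rw [this]
  linarith only [h2, t1, h1, h4]

/-- bounds in the outer region at distance from the tip -/
lemma outer_deriv {C0 κ : ℝ} (hκ : 0 < κ) (hs : Slice w f t) (hx : x ∈ Ioo (0 : ℝ) 1)
    (hrs : 0 < rs w f t x) (hG : |GG w f t x| ≤ 2) (hu : |uu w f t x| ≤ C0)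
    (hZ : ZZ w f t x ≤ C0) (hqx : κ ≤ 1 - x ^ 2) :
    |deriv (f t) x| ≤ (2 + 4 * Real.exp C0 * C0) / κ ∧
      |deriv (w t) x| ≤ (2 + 4 * Real.exp C0 * C0) / κ := by
  have hx' : x ∈ Ioo (-1 : ℝ) 1 := ⟨by linarith only [hx, hx.1], hx.2⟩
  have hN := Nn_pos hx' hrs
  have hN2 := Nn_sq (w := w) (f := f) (t := t) hx'
  have hC0 : 0 ≤ C0 := (abs_nonneg _).trans hu
  have hZ0 := M2.ZZ_nonneg (w := w) (f := f) (t := t) x
  have h1 : Nn w f t x ^ 2 ≤ 4 * Real.exp C0 * C0 := by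
    rw [hN2]
    have h2 : Real.exp (-uu w f t x) ≤ Real.exp C0 := Real.exp_le_exp.2 (by
      linarith only [hu, (abs_le.1 hu).1])
    have h3 : zeta0 ≤ 1 := by unfold zeta0; norm_num
    calc 4 * zeta0 * Real.exp (-uu w f t x) * ZZ w f t x ≤ 4 * 1 * Real.exp C0 * C0 := by
          refine mul_le_mul (mul_le_mul (by linarith only [h3]) h2 (Real.exp_pos _).le (by norm_num)) hZ hZ0
            (by positivity)
      _ = _ := by ring
  have h4 : Nn w f t x ≤ 1 + 4 * Real.exp C0 * C0 := by nlinarith only [hN, h1]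
  obtain ⟨g1, g2⟩ := abs_le.1 hG
  have hq := qpos hx'
  constructor
  · rw [(hasDerivAt_f hs hx' hrs.ne').deriv, abs_neg, abs_of_nonneg (div_nonneg
      (mul_nonneg hN.le (by linarith only [g2])) (by linarith only [hκ, hqx])), div_le_div_iff₀ (by linarith only [hκ, hqx]) hκ]
    have h5 : Nn w f t x * (2 - GG w f t x) ≤ 4 * (2 + 4 * Real.exp C0 * C0) := by
      nlinarith only [hN, h4, g1]
    have h6 : 0 ≤ Nn w f t x * (2 - GG w f t x) := mul_nonneg hN.le (by linarith only [g2])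
    nlinarith only [hκ, hqx, h1, h5]
  · rw [(hasDerivAt_w hs hx' hrs.ne').deriv]
    have e : x / (1 - x ^ 2) - Nn w f t x * (2 + GG w f t x) / (4 * (1 - x ^ 2)) =
        (4 * x - Nn w f t x * (2 + GG w f t x)) / (4 * (1 - x ^ 2)) := by field_simp
    rw [e, abs_div, abs_of_pos (by linarith only [hκ, hqx] : 0 < 4 * (1 - x ^ 2)),
      div_le_div_iff₀ (by linarith only [hκ, hqx]) hκ]
    have h5 : Nn w f t x * (2 + GG w f t x) ≤ 4 * (1 + 4 * Real.exp C0 * C0) := by nlinarith only [hN, h4, g2]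
    have h6 : 0 ≤ Nn w f t x * (2 + GG w f t x) := mul_nonneg hN.le (by linarith only [g1])
    have h7 : |4 * x - Nn w f t x * (2 + GG w f t x)| ≤ 4 * (2 + 4 * Real.exp C0 * C0) := by
      have : 0 ≤ 4 * Real.exp C0 * C0 := by positivity
      rw [abs_le]; constructor <;> nlinarith only [hx, h5, h1, h6, hx.1, hx.2]
    have h8 := abs_nonneg (4 * x - Nn w f t x * (2 + GG w f t x))
    nlinarith only [hκ, hqx, h1, h7]

/-- all bounds on `(0,1)` -/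
theorem c1_bounds (hg : IsBub g) (hq : SmC q) (hT0 : 0 < T) (hT : T < 1) (h : ConfSol 20 w f T)
    (hQ : Qual w f T) (hB : ∀ t₁ ∈ Ico 0 T, Boot q g w f t₁)
    (hFI : ∀ t ∈ Ico 0 T, ∀ x ∈ Ioo (0 : ℝ) 1, yv w f t x ≤ q.rho0 → FI q g w f t x)
    (hV : VolStatement) :
    ∃ C : ℝ, 0 ≤ C ∧ ∀ t ∈ Ico 0 T, ∀ x ∈ Ioo (0 : ℝ) 1, |f t x| ≤ C ∧ |w t x| ≤ C ∧
      |deriv (f t) x| ≤ C * vw x ∧ |deriv (w t) x| ≤ C * vw x := by
  obtain ⟨C0, hC0, hT1⟩ := MC757.T1 hq.rho0 hq.eps.le hq.MU hq.MUe hq.CU hT h hQ hB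
  have hC0' : 0 ≤ C0 := by linarith only [hT0, hT, hC0]
  obtain ⟨V0, hV0, hVol⟩ := hV w f T hT0 h hQ
  set c : ℝ := Real.exp (-(2 * C0)) with hc
  have hcp : 0 < c := Real.exp_pos _
  set L : ℝ := 2 * V0 / c ^ 21 with hL
  have hLp : 0 < L := by positivity
  set κ : ℝ := Real.exp (-L) with hκ
  have hκp : 0 < κ := Real.exp_pos _
  set Cd : ℝ := 1 + 2 * (11 / 10 * q.B * (T0m q T) ^ (-(1 / 20) : ℝ)) + 1 with hCd
  have hT0m := T0m_pos hq hT
  have hCdn : 0 ≤ Cd := by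
    have := Real.rpow_nonneg hT0m.le (-(1 / 20) : ℝ)
    have := hq.B
    positivity
  obtain ⟨C1, hC1, htip⟩ := tip_main Cd (9 / 10 * T0m q T) (1 - κ) (C0 + L) hCdn (by positivity)
    (by linarith only [hκp]) (by positivity)
  set C2 : ℝ := (2 + 4 * Real.exp C0 * C0) / κ with hC2
  have hC2n : 0 ≤ C2 := by positivity
  refine ⟨C1 + C2 + (C0 + L), by positivity, ?_⟩
  intro t ht x hx
  have ht1 : t < 1 := ht.2.trans hT
  have hs : Slice w f t := M2.slice_of_confSol h ht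
  have hrs : ∀ x ∈ Ioo (0 : ℝ) 1, 0 < rs w f t x := hQ.rs_pos t ht
  have hb0 := (hB t ht).b0 t ⟨ht.1, le_rfl⟩
  obtain ⟨x0, hx0, hy0⟩ := M2.exists_x1 hs ht.1 ht1 hq.rho0 (by
    have := hq.N; have := hq.rho1; linarith)
  have hanti := M2.yv_anti hs ht1 hrs
  have hout : ∀ y ∈ Icc 0 x0, q.rho0 ≤ yv w f t y := by
    intro y hy
    rw [← hy0]
    exact hanti.antitoneOn ⟨hy.1, hy.2.trans_lt hx0.2⟩ ⟨hx0.1.le, hx0.2⟩ hy.2
  have hin : ∀ y ∈ Ico x0 1, yv w f t y ≤ q.rho0 := by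
    intro y hy
    rw [← hy0]
    exact hanti.antitoneOn ⟨hx0.1.le, hx0.2⟩ ⟨hx0.1.le.trans hy.1, hy.2⟩ hy.1
  have hlog : ∀ y ∈ Ico (0 : ℝ) 1, Real.exp (w t y) * sx y =
      Real.exp (w t y + Real.log (1 - y ^ 2) / 2) := by
    intro y hy
    rw [Real.exp_add, log_half ⟨by linarith only [hT0, hT, hy, hy.1], hy.2⟩]
  -- position of `x0`
  have hx0κ : x0 ≤ 1 - κ := by
    have h1 := hVol t ht x0 ⟨hx0.1.le, hx0.2⟩ c hcp (by
      intro y hy
      have hy1 : y ∈ Ico (0 : ℝ) 1 := ⟨hy.1, hy.2.trans_lt hx0.2⟩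
      obtain ⟨-, a2, a3, -⟩ := hT1 t ht y hy1 (hout y hy)
      rw [mul_assoc, hlog y hy1, ← Real.exp_add]
      apply Real.exp_le_exp.2
      linarith only [a2, a3, (abs_le.1 a2).1, (abs_le.1 a3).1]) (by
      intro y hy
      have hy1 : y ∈ Ico (0 : ℝ) 1 := ⟨hy.1, hy.2.trans_lt hx0.2⟩
      obtain ⟨-, a2, a3, -⟩ := hT1 t ht y hy1 (hout y hy)
      rw [hlog y hy1]
      apply Real.exp_le_exp.2
      linarith only [hT0, hT, hC0, a3, (abs_le.1 a3).1])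
    have h2 : Real.log ((1 + x0) / (1 - x0)) ≤ L := by
      rw [hL, le_div_iff₀ (by positivity)]
      linarith only [h1]
    have p1 : 0 < 1 - x0 := by linarith only [hx0, hx0.2]
    have p2 : 0 < 1 + x0 := by linarith only [hT0, hT, hx0, hx0.1]
    have h3 : (1 + x0) / (1 - x0) ≤ Real.exp L := by
      rw [← Real.exp_log (div_pos p2 p1)]
      exact Real.exp_le_exp.2 h2
    rw [div_le_iff₀ p1] at h3
    have h4 : κ * Real.exp L = 1 := by rw [hκ, ← Real.exp_add]; simp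
    have h5 : κ * (1 + x0) ≤ κ * (Real.exp L * (1 - x0)) := mul_le_mul_of_nonneg_left h3 hκp.le
    have h6 : κ * (Real.exp L * (1 - x0)) = 1 - x0 := by rw [← mul_assoc, h4, one_mul]
    have h7 : 0 ≤ κ * x0 := mul_nonneg hκp.le hx0.1.le
    linarith only [h5, h6, h7]
  -- the part away from the tip
  have hA : ∀ y ∈ Ioc 0 x0, |f t y| ≤ C0 + L ∧ |w t y| ≤ C0 + L ∧ |deriv (f t) y| ≤ C2 ∧
      |deriv (w t) y| ≤ C2 := by
    intro y hy
    have hyI : y ∈ Ioo (0 : ℝ) 1 := ⟨hy.1, hy.2.trans_lt hx0.2⟩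
    obtain ⟨a1, a2, a3, a4, -⟩ := hT1 t ht y ⟨hy.1.le, hyI.2⟩ (hout y ⟨hy.1.le, hy.2⟩)
    have hqy : κ ≤ 1 - y ^ 2 := by nlinarith only [hT0, hT, hκp, hx0κ, hy, hy.1, hy.2, hyI.2]
    have hlog1 : -L ≤ Real.log (1 - y ^ 2) := by
      have : Real.log κ = -L := by rw [hκ, Real.log_exp]
      rw [← this]
      exact Real.log_le_log hκp hqy
    have hlog2 : Real.log (1 - y ^ 2) ≤ 0 :=
      Real.log_nonpos (by linarith only [hκp, hqy]) (by nlinarith only [sq_nonneg y])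
    obtain ⟨d1, d2⟩ := outer_deriv hκp hs hyI (hrs y hyI) (hQ.G_le t ht y hyI) a1 a4 hqy
    refine ⟨by linarith only [hLp, a2], ?_, d1, d2⟩
    obtain ⟨b1, b2⟩ := abs_le.1 a3
    rw [abs_le]; constructor <;> linarith only [hLp, hlog2, b1, hlog1, b2]
  rcases le_total x x0 with hxx | hxx
  · obtain ⟨a1, a2, a3, a4⟩ := hA x ⟨hx.1, hxx⟩
    have hv := vw_ge (x := x) ⟨by linarith only [hT0, hT, hx, hx.1], hx.2⟩
    have hmul : C2 ≤ (C1 + C2 + (C0 + L)) * vw x := by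
      calc C2 ≤ (C1 + C2 + (C0 + L)) * 1 := by linarith only [hT0, hT, hC0, hLp, hC1]
        _ ≤ _ := mul_le_mul_of_nonneg_left hv (by positivity)
    exact ⟨by linarith only [hC1, hC2n, a1], by linarith only [hC1, hC2n, a2], a3.trans hmul, a4.trans hmul⟩
  · have hxI : x ∈ Ico x0 1 := ⟨hxx, hx.2⟩
    obtain ⟨a1, a2, -, -⟩ := hA x0 ⟨hx0.1, le_rfl⟩
    have F0 := hFI t ht x0 hx0 hy0.le
    have hsin : 9 / 10 * T0m q T ≤ Real.sinh (uu w f t x0) := by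
      have h1 := F0.T_ge
      have h2 := T0m_le hq hT ht
      have h3 : Real.tanh (uu w f t x0) ≤ Real.sinh (uu w f t x0) := by
        rw [Real.tanh_eq_sinh_div_cosh]
        exact div_le_self (Real.sinh_nonneg_iff.2 F0.u_pos.le) (Real.one_le_cosh _)
      linarith only [h1, h2, h3]
    obtain ⟨b1, b2, b3, b4⟩ := htip g w f t x0 hg hs hx0 hx0κ (by
      intro y hy
      have hyI : y ∈ Ioo (0 : ℝ) 1 := ⟨hx0.1.trans_le hy.1, hy.2⟩
      exact ptI_of hq hT ht hg hQ hyI (hFI t ht y hyI (hin y hy))) hsin a1 a2 x hxI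
    have hv := vw_ge (x := x) ⟨by linarith only [hT0, hT, hx, hx.1], hx.2⟩
    have hmul : C1 * vw x ≤ (C1 + C2 + (C0 + L)) * vw x :=
      mul_le_mul_of_nonneg_right (by linarith only [hT0, hT, hC0, hLp, hC2n]) (by linarith only [hT0, hT, hv])
    exact ⟨by linarith only [hT0, hT, hC0, hLp, hC2n, b1], by linarith only [hT0, hT, hC0, hLp, hC2n, b2], b3.trans hmul, b4.trans hmul⟩

end

/-! ### extension by symmetry and the final statement -/

lemma deriv_even {h : ℝ → ℝ} (he : ∀ x ∈ Icc (-1 : ℝ) 1, h (-x) = h x) {x : ℝ}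
    (hx : x ∈ Ioo (-1 : ℝ) 1) : deriv h x = -deriv h (-x) := by
  have hev : h =ᶠ[𝓝 x] fun y => h (-y) := by
    filter_upwards [Ioo_mem_nhds hx.1 hx.2] with y hy
    exact (he y (Ioo_subset_Icc_self hy)).symm
  rw [hev.deriv_eq, deriv_comp_neg]

lemma vw_neg (x : ℝ) : vw (-x) = vw x := by unfold vw; rw [neg_sq]

lemma dx_deriv (h : ℝ → ℝ) {x : ℝ} (hx : x ∈ Ioo (-1 : ℝ) 1) : dx h x = deriv h x :=
  derivWithin_of_mem_nhds (Icc_mem_nhds hx.1 hx.2)

lemma ext_val {h : ℝ → ℝ} {C : ℝ} (hc : ContinuousOn h (Icc (-1) 1))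
    (he : ∀ x ∈ Icc (-1 : ℝ) 1, h (-x) = h x) (hb : ∀ x ∈ Ioo (0 : ℝ) 1, |h x| ≤ C) :
    ∀ x ∈ Icc (-1 : ℝ) 1, |h x| ≤ C := by
  have h1 : ∀ x ∈ Icc (0 : ℝ) 1, |h x| ≤ C := by
    intro x hx
    have hcl : x ∈ closure (Ioo (0 : ℝ) 1) := by rw [closure_Ioo (by norm_num)]; exact hx
    have hcw : ContinuousWithinAt (fun y => |h y|) (Ioo 0 1) x :=
      ((hc x ⟨by linarith only [hx, hx.1], hx.2⟩).mono fun y hy => ⟨by linarith only [hy, hy.1], hy.2.le⟩).abs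
    exact ContinuousWithinAt.closure_le hcl hcw continuousWithinAt_const hb
  intro x hx
  rcases le_total 0 x with h0 | h0
  · exact h1 x ⟨h0, hx.2⟩
  · rw [← he x hx]
    exact h1 (-x) ⟨by linarith only [h0], by linarith only [hx, hx.1]⟩

lemma ext_der {h : ℝ → ℝ} {C : ℝ} (hC : 0 ≤ C) (he : ∀ x ∈ Icc (-1 : ℝ) 1, h (-x) = h x)
    (hb : ∀ x ∈ Ioo (0 : ℝ) 1, |deriv h x| ≤ C * vw x) :
    ∀ x ∈ Ioo (-1 : ℝ) 1, |dx h x| ≤ C * vw x := by
  intro x hx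
  rw [dx_deriv h hx]
  rcases lt_trichotomy 0 x with h0 | h0 | h0
  · exact hb x ⟨h0, hx.2⟩
  · have h1 := deriv_even he hx
    rw [← h0] at h1 ⊢
    rw [neg_zero] at h1
    have h2 : deriv h 0 = 0 := by linarith only [h1]
    rw [h2, abs_zero]
    exact mul_nonneg hC (vw_pos (by constructor <;> norm_num)).le
  · rw [deriv_even he hx, abs_neg, ← vw_neg x]
    exact hb (-x) ⟨by linarith only [h0], by linarith only [hx, hx.1]⟩

/-- **C1.** -/
theorem c1Statement (hM2 : M.M2Statement) (hMB : M.MBStatement) (hV : VolStatement) :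
    C1Statement := by
  intro g hg
  refine ((hM2 g hg).and (Ev.and hMB ev_smC)).mono ?_
  rintro q ⟨h2, hb, hq⟩ w f T hT0 hT h hQ - hB hcl
  have hFI : ∀ t ∈ Ico 0 T, ∀ x ∈ Ioo (0 : ℝ) 1, yv w f t x ≤ q.rho0 → FI q g w f t x := by
    intro t ht
    have hBt := hB t ht
    exact (h2 w f T t
      { T_le := hT.le
        sol := h
        qual := hQ
        mem := ht
        boot := hBt.b5 t ⟨ht.1, le_rfl⟩
        eq_ge := hBt.b0 t ⟨ht.1, le_rfl⟩
        bd := hb w f t ⟨ht.1, ht.2.trans hT⟩ (hcl t ht) }).1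
  obtain ⟨C, hC, hbd⟩ := c1_bounds hg hq hT0 hT h hQ hB hFI hV
  refine h.size1_bounded hC hT0 ?_ ?_
  · intro t ht x hx
    have hs := M2.slice_of_confSol h ht
    exact ⟨ext_val hs.hw.continuousOn (h.even_w t ht) (fun y hy => (hbd t ht y hy).2.1) x hx,
      ext_val hs.hf.continuousOn (h.even_f t ht) (fun y hy => (hbd t ht y hy).1) x hx⟩
  · intro t ht x hx
    exact ⟨ext_der hC (h.even_w t ht) (fun y hy => (hbd t ht y hy).2.2.2) x hx,
      ext_der hC (h.even_f t ht) (fun y hy => (hbd t ht y hy).2.2.1) x hx⟩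

end

end Vale.Agent.P244.ST.MC
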