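import Vale.Agent.P244.ST.Sys

/-!
# P244-ST, block C (M8), part E : the barrier for the first derivatives

If `|W|, |F| ≤ C` and `|W_x|, |F_x| ≤ C (1-x²)^{-1/20}` on `[0,T)`, then `W_x`, `F_x` are
bounded on `[0,T)` (barrier `A e^{Kt} (2 - √(1-x²))`).
-/

open Set Topology Filter
open scoped ContDiff

namespace Vale.Agent.P244.ST

open Vale.Agent.P244.BB

variable {T : ℝ}

namespace Sys

variable {p : ℕ} (M : Sys p T)

/-- equation for `W_x` -/
lemma dt_dzW : dt (dz M.W) =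
    M.E * (Ss * dz (dz (dz M.W)) - ((p : smoothAlg T) + 3) * Xs * dz (dz M.W))
    + (-2 * M.E * dz M.W - M.J) * Ss * dz (dz M.W)
    + (2 * ((p : smoothAlg T) + 1) * M.E * Xs * dz M.W + 2 * (p : smoothAlg T) * M.E
      - ((p : smoothAlg T) + 1) * M.E + 2 * Xs * M.J) * dz M.W
    + M.J + (Xs - Ss * dz M.W) * M.E * (((p : smoothAlg T) - 1) * (dz M.W * dz M.W) +
      (p : smoothAlg T) * (dz M.F * dz M.F)) := by
  rw [← dz_dt_comm, M.eq_W]
  simp only [dz_add, dz_sub, dz_mul, lapS, M.dz_E, M.dz_J, dz_Ss, dz_Xs, dz_natCast, dz_one]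
  ring

/-- equation for `F_x` -/
lemma dt_dzF : dt (dz M.F) =
    M.E * (Ss * dz (dz (dz M.F)) - ((p : smoothAlg T) + 3) * Xs * dz (dz M.F))
    + (-2 * M.E * dz M.W - M.J) * Ss * dz (dz M.F)
    + (2 * ((p : smoothAlg T) + 1) * M.E * Xs * dz M.W
      - ((p : smoothAlg T) + 1) * M.E + 2 * Xs * M.J
      + 2 * ((p : smoothAlg T) - 1) * M.H) * dz M.F
    - Ss * dz M.F * M.E * (((p : smoothAlg T) - 1) * (dz M.W * dz M.W) +
      (p : smoothAlg T) * (dz M.F * dz M.F)) := by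
  rw [← dz_dt_comm, M.eq_F]
  simp only [dz_add, dz_sub, dz_mul, lapS, M.dz_E, M.dz_H, M.dz_J, dz_Ss, dz_Xs, dz_natCast,
    dz_one]
  ring

end Sys

/-! ### one variable lemmas -/

/-- second derivative test -/
lemma bar_second {g g1 : ℝ → ℝ} {g2 z : ℝ} (h : ∀ᶠ w in 𝓝 z, HasDerivAt g (g1 w) w)
    (h2 : HasDerivAt g1 g2 z) (hm : IsLocalMax g z) : g1 z = 0 ∧ g2 ≤ 0 := by
  have h0 : g1 z = 0 := hm.hasDerivAt_eq_zero h.self_of_nhds
  refine ⟨h0, ?_⟩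
  by_contra hcon
  push Not at hcon
  have hev : deriv g =ᶠ[𝓝 z] g1 := by
    filter_upwards [h] with w hw
    exact hw.deriv
  have hdd : deriv (deriv g) z = g2 := by
    rw [hev.deriv_eq]
    exact h2.deriv
  have hmin : IsLocalMin g z := by
    refine isLocalMin_of_deriv_deriv_pos (by rw [hdd]; exact hcon) ?_
      h.self_of_nhds.continuousAt
    rw [hev.eq_of_nhds]; exact h0
  have hconst : g =ᶠ[𝓝 z] fun _ => g z := by
    filter_upwards [hm, hmin] with w h3 h4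
    exact le_antisymm h3 h4
  have h5 : deriv g =ᶠ[𝓝 z] fun _ => 0 := by
    have := hconst.deriv
    simpa using this
  have h6 : deriv (deriv g) z = 0 := by
    rw [h5.deriv_eq]; simp
  rw [hdd] at h6
  linarith only [hcon, h6]

/-- the space part of the barrier -/
noncomputable def bet (z : ℝ) : ℝ := 2 - Real.sqrt (1 - z ^ 2)

lemma bet_cont : Continuous bet := by
  unfold bet; fun_prop

lemma bet_ge (z : ℝ) (_hz : z ∈ Icc (-1 : ℝ) 1) : 1 ≤ bet z := by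
  have : Real.sqrt (1 - z ^ 2) ≤ 1 := by
    rw [Real.sqrt_le_iff]; constructor <;> nlinarith only [sq_nonneg z]
  unfold bet; linarith only [this]

lemma bet_le (z : ℝ) : bet z ≤ 2 := by
  unfold bet; linarith only [Real.sqrt_nonneg (1 - z ^ 2)]

lemma bar_sq_pos {z : ℝ} (hz : z ∈ Ioo (-1 : ℝ) 1) : 0 < 1 - z ^ 2 := by
  nlinarith only [hz, hz.1, hz.2]

lemma hasDerivAt_root {z : ℝ} (hz : z ∈ Ioo (-1 : ℝ) 1) :
    HasDerivAt (fun z => Real.sqrt (1 - z ^ 2)) (-(z / Real.sqrt (1 - z ^ 2))) z := by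
  have hq := bar_sq_pos hz
  have h1 : HasDerivAt (fun z : ℝ => 1 - z ^ 2) (-(2 * z)) z := by
    have := (hasDerivAt_pow 2 z).const_sub 1
    simpa using this
  have h2 := h1.sqrt hq.ne'
  refine h2.congr_deriv ?_
  have : Real.sqrt (1 - z ^ 2) ≠ 0 := (Real.sqrt_pos.2 hq).ne'
  field_simp

lemma hasDerivAt_bet {z : ℝ} (hz : z ∈ Ioo (-1 : ℝ) 1) :
    HasDerivAt bet (z / Real.sqrt (1 - z ^ 2)) z := by
  have := (hasDerivAt_root hz).const_sub 2
  rw [neg_neg] at this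
  exact this

lemma hasDerivAt_bet1 {z : ℝ} (hz : z ∈ Ioo (-1 : ℝ) 1) :
    HasDerivAt (fun z => z / Real.sqrt (1 - z ^ 2)) (1 / Real.sqrt (1 - z ^ 2) ^ 3) z := by
  have hq := bar_sq_pos hz
  have hs : 0 < Real.sqrt (1 - z ^ 2) := Real.sqrt_pos.2 hq
  have h := (hasDerivAt_id z).div (hasDerivAt_root hz) hs.ne'
  refine h.congr_deriv ?_
  have hs2 : Real.sqrt (1 - z ^ 2) ^ 2 = 1 - z ^ 2 := Real.sq_sqrt hq.le
  simp only [id]
  field_simp
  rw [hs2]; ring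

/-- The slice of a smooth function touching the barrier cannot touch at the end points, and gives
the derivative inequalities inside. -/
lemma bar_touch (h : smoothAlg T) {φ z₀ t : ℝ} (hφ : 0 < φ) (hz₀ : z₀ ∈ Icc (-1 : ℝ) 1)
    (ht : t ∈ Ico 0 T) (h0 : ext h (z₀, t) = φ * bet z₀)
    (hle : ∀ z ∈ Icc (-1 : ℝ) 1, ext h (z, t) ≤ φ * bet z) :
    z₀ ∈ Ioo (-1 : ℝ) 1 ∧ ext (dz h) (z₀, t) = φ * (z₀ / Real.sqrt (1 - z₀ ^ 2)) ∧
      ext (dz (dz h)) (z₀, t) ≤ φ * (1 / Real.sqrt (1 - z₀ ^ 2) ^ 3) := by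
  -- Lipschitz bound of the slice
  have hcont : ContinuousOn (fun z => ext (dz h) (z, t)) (Icc (-1) 1) := fun z hz =>
    (hasDerivWithinAt_z (dz h) hz ht).continuousWithinAt
  obtain ⟨L, hL⟩ := isCompact_Icc.exists_bound_of_continuousOn hcont
  have hlip : ∀ z ∈ Icc (-1 : ℝ) 1, |ext h (z₀, t) - ext h (z, t)| ≤ L * |z₀ - z| := by
    intro z hz
    have := (convex_Icc (-1 : ℝ) 1).norm_image_sub_le_of_norm_hasDerivWithin_le
      (f := fun z => ext h (z, t)) (f' := fun z => ext (dz h) (z, t))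
      (fun z hz => hasDerivWithinAt_z h hz ht) hL hz hz₀
    simpa [Real.norm_eq_abs] using this
  have hL0 : 0 ≤ L := (norm_nonneg _).trans (hL z₀ hz₀)
  have hin : z₀ ∈ Ioo (-1 : ℝ) 1 := by
    by_contra hcon
    have hsq : z₀ ^ 2 = 1 := by
      have h1 : z₀ = -1 ∨ z₀ = 1 := by
        rcases hz₀.1.eq_or_lt with h | h
        · exact Or.inl h.symm
        · rcases hz₀.2.eq_or_lt with h' | h'
          · exact Or.inr h'
          · exact absurd ⟨h, h'⟩ hcon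
      rcases h1 with h | h <;> rw [h] <;> norm_num
    have habs : |z₀| = 1 := by
      have := sq_abs z₀
      have h2 : |z₀| ^ 2 = 1 := by rw [this, hsq]
      nlinarith only [hsq, this, abs_nonneg z₀]
    -- `δ = ε²`, `ε = min 1 (φ/(L+1)) / 2`
    set ε : ℝ := min 1 (φ / (2 * (L + 1))) with hε
    have hεpos : 0 < ε := lt_min one_pos (by positivity)
    have hε1 : ε ≤ 1 := min_le_left _ _
    have hε2 : ε * (2 * (L + 1)) ≤ φ := by
      have : ε ≤ φ / (2 * (L + 1)) := min_le_right _ _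
      rwa [le_div_iff₀ (by positivity)] at this
    have hδ1 : ε ^ 2 ≤ 1 := by nlinarith only [hεpos, hε1]
    have hz1 : z₀ * (1 - ε ^ 2) ∈ Icc (-1 : ℝ) 1 := by
      rw [mem_Icc, ← abs_le, abs_mul, habs, one_mul, abs_of_nonneg (by linarith only [hδ1])]
      linarith only [sq_nonneg ε]
    have h3 := hle _ hz1
    have h4 := hlip _ hz1
    have h5 : |z₀ - z₀ * (1 - ε ^ 2)| = ε ^ 2 := by
      rw [show z₀ - z₀ * (1 - ε ^ 2) = z₀ * ε ^ 2 by ring, abs_mul, habs, one_mul,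
        abs_of_nonneg (sq_nonneg _)]
    rw [h5] at h4
    have h6 : ε ≤ Real.sqrt (1 - (z₀ * (1 - ε ^ 2)) ^ 2) := by
      apply Real.le_sqrt_of_sq_le
      rw [mul_pow, hsq, one_mul]; nlinarith only [hδ1, sq_nonneg ε]
    have h7 : bet z₀ = 2 := by unfold bet; rw [hsq]; simp
    have h8 : bet (z₀ * (1 - ε ^ 2)) ≤ 2 - ε := by unfold bet; linarith only [h6]
    have h9 : φ * bet (z₀ * (1 - ε ^ 2)) ≤ φ * (2 - ε) := mul_le_mul_of_nonneg_left h8 hφ.le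
    rw [h7] at h0
    have h10 := (abs_le.1 h4).2
    have h11 : φ * ε ≤ L * ε ^ 2 := by linarith only [h0, h3, h9, h10]
    have h12 : φ ≤ L * ε := by
      have : φ * ε ≤ (L * ε) * ε := by linarith only [h0, h3, h9, h10]
      exact le_of_mul_le_mul_right this hεpos
    nlinarith only [hφ, hεpos, hε2, h12]
  have hq := bar_sq_pos hin
  have hev : ∀ᶠ w in 𝓝 z₀, HasDerivAt (fun z => ext h (z, t) - φ * bet z)
      (ext (dz h) (w, t) - φ * (w / Real.sqrt (1 - w ^ 2))) w := by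
    filter_upwards [Ioo_mem_nhds hin.1 hin.2] with w hw
    exact (hasDerivAt_z h hw ht).sub ((hasDerivAt_bet hw).const_mul φ)
  have h2 : HasDerivAt (fun w => ext (dz h) (w, t) - φ * (w / Real.sqrt (1 - w ^ 2)))
      (ext (dz (dz h)) (z₀, t) - φ * (1 / Real.sqrt (1 - z₀ ^ 2) ^ 3)) z₀ :=
    (hasDerivAt_z (dz h) hin ht).sub ((hasDerivAt_bet1 hin).const_mul φ)
  have hm : IsLocalMax (fun z => ext h (z, t) - φ * bet z) z₀ := by
    filter_upwards [Icc_mem_nhds hin.1 hin.2] with z hz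
    linarith only [h0, hle, hz, hle z hz]
  obtain ⟨h3, h4⟩ := bar_second hev h2 hm
  exact ⟨hin, by linarith only [h3], by linarith only [h4]⟩

/-! ### the pointwise inequality -/

/-- absorption -/
lemma bar_absorb {c Q v : ℝ} (hc : 0 < c) (hQ : 0 ≤ Q) (hv : 1 ≤ v) :
    -(2 * c) * v ^ 10 + Q * v ^ 2 ≤ Q ^ 2 / c := by
  have hv2 : v ^ 2 ≤ v ^ 8 := pow_le_pow_right₀ hv (by norm_num)
  have hv8 : 0 ≤ v ^ 8 := by positivity
  have hv10 : 0 ≤ v ^ 10 := by positivity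
  have e10 : v ^ 10 = v ^ 8 * v ^ 2 := by ring
  rcases le_total Q (c * v ^ 8) with h | h
  · have h1 : Q * v ^ 2 ≤ c * v ^ 8 * v ^ 2 := mul_le_mul_of_nonneg_right h (sq_nonneg v)
    have h2 : 0 ≤ Q ^ 2 / c := by positivity
    nlinarith only [hQ, h1, h2]
  · have h1 : v ^ 8 ≤ Q / c := by rw [le_div_iff₀ hc]; linarith only [h]
    have h2 : Q * v ^ 2 ≤ Q * (Q / c) := mul_le_mul_of_nonneg_left (hv2.trans h1) hQ
    have h3 : Q * (Q / c) = Q ^ 2 / c := by ring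
    nlinarith only [hc, hv10, h2, h3]

/-- the main term -/
lemma bar_main {P cE CE E x s v φ : ℝ} (hP : 0 ≤ P) (hcE : 0 ≤ cE) (hE1 : cE ≤ E) (hE2 : E ≤ CE)
    (hs : 0 < s) (hs1 : s ≤ 1) (hsx : s ^ 2 = 1 - x ^ 2) (hvs : v ^ 10 * s = 1) (hφ : 0 ≤ φ) :
    E * ((1 - x ^ 2) * (φ * (1 / s ^ 3)) - (P + 3) * x * (φ * (x / s))) ≤
      φ * (-(2 * cE) * v ^ 10 + CE * (P + 3)) := by
  have h1 : 1 / s = v ^ 10 := by field_simp; linarith only [hvs]
  have h2 : (1 - x ^ 2) * (φ * (1 / s ^ 3)) = φ * v ^ 10 := by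
    rw [← hsx, ← h1]; field_simp
  have h3 : (P + 3) * x * (φ * (x / s)) = (P + 3) * φ * v ^ 10 * (1 - s ^ 2) := by
    rw [hsx, ← h1]; ring
  have h4 : v ^ 10 * s ^ 2 = s := by
    calc v ^ 10 * s ^ 2 = (v ^ 10 * s) * s := by ring
      _ = s := by rw [hvs, one_mul]
  have h5 : φ * v ^ 10 - (P + 3) * φ * v ^ 10 * (1 - s ^ 2) =
      φ * (-(P + 2) * v ^ 10 + (P + 3) * s) := by
    have : (P + 3) * φ * v ^ 10 * (1 - s ^ 2) = (P + 3) * φ * v ^ 10 - (P + 3) * φ * s := by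
      calc _ = (P + 3) * φ * v ^ 10 - (P + 3) * φ * (v ^ 10 * s ^ 2) := by ring
        _ = _ := by rw [h4]
    rw [this]; ring
  rw [h2, h3, h5]
  have hv : 0 ≤ v ^ 10 := by rw [← h1]; positivity
  have hE0 : 0 ≤ E := hcE.trans hE1
  have h6 : cE * v ^ 10 ≤ E * v ^ 10 := mul_le_mul_of_nonneg_right hE1 hv
  have h7 : E * s ≤ CE := by nlinarith only [hcE, hE1, hE2, hs1]
  have h8 : E * (-(P + 2) * v ^ 10 + (P + 3) * s) ≤ -(2 * cE) * v ^ 10 + CE * (P + 3) := by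
    have h9 : 2 * (cE * v ^ 10) ≤ (P + 2) * (E * v ^ 10) := by
      have : 0 ≤ cE * v ^ 10 := mul_nonneg hcE hv
      nlinarith only [hP, h6, this]
    have h10 : (P + 3) * (E * s) ≤ (P + 3) * CE := mul_le_mul_of_nonneg_left h7 (by linarith only [hP])
    nlinarith only [h9, h10]
  calc E * (φ * (-(P + 2) * v ^ 10 + (P + 3) * s))
      = φ * (E * (-(P + 2) * v ^ 10 + (P + 3) * s)) := by ring
    _ ≤ _ := mul_le_mul_of_nonneg_left h8 hφ

/-- the quadratic term -/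
lemma bar_quad {P CE E C v φ a b : ℝ} (hP : 0 ≤ P) (hE0 : 0 ≤ E) (hE2 : E ≤ CE) (hC : 0 ≤ C)
    (hv : 1 ≤ v) (_hφ : 0 ≤ φ) (ha : |a| ≤ C * v) (hb : |b| ≤ C * v) (ha2 : |a| ≤ 2 * φ)
    (hb2 : |b| ≤ 2 * φ) : |E * ((P - 1) * (a * a) + P * (b * b))| ≤
      CE * (4 * (P + 1) * C * v * φ) := by
  have h1 : |a * a| ≤ 2 * C * v * φ := by
    rw [abs_mul]
    calc |a| * |a| ≤ (C * v) * (2 * φ) := mul_le_mul ha ha2 (abs_nonneg _) (by positivity)
      _ = _ := by ring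
  have h2 : |b * b| ≤ 2 * C * v * φ := by
    rw [abs_mul]
    calc |b| * |b| ≤ (C * v) * (2 * φ) := mul_le_mul hb hb2 (abs_nonneg _) (by positivity)
      _ = _ := by ring
  have h3 : |P - 1| ≤ P + 1 := by rw [abs_le]; constructor <;> linarith only [hP]
  have h4 : |(P - 1) * (a * a) + P * (b * b)| ≤ 4 * (P + 1) * C * v * φ := by
    calc _ ≤ |(P - 1) * (a * a)| + |P * (b * b)| := abs_add_le _ _
      _ = |P - 1| * |a * a| + P * |b * b| := by rw [abs_mul, abs_mul P, abs_of_nonneg hP]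
      _ ≤ (P + 1) * (2 * C * v * φ) + (P + 1) * (2 * C * v * φ) := by
          refine add_le_add (mul_le_mul h3 h1 (abs_nonneg _) (by linarith only [hP]))
            (mul_le_mul (by linarith only []) h2 (abs_nonneg _) (by linarith only [hP]))
      _ = _ := by ring
  rw [abs_mul, abs_of_nonneg hE0]
  exact mul_le_mul hE2 h4 (abs_nonneg _) (hE0.trans hE2)

/-- the constant of the barrier -/
noncomputable def barQ (P C CE CJ CH : ℝ) : ℝ :=
  CE * (P + 3) + (2 * CE * C + CJ) + 2 * (2 * (P + 1) * CE * C + (3 * P + 1) * CE + 2 * CJ +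
    2 * (P + 1) * CH) + CJ + (1 + C) * (CE * (4 * (P + 1) * C))

/-- hypotheses on the coefficients at a point -/
structure BarPt (P C cE CE CJ CH E J H x s v φ W1 F1 : ℝ) : Prop where
  hP : 0 ≤ P
  hC : 0 ≤ C
  hcE : 0 < cE
  hE1 : cE ≤ E
  hE2 : E ≤ CE
  hJ : |J| ≤ CJ
  hH0 : 0 ≤ H
  hH : H ≤ CH
  hs : 0 < s
  hs1 : s ≤ 1
  hsx : s ^ 2 = 1 - x ^ 2
  hx : |x| ≤ 1
  hv : 1 ≤ v
  hvs : v ^ 10 * s = 1
  hφ : 1 ≤ φ
  hW : |W1| ≤ C * v
  hF : |F1| ≤ C * v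
  hW2 : |W1| ≤ 2 * φ
  hF2 : |F1| ≤ 2 * φ

section BarPt

variable {P C cE CE CJ CH E J H x s v φ W1 F1 : ℝ}

lemma BarPt.t2 (B : BarPt P C cE CE CJ CH E J H x s v φ W1 F1) :
    (-2 * E * W1 - J) * (1 - x ^ 2) * (φ * (x / s)) ≤ φ * ((2 * CE * C + CJ) * v ^ 2) := by
  obtain ⟨hP, hC, hcE, hE1, hE2, hJ, hH0, hH, hs, hs1, hsx, hx, hv, hvs, hφ, hW, hF, hW2, hF2⟩ := B
  have hE0 : 0 ≤ E := hcE.le.trans hE1
  have hvv : v ≤ v ^ 2 := by nlinarith only [hv]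
  have h1v : 1 ≤ v ^ 2 := by nlinarith only [hv, hvv]
  have hJ0 : 0 ≤ CJ := (abs_nonneg _).trans hJ
  have hCE0 : 0 ≤ CE := hE0.trans hE2
  have e1 : (-2 * E * W1 - J) * (1 - x ^ 2) * (φ * (x / s)) =
      φ * ((-2 * E * W1 - J) * (s * x)) := by
    rw [← hsx]; field_simp
  rw [e1]
  refine mul_le_mul_of_nonneg_left ?_ (by linarith only [hφ])
  refine (le_abs_self _).trans ?_
  rw [abs_mul]
  have h1 : |-2 * E * W1 - J| ≤ 2 * CE * (C * v) + CJ := by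
    calc _ ≤ |-2 * E * W1| + |J| := abs_sub _ _
      _ = 2 * E * |W1| + |J| := by
          rw [abs_mul, abs_mul, abs_of_nonneg hE0]; norm_num
      _ ≤ _ := by
          refine add_le_add (mul_le_mul (by linarith only [hE2]) hW (abs_nonneg _) (by linarith only [hcE, hE1, hE2])) hJ
  have h2 : |s * x| ≤ 1 := by
    rw [abs_mul, abs_of_pos hs]
    calc s * |x| ≤ 1 * 1 := mul_le_mul hs1 hx (abs_nonneg _) zero_le_one
      _ = 1 := one_mul 1
  calc |-2 * E * W1 - J| * |s * x| ≤ (2 * CE * (C * v) + CJ) * 1 :=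
        mul_le_mul h1 h2 (abs_nonneg _) (by positivity)
    _ = 2 * CE * C * v + CJ * 1 := by ring
    _ ≤ 2 * CE * C * v ^ 2 + CJ * v ^ 2 := by
        refine add_le_add (mul_le_mul_of_nonneg_left hvv (by positivity))
          (mul_le_mul_of_nonneg_left h1v hJ0)
    _ = _ := by ring

lemma BarPt.t3 (B : BarPt P C cE CE CJ CH E J H x s v φ W1 F1) {h k1 k2 : ℝ} (hh : |h| ≤ 2 * φ)
    (hk1 : |k1| ≤ (3 * P + 1)) (hk2 : |k2| ≤ 2 * (P + 1)) :
    (2 * (P + 1) * E * x * W1 + k1 * E + 2 * x * J + k2 * H) * h ≤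
      φ * (2 * (2 * (P + 1) * CE * C + (3 * P + 1) * CE + 2 * CJ + 2 * (P + 1) * CH) * v ^ 2) := by
  obtain ⟨hP, hC, hcE, hE1, hE2, hJ, hH0, hH, hs, hs1, hsx, hx, hv, hvs, hφ, hW, hF, hW2, hF2⟩ := B
  have hE0 : 0 ≤ E := hcE.le.trans hE1
  have hvv : v ≤ v ^ 2 := by nlinarith only [hv]
  have h1v : 1 ≤ v ^ 2 := by nlinarith only [hv, hvv]
  have hJ0 : 0 ≤ CJ := (abs_nonneg _).trans hJ
  have hCE0 : 0 ≤ CE := hE0.trans hE2
  have hCH0 : 0 ≤ CH := hH0.trans hH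
  refine (le_abs_self _).trans ?_
  rw [abs_mul]
  have a1 : |2 * (P + 1) * E * x * W1| ≤ 2 * (P + 1) * CE * C * v ^ 2 := by
    have e : |2 * (P + 1) * E * x * W1| = 2 * (P + 1) * E * |x| * |W1| := by
      rw [abs_mul, abs_mul, abs_of_nonneg (by positivity)]
    rw [e]
    calc 2 * (P + 1) * E * |x| * |W1| ≤ (2 * (P + 1) * CE * 1) * (C * v) := by
          refine mul_le_mul ?_ hW (abs_nonneg _) (by positivity)
          refine mul_le_mul (mul_le_mul_of_nonneg_left hE2 (by positivity)) hx (abs_nonneg _)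
            (by positivity)
      _ = 2 * (P + 1) * CE * C * v := by ring
      _ ≤ _ := mul_le_mul_of_nonneg_left hvv (by positivity)
  have a2 : |k1 * E| ≤ (3 * P + 1) * CE * v ^ 2 := by
    rw [abs_mul, abs_of_nonneg hE0]
    calc |k1| * E ≤ (3 * P + 1) * CE * 1 := by
          rw [mul_one]; exact mul_le_mul hk1 hE2 hE0 (by linarith only [hP])
      _ ≤ _ := mul_le_mul_of_nonneg_left h1v (by positivity)
  have a3 : |2 * x * J| ≤ 2 * CJ * v ^ 2 := by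
    have e : |2 * x * J| = 2 * |x| * |J| := by rw [abs_mul, abs_mul]; norm_num
    rw [e]
    calc 2 * |x| * |J| ≤ 2 * 1 * CJ * 1 := by
          rw [mul_one]; exact mul_le_mul (by linarith only [hx]) hJ (abs_nonneg _) (by norm_num)
      _ = 2 * CJ * 1 := by ring
      _ ≤ _ := mul_le_mul_of_nonneg_left h1v (by positivity)
  have a4 : |k2 * H| ≤ 2 * (P + 1) * CH * v ^ 2 := by
    rw [abs_mul, abs_of_nonneg hH0]
    calc |k2| * H ≤ 2 * (P + 1) * CH * 1 := by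
          rw [mul_one]; exact mul_le_mul hk2 hH hH0 (by linarith only [hP])
      _ ≤ _ := mul_le_mul_of_nonneg_left h1v (by positivity)
  have h1 : |2 * (P + 1) * E * x * W1 + k1 * E + 2 * x * J + k2 * H| ≤
      (2 * (P + 1) * CE * C + (3 * P + 1) * CE + 2 * CJ + 2 * (P + 1) * CH) * v ^ 2 := by
    calc _ ≤ |2 * (P + 1) * E * x * W1| + |k1 * E| + |2 * x * J| + |k2 * H| := by
          refine (abs_add_le _ _).trans (add_le_add_left ?_ _)
          refine (abs_add_le _ _).trans (add_le_add_left ?_ _)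
          exact abs_add_le _ _
      _ ≤ _ := by linarith only [a1, a2, a3, a4]
  calc _ ≤ ((2 * (P + 1) * CE * C + (3 * P + 1) * CE + 2 * CJ + 2 * (P + 1) * CH) * v ^ 2) *
        (2 * φ) := mul_le_mul h1 hh (abs_nonneg _) (by positivity)
    _ = _ := by ring

lemma BarPt.t5 (B : BarPt P C cE CE CJ CH E J H x s v φ W1 F1) {k : ℝ} (hk : |k| ≤ 1 + C * v) :
    k * (E * ((P - 1) * (W1 * W1) + P * (F1 * F1))) ≤
      φ * ((1 + C) * (CE * (4 * (P + 1) * C)) * v ^ 2) := by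
  obtain ⟨hP, hC, hcE, hE1, hE2, hJ, hH0, hH, hs, hs1, hsx, hx, hv, hvs, hφ, hW, hF, hW2, hF2⟩ := B
  have hE0 : 0 ≤ E := hcE.le.trans hE1
  have hCE0 : 0 ≤ CE := hE0.trans hE2
  have h1 := bar_quad hP hE0 hE2 hC hv (by linarith only [hφ] : (0 : ℝ) ≤ φ) hW hF hW2 hF2
  refine (le_abs_self _).trans ?_
  rw [abs_mul]
  calc _ ≤ ((1 + C) * v) * (CE * (4 * (P + 1) * C * v * φ)) := by
        refine mul_le_mul (hk.trans (by nlinarith only [hv])) h1 (abs_nonneg _) (by positivity)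
    _ = _ := by ring

lemma BarPt.fin (B : BarPt P C cE CE CJ CH E J H x s v φ W1 F1) {a1 a2 a3 a4 a5 : ℝ}
    (t1 : a1 ≤ φ * (-(2 * cE) * v ^ 10 + CE * (P + 3)))
    (t2 : a2 ≤ φ * ((2 * CE * C + CJ) * v ^ 2))
    (t3 : a3 ≤ φ * (2 * (2 * (P + 1) * CE * C + (3 * P + 1) * CE + 2 * CJ + 2 * (P + 1) * CH) *
      v ^ 2))
    (t4 : a4 ≤ φ * (CJ * v ^ 2))
    (t5 : a5 ≤ φ * ((1 + C) * (CE * (4 * (P + 1) * C)) * v ^ 2)) :
    a1 + a2 + a3 + a4 + a5 ≤ φ * (barQ P C CE CJ CH ^ 2 / cE) := by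
  obtain ⟨hP, hC, hcE, hE1, hE2, hJ, hH0, hH, -, -, -, -, hv, -, hφ, -, -, -, -⟩ := B
  have hCE0 : 0 ≤ CE := (hcE.le.trans hE1).trans hE2
  have hJ0 : 0 ≤ CJ := (abs_nonneg _).trans hJ
  have hCH0 : 0 ≤ CH := hH0.trans hH
  have hφ0 : (0 : ℝ) ≤ φ := by linarith only [hφ]
  have h1v : 1 ≤ v ^ 2 := one_le_pow₀ hv
  have hQ : 0 ≤ barQ P C CE CJ CH := by unfold barQ; positivity
  have hab := bar_absorb hcE hQ hv
  have h6 : φ * (-(2 * cE) * v ^ 10 + barQ P C CE CJ CH * v ^ 2) ≤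
      φ * (barQ P C CE CJ CH ^ 2 / cE) := mul_le_mul_of_nonneg_left hab hφ0
  refine le_trans ?_ h6
  have h7 : φ * (CE * (P + 3)) ≤ φ * (CE * (P + 3) * v ^ 2) := by
    refine mul_le_mul_of_nonneg_left ?_ hφ0
    exact le_mul_of_one_le_right (by positivity) h1v
  have e : φ * (-(2 * cE) * v ^ 10 + barQ P C CE CJ CH * v ^ 2) =
      φ * (-(2 * cE) * v ^ 10) + φ * (CE * (P + 3) * v ^ 2) + φ * ((2 * CE * C + CJ) * v ^ 2) +
      φ * (2 * (2 * (P + 1) * CE * C + (3 * P + 1) * CE + 2 * CJ + 2 * (P + 1) * CH) * v ^ 2) +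
      φ * (CJ * v ^ 2) + φ * ((1 + C) * (CE * (4 * (P + 1) * C)) * v ^ 2) := by
    unfold barQ; ring
  rw [e]
  have e2 : φ * (-(2 * cE) * v ^ 10 + CE * (P + 3)) =
    φ * (-(2 * cE) * v ^ 10) + φ * (CE * (P + 3)) := by ring
  rw [e2] at t1
  linarith only [t1, t2, t3, t4, t5, h7]

lemma BarPt.t1 (B : BarPt P C cE CE CJ CH E J H x s v φ W1 F1) {h11 : ℝ}
    (h2 : h11 ≤ φ * (1 / s ^ 3)) :
    E * ((1 - x ^ 2) * h11 - (P + 3) * x * (φ * (x / s))) ≤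
      φ * (-(2 * cE) * v ^ 10 + CE * (P + 3)) := by
  have t1 := bar_main B.hP B.hcE.le B.hE1 B.hE2 B.hs B.hs1 B.hsx B.hvs
    (zero_le_one.trans B.hφ) (P := P) (x := x) (φ := φ)
  refine le_trans ?_ t1
  refine mul_le_mul_of_nonneg_left ?_ (B.hcE.le.trans B.hE1)
  have : (1 - x ^ 2) * h11 ≤ (1 - x ^ 2) * (φ * (1 / s ^ 3)) :=
    mul_le_mul_of_nonneg_left h2 (by rw [← B.hsx]; positivity)
  linarith only [this]

/-- total inequality for `±W_x` -/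
lemma BarPt.W (B : BarPt P C cE CE CJ CH E J H x s v φ W1 F1) {h σ h11 : ℝ} (hh : |h| ≤ 2 * φ)
    (hσ : |σ| = 1) (h2 : h11 ≤ φ * (1 / s ^ 3)) :
    E * ((1 - x ^ 2) * h11 - (P + 3) * x * (φ * (x / s)))
      + (-2 * E * W1 - J) * (1 - x ^ 2) * (φ * (x / s))
      + (2 * (P + 1) * E * x * W1 + (P - 1) * E + 2 * x * J + 0 * H) * h
      + σ * J + (σ * (x - (1 - x ^ 2) * W1)) * (E * ((P - 1) * (W1 * W1) + P * (F1 * F1))) ≤
    φ * (barQ P C CE CJ CH ^ 2 / cE) := by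
  have hP := B.hP
  refine B.fin (B.t1 h2) B.t2 (B.t3 hh (by rw [abs_le]; constructor <;> linarith only [hP])
    (by rw [abs_zero]; linarith only [hP])) ?_ (B.t5 ?_)
  · refine (le_abs_self _).trans ?_
    rw [abs_mul, hσ, one_mul]
    have hJ0 : 0 ≤ CJ := (abs_nonneg _).trans B.hJ
    calc |J| ≤ CJ := B.hJ
      _ = 1 * (CJ * 1) := by ring
      _ ≤ φ * (CJ * v ^ 2) := mul_le_mul B.hφ
          (mul_le_mul_of_nonneg_left (one_le_pow₀ B.hv) hJ0) (by linarith only [hJ0])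
          (zero_le_one.trans B.hφ)
  · rw [abs_mul, hσ, one_mul]
    have h1 : |(1 - x ^ 2) * W1| ≤ C * v := by
      rw [← B.hsx, abs_mul, abs_of_nonneg (sq_nonneg s)]
      calc s ^ 2 * |W1| ≤ 1 * |W1| := mul_le_mul_of_nonneg_right
            (pow_le_one₀ B.hs.le B.hs1) (abs_nonneg _)
        _ ≤ _ := by rw [one_mul]; exact B.hW
    calc |x - (1 - x ^ 2) * W1| ≤ |x| + |(1 - x ^ 2) * W1| := abs_sub _ _
      _ ≤ _ := add_le_add B.hx h1

/-- total inequality for `±F_x` -/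
lemma BarPt.F (B : BarPt P C cE CE CJ CH E J H x s v φ W1 F1) {h σ h11 : ℝ} (hh : |h| ≤ 2 * φ)
    (hσ : |σ| = 1) (h2 : h11 ≤ φ * (1 / s ^ 3)) :
    E * ((1 - x ^ 2) * h11 - (P + 3) * x * (φ * (x / s)))
      + (-2 * E * W1 - J) * (1 - x ^ 2) * (φ * (x / s))
      + (2 * (P + 1) * E * x * W1 + (-(P + 1)) * E + 2 * x * J + (2 * (P - 1)) * H) * h
      + 0 + (-(σ * ((1 - x ^ 2) * F1))) * (E * ((P - 1) * (W1 * W1) + P * (F1 * F1))) ≤
    φ * (barQ P C CE CJ CH ^ 2 / cE) := by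
  have hP := B.hP
  refine B.fin (B.t1 h2) B.t2 (B.t3 hh (by rw [abs_le]; constructor <;> linarith only [hP])
    (by rw [abs_le]; constructor <;> linarith only [hP])) ?_ (B.t5 ?_)
  · have hJ0 : 0 ≤ CJ := (abs_nonneg _).trans B.hJ
    exact mul_nonneg (zero_le_one.trans B.hφ) (mul_nonneg hJ0 (sq_nonneg v))
  · rw [abs_neg, abs_mul, hσ, one_mul]
    have h1 : |(1 - x ^ 2) * F1| ≤ C * v := by
      rw [← B.hsx, abs_mul, abs_of_nonneg (sq_nonneg s)]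
      calc s ^ 2 * |F1| ≤ 1 * |F1| := mul_le_mul_of_nonneg_right
            (pow_le_one₀ B.hs.le B.hs1) (abs_nonneg _)
        _ ≤ _ := by rw [one_mul]; exact B.hF
    linarith only [h1]

end BarPt

/-! ### the gauge term -/

/-- the weight `(1-x²)^{-1/20}` -/
noncomputable def vw (x : ℝ) : ℝ := (1 - x ^ 2) ^ (-(1 / 20) : ℝ)

lemma vw_pos {x : ℝ} (hx : x ∈ Ioo (-1 : ℝ) 1) : 0 < vw x :=
  Real.rpow_pos_of_pos (bar_sq_pos hx) _

lemma vw_ge {x : ℝ} (hx : x ∈ Ioo (-1 : ℝ) 1) : 1 ≤ vw x :=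
  Real.one_le_rpow_of_pos_of_le_one_of_nonpos (bar_sq_pos hx) (by nlinarith only [sq_nonneg x])
    (by norm_num)

lemma vw_ten {x : ℝ} (hx : x ∈ Ioo (-1 : ℝ) 1) : vw x ^ 10 * Real.sqrt (1 - x ^ 2) = 1 := by
  have hq := bar_sq_pos hx
  rw [vw, ← Real.rpow_natCast, ← Real.rpow_mul hq.le, Real.sqrt_eq_rpow, ← Real.rpow_add hq]
  norm_num

lemma vw_two {x : ℝ} (hx : x ∈ Ioo (-1 : ℝ) 1) : vw x ^ 2 ≤ 1 / Real.sqrt (1 - x ^ 2) := by
  have h1 := vw_ten hx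
  have h2 : vw x ^ 2 ≤ vw x ^ 10 := pow_le_pow_right₀ (vw_ge hx) (by norm_num)
  have hs : 0 < Real.sqrt (1 - x ^ 2) := Real.sqrt_pos.2 (bar_sq_pos hx)
  rw [le_div_iff₀ hs]
  calc vw x ^ 2 * Real.sqrt (1 - x ^ 2) ≤ vw x ^ 10 * Real.sqrt (1 - x ^ 2) :=
        mul_le_mul_of_nonneg_right h2 hs.le
    _ = 1 := h1

/-- an integral bound -/
lemma bar_prim (J : smoothAlg T) {K t : ℝ} (hK : 0 ≤ K) (ht : t ∈ Ico 0 T)
    (h0 : ext J (0, t) = 0)
    (h1 : ∀ x ∈ Ioo (-1 : ℝ) 1, |ext (dz J) (x, t)| ≤ K * (1 / Real.sqrt (1 - x ^ 2))) :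
    ∀ x ∈ Icc (-1 : ℝ) 1, |ext J (x, t)| ≤ K * 2 := by
  have hc : ContinuousOn (fun x => ext J (x, t)) (Icc (-1) 1) := fun x hx =>
    (hasDerivWithinAt_z J hx ht).continuousWithinAt
  have ha : ContinuousOn Real.arcsin (Icc (-1) 1) := Real.continuous_arcsin.continuousOn
  have hda : ∀ x ∈ Ioo (-1 : ℝ) 1, HasDerivAt Real.arcsin (1 / Real.sqrt (1 - x ^ 2)) x :=
    fun x hx => Real.hasDerivAt_arcsin hx.1.ne' hx.2.ne
  have m1 : MonotoneOn (fun x => K * Real.arcsin x - ext J (x, t)) (Icc (-1) 1) := by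
    refine monotoneOn_of_hasDerivWithinAt_nonneg (convex_Icc _ _)
      ((ha.const_mul K).sub hc) (f' := fun x => K * (1 / Real.sqrt (1 - x ^ 2)) -
      ext (dz J) (x, t)) ?_ ?_
    · intro x hx
      rw [interior_Icc] at hx
      exact (((hda x hx).const_mul K).sub (hasDerivAt_z J hx ht)).hasDerivWithinAt
    · intro x hx
      rw [interior_Icc] at hx
      have := (abs_le.1 (h1 x hx)).2
      linarith only [this]
  have m2 : MonotoneOn (fun x => K * Real.arcsin x + ext J (x, t)) (Icc (-1) 1) := by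
    refine monotoneOn_of_hasDerivWithinAt_nonneg (convex_Icc _ _)
      ((ha.const_mul K).add hc) (f' := fun x => K * (1 / Real.sqrt (1 - x ^ 2)) +
      ext (dz J) (x, t)) ?_ ?_
    · intro x hx
      rw [interior_Icc] at hx
      exact (((hda x hx).const_mul K).add (hasDerivAt_z J hx ht)).hasDerivWithinAt
    · intro x hx
      rw [interior_Icc] at hx
      have := (abs_le.1 (h1 x hx)).1
      linarith only [this]
  have hz : (0 : ℝ) ∈ Icc (-1 : ℝ) 1 := by constructor <;> norm_num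
  have hpi : Real.pi ≤ 4 := Real.pi_le_four
  intro x hx
  have hb : |Real.arcsin x| ≤ 2 := by
    rw [abs_le]
    constructor
    · linarith only [hpi, Real.neg_pi_div_two_le_arcsin x]
    · linarith only [hpi, Real.arcsin_le_pi_div_two x]
  have hb' := abs_le.1 hb
  have k1 := mul_le_mul_of_nonneg_left hb'.1 hK
  have k2 := mul_le_mul_of_nonneg_left hb'.2 hK
  rcases le_total 0 x with h | h
  · have a1 := m1 hz hx h
    have a2 := m2 hz hx h
    simp only [h0, Real.arcsin_zero, mul_zero, sub_zero, add_zero] at a1 a2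
    rw [abs_le]; constructor <;> linarith only [k2, a2, a1]
  · have a1 := m1 hx hz h
    have a2 := m2 hx hz h
    simp only [h0, Real.arcsin_zero, mul_zero, sub_zero, add_zero] at a1 a2
    rw [abs_le]; constructor <;> linarith only [k1, a1, a2]

namespace Sys

variable {p : ℕ} (M : Sys p T)

lemma ext_E {q : ℝ × ℝ} (hq : q ∈ dom T) : ext M.E q = Real.exp (-2 * ext M.W q) := by
  rw [E, ext_expS _ hq, ext_sub, ext_neg]; congr 1; ring

lemma ext_H {q : ℝ × ℝ} (hq : q ∈ dom T) : ext M.H q = Real.exp (-2 * ext M.F q) := by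
  rw [H, ext_expS _ hq, ext_sub, ext_neg]; congr 1; ring

lemma ext_dzJ {q : ℝ × ℝ} (hq : q ∈ dom T) : ext (dz M.J) q = ext M.E q *
    (((p : ℝ) - 1) * (ext (dz M.W) q * ext (dz M.W) q) +
      (p : ℝ) * (ext (dz M.F) q * ext (dz M.F) q)) := by
  rw [M.dz_J]
  simp only [ext_add, ext_mul, ext_sub, ext_one hq, ext_natCast p hq]

lemma J_bound {C : ℝ} (hC : 0 ≤ C) (hW : ∀ q ∈ dom T, |ext M.W q| ≤ C)
    (h1 : ∀ x ∈ Ioo (-1 : ℝ) 1, ∀ t ∈ Ico 0 T, |ext (dz M.W) (x, t)| ≤ C * vw x ∧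
      |ext (dz M.F) (x, t)| ≤ C * vw x) :
    ∀ q ∈ dom T, |ext M.J q| ≤ Real.exp (2 * C) * (2 * ((p : ℝ) + 1) * C ^ 2) * 2 := by
  rintro ⟨x, t⟩ hq
  have hp : (0 : ℝ) ≤ p := Nat.cast_nonneg p
  refine bar_prim M.J (by positivity) hq.2 (primS_zero _ hq.2) ?_ x hq.1
  intro y hy
  have hyd : ((y, t) : ℝ × ℝ) ∈ dom T := mem_dom (Ioo_subset_Icc_self hy) hq.2
  rw [M.ext_dzJ hyd, M.ext_E hyd]
  obtain ⟨a1, a2⟩ := h1 y hy t hq.2
  have hv := vw_two hy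
  have hv0 := vw_pos hy
  set a := ext (dz M.W) (y, t)
  set b := ext (dz M.F) (y, t)
  have s1 : |a * a| ≤ C ^ 2 * vw y ^ 2 := by
    rw [abs_mul]
    calc |a| * |a| ≤ (C * vw y) * (C * vw y) := mul_le_mul a1 a1 (abs_nonneg _) (by positivity)
      _ = _ := by ring
  have s2 : |b * b| ≤ C ^ 2 * vw y ^ 2 := by
    rw [abs_mul]
    calc |b| * |b| ≤ (C * vw y) * (C * vw y) := mul_le_mul a2 a2 (abs_nonneg _) (by positivity)
      _ = _ := by ring
  have h3 : |(p : ℝ) - 1| ≤ p + 1 := by rw [abs_le]; constructor <;> linarith only []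
  have s3 : |((p : ℝ) - 1) * (a * a) + (p : ℝ) * (b * b)| ≤
      2 * ((p : ℝ) + 1) * C ^ 2 * vw y ^ 2 := by
    calc _ ≤ |((p : ℝ) - 1) * (a * a)| + |(p : ℝ) * (b * b)| := abs_add_le _ _
      _ = |(p : ℝ) - 1| * |a * a| + p * |b * b| := by
          rw [abs_mul, abs_mul (p : ℝ), abs_of_nonneg hp]
      _ ≤ (p + 1) * (C ^ 2 * vw y ^ 2) + (p + 1) * (C ^ 2 * vw y ^ 2) := by
          refine add_le_add (mul_le_mul h3 s1 (abs_nonneg _) (by linarith only []))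
            (mul_le_mul (by linarith only []) s2 (abs_nonneg _) (by linarith only []))
      _ = _ := by ring
  have s4 : Real.exp (-2 * ext M.W (y, t)) ≤ Real.exp (2 * C) := by
    apply Real.exp_le_exp.2
    have := (abs_le.1 (hW _ hyd)).1
    linarith only [this]
  rw [abs_mul, Real.abs_exp]
  calc _ ≤ Real.exp (2 * C) * (2 * ((p : ℝ) + 1) * C ^ 2 * vw y ^ 2) :=
        mul_le_mul s4 s3 (abs_nonneg _) (Real.exp_pos _).le
    _ ≤ Real.exp (2 * C) * (2 * ((p : ℝ) + 1) * C ^ 2 * (1 / Real.sqrt (1 - y ^ 2))) :=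
        mul_le_mul_of_nonneg_left (mul_le_mul_of_nonneg_left hv (by positivity))
          (Real.exp_pos _).le
    _ = _ := by ring

/-- the touching point inequality -/
lemma bar_point {C A K : ℝ} (hC : 0 ≤ C) (hA : 1 ≤ A) (hK : 0 ≤ K)
    (hW : ∀ q ∈ dom T, |ext M.W q| ≤ C) (hF : ∀ q ∈ dom T, |ext M.F q| ≤ C)
    (h1 : ∀ x ∈ Ioo (-1 : ℝ) 1, ∀ t ∈ Ico 0 T, |ext (dz M.W) (x, t)| ≤ C * vw x ∧
      |ext (dz M.F) (x, t)| ≤ C * vw x) {z₀ t₀ : ℝ} (hz₀ : z₀ ∈ Icc (-1 : ℝ) 1)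
    (ht₀ : t₀ ∈ Ioo 0 T)
    (hle : ∀ z ∈ Icc (-1 : ℝ) 1, ∀ s ∈ Icc 0 t₀, |ext (dz M.W) (z, s)| ≤
      A * Real.exp (K * s) * bet z ∧ |ext (dz M.F) (z, s)| ≤ A * Real.exp (K * s) * bet z)
    (heq : |ext (dz M.W) (z₀, t₀)| = A * Real.exp (K * t₀) * bet z₀ ∨
      |ext (dz M.F) (z₀, t₀)| = A * Real.exp (K * t₀) * bet z₀) :
    K ≤ barQ p C (Real.exp (2 * C)) (Real.exp (2 * C) * (2 * ((p : ℝ) + 1) * C ^ 2) * 2)
      (Real.exp (2 * C)) ^ 2 / Real.exp (-(2 * C)) := by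
  have ht0' : t₀ ∈ Ico 0 T := ⟨ht₀.1.le, ht₀.2⟩
  have hq : ((z₀, t₀) : ℝ × ℝ) ∈ dom T := mem_dom hz₀ ht0'
  have hJ := M.J_bound hC hW h1 _ hq
  set φ : ℝ := A * Real.exp (K * t₀) with hφ
  have hφ1 : 1 ≤ φ := by
    have : 1 ≤ Real.exp (K * t₀) := Real.one_le_exp (mul_nonneg hK ht₀.1.le)
    calc (1 : ℝ) = 1 * 1 := by ring
      _ ≤ A * Real.exp (K * t₀) := mul_le_mul hA this zero_le_one (by linarith only [hA])
  have hφ0 : 0 < φ := by linarith only [hφ1]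
  have hmem : t₀ ∈ Icc 0 t₀ := ⟨ht₀.1.le, le_rfl⟩
  -- general facts for `h = σ W_x` or `σ F_x`
  have gen : ∀ (g : smoothAlg T) (σ : ℝ), |σ| = 1 →
      (∀ z ∈ Icc (-1 : ℝ) 1, ∀ s ∈ Icc 0 t₀, |ext g (z, s)| ≤ A * Real.exp (K * s) * bet z) →
      σ * ext g (z₀, t₀) = φ * bet z₀ →
      z₀ ∈ Ioo (-1 : ℝ) 1 ∧ σ * ext (dz g) (z₀, t₀) = φ * (z₀ / Real.sqrt (1 - z₀ ^ 2)) ∧
      σ * ext (dz (dz g)) (z₀, t₀) ≤ φ * (1 / Real.sqrt (1 - z₀ ^ 2) ^ 3) ∧
      K * φ ≤ σ * ext (dt g) (z₀, t₀) := by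
    intro g σ hσ hg he
    have hext : ∀ q ∈ dom T, ext (cst σ * g) q = σ * ext g q := by
      intro q hq; rw [ext_mul, ext_cst σ hq]
    have hdz : dz (cst σ * g) = cst σ * dz g := by rw [dz_mul, dz_cst]; ring
    have hdz2 : dz (dz (cst σ * g)) = cst σ * dz (dz g) := by rw [hdz, dz_mul, dz_cst]; ring
    have hdt : dt (cst σ * g) = cst σ * dt g := by rw [dt_mul, dt_cst]; ring
    have hle' : ∀ z ∈ Icc (-1 : ℝ) 1, ∀ s ∈ Icc 0 t₀,
        ext (cst σ * g) (z, s) ≤ A * Real.exp (K * s) * bet z := by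
      intro z hz s hs
      rw [hext _ (mem_dom hz ⟨hs.1, hs.2.trans_lt ht₀.2⟩)]
      refine (le_abs_self _).trans ?_
      rw [abs_mul, hσ, one_mul]
      exact hg z hz s hs
    obtain ⟨a1, a2, a3⟩ := bar_touch (cst σ * g) hφ0 hz₀ ht0' (by rw [hext _ hq]; exact he)
      (fun z hz => hle' z hz t₀ hmem)
    rw [hdz, ext_mul, ext_cst σ hq] at a2
    rw [hdz2, ext_mul, ext_cst σ hq] at a3
    refine ⟨a1, a2, a3, ?_⟩
    have hd : HasDerivAt (fun s => A * Real.exp (K * s) * bet z₀)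
        (A * (Real.exp (K * t₀) * K) * bet z₀) t₀ := by
      have h2 : HasDerivAt (fun s : ℝ => K * s) K t₀ := by
        simpa using (hasDerivAt_id t₀).const_mul K
      exact (h2.exp.const_mul A).mul_const (bet z₀)
    have h3 := time_ineq (cst σ * g) hz₀ ht₀ hd (by rw [hext _ hq]; exact he) (by
      filter_upwards [Ioo_mem_nhdsLT ht₀.1] with s hs
      exact hle' z₀ hz₀ s ⟨hs.1.le, hs.2.le⟩)
    rw [hdt, ext_mul, ext_cst σ hq] at h3
    refine le_trans ?_ h3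
    have hb := bet_ge z₀ hz₀
    have : A * (Real.exp (K * t₀) * K) * bet z₀ = (K * φ) * bet z₀ := by rw [hφ]; ring
    rw [this]
    exact le_mul_of_one_le_right (mul_nonneg hK hφ0.le) hb
  have abs_sign : ∀ y : ℝ, ∃ σ : ℝ, |σ| = 1 ∧ σ * y = |y| := by
    intro y
    rcases le_total 0 y with h | h
    · exact ⟨1, by norm_num, by rw [abs_of_nonneg h, one_mul]⟩
    · exact ⟨-1, by norm_num, by rw [abs_of_nonpos h]; ring⟩
  -- the point data
  have hpt : z₀ ∈ Ioo (-1 : ℝ) 1 → BarPt (p : ℝ) C (Real.exp (-(2 * C))) (Real.exp (2 * C))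
      (Real.exp (2 * C) * (2 * ((p : ℝ) + 1) * C ^ 2) * 2) (Real.exp (2 * C))
      (ext M.E (z₀, t₀)) (ext M.J (z₀, t₀)) (ext M.H (z₀, t₀)) z₀ (Real.sqrt (1 - z₀ ^ 2))
      (vw z₀) φ (ext (dz M.W) (z₀, t₀)) (ext (dz M.F) (z₀, t₀)) := by
    intro hin
    have hq0 := bar_sq_pos hin
    have hw := abs_le.1 (hW _ hq)
    have hf := abs_le.1 (hF _ hq)
    obtain ⟨b1, b2⟩ := h1 z₀ hin t₀ ht0'
    obtain ⟨c1, c2⟩ := hle z₀ hz₀ t₀ hmem
    have hb2 := bet_le z₀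
    have hbb : φ * bet z₀ ≤ 2 * φ := by
      rw [mul_comm 2 φ]; exact mul_le_mul_of_nonneg_left hb2 hφ0.le
    refine ⟨Nat.cast_nonneg p, hC, Real.exp_pos _, ?_, ?_, hJ, ?_, ?_, Real.sqrt_pos.2 hq0, ?_,
      Real.sq_sqrt hq0.le, ?_, vw_ge hin, vw_ten hin, hφ1, b1, b2, c1.trans hbb, c2.trans hbb⟩
    · rw [M.ext_E hq]; apply Real.exp_le_exp.2; linarith only [hw]
    · rw [M.ext_E hq]; apply Real.exp_le_exp.2; linarith only [hw]
    · rw [M.ext_H hq]; exact (Real.exp_pos _).le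
    · rw [M.ext_H hq]; apply Real.exp_le_exp.2; linarith only [hf]
    · rw [Real.sqrt_le_iff]; constructor <;> nlinarith only [sq_nonneg z₀]
    · rw [abs_le]; exact ⟨hin.1.le, hin.2.le⟩
  rcases heq with he | he
  · obtain ⟨σ, hσ, hσ2⟩ := abs_sign (ext (dz M.W) (z₀, t₀))
    obtain ⟨a1, a2, a3, a4⟩ := gen (dz M.W) σ hσ (fun z hz s hs => (hle z hz s hs).1)
      (by rw [hσ2, he])
    have B := hpt a1
    have hh : |σ * ext (dz M.W) (z₀, t₀)| ≤ 2 * φ := by rw [abs_mul, hσ, one_mul]; exact B.hW2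
    have key := B.W hh hσ a3
    have e : σ * ext (dt (dz M.W)) (z₀, t₀) ≤ φ * (barQ p C (Real.exp (2 * C))
        (Real.exp (2 * C) * (2 * ((p : ℝ) + 1) * C ^ 2) * 2)
        (Real.exp (2 * C)) ^ 2 / Real.exp (-(2 * C))) := by
      refine le_trans (le_of_eq ?_) key
      rw [M.dt_dzW, ← a2]
      simp only [ext_add, ext_sub, ext_mul, ext_neg, ext_Ss hq, ext_Xs hq, ext_natCast p hq,
        ext_one hq, ext_ofNat 2 hq, ext_ofNat 3 hq]
      ring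
    have e2 : K * φ ≤ (barQ p C (Real.exp (2 * C))
        (Real.exp (2 * C) * (2 * ((p : ℝ) + 1) * C ^ 2) * 2)
        (Real.exp (2 * C)) ^ 2 / Real.exp (-(2 * C))) * φ := by
      exact (a4.trans e).trans (le_of_eq (mul_comm _ _))
    exact le_of_mul_le_mul_right e2 hφ0
  · obtain ⟨σ, hσ, hσ2⟩ := abs_sign (ext (dz M.F) (z₀, t₀))
    obtain ⟨a1, a2, a3, a4⟩ := gen (dz M.F) σ hσ (fun z hz s hs => (hle z hz s hs).2)
      (by rw [hσ2, he])
    have B := hpt a1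
    have hh : |σ * ext (dz M.F) (z₀, t₀)| ≤ 2 * φ := by rw [abs_mul, hσ, one_mul]; exact B.hF2
    have key := B.F hh hσ a3
    have e : σ * ext (dt (dz M.F)) (z₀, t₀) ≤ φ * (barQ p C (Real.exp (2 * C))
        (Real.exp (2 * C) * (2 * ((p : ℝ) + 1) * C ^ 2) * 2)
        (Real.exp (2 * C)) ^ 2 / Real.exp (-(2 * C))) := by
      refine le_trans (le_of_eq ?_) key
      rw [M.dt_dzF, ← a2]
      simp only [ext_add, ext_sub, ext_mul, ext_neg, ext_Ss hq, ext_Xs hq, ext_natCast p hq,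
        ext_one hq, ext_ofNat 2 hq, ext_ofNat 3 hq]
      ring
    have e2 : K * φ ≤ (barQ p C (Real.exp (2 * C))
        (Real.exp (2 * C) * (2 * ((p : ℝ) + 1) * C ^ 2) * 2)
        (Real.exp (2 * C)) ^ 2 / Real.exp (-(2 * C))) * φ := by
      exact (a4.trans e).trans (le_of_eq (mul_comm _ _))
    exact le_of_mul_le_mul_right e2 hφ0

/-- **The barrier.** -/
theorem barrier {C : ℝ} (hC : 0 ≤ C) (hT : 0 < T)
    (hW : ∀ q ∈ dom T, |ext M.W q| ≤ C) (hF : ∀ q ∈ dom T, |ext M.F q| ≤ C)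
    (h1 : ∀ x ∈ Ioo (-1 : ℝ) 1, ∀ t ∈ Ico 0 T, |ext (dz M.W) (x, t)| ≤ C * vw x ∧
      |ext (dz M.F) (x, t)| ≤ C * vw x) :
    ∃ A : ℝ, ∀ q ∈ dom T, |ext (dz M.W) q| ≤ A ∧ |ext (dz M.F) q| ≤ A := by
  -- initial bound
  obtain ⟨A0, hA0⟩ : ∃ A0 : ℝ, ∀ z ∈ Icc (-1 : ℝ) 1, |ext (dz M.W) (z, 0)| ≤ A0 ∧
      |ext (dz M.F) (z, 0)| ≤ A0 := by
    have h0 : (0 : ℝ) ∈ Ico 0 T := ⟨le_rfl, hT⟩
    obtain ⟨L1, hL1⟩ := isCompact_Icc.exists_bound_of_continuousOn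
      (f := fun z => ext (dz M.W) (z, 0)) (s := Icc (-1 : ℝ) 1) (fun z hz =>
      (hasDerivWithinAt_z (dz M.W) hz h0).continuousWithinAt)
    obtain ⟨L2, hL2⟩ := isCompact_Icc.exists_bound_of_continuousOn
      (f := fun z => ext (dz M.F) (z, 0)) (s := Icc (-1 : ℝ) 1) (fun z hz =>
      (hasDerivWithinAt_z (dz M.F) hz h0).continuousWithinAt)
    exact ⟨max L1 L2, fun z hz => ⟨(hL1 z hz).trans (le_max_left _ _),
      (hL2 z hz).trans (le_max_right _ _)⟩⟩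
  set A : ℝ := max 1 (A0 + 1) with hA
  have hA1 : 1 ≤ A := le_max_left _ _
  have hA2 : A0 < A := lt_of_lt_of_le (by linarith only []) (le_max_right _ _)
  set K0 : ℝ := barQ p C (Real.exp (2 * C)) (Real.exp (2 * C) * (2 * ((p : ℝ) + 1) * C ^ 2) * 2)
      (Real.exp (2 * C)) ^ 2 / Real.exp (-(2 * C)) with hK0
  have hK0n : 0 ≤ K0 := by positivity
  set K : ℝ := K0 + 1 with hK
  refine ⟨A * Real.exp (K * T) * 2, ?_⟩
  -- the function `max(|W_x|,|F_x|)/β`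
  set u : ℝ × ℝ → ℝ := fun q => max |ext (dz M.W) q| |ext (dz M.F) q| / bet q.1 with hu
  have hbpos : ∀ q ∈ dom T, 0 < bet q.1 := fun q hq => lt_of_lt_of_le one_pos (bet_ge _ hq.1)
  have huc : ContinuousOn u (dom T) := by
    refine ContinuousOn.div ?_ (bet_cont.comp continuous_fst).continuousOn
      (fun q hq => (hbpos q hq).ne')
    exact (ext_continuousOn (dz M.W)).abs.sup (ext_continuousOn (dz M.F)).abs
  have hφc : ContinuousOn (fun s => A * Real.exp (K * s)) (Ico 0 T) := by fun_prop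
  have key : ∀ q ∈ dom T, u q < A * Real.exp (K * q.2) := by
    rintro ⟨z₁, t₁⟩ hq
    by_contra hcon
    push Not at hcon
    obtain ⟨z₀, hz₀, t₀, ht₀, e1, e2, e3⟩ := first_touch huc hφc (by
      intro z hz
      simp only [hu, mul_zero, Real.exp_zero, mul_one]
      have hb := bet_ge z hz
      rw [div_lt_iff₀ (by linarith only [hb])]
      have h5 : max |ext (dz M.W) (z, 0)| |ext (dz M.F) (z, 0)| ≤ A0 :=
        max_le (hA0 z hz).1 (hA0 z hz).2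
      have h6 : A ≤ A * bet z := le_mul_of_one_le_right (by linarith only [hA1]) hb
      linarith only [hA2, h5, h6]) hq.1 hq.2 hcon
    have ht0T : t₀ < T := ht₀.2.trans_lt hq.2.2
    have hle : ∀ z ∈ Icc (-1 : ℝ) 1, ∀ s ∈ Icc 0 t₀, |ext (dz M.W) (z, s)| ≤
        A * Real.exp (K * s) * bet z ∧ |ext (dz M.F) (z, s)| ≤ A * Real.exp (K * s) * bet z := by
      intro z hz s hs
      have h5 := e2 z hz s hs
      have hb := bet_ge z hz
      simp only [hu] at h5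
      rw [div_le_iff₀ (by linarith only [hb])] at h5
      exact ⟨(le_max_left _ _).trans h5, (le_max_right _ _).trans h5⟩
    have heq : |ext (dz M.W) (z₀, t₀)| = A * Real.exp (K * t₀) * bet z₀ ∨
        |ext (dz M.F) (z₀, t₀)| = A * Real.exp (K * t₀) * bet z₀ := by
      have hb := bet_ge z₀ hz₀
      simp only [hu] at e1
      rw [div_eq_iff (by linarith only [hb])] at e1
      rcases max_choice |ext (dz M.W) (z₀, t₀)| |ext (dz M.F) (z₀, t₀)| with h | h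
      · left; rw [← h]; exact e1
      · right; rw [← h]; exact e1
    have hfin := M.bar_point hC hA1 (by linarith only [hK0n] : 0 ≤ K) hW hF h1 hz₀ ⟨ht₀.1, ht0T⟩ hle heq
    rw [← hK0, hK] at hfin
    linarith only [hfin]
  intro q hq
  have h5 := key q hq
  have hb := bet_le q.1
  have hbp := hbpos q hq
  simp only [hu] at h5
  rw [div_lt_iff₀ hbp] at h5
  have h6 : A * Real.exp (K * q.2) * bet q.1 ≤ A * Real.exp (K * T) * 2 := by
    refine mul_le_mul (mul_le_mul_of_nonneg_left ?_ (by linarith only [hA1])) hb hbp.le (by positivity)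
    apply Real.exp_le_exp.2
    exact mul_le_mul_of_nonneg_left hq.2.2.le (by linarith only [hK0n])
  exact ⟨(le_max_left _ _).trans (h5.le.trans h6), (le_max_right _ _).trans (h5.le.trans h6)⟩

end Sys


namespace ConfSol

variable {p : ℕ} {w f : ℝ → ℝ → ℝ}

lemma dx_w (h : ConfSol p w f T) {x t : ℝ} (hx : x ∈ Icc (-1 : ℝ) 1) (ht : t ∈ Ico 0 T) :
    dx (w t) x = ext (dz (el w h.smooth_w)) (x, t) :=
  dx_eq_ext _ hx ht fun _ hy => (ext_el h.smooth_w (mem_dom hy ht)).symm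

lemma dx_f (h : ConfSol p w f T) {x t : ℝ} (hx : x ∈ Icc (-1 : ℝ) 1) (ht : t ∈ Ico 0 T) :
    dx (f t) x = ext (dz (el f h.smooth_f)) (x, t) :=
  dx_eq_ext _ hx ht fun _ hy => (ext_el h.smooth_f (mem_dom hy ht)).symm

/-- **Barrier, final form.** -/
theorem size1_bounded (h : ConfSol p w f T) {C : ℝ} (hC : 0 ≤ C) (hT : 0 < T)
    (h0 : ∀ t ∈ Ico 0 T, ∀ x ∈ Icc (-1 : ℝ) 1, |w t x| ≤ C ∧ |f t x| ≤ C)
    (h1 : ∀ t ∈ Ico 0 T, ∀ x ∈ Ioo (-1 : ℝ) 1, |dx (w t) x| ≤ C * vw x ∧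
      |dx (f t) x| ≤ C * vw x) :
    ∃ A : ℝ, ∀ t ∈ Ico 0 T, ∀ x ∈ Icc (-1 : ℝ) 1, size1 (w t) (f t) x ≤ A := by
  have hWe : h.sys.W = el w h.smooth_w := rfl
  have hFe : h.sys.F = el f h.smooth_f := rfl
  obtain ⟨A, hA⟩ := h.sys.barrier hC hT (by
      intro q hq; rw [hWe, ext_el h.smooth_w hq]; exact (h0 q.2 hq.2 q.1 hq.1).1) (by
      intro q hq; rw [hFe, ext_el h.smooth_f hq]; exact (h0 q.2 hq.2 q.1 hq.1).2) (by
      intro x hx t ht
      have hx' := Ioo_subset_Icc_self hx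
      rw [hWe, hFe, ← h.dx_w hx' ht, ← h.dx_f hx' ht]
      exact h1 t ht x hx)
  refine ⟨C + C + A + A, fun t ht x hx => ?_⟩
  obtain ⟨a1, a2⟩ := h0 t ht x hx
  obtain ⟨b1, b2⟩ := hA (x, t) (mem_dom hx ht)
  rw [hWe, ← h.dx_w hx ht] at b1
  rw [hFe, ← h.dx_f hx ht] at b2
  unfold size1
  linarith only [a1, a2, b1, b2]

end ConfSol

end Vale.Agent.P244.ST
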