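import Vale.Agent.P244.ST.M2Static
import Vale.Agent.P244.ST.MCBar

/-!
# P244-ST, block C (M8), part T : static analysis near the tip, at a fixed time

`Nn = -2 (1-x²) ρ_x > 0`, `Nn² = 4 ζ₀ e^{-u} Z`, `F_x = -Nn (2-G)/(4 (1-x²))`,
`w_x = x/(1-x²) - Nn (2+G)/(4 (1-x²))`, `u_x = Nn G/(2 (1-x²))`.
-/

open Set Filter Topology
open scoped ContDiff

namespace Vale.Agent.P244.ST.MC

open Vale.Agent.P244.ST.M2 (Slice r1 kk)

noncomputable section

variable {w f : Fn} {t : ℝ}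

/-- `N = -2 (1-x²) ρ_x` -/
def Nn (w f : Fn) (t x : ℝ) : ℝ := -2 * (1 - x ^ 2) * r1 w f t x

lemma zeta0_pos : 0 < zeta0 := by unfold zeta0; norm_num

lemma qpos {x : ℝ} (hx : x ∈ Ioo (-1 : ℝ) 1) : 0 < 1 - x ^ 2 := M2.one_sub_sq_pos hx

lemma log_half {x : ℝ} (hx : x ∈ Ioo (-1 : ℝ) 1) : Real.exp (Real.log (1 - x ^ 2) / 2) = sx x := by
  have hq := qpos hx
  rw [sx, Real.sqrt_eq_rpow, Real.rpow_def_of_pos hq]
  congr 1; ring

lemma sx_sq {x : ℝ} (hx : x ∈ Ioo (-1 : ℝ) 1) : sx x ^ 2 = 1 - x ^ 2 := Real.sq_sqrt (qpos hx).le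

/-- `r² = e^{F+w} √(1-x²) / ζ₀` -/
lemma rr_sq {x : ℝ} (hx : x ∈ Ioo (-1 : ℝ) 1) :
    rr w f t x ^ 2 = Real.exp (f t x) * Real.exp (w t x) * sx x / zeta0 := by
  have h1 : rr w f t x ^ 2 = Real.exp (f t x + w t x + Real.log (1 - x ^ 2) / 2 -
      Real.log zeta0) := by
    rw [rr, ← Real.exp_nat_mul]
    congr 1; unfold rho; push_cast; ring
  rw [h1, Real.exp_sub, Real.exp_log zeta0_pos, Real.exp_add, log_half hx, Real.exp_add]

/-- `e^u = e^{F-w} / √(1-x²)` -/
lemma exp_uu {x : ℝ} (hx : x ∈ Ioo (-1 : ℝ) 1) :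
    Real.exp (uu w f t x) = Real.exp (f t x) * Real.exp (-w t x) / sx x := by
  rw [uu, Real.exp_sub, log_half hx, sub_eq_add_neg, Real.exp_add]

/-- `N² = 4 ζ₀ e^{-u} Z` -/
lemma Nn_sq {x : ℝ} (hx : x ∈ Ioo (-1 : ℝ) 1) :
    Nn w f t x ^ 2 = 4 * zeta0 * Real.exp (-uu w f t x) * ZZ w f t x := by
  have hs := M2.sx_pos hx
  have hs2 := sx_sq hx
  have hz := zeta0_pos
  have h1 := rr_sq (w := w) (f := f) (t := t) hx
  have h2 := exp_uu (w := w) (f := f) (t := t) hx
  rw [Real.exp_neg, h2, ZZ, h1, M2.rs_eq, kk, Nn, ← hs2]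
  have e1 := Real.exp_pos (f t x)
  have e2 : Real.exp (-w t x) = (Real.exp (w t x))⁻¹ := Real.exp_neg _
  have e3 := Real.exp_pos (w t x)
  rw [e2]
  field_simp
  ring

section

variable (h : Slice w f t)
include h

lemma hasDerivAt_f {x : ℝ} (hx : x ∈ Ioo (-1 : ℝ) 1) (hr : rs w f t x ≠ 0) :
    HasDerivAt (f t) (-(Nn w f t x * (2 - GG w f t x) / (4 * (1 - x ^ 2)))) x := by
  have h1 := (M2.hasDerivAt_rho h hx).add ((M2.hasDerivAt_uu h hx hr).div_const 2)
  have h2 := h1.add_const (Real.log zeta0 / 2)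
  have hq := (qpos hx).ne'
  refine (h2.congr_of_eventuallyEq (Eventually.of_forall fun y => ?_)).congr_deriv ?_
  · simp only [Pi.add_apply, rho, uu]; ring
  · unfold Nn; field_simp; ring

lemma hasDerivAt_w {x : ℝ} (hx : x ∈ Ioo (-1 : ℝ) 1) (hr : rs w f t x ≠ 0) :
    HasDerivAt (w t) (x / (1 - x ^ 2) - Nn w f t x * (2 + GG w f t x) / (4 * (1 - x ^ 2))) x := by
  have hq := (qpos hx).ne'
  have hp : HasDerivAt (fun y : ℝ => 1 - y ^ 2) (-(2 * x)) x := by
    simpa using (hasDerivAt_pow 2 x).const_sub 1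
  have hl := (hp.log hq).div_const 2
  have h1 := ((M2.hasDerivAt_rho h hx).sub ((M2.hasDerivAt_uu h hx hr).div_const 2)).sub hl
  have h2 := h1.add_const (Real.log zeta0 / 2)
  refine (h2.congr_of_eventuallyEq (Eventually.of_forall fun y => ?_)).congr_deriv ?_
  · simp only [Pi.sub_apply, rho, uu]; ring
  · unfold Nn; field_simp; ring

lemma hasDerivAt_u {x : ℝ} (hx : x ∈ Ioo (-1 : ℝ) 1) (hr : rs w f t x ≠ 0) :
    HasDerivAt (uu w f t) (Nn w f t x * GG w f t x / (2 * (1 - x ^ 2))) x := by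
  have hq := (qpos hx).ne'
  refine (M2.hasDerivAt_uu h hx hr).congr_deriv ?_
  unfold Nn; field_simp

end

lemma Nn_pos {x : ℝ} (hx : x ∈ Ioo (-1 : ℝ) 1) (hr : 0 < rs w f t x) : 0 < Nn w f t x := by
  have h1 := M2.r1_neg hx hr
  have h2 := qpos hx
  unfold Nn
  nlinarith only [h1, h2, mul_pos h2 (neg_pos.2 h1)]

/-- facts at a point of region I -/
structure PtI (g : ℝ → ℝ) (w f : Fn) (t x : ℝ) : Prop where
  mem : x ∈ Ioo (0 : ℝ) 1
  rs : 0 < rs w f t x
  u : 0 < uu w f t x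
  G : GG w f t x ≤ 2
  e : |ee g w f t x| ≤ 1 / 10 ^ 4
  th0 : th g w f t x ≤ 0
  th1 : -(1 / 100) ≤ th g w f t x

/-- `δ = e^{-2u} + |e| + |θ|` -/
def del (g : ℝ → ℝ) (w f : Fn) (t x : ℝ) : ℝ :=
  Real.exp (-2 * uu w f t x) + |ee g w f t x| + |th g w f t x|

section PtI

variable {g : ℝ → ℝ} {x : ℝ}

lemma PtI.mem' (P : PtI g w f t x) : x ∈ Ioo (-1 : ℝ) 1 := ⟨by linarith only [P, P.mem.1], P.mem.2⟩

lemma tanh_eq (u : ℝ) : Real.tanh u = (1 - Real.exp (-2 * u)) / (1 + Real.exp (-2 * u)) := by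
  have h1 : Real.exp (-2 * u) = Real.exp (-u) * Real.exp (-u) := by
    rw [← Real.exp_add]; congr 1; ring
  have h2 : Real.exp (-u) = (Real.exp u)⁻¹ := Real.exp_neg u
  have h3 := Real.exp_pos u
  rw [Real.tanh_eq_sinh_div_cosh, Real.sinh_eq, Real.cosh_eq, h1, h2]
  field_simp

lemma cosh_exp (u : ℝ) : Real.exp (-u) * Real.cosh u = (1 + Real.exp (-2 * u)) / 2 := by
  have h1 : Real.exp (-2 * u) = Real.exp (-u) * Real.exp (-u) := by
    rw [← Real.exp_add]; congr 1; ring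
  have h2 : Real.exp (-u) * Real.exp u = 1 := by rw [← Real.exp_add]; simp
  rw [Real.cosh_eq, h1]
  linear_combination h2 / 2

lemma del_nonneg : 0 ≤ del g w f t x := by unfold del; positivity

lemma PtI.exp_lt (P : PtI g w f t x) : Real.exp (-2 * uu w f t x) < 1 := by
  rw [Real.exp_lt_one_iff]; linarith only [P, P.u]

/-- `2 - g ≤ 4 e^{-2u}` -/
lemma two_sub_g (hg : IsBub g) {u : ℝ} (hu : 0 < u) : 2 - g u ≤ 4 * Real.exp (-2 * u) := by
  have h1 := hg.lower u hu
  rw [tanh_eq] at h1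
  have h2 := Real.exp_pos (-2 * u)
  have h3 : (1 - Real.exp (-2 * u)) / (1 + Real.exp (-2 * u)) ≥ 1 - 2 * Real.exp (-2 * u) := by
    rw [ge_iff_le, le_div_iff₀ (by linarith only [h2])]
    nlinarith only [h2]
  linarith only [h1, h3]

lemma PtI.two_sub_G (P : PtI g w f t x) (hg : IsBub g) :
    2 - GG w f t x ≤ 4 * del g w f t x := by
  have h1 := two_sub_g hg P.u
  have h2 := M2.g_pos hg P.u
  have h3 := hg.lt_two _ P.u
  have h4 : GG w f t x = g (uu w f t x) * (1 - ee g w f t x) := by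
    unfold ee; field_simp; ring
  have h5 := le_abs_self (ee g w f t x)
  have h6 : g (uu w f t x) * ee g w f t x ≤ 2 * |ee g w f t x| := by
    calc g (uu w f t x) * ee g w f t x ≤ g (uu w f t x) * |ee g w f t x| :=
          mul_le_mul_of_nonneg_left h5 h2.le
      _ ≤ _ := mul_le_mul_of_nonneg_right h3.le (abs_nonneg _)
  have h7 := abs_nonneg (th g w f t x)
  have h8 := abs_nonneg (ee g w f t x)
  unfold del
  rw [h4]
  linarith only [h1, h6, h7, h8]

lemma PtI.Nn_sq (P : PtI g w f t x) (hg : IsBub g) :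
    Nn w f t x ^ 2 * qb g (uu w f t x) =
      38 * (1 + Real.exp (-2 * uu w f t x)) * (1 + th g w f t x) := by
  have h1 := MC.Nn_sq (w := w) (f := f) (t := t) P.mem'
  have h2 := M2.Zs_q hg P.u
  have h3 := (M2.Zs_pos hg P.u).ne'
  have h4 : ZZ w f t x = Zs g (uu w f t x) * (1 + th g w f t x) := by
    unfold th; field_simp; ring
  have h5 := cosh_exp (uu w f t x)
  rw [h1, h4]
  unfold zeta0
  linear_combination (4 * (19 / 39) * Real.exp (-uu w f t x) * (1 + th g w f t x)) * h2 +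
    76 * (1 + th g w f t x) * h5

lemma PtI.Nn_bd (P : PtI g w f t x) (hg : IsBub g) :
    99 / 100 ≤ Nn w f t x ∧ Nn w f t x ≤ 3 / 2 ∧ |Nn w f t x - 1| ≤ del g w f t x := by
  have h1 := P.Nn_sq hg
  have hN := Nn_pos P.mem' P.rs
  have hE := Real.exp_pos (-2 * uu w f t x)
  have hE1 := P.exp_lt
  have hq1 := M2.q_lo hg P.u
  have hq2 : qb g (uu w f t x) ≤ 38 + 4 * Real.exp (-2 * uu w f t x) := by
    have h2 := two_sub_g hg P.u
    have h3 := hg.lt_two _ P.u
    have h4 := M2.g_pos hg P.u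
    unfold qb
    nlinarith only [hE, hE1, h2, h3]
  have t0 := P.th0
  have t1 := P.th1
  set N := Nn w f t x
  set E := Real.exp (-2 * uu w f t x)
  set th' := th g w f t x
  set Q := qb g (uu w f t x)
  -- upper bound `N² ≤ 1 + E`
  have u1 : N ^ 2 ≤ 1 + E := by
    have : N ^ 2 * 38 ≤ 38 * (1 + E) := by
      calc N ^ 2 * 38 ≤ N ^ 2 * Q := mul_le_mul_of_nonneg_left hq1.le (sq_nonneg _)
        _ = 38 * (1 + E) * (1 + th') := h1
        _ ≤ 38 * (1 + E) * 1 := mul_le_mul_of_nonneg_left (by linarith only [t0]) (by positivity)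
        _ = 38 * (1 + E) := by ring
    linarith only [this]
  -- lower bound `1 + θ ≤ N²`
  have u2 : 1 + th' ≤ N ^ 2 := by
    have hb : 38 + 4 * E ≤ 38 * (1 + E) := by linarith only [hE]
    have h5 : (1 + th') * Q ≤ N ^ 2 * Q := by
      rw [h1]
      calc (1 + th') * Q ≤ (1 + th') * (38 * (1 + E)) :=
            mul_le_mul_of_nonneg_left (hq2.trans hb) (by linarith only [hE, hE1, t1])
        _ = _ := by ring
    exact le_of_mul_le_mul_right h5 (by linarith only [hE, hE1, hq1])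
  have hth : |th'| = -th' := abs_of_nonpos t0
  have hee := abs_nonneg (ee g w f t x)
  refine ⟨by nlinarith only [hN, hE, hE1, t1, u2], by nlinarith only [hN, hE, hE1, u1], ?_⟩
  have hd : del g w f t x = E + |ee g w f t x| + |th'| := rfl
  rw [hd, hth, abs_le]
  constructor <;> nlinarith only [hN, hE, t0, u2, hee, u1]

variable (h : Slice w f t)
include h

lemma PtI.df (P : PtI g w f t x) (hg : IsBub g) :
    |deriv (f t) x| ≤ 2 * del g w f t x / (1 - x ^ 2) := by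
  rw [(hasDerivAt_f h P.mem' P.rs.ne').deriv, abs_neg]
  obtain ⟨n1, n2, -⟩ := P.Nn_bd hg
  have hG := P.two_sub_G hg
  have hG2 := P.G
  have hd := del_nonneg (g := g) (w := w) (f := f) (t := t) (x := x)
  have hq := qpos P.mem'
  rw [abs_div, abs_of_pos (by linarith only [hq] : 0 < 4 * (1 - x ^ 2)), abs_of_nonneg
    (mul_nonneg (by linarith only [n1]) (by linarith only [hG2])), div_le_div_iff₀ (by linarith only [hq]) hq]
  have : Nn w f t x * (2 - GG w f t x) ≤ 8 * del g w f t x := by nlinarith only [n2, hG, hG2]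
  nlinarith only [hq, this]

lemma PtI.dw (P : PtI g w f t x) (hg : IsBub g) :
    |deriv (w t) x| ≤ 1 + 3 * del g w f t x / (1 - x ^ 2) := by
  rw [(hasDerivAt_w h P.mem' P.rs.ne').deriv]
  obtain ⟨n1, n2, n3⟩ := P.Nn_bd hg
  have hG := P.two_sub_G hg
  have hG2 := P.G
  have hd := del_nonneg (g := g) (w := w) (f := f) (t := t) (x := x)
  have hq := qpos P.mem'
  have e : x / (1 - x ^ 2) - Nn w f t x * (2 + GG w f t x) / (4 * (1 - x ^ 2)) =
      (4 * (x - 1) + 4 * (1 - Nn w f t x) + Nn w f t x * (2 - GG w f t x)) /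
        (4 * (1 - x ^ 2)) := by
    field_simp; ring
  rw [e, abs_div, abs_of_pos (by linarith only [hq] : 0 < 4 * (1 - x ^ 2)), div_le_iff₀ (by linarith only [hq])]
  have e2 : (1 + 3 * del g w f t x / (1 - x ^ 2)) * (4 * (1 - x ^ 2)) =
      4 * (1 - x ^ 2) + 12 * del g w f t x := by field_simp; ring
  rw [e2]
  have h3 := abs_le.1 n3
  have h4 : 0 ≤ Nn w f t x * (2 - GG w f t x) := mul_nonneg (by linarith only [n1]) (by linarith only [hG2])
  have h5 : Nn w f t x * (2 - GG w f t x) ≤ 8 * del g w f t x := by nlinarith only [n2, hG, hG2]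
  have hx0 := P.mem.1
  have hx1 := P.mem.2
  have h6 : 1 - x ≤ 1 - x ^ 2 := by nlinarith only [hx0, hx1]
  rw [abs_le]
  constructor <;> linarith only [hG, hG2, h3, h4, h6, hq, h5, hx1]

/-- growth of `u`: `u_x ≥ (9/10) tanh u / (1-x²)` -/
lemma PtI.du (P : PtI g w f t x) (hg : IsBub g) :
    9 / 10 * Real.tanh (uu w f t x) / (1 - x ^ 2) ≤ deriv (uu w f t) x := by
  rw [(hasDerivAt_u h P.mem' P.rs.ne').deriv]
  obtain ⟨n1, n2, n3⟩ := P.Nn_bd hg
  have hq := qpos P.mem'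
  have hT := M2.tanh_pos P.u
  have h1 := hg.lower _ P.u
  have h4 : GG w f t x = g (uu w f t x) * (1 - ee g w f t x) := by
    have := (M2.g_pos hg P.u).ne'
    unfold ee; field_simp; ring
  have he := (abs_le.1 P.e).2
  have h5 : 2 * Real.tanh (uu w f t x) * (1 - 1 / 10 ^ 4) ≤ GG w f t x := by
    rw [h4]
    exact mul_le_mul h1.le (by linarith only [he]) (by norm_num) (by linarith only [hT, h1])
  rw [div_le_div_iff₀ hq (by linarith only [hq])]
  have h6 : 2 * (9 / 10 * Real.tanh (uu w f t x)) ≤ Nn w f t x * GG w f t x := by nlinarith only [n1, hT, h5]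
  nlinarith only [hq, h6]

end PtI

/-! ### integration -/

lemma int_bd {H H' : ℝ → ℝ} {x0 K s : ℝ} (hs : 0 < s) (hK : 0 ≤ K) (hx0 : 0 ≤ x0)
    (hd : ∀ x ∈ Ico x0 1, HasDerivAt H (H' x) x)
    (hb : ∀ x ∈ Ico x0 1, |H' x| ≤ K * (1 - x) ^ (s - 1)) :
    ∀ x ∈ Ico x0 1, |H x - H x0| ≤ K / s := by
  intro x hx
  have hx01 : x0 < 1 := hx.1.trans_lt hx.2
  set A : ℝ → ℝ := fun y => K / s * (1 - y) ^ s with hA
  have hdA : ∀ y ∈ Ico x0 1, HasDerivAt A (-(K * (1 - y) ^ (s - 1))) y := by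
    intro y hy
    have h1 : HasDerivAt (fun y : ℝ => 1 - y) (-1) y := by
      simpa using (hasDerivAt_id y).const_sub 1
    have h2 := (h1.rpow_const (p := s) (Or.inl (by linarith only [hy, hy.2] : (1 : ℝ) - y ≠ 0))).const_mul
      (K / s)
    refine h2.congr_deriv ?_
    field_simp
  have hsub : Icc x0 x ⊆ Ico x0 1 := fun y hy => ⟨hy.1, hy.2.trans_lt hx.2⟩
  have m1 : AntitoneOn (fun y => H y + A y) (Icc x0 x) := by
    refine antitoneOn_of_hasDerivWithinAt_nonpos (convex_Icc _ _) (f' := fun y => H' y +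
      -(K * (1 - y) ^ (s - 1))) ?_ ?_ ?_
    · intro y hy
      exact ((hd y (hsub hy)).add (hdA y (hsub hy))).continuousAt.continuousWithinAt
    · intro y hy
      rw [interior_Icc] at hy
      have := hsub (Ioo_subset_Icc_self hy)
      exact ((hd y this).add (hdA y this)).hasDerivWithinAt
    · intro y hy
      rw [interior_Icc] at hy
      have := (abs_le.1 (hb y (hsub (Ioo_subset_Icc_self hy)))).2
      linarith only [this]
  have m2 : MonotoneOn (fun y => H y - A y) (Icc x0 x) := by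
    refine monotoneOn_of_hasDerivWithinAt_nonneg (convex_Icc _ _) (f' := fun y => H' y -
      -(K * (1 - y) ^ (s - 1))) ?_ ?_ ?_
    · intro y hy
      exact ((hd y (hsub hy)).sub (hdA y (hsub hy))).continuousAt.continuousWithinAt
    · intro y hy
      rw [interior_Icc] at hy
      have := hsub (Ioo_subset_Icc_self hy)
      exact ((hd y this).sub (hdA y this)).hasDerivWithinAt
    · intro y hy
      rw [interior_Icc] at hy
      have := (abs_le.1 (hb y (hsub (Ioo_subset_Icc_self hy)))).1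
      linarith only [this]
  have h0 : x0 ∈ Icc x0 x := ⟨le_rfl, hx.1⟩
  have h1 : x ∈ Icc x0 x := ⟨hx.1, le_rfl⟩
  have a1 := m1 h0 h1 hx.1
  have a2 := m2 h0 h1 hx.1
  simp only at a1 a2
  have b1 : 0 ≤ A x := by
    have : 0 ≤ (1 - x) ^ s := Real.rpow_nonneg (by linarith only [hx, hx.2]) _
    simp only [hA]; positivity
  have b2 : A x0 ≤ K / s := by
    have h3 : (1 - x0) ^ s ≤ 1 := Real.rpow_le_one (by linarith only [hx01]) (by linarith only [hx0]) hs.le
    have h4 : 0 ≤ K / s := by positivity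
    simp only [hA]
    calc K / s * (1 - x0) ^ s ≤ K / s * 1 := mul_le_mul_of_nonneg_left h3 h4
      _ = K / s := mul_one _
  rw [abs_le]
  constructor <;> linarith only [a2, b1, b2, a1]

section growth

variable {g : ℝ → ℝ} {x0 : ℝ}

/-- growth of `sinh u` towards the tip -/
lemma sinh_growth (hg : IsBub g) (h : Slice w f t) (hP : ∀ x ∈ Ico x0 1, PtI g w f t x) :
    ∀ x ∈ Ico x0 1, Real.sinh (uu w f t x0) * (1 - x0) ^ (2 / 5 : ℝ) ≤
      Real.sinh (uu w f t x) * (1 - x) ^ (2 / 5 : ℝ) := by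
  intro x hx
  have hsub : Icc x0 x ⊆ Ico x0 1 := fun y hy => ⟨hy.1, hy.2.trans_lt hx.2⟩
  have hsin : ∀ y ∈ Ico x0 1, 0 < Real.sinh (uu w f t y) := fun y hy =>
    Real.sinh_pos_iff.2 (hP y hy).u
  have hd : ∀ y ∈ Ico x0 1, HasDerivAt (fun y => Real.log (Real.sinh (uu w f t y)) +
      2 / 5 * Real.log (1 - y)) (Real.cosh (uu w f t y) * deriv (uu w f t) y /
      Real.sinh (uu w f t y) + 2 / 5 * (-1 / (1 - y))) y := by
    intro y hy
    have P := hP y hy
    have h1 := hasDerivAt_u h P.mem' P.rs.ne'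
    rw [← h1.deriv] at h1
    have h2 : HasDerivAt (fun y : ℝ => 1 - y) (-1) y := by
      simpa using (hasDerivAt_id y).const_sub 1
    exact (h1.sinh.log (hsin y hy).ne').add ((h2.log (by linarith only [hy, hy.2])).const_mul (2 / 5))
  have m : MonotoneOn (fun y => Real.log (Real.sinh (uu w f t y)) +
      2 / 5 * Real.log (1 - y)) (Icc x0 x) := by
    refine monotoneOn_of_hasDerivWithinAt_nonneg (convex_Icc _ _) (f' := fun y =>
      Real.cosh (uu w f t y) * deriv (uu w f t) y /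
      Real.sinh (uu w f t y) + 2 / 5 * (-1 / (1 - y))) ?_ ?_ ?_
    · intro y hy
      exact (hd y (hsub hy)).continuousAt.continuousWithinAt
    · intro y hy
      rw [interior_Icc] at hy
      exact (hd y (hsub (Ioo_subset_Icc_self hy))).hasDerivWithinAt
    · intro y hy
      rw [interior_Icc] at hy
      have hy' := hsub (Ioo_subset_Icc_self hy)
      have P := hP y hy'
      have h1 := P.du h hg
      have hs := hsin y hy'
      have hc := Real.cosh_pos (uu w f t y)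
      have hq := qpos P.mem'
      have hy1 : 0 < 1 - y := by linarith only [P, P.mem.2]
      have h2 : 9 / 10 / (1 - y ^ 2) ≤ Real.cosh (uu w f t y) * deriv (uu w f t) y /
          Real.sinh (uu w f t y) := by
        rw [le_div_iff₀ hs]
        calc 9 / 10 / (1 - y ^ 2) * Real.sinh (uu w f t y) =
            Real.cosh (uu w f t y) * (9 / 10 * Real.tanh (uu w f t y) / (1 - y ^ 2)) := by
              rw [Real.tanh_eq_sinh_div_cosh]; field_simp
          _ ≤ _ := mul_le_mul_of_nonneg_left h1 hc.le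
      have h3 : 2 / 5 * (1 / (1 - y)) ≤ 9 / 10 / (1 - y ^ 2) := by
        rw [le_div_iff₀ hq]
        have : 2 / 5 * (1 / (1 - y)) * (1 - y ^ 2) = 2 / 5 * (1 + y) := by
          field_simp; ring
        rw [this]; linarith only [hy1, P.mem.2]
      have h4 : 2 / 5 * (-1 / (1 - y)) = -(2 / 5 * (1 / (1 - y))) := by ring
      rw [h4]
      linarith only [h2, h3]
  have h0 : x0 ∈ Icc x0 x := ⟨le_rfl, hx.1⟩
  have h1 : x ∈ Icc x0 x := ⟨hx.1, le_rfl⟩
  have a1 := m h0 h1 hx.1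
  simp only at a1
  have hx01 : x0 < 1 := hx.1.trans_lt hx.2
  have p0 : 0 < 1 - x0 := by linarith only [hx01]
  have p1 : 0 < 1 - x := by linarith only [hx, hx.2]
  have e : ∀ y ∈ Ico x0 1, Real.sinh (uu w f t y) * (1 - y) ^ (2 / 5 : ℝ) =
      Real.exp (Real.log (Real.sinh (uu w f t y)) + 2 / 5 * Real.log (1 - y)) := by
    intro y hy
    rw [Real.exp_add, Real.exp_log (hsin y hy), Real.rpow_def_of_pos (by linarith only [hy, hy.2])]
    ring_nf
  rw [e x hx, e x0 ⟨le_rfl, hx01⟩]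
  exact Real.exp_le_exp.2 a1

end growth

/-- a power of `cosh u` bounded by a power of a lower bound of it -/
lemma pow_cosh {c a : ℝ} (ha : 0 < a) (h : a ≤ c) :
    c ^ (-(39 / 20) : ℝ) ≤ a ^ (-(39 / 20) : ℝ) :=
  Real.rpow_le_rpow_of_nonpos ha h (by norm_num)

lemma sinh_le_cosh' (u : ℝ) : Real.sinh u ≤ Real.cosh u := (Real.sinh_lt_cosh u).le

lemma half_exp_le_cosh (u : ℝ) : Real.exp u / 2 ≤ Real.cosh u := by
  rw [Real.cosh_eq]; linarith only [Real.exp_pos (-u)]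

/-- **Static analysis near the tip.** -/
theorem tip_main (Cd s0 xs C0 : ℝ) (hCd : 0 ≤ Cd) (hs0 : 0 < s0) (hxs : xs < 1) (hC0 : 0 ≤ C0) :
    ∃ C : ℝ, 0 ≤ C ∧ ∀ (g : ℝ → ℝ) (w f : Fn) (t x0 : ℝ), IsBub g → Slice w f t →
      x0 ∈ Ioo (0 : ℝ) 1 → x0 ≤ xs →
      (∀ x ∈ Ico x0 1, PtI g w f t x ∧
        del g w f t x ≤ Cd * (Real.cosh (uu w f t x)) ^ (-(39 / 20) : ℝ)) →
      s0 ≤ Real.sinh (uu w f t x0) → |f t x0| ≤ C0 → |w t x0| ≤ C0 →
      ∀ x ∈ Ico x0 1, |f t x| ≤ C ∧ |w t x| ≤ C ∧ |deriv (f t) x| ≤ C * vw x ∧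
        |deriv (w t) x| ≤ C * vw x := by
  set s1 : ℝ := s0 * (1 - xs) ^ (2 / 5 : ℝ) with hs1
  have hs1p : 0 < s1 := mul_pos hs0 (Real.rpow_pos_of_pos (by linarith only [hxs]) _)
  set K1 : ℝ := Cd * s1 ^ (-(39 / 20) : ℝ) with hK1
  have hK1n : 0 ≤ K1 := mul_nonneg hCd (Real.rpow_nonneg hs1p.le _)
  set C1 : ℝ := C0 + (1 + 3 * K1) / (39 / 50) with hC1
  have hC1n : 0 ≤ C1 := by positivity
  set K2 : ℝ := Cd * (Real.exp (-(2 * C1)) / 2) ^ (-(39 / 20) : ℝ) with hK2
  have hK2n : 0 ≤ K2 := mul_nonneg hCd (Real.rpow_nonneg (by positivity) _)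
  refine ⟨C1 + (1 + 3 * K2), by positivity, ?_⟩
  intro g w f t x0 hg h hx0 hx0s hP hsin hf0 hw0
  have hP' : ∀ x ∈ Ico x0 1, PtI g w f t x := fun x hx => (hP x hx).1
  have hdf : ∀ x ∈ Ico x0 1, HasDerivAt (f t) (deriv (f t) x) x := fun x hx => by
    have := hasDerivAt_f h (hP' x hx).mem' (hP' x hx).rs.ne'
    rwa [← this.deriv] at this
  have hdw : ∀ x ∈ Ico x0 1, HasDerivAt (w t) (deriv (w t) x) x := fun x hx => by
    have := hasDerivAt_w h (hP' x hx).mem' (hP' x hx).rs.ne'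
    rwa [← this.deriv] at this
  -- first decay of `δ/q`
  have d1 : ∀ x ∈ Ico x0 1, del g w f t x / (1 - x ^ 2) ≤ K1 * (1 - x) ^ ((39 / 50 : ℝ) - 1) := by
    intro x hx
    have p1 : 0 < 1 - x := by linarith only [hx, hx.2]
    have hq := qpos (hP' x hx).mem'
    have g1 := sinh_growth hg h hP' x hx
    have g2 : s1 ≤ Real.sinh (uu w f t x0) * (1 - x0) ^ (2 / 5 : ℝ) := by
      refine mul_le_mul hsin ?_ (Real.rpow_nonneg (by linarith only [hxs]) _) (hs0.le.trans hsin)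
      exact Real.rpow_le_rpow (by linarith only [hxs]) (by linarith only [hx0s]) (by norm_num)
    have g3 : s1 * (1 - x) ^ (-(2 / 5) : ℝ) ≤ Real.cosh (uu w f t x) := by
      have e1 : (1 - x) ^ (2 / 5 : ℝ) * (1 - x) ^ (-(2 / 5) : ℝ) = 1 := by
        rw [← Real.rpow_add p1]; norm_num
      have e2 := mul_le_mul_of_nonneg_right (g2.trans g1)
        (Real.rpow_nonneg p1.le (-(2 / 5) : ℝ))
      have e3 : Real.sinh (uu w f t x) * (1 - x) ^ (2 / 5 : ℝ) * (1 - x) ^ (-(2 / 5) : ℝ) =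
          Real.sinh (uu w f t x) := by rw [mul_assoc, e1, mul_one]
      rw [e3] at e2
      exact e2.trans (sinh_le_cosh' _)
    have g4 := pow_cosh (mul_pos hs1p (Real.rpow_pos_of_pos p1 _)) g3
    have g5 : (s1 * (1 - x) ^ (-(2 / 5) : ℝ)) ^ (-(39 / 20) : ℝ) =
        s1 ^ (-(39 / 20) : ℝ) * (1 - x) ^ (39 / 50 : ℝ) := by
      rw [Real.mul_rpow hs1p.le (Real.rpow_nonneg p1.le _), ← Real.rpow_mul p1.le]
      norm_num
    rw [g5] at g4
    have g6 : del g w f t x ≤ K1 * (1 - x) ^ (39 / 50 : ℝ) := by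
      refine (hP x hx).2.trans ?_
      rw [hK1, mul_assoc]
      exact mul_le_mul_of_nonneg_left g4 hCd
    have hq1 : 1 - x ≤ 1 - x ^ 2 := by nlinarith only [hP', hx, p1, (hP' x hx).mem.1]
    rw [Real.rpow_sub_one p1.ne', div_le_iff₀ hq]
    calc del g w f t x ≤ K1 * (1 - x) ^ (39 / 50 : ℝ) := g6
      _ = K1 * ((1 - x) ^ (39 / 50 : ℝ) / (1 - x)) * (1 - x) := by field_simp
      _ ≤ _ := by
          refine mul_le_mul_of_nonneg_left hq1 ?_
          have := Real.rpow_nonneg p1.le (39 / 50 : ℝ)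
          positivity
  -- bounds of `F`, `w`
  have b1 : ∀ x ∈ Ico x0 1, |f t x| ≤ C1 ∧ |w t x| ≤ C1 := by
    intro x hx
    have i1 := int_bd (H := f t) (K := 2 * K1) (s := 39 / 50) (by norm_num) (by positivity)
      hx0.1.le hdf (by
        intro y hy
        refine ((hP' y hy).df h hg).trans ?_
        have := d1 y hy
        calc 2 * del g w f t y / (1 - y ^ 2) = 2 * (del g w f t y / (1 - y ^ 2)) := by ring
          _ ≤ 2 * (K1 * (1 - y) ^ ((39 / 50 : ℝ) - 1)) := by linarith only [this]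
          _ = _ := by ring) x hx
    have i2 := int_bd (H := w t) (K := 1 + 3 * K1) (s := 39 / 50) (by norm_num) (by positivity)
      hx0.1.le hdw (by
        intro y hy
        refine ((hP' y hy).dw h hg).trans ?_
        have := d1 y hy
        have hy1 : 1 ≤ (1 - y) ^ ((39 / 50 : ℝ) - 1) :=
          Real.one_le_rpow_of_pos_of_le_one_of_nonpos (by linarith only [hy, hy.2])
            (by linarith only [hP', hy, (hP' y hy).mem.1]) (by norm_num)
        calc 1 + 3 * del g w f t y / (1 - y ^ 2) = 1 + 3 * (del g w f t y / (1 - y ^ 2)) := by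
              ring
          _ ≤ (1 - y) ^ ((39 / 50 : ℝ) - 1) + 3 * (K1 * (1 - y) ^ ((39 / 50 : ℝ) - 1)) := by
              linarith only [this, hy1]
          _ = _ := by ring) x hx
    have j1 : 2 * K1 / (39 / 50) ≤ (1 + 3 * K1) / (39 / 50) := by
      apply div_le_div_of_nonneg_right _ (by norm_num)
      linarith only [hK1n]
    have k1 := abs_sub_abs_le_abs_sub (f t x) (f t x0)
    have k2 := abs_sub_abs_le_abs_sub (w t x) (w t x0)
    constructor <;> rw [hC1] <;> linarith only [hK1n, hf0, i1, k1, hw0, i2, k2]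
  -- second decay
  have d2 : ∀ x ∈ Ico x0 1, del g w f t x / (1 - x ^ 2) ≤ K2 * vw x := by
    intro x hx
    have hx' := (hP' x hx).mem'
    have hq := qpos hx'
    have hsx := M2.sx_pos hx'
    obtain ⟨c1, c2⟩ := b1 x hx
    have g3 : Real.exp (-(2 * C1)) / 2 * (1 - x ^ 2) ^ (-(1 / 2) : ℝ) ≤
        Real.cosh (uu w f t x) := by
      refine le_trans ?_ (half_exp_le_cosh _)
      rw [exp_uu hx']
      have e1 : (1 - x ^ 2) ^ (-(1 / 2) : ℝ) = (sx x)⁻¹ := by
        rw [Real.rpow_neg hq.le, sx, Real.sqrt_eq_rpow]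
      rw [e1]
      have e2 : Real.exp (-(2 * C1)) ≤ Real.exp (f t x) * Real.exp (-w t x) := by
        rw [← Real.exp_add]
        apply Real.exp_le_exp.2
        have := (abs_le.1 c1).1
        have := (abs_le.1 c2).2
        linarith
      have e3 : Real.exp (f t x) * Real.exp (-w t x) / sx x / 2 =
          Real.exp (f t x) * Real.exp (-w t x) / 2 * (sx x)⁻¹ := by ring
      rw [e3]
      exact mul_le_mul_of_nonneg_right (by linarith only [e2]) (inv_nonneg.2 hsx.le)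
    have g4 := pow_cosh (mul_pos (by positivity) (Real.rpow_pos_of_pos hq _)) g3
    have g5 : (Real.exp (-(2 * C1)) / 2 * (1 - x ^ 2) ^ (-(1 / 2) : ℝ)) ^ (-(39 / 20) : ℝ) =
        (Real.exp (-(2 * C1)) / 2) ^ (-(39 / 20) : ℝ) * (1 - x ^ 2) ^ (39 / 40 : ℝ) := by
      rw [Real.mul_rpow (by positivity) (Real.rpow_nonneg hq.le _), ← Real.rpow_mul hq.le]
      norm_num
    rw [g5] at g4
    have g6 : del g w f t x ≤ K2 * (1 - x ^ 2) ^ (39 / 40 : ℝ) := by
      refine (hP x hx).2.trans ?_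
      rw [hK2, mul_assoc]
      exact mul_le_mul_of_nonneg_left g4 hCd
    rw [div_le_iff₀ hq]
    have g7 : (1 - x ^ 2) ^ (39 / 40 : ℝ) ≤ vw x * (1 - x ^ 2) := by
      have e1 : vw x * (1 - x ^ 2) = (1 - x ^ 2) ^ (-(1 / 20) + 1 : ℝ) := by
        rw [vw, Real.rpow_add hq, Real.rpow_one]
      rw [e1]
      exact Real.rpow_le_rpow_of_exponent_ge hq (by nlinarith only [sq_nonneg x]) (by norm_num)
    calc del g w f t x ≤ K2 * (1 - x ^ 2) ^ (39 / 40 : ℝ) := g6
      _ ≤ K2 * (vw x * (1 - x ^ 2)) := mul_le_mul_of_nonneg_left g7 hK2n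
      _ = K2 * vw x * (1 - x ^ 2) := by ring
  intro x hx
  obtain ⟨c1, c2⟩ := b1 x hx
  have e1 := (hP' x hx).df h hg
  have e2 := (hP' x hx).dw h hg
  have e3 := d2 x hx
  have hv := vw_ge (hP' x hx).mem'
  have hCv : 0 ≤ C1 * vw x := by positivity
  refine ⟨by linarith only [hK2n, c1], by linarith only [hK2n, c2], ?_, ?_⟩
  · refine e1.trans ?_
    have : 2 * del g w f t x / (1 - x ^ 2) = 2 * (del g w f t x / (1 - x ^ 2)) := by ring
    rw [this]
    nlinarith only [hC0, hK1n, hC1, hK2n, e3, hv]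
  · refine e2.trans ?_
    have : 3 * del g w f t x / (1 - x ^ 2) = 3 * (del g w f t x / (1 - x ^ 2)) := by ring
    rw [this]
    nlinarith only [e3, hv, hCv]

end

end Vale.Agent.P244.ST.MC
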