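import Vale.Agent.P244.ST.M.QSpace
import Vale.Agent.P244.ST.Iface

/-!
# P244-ST, block C1, part (B): the volume is nonincreasing

`μ = e^{20F+21w} (1-x²)^{19/2}` is the density of the volume; `d/dt ∫ μ = - ∫ R μ ≤ 0`.
Consequence: `artanh x` is bounded where `φψ` and `ψ` are bounded below on `[0,x]`.
-/

open Set Topology Filter MeasureTheory
open scoped ContDiff

namespace Vale.Agent.P244.ST

open Vale.Agent.P244.BB

variable {T : ℝ}

namespace Sys

variable (M : Sys 20 T)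

/-- `e^{20F+21W}` -/
noncomputable def mu : smoothAlg T := expS (20 * M.F + 21 * M.W)

lemma dz_mu : dz M.mu = M.mu * (20 * dz M.F + 21 * dz M.W) := by
  rw [mu, dz_expS, dz_add, dz_mul, dz_mul, dz_ofNat, dz_ofNat]; ring

lemma dt_mu : dt M.mu = M.mu * (20 * dt M.F + 21 * dt M.W) := by
  rw [mu, dt_expS, dt_add, dt_mul, dt_mul, dt_ofNat, dt_ofNat]; ring

/-- the continuity equation for the volume density -/
lemma dt_mu_eq : dt M.mu = -(M.R * M.mu) - dz (Ss * M.Y * M.mu) + 19 * Xs * M.Y * M.mu := by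
  rw [dt_mu, eq_W, eq_F]
  simp only [dz_mul, dz_Ss, Y, dz_add, dz_E, dz_J, a, dz_sub, dz_one, dz_natCast, dz_mu]
  simp only [R, ric0, ric1, ric2, lapS, a]
  push_cast
  ring

end Sys

/-! ### integrals of elements of the algebra against `sx^19` -/

namespace MCVol

lemma sx_cont : Continuous sx := by
  unfold sx
  exact Real.continuous_sqrt.comp (by fun_prop)

lemma sx_nonneg (x : ℝ) : 0 ≤ sx x := Real.sqrt_nonneg _

lemma sx_le_one (x : ℝ) : sx x ≤ 1 := by
  unfold sx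
  rw [Real.sqrt_le_one]
  nlinarith only [sq_nonneg x]

lemma sub_I : Icc (0 : ℝ) 1 ⊆ Icc (-1) 1 := Icc_subset_Icc (by norm_num) le_rfl

lemma exists_bound (f : smoothAlg T) {t₁ : ℝ} (ht₁ : t₁ < T) :
    ∃ C, ∀ t ∈ Icc 0 t₁, ∀ x ∈ Icc (0 : ℝ) 1, |ext f (x, t)| ≤ C := by
  have hK : Icc (-1 : ℝ) 1 ×ˢ Icc 0 t₁ ⊆ dom T := fun p hp =>
    mem_dom hp.1 ⟨hp.2.1, lt_of_le_of_lt hp.2.2 ht₁⟩
  obtain ⟨C, hC⟩ := (isCompact_Icc.prod isCompact_Icc).exists_bound_of_continuousOn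
    ((ext_continuousOn f).mono hK)
  exact ⟨C, fun t ht x hx => hC (x, t) ⟨sub_I hx, ht⟩⟩

/-- the integral against the weight -/
noncomputable def vol (f : smoothAlg T) (t : ℝ) : ℝ := ∫ x in (0 : ℝ)..1, ext f (x, t) * sx x ^ 19

lemma slice_cont (f : smoothAlg T) {t : ℝ} (ht : t ∈ Ico 0 T) :
    ContinuousOn (fun x => ext f (x, t) * sx x ^ 19) (Icc 0 1) :=
  ((slice_continuousOn f ht).mono sub_I).mul (sx_cont.pow 19).continuousOn

lemma slice_int (f : smoothAlg T) {t : ℝ} (ht : t ∈ Ico 0 T) :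
    IntervalIntegrable (fun x => ext f (x, t) * sx x ^ 19) volume 0 1 := by
  refine ContinuousOn.intervalIntegrable ?_
  rw [uIcc_of_le zero_le_one]
  exact slice_cont f ht

lemma uIoc_sub : uIoc (0 : ℝ) 1 ⊆ Icc 0 1 := by
  rw [uIoc_of_le zero_le_one]; exact Ioc_subset_Icc_self

lemma slice_meas (f : smoothAlg T) {t : ℝ} (ht : t ∈ Ico 0 T) :
    AEStronglyMeasurable (fun x => ext f (x, t) * sx x ^ 19) (volume.restrict (uIoc 0 1)) :=
  ((slice_cont f ht).mono uIoc_sub).aestronglyMeasurable measurableSet_uIoc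

lemma abs_mul_sx_le {a C x : ℝ} (h : |a| ≤ C) : |a * sx x ^ 19| ≤ C := by
  have h1 : sx x ^ 19 ≤ 1 := pow_le_one₀ (sx_nonneg x) (sx_le_one x)
  have h2 : 0 ≤ sx x ^ 19 := pow_nonneg (sx_nonneg x) 19
  rw [abs_mul, abs_of_nonneg h2]
  calc |a| * sx x ^ 19 ≤ C * 1 := mul_le_mul h h1 h2 ((abs_nonneg a).trans h)
    _ = C := mul_one C

lemma vol_hasDerivAt (f : smoothAlg T) {t : ℝ} (ht : t ∈ Ioo 0 T) :
    HasDerivAt (vol f) (vol (dt f) t) t := by
  have ht₁ : (t + T) / 2 < T := by linarith only [ht, ht.2]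
  obtain ⟨C, hC⟩ := exists_bound (dt f) ht₁
  have hs : Ioo (t / 2) ((t + T) / 2) ∈ 𝓝 t := Ioo_mem_nhds (by linarith only [ht, ht.1])
    (by linarith only [ht₁, ht.2])
  have hsub : ∀ s ∈ Ioo (t / 2) ((t + T) / 2), s ∈ Ioo 0 T := fun s hs =>
    ⟨by linarith only [ht, hs, hs.1, ht.1], by linarith only [ht₁, hs, hs.2]⟩
  refine (intervalIntegral.hasDerivAt_integral_of_dominated_loc_of_deriv_le
    (F := fun s x => ext f (x, s) * sx x ^ 19) (F' := fun s x => ext (dt f) (x, s) * sx x ^ 19)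
    (bound := fun _ => C) hs ?_ (slice_int f ⟨ht.1.le, ht.2⟩) (slice_meas (dt f) ⟨ht.1.le, ht.2⟩)
    ?_ intervalIntegrable_const ?_).2
  · filter_upwards [hs] with s hs
    exact slice_meas f ⟨(hsub s hs).1.le, (hsub s hs).2⟩
  · refine Eventually.of_forall fun x hx s hs => ?_
    exact abs_mul_sx_le (hC s ⟨(hsub s hs).1.le, hs.2.le⟩ x (uIoc_sub hx))
  · refine Eventually.of_forall fun x hx s hs => ?_
    exact (hasDerivAt_t f (sub_I (uIoc_sub hx)) (hsub s hs)).mul_const _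

lemma vol_cont (f : smoothAlg T) : ContinuousOn (vol f) (Ico 0 T) := by
  intro t ht
  have ht₁ : (t + T) / 2 < T := by linarith only [ht, ht.2]
  obtain ⟨C, hC⟩ := exists_bound f ht₁
  have hs : Iio ((t + T) / 2) ∈ 𝓝 t := Iio_mem_nhds (by linarith only [ht₁, ht.2])
  refine intervalIntegral.continuousWithinAt_of_dominated_interval (bound := fun _ => C) ?_ ?_
    intervalIntegrable_const ?_
  · filter_upwards [self_mem_nhdsWithin] with s hs
    exact slice_meas f hs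
  · filter_upwards [self_mem_nhdsWithin, mem_nhdsWithin_of_mem_nhds hs] with s hs hs'
    exact Eventually.of_forall fun x hx => abs_mul_sx_le (hC s ⟨hs.1, (mem_Iio.1 hs').le⟩ x
      (uIoc_sub hx))
  · refine Eventually.of_forall fun x hx => ?_
    exact (hasDerivWithinAt_t f (sub_I (uIoc_sub hx)) ht).continuousWithinAt.mul
      continuousWithinAt_const

end MCVol

namespace Sys

variable (M : Sys 20 T)

open MCVol

lemma Y_zero (hM : M.IsEven) {t : ℝ} (ht : t ∈ Ico 0 T) : ext M.Y (0, t) = 0 := by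
  have hd : ((0 : ℝ), t) ∈ dom T := mem_dom (by norm_num) ht
  have h1 : ext (dz M.W) (0, t) = 0 := (hM.W.dz).zero ht
  have h2 : ext (dz M.F) (0, t) = 0 := (hM.F.dz).zero ht
  have h3 : ext M.J (0, t) = 0 := primS_zero _ ht
  rw [Y, a]
  simp only [ext_add, ext_mul, h1, h2, h3]
  ring

lemma vol_dt_mu (hM : M.IsEven) (hR : ∀ t ∈ Ico 0 T, ∀ x ∈ Icc (0 : ℝ) 1, 0 ≤ ext M.R (x, t))
    {t : ℝ} (ht : t ∈ Ico 0 T) : vol (dt M.mu) t ≤ 0 := by
  have hflux : vol (-(dz (Ss * M.Y * M.mu)) + 19 * Xs * M.Y * M.mu) t = 0 := by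
    have h1 : ∀ x ∈ Ioo (0 : ℝ) 1, HasDerivAt
        (fun x => -(ext (Ss * M.Y * M.mu) (x, t) * sx x ^ 19))
        (ext (-(dz (Ss * M.Y * M.mu)) + 19 * Xs * M.Y * M.mu) (x, t) * sx x ^ 19) x := by
      intro x hx
      have hx' : x ∈ Ioo (-1 : ℝ) 1 := ⟨by linarith only [hx, hx.1], hx.2⟩
      have hd : (x, t) ∈ dom T := mem_dom (Ioo_subset_Icc_self hx') ht
      have a1 := ((hasDerivAt_z (Ss * M.Y * M.mu) hx' ht).mul ((hd_sx hx').pow 19)).neg
      refine a1.congr_deriv ?_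
      have hs := sx_posQ hx'
      have hs2 := sx_sqQ hx'
      simp only [ext_add, ext_neg, ext_mul, ext_Ss hd, ext_Xs hd, ext_ofNat 19 hd, Pi.pow_apply]
      rw [← hs2]
      push_cast
      field_simp
      ring
    have h2 : ContinuousOn (fun x => -(ext (Ss * M.Y * M.mu) (x, t) * sx x ^ 19)) (Icc 0 1) :=
      (slice_cont _ ht).neg
    have h3 := intervalIntegral.integral_eq_sub_of_hasDerivAt_of_le zero_le_one h2 h1
      (slice_int _ ht)
    rw [vol, h3]
    have hd0 : ((0 : ℝ), t) ∈ dom T := mem_dom (by norm_num) ht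
    have hs1 : sx 1 = 0 := by unfold sx; norm_num
    rw [ext_mul, ext_mul, ext_mul, ext_mul, M.Y_zero hM ht, hs1]
    ring
  have hsplit : vol (dt M.mu) t = -(vol (M.R * M.mu) t) := by
    have e : ∀ x ∈ uIcc (0 : ℝ) 1, ext (dt M.mu) (x, t) * sx x ^ 19 =
        ext (-(dz (Ss * M.Y * M.mu)) + 19 * Xs * M.Y * M.mu) (x, t) * sx x ^ 19 -
        ext (M.R * M.mu) (x, t) * sx x ^ 19 := by
      intro x _
      rw [dt_mu_eq]
      simp only [ext_add, ext_sub, ext_neg]
      ring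
    have e2 : vol (dt M.mu) t = vol (-(dz (Ss * M.Y * M.mu)) + 19 * Xs * M.Y * M.mu) t -
        vol (M.R * M.mu) t := by
      unfold vol
      rw [intervalIntegral.integral_congr e]
      exact intervalIntegral.integral_sub (slice_int _ ht) (slice_int _ ht)
    rw [e2, hflux, zero_sub]
  rw [hsplit, neg_nonpos]
  refine intervalIntegral.integral_nonneg zero_le_one fun x hx => ?_
  have hd : (x, t) ∈ dom T := mem_dom (sub_I hx) ht
  rw [ext_mul]
  have h1 := hR t ht x hx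
  have h2 : 0 < ext M.mu (x, t) := expS_pos _ hd
  have h3 := pow_nonneg (sx_nonneg x) 19
  positivity

/-- the volume is nonincreasing -/
theorem vol_anti (hM : M.IsEven)
    (hR : ∀ t ∈ Ico 0 T, ∀ x ∈ Icc (0 : ℝ) 1, 0 ≤ ext M.R (x, t)) :
    AntitoneOn (vol M.mu) (Ico 0 T) := by
  refine antitoneOn_of_deriv_nonpos (convex_Ico 0 T) (vol_cont M.mu) ?_ ?_
  · intro t ht
    rw [interior_Ico] at ht
    exact (vol_hasDerivAt M.mu ht).differentiableAt.differentiableWithinAt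
  · intro t ht
    rw [interior_Ico] at ht
    rw [(vol_hasDerivAt M.mu ht).deriv]
    exact M.vol_dt_mu hM hR ⟨ht.1.le, ht.2⟩

end Sys

namespace MCVol

variable {w f : Fn}

/-- derivative of `artanh` -/
lemma hasDerivAt_artanh {y : ℝ} (hy : y ∈ Ioo (-1 : ℝ) 1) :
    HasDerivAt (fun y : ℝ => Real.log ((1 + y) / (1 - y)) / 2) (1 / (1 - y ^ 2)) y := by
  have h1 : (1 : ℝ) - y ≠ 0 := by linarith only [hy, hy.2]
  have h2 : (1 : ℝ) + y ≠ 0 := by linarith only [hy, hy.1]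
  have h3 := (one_sub_sq_pos hy).ne'
  have a1 : HasDerivAt (fun y : ℝ => 1 + y) 1 y := (hasDerivAt_id y).const_add 1
  have a2 : HasDerivAt (fun y : ℝ => 1 - y) (-1) y := (hasDerivAt_id y).const_sub 1
  have a3 := ((a1.div a2 h1).log (div_ne_zero h2 h1)).div_const 2
  refine a3.congr_deriv ?_
  have h4 : (1 : ℝ) - y ^ 2 = (1 + y) * (1 - y) := by ring
  rw [h4]
  simp only [Pi.div_apply]
  field_simp
  ring

/-- the volume bound: `artanh x` is bounded where `φψ`, `ψ` are bounded below on `[0,x]`. -/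
theorem vol_bound (h : ConfSol 20 w f T) (hQ : Qual w f T) (hT0 : 0 < T) :
    ∃ V0 > 0, ∀ t ∈ Ico 0 T, ∀ x ∈ Ico (0 : ℝ) 1, ∀ c > 0,
      (∀ y ∈ Icc 0 x, c ≤ Real.exp (f t y) * Real.exp (w t y) * sx y) →
      (∀ y ∈ Icc 0 x, c ≤ Real.exp (w t y) * sx y) →
      c ^ 21 * (Real.log ((1 + x) / (1 - x)) / 2) ≤ V0 := by
  have hR : ∀ t ∈ Ico 0 T, ∀ x ∈ Icc (0 : ℝ) 1, 0 ≤ ext h.sys.R (x, t) := by
    intro t ht
    have h1 : ∀ x ∈ Ico (0 : ℝ) 1, 0 ≤ ext h.sys.R (x, t) := by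
      intro x hx
      have hx' : x ∈ Ioo (-1 : ℝ) 1 := ⟨by linarith only [hx, hx.1], hx.2⟩
      rw [h.ext_R (Ioo_subset_Icc_self hx') ht, ← h.RR_eq hx' ht]
      exact hQ.R_nonneg t ht x hx
    have hc : ContinuousOn (fun x => ext h.sys.R (x, t)) (Icc 0 1) :=
      (slice_continuousOn _ ht).mono sub_I
    intro x hx
    rcases eq_or_lt_of_le hx.2 with h2 | h2
    · subst h2
      have h3 : Tendsto (fun x => ext h.sys.R (x, t)) (𝓝[Ico 0 1] 1) (𝓝 (ext h.sys.R (1, t))) :=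
        (hc 1 hx).mono_left (nhdsWithin_mono _ Ico_subset_Icc_self)
      have : (𝓝[Ico (0 : ℝ) 1] 1).NeBot := by
        rw [← mem_closure_iff_nhdsWithin_neBot, closure_Ico (by norm_num)]
        exact right_mem_Icc.2 zero_le_one
      exact ge_of_tendsto h3 (by filter_upwards [self_mem_nhdsWithin] with y hy; exact h1 y hy)
    · exact h1 x ⟨hx.1, h2⟩
  have hanti := h.sys.vol_anti h.isEven hR
  refine ⟨|vol h.sys.mu 0| + 1, by positivity, fun t ht x hx c hc h1 h2 => ?_⟩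
  have hmu : ∀ y ∈ Icc (0 : ℝ) 1, ext h.sys.mu (y, t) * sx y ^ 19 =
      Real.exp (20 * f t y + 21 * w t y) * sx y ^ 19 := by
    intro y hy
    have hd : (y, t) ∈ dom T := mem_dom (sub_I hy) ht
    rw [Sys.mu, ext_expS _ hd, ext_add, ext_mul, ext_mul, ext_ofNat 20 hd, ext_ofNat 21 hd,
      h.ext_F (sub_I hy) ht, h.ext_W (sub_I hy) ht]
  have hle : vol h.sys.mu t ≤ |vol h.sys.mu 0| :=
    (hanti ⟨le_rfl, hT0⟩ ht ht.1).trans (le_abs_self _)
  have hxI : ∀ y ∈ Icc 0 x, y ∈ Icc (0 : ℝ) 1 := fun y hy => ⟨hy.1, hy.2.trans hx.2.le⟩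
  have hxI' : ∀ y ∈ Icc 0 x, y ∈ Ioo (-1 : ℝ) 1 := fun y hy =>
    ⟨by linarith only [hy, hy.1], lt_of_le_of_lt hy.2 hx.2⟩
  have i1 : IntervalIntegrable (fun y => ext h.sys.mu (y, t) * sx y ^ 19) volume 0 x := by
    refine ContinuousOn.intervalIntegrable ?_
    rw [uIcc_of_le hx.1]
    exact (slice_cont _ ht).mono hxI
  have i2 : IntervalIntegrable (fun y => ext h.sys.mu (y, t) * sx y ^ 19) volume x 1 := by
    refine ContinuousOn.intervalIntegrable ?_
    rw [uIcc_of_le hx.2.le]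
    exact (slice_cont _ ht).mono (Icc_subset_Icc_left hx.1)
  have hpart : ∫ y in (0 : ℝ)..x, ext h.sys.mu (y, t) * sx y ^ 19 ≤ vol h.sys.mu t := by
    rw [vol, ← intervalIntegral.integral_add_adjacent_intervals i1 i2]
    have : 0 ≤ ∫ y in x..1, ext h.sys.mu (y, t) * sx y ^ 19 := by
      refine intervalIntegral.integral_nonneg hx.2.le fun y hy => ?_
      rw [hmu y ⟨hx.1.trans hy.1, hy.2⟩]
      have := pow_nonneg (sx_nonneg y) 19
      positivity
    linarith only [h, this]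
  have i3 : IntervalIntegrable (fun y : ℝ => c ^ 21 * (1 / (1 - y ^ 2))) volume 0 x := by
    refine ContinuousOn.intervalIntegrable ?_
    rw [uIcc_of_le hx.1]
    refine continuousOn_const.mul (continuousOn_const.div (by fun_prop) fun y hy => ?_)
    exact (one_sub_sq_pos (hxI' y hy)).ne'
  have hlow : ∫ y in (0 : ℝ)..x, c ^ 21 * (1 / (1 - y ^ 2)) ≤
      ∫ y in (0 : ℝ)..x, ext h.sys.mu (y, t) * sx y ^ 19 := by
    refine intervalIntegral.integral_mono_on hx.1 i3 i1 fun y hy => ?_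
    rw [hmu y (hxI y hy)]
    have hs := sx_posQ (hxI' y hy)
    have hs2 := sx_sqQ (hxI' y hy)
    have b1 := h1 y hy
    have b2 := h2 y hy
    have b3 : Real.exp (20 * f t y + 21 * w t y) =
        (Real.exp (f t y) * Real.exp (w t y)) ^ 20 * Real.exp (w t y) := by
      rw [mul_pow, ← Real.exp_nat_mul, ← Real.exp_nat_mul, ← Real.exp_add, ← Real.exp_add]
      congr 1; push_cast; ring
    have b4 : Real.exp (20 * f t y + 21 * w t y) * sx y ^ 19 =
        (Real.exp (f t y) * Real.exp (w t y) * sx y) ^ 20 * (Real.exp (w t y) * sx y) *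
          (1 / sx y ^ 2) := by
      rw [b3]; field_simp
    rw [b4, ← hs2]
    refine mul_le_mul_of_nonneg_right ?_ (by positivity)
    calc c ^ 21 = c ^ 20 * c := by ring
      _ ≤ _ := mul_le_mul (pow_le_pow_left₀ hc.le b1 20) b2 hc.le (by positivity)
  have hart : ∫ y in (0 : ℝ)..x, c ^ 21 * (1 / (1 - y ^ 2)) =
      c ^ 21 * (Real.log ((1 + x) / (1 - x)) / 2) := by
    rw [intervalIntegral.integral_const_mul]
    congr 1
    have i4 : IntervalIntegrable (fun y : ℝ => 1 / (1 - y ^ 2)) volume 0 x := by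
      refine ContinuousOn.intervalIntegrable ?_
      rw [uIcc_of_le hx.1]
      refine continuousOn_const.div (by fun_prop) fun y hy => ?_
      exact (one_sub_sq_pos (hxI' y hy)).ne'
    rw [intervalIntegral.integral_eq_sub_of_hasDerivAt (f := fun y : ℝ =>
      Real.log ((1 + y) / (1 - y)) / 2) (fun y hy => ?_) i4]
    · simp
    · rw [uIcc_of_le hx.1] at hy
      exact hasDerivAt_artanh (hxI' y hy)
  rw [hart] at hlow
  linarith only [h, hle, hpart, hlow]

end MCVol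

end Vale.Agent.P244.ST
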