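import Vale.Agent.P244.ST.Iface
import Vale.Agent.P244.ST.A.EvLem

/-!
# P244-ST, block M : interface between the closures M2 ... M7 and `MStatement`
-/

open Set Filter
open scoped ContDiff Topology

namespace Vale.Agent.P244.ST

noncomputable section

/-- All hypotheses of `MStatement`. -/
structure MHyp (q : Par) (g : ℝ → ℝ) (b : Fin 3 → ℝ) (w f : Fn) (T t₁ : ℝ) : Prop where
  bub : IsBub g
  hT0 : 0 < T
  hT1 : T ≤ 1
  sol : ConfSol 20 w f T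
  qual : Qual w f T
  init : InitOK q g b w f
  ht₁ : t₁ ∈ Ico 0 T
  boot : Boot q g w f t₁
  close : ∀ t ∈ Icc 0 t₁, ∀ x ∈ Ico (0 : ℝ) 1, q.rho0 / 16 ≤ yv w f t x → yv w f t x ≤ 400 →
    |uu w f t x - q.A t * ph 3 (yv w f t x)| ≤ Real.sqrt q.sg * q.A t

/-- `EvM C`: for all bubble functions, for all parameters in order, `C` holds under `MHyp`. -/
def EvM (C : Par → (ℝ → ℝ) → Fn → Fn → ℝ → Prop) : Prop :=
  ∀ g : ℝ → ℝ, IsBub g → Ev fun q => ∀ b w f T t₁, MHyp q g b w f T t₁ → C q g w f t₁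

/-- M3, interior: strict (b1) for `0 < t`, `y < ρ₀`. -/
def M3Int : Prop := EvM fun q g w f t₁ => ∀ t ∈ Ioc 0 t₁, ∀ x ∈ Ioo (0 : ℝ) 1,
  yv w f t x < q.rho0 → |ff g w f t x| < q.fb t (uu w f t x)

/-- M3, boundary `y = ρ₀` (from M7 Bernstein 1, closeness and D7). -/
def M3Bd : Prop := EvM fun q g w f t₁ => ∀ t ∈ Icc 0 t₁, ∀ x ∈ Ioo (0 : ℝ) 1,
  yv w f t x = q.rho0 → |ff g w f t x| < q.fb t (uu w f t x)

/-- M4, interior: strict (b2) for `0 < t`, `y < ρ₀`. -/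
def M4Int : Prop := EvM fun q _ w f t₁ => ∀ t ∈ Ioc 0 t₁, ∀ x ∈ Ioo (0 : ℝ) 1,
  yv w f t x < q.rho0 → |VV w f t x| < q.Vb t (uu w f t x)

/-- M4, boundary `y = ρ₀` (from M7 Bernstein 2 and closeness). -/
def M4Bd : Prop := EvM fun q _g w f t₁ => ∀ t ∈ Icc 0 t₁, ∀ x ∈ Ioo (0 : ℝ) 1,
  yv w f t x = q.rho0 → |VV w f t x| < q.Vb t (uu w f t x)

/-- M5: strict (b3) for `0 < t`. -/
def M5Fin : Prop := EvM fun q _ w f t₁ => ∀ t ∈ Ioc 0 t₁, ∀ x ∈ Ico (0 : ℝ) 1,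
  RR w f t x < q.RB t (rr w f t x) (uu w f t x)

/-- M7: strict (b4). -/
def M7Fin : Prop := EvM fun q _ w f t₁ => ∀ t ∈ Icc 0 t₁, ∀ x ∈ Ico (0 : ℝ) 1,
  q.rho0 ≤ yv w f t x → yv w f t x ≤ 25 →
    |uu w f t x| < q.MU * q.A t ∧ |PP w f t x| < q.MP * q.A t / Real.sqrt (tau t) ∧
      |VV w f t x| < q.MV * q.A t / tau t

/-- M6, interior: strict (b5) for `0 < t`, `25 < y`. -/
def M6Int : Prop := EvM fun q _ w f t₁ => ∀ t ∈ Ioc 0 t₁, ∀ x ∈ Ico (0 : ℝ) 1,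
  25 < yv w f t x →
    |uu w f t x| < q.UB t (rr w f t x) ∧ |PP w f t x| < q.PB t (rr w f t x) ∧
      |VV w f t x| < q.VB t (rr w f t x)

/-- (b0) strict: the equator stays away. -/
def MEq : Prop := EvM fun q _ w f t₁ => ∀ t ∈ Icc 0 t₁, q.N / 4 < rr w f t 0

theorem EvM.and {C D : Par → (ℝ → ℝ) → Fn → Fn → ℝ → Prop} (hC : EvM C) (hD : EvM D) :
    EvM fun q g w f t₁ => C q g w f t₁ ∧ D q g w f t₁ := fun g hg =>
  (((hC g hg).and (hD g hg)).mono fun _ h b w f T t₁ hM =>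
    ⟨h.1 b w f T t₁ hM, h.2 b w f T t₁ hM⟩)

/-- Facts about the parameters alone. -/
theorem EvM.of_ev {C : Par → Prop} (hC : Ev C) : EvM fun q _ _ _ _ => C q := fun _ _ =>
  hC.mono fun _ h _ _ _ _ _ _ => h

theorem EvM.mono {C D : Par → (ℝ → ℝ) → Fn → Fn → ℝ → Prop} (hC : EvM C)
    (h : ∀ q g b w f T t₁, MHyp q g b w f T t₁ → C q g w f t₁ → D q g w f t₁) : EvM D :=
  fun g hg => (hC g hg).mono fun q hq b w f T t₁ hM => h q g b w f T t₁ hM (hq b w f T t₁ hM)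

end

end Vale.Agent.P244.ST
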