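import Vale.Agent.P244.ST.S.EvS
import Vale.Agent.P244.ST.M.Skel

/-!
# P244-ST : the barrier `RB` is at most `3 η` (pure inequalities)
-/

open Set
open scoped ContDiff

namespace Vale.Agent.P244.ST.RBL

open Vale.Agent.P244.ST

theorem kap_gt : (211 : ℝ) / 100 < kap := by
  unfold kap
  have h : Real.sqrt 1209 < 3478 / 100 := by
    rw [Real.sqrt_lt' (by norm_num)]; norm_num
  linarith only [h]

theorem kap_lt : kap < (212 : ℝ) / 100 := by
  unfold kap
  have h : (3476 : ℝ) / 100 < Real.sqrt 1209 := by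
    rw [Real.lt_sqrt (by norm_num)]; norm_num
  linarith only [h]

/-- the exponent `2/κ'` -/
noncomputable def se : ℝ := 2 / (kap * (1 + 1 / 10000))

theorem se_gt : (94 : ℝ) / 100 < se := by
  unfold se
  have h1 := kap_gt
  have h2 := kap_lt
  rw [lt_div_iff₀ (by nlinarith only [h1, h2])]
  nlinarith only [h1, h2]

theorem se_lt : se < (95 : ℝ) / 100 := by
  unfold se
  have h1 := kap_gt
  have h2 := kap_lt
  rw [div_lt_iff₀ (by nlinarith only [h1, h2])]
  nlinarith only [h1, h2]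

theorem lam3 : lam 3 = 3 - kap / 2 := by unfold lam; norm_num

theorem exp_tau : 0 ≤ 1 + lam 3 * se - gam := by
  unfold gam aa
  rw [lam3]
  have h1 := kap_gt
  have h2 := kap_lt
  have h3 := se_gt
  nlinarith only [h1, h2, h3]

/-- size of the second part of `RB` in region I -/
noncomputable def cI (q : Par) : ℝ :=
  2 * |q.GR| * q.rho0 ^ 2 * (6 / 5 : ℝ) ^ se * q.rho0 ^ (-(kap * se))

theorem rb_I : Ev fun q => ∀ t ∈ Ico (0 : ℝ) 1, ∀ r u : ℝ, 0 < r →
    r ^ 2 * (Real.cosh u - 1) ≤ 2 * q.rho0 ^ 2 * tau t * (6 / 5 * q.T0 t) ^ se →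
    q.RB t r u ≤ 3 * q.eta := by
  have hE : Ev fun q => q.eps ≤ (q.eta / (cI q + 1)) ^ 2 := by
    apply ev_eps
    · intro q q' h _ _ hN
      unfold cI Par.eta
      rw [h.GR, h.rho0, hN]
    · intro q h0 _ _ hN
      have h1 : 0 ≤ cI q := by unfold cI; positivity
      have h2 : 0 < q.eta := by unfold Par.eta; positivity
      positivity
  refine ((ev_pos (K := 1) one_pos).and hE).mono ?_
  rintro q ⟨hP, hq⟩ t ht r u hr hQ
  have hτ : 0 < tau t := by unfold tau; linarith only [ht, ht.2]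
  have hτ1 : tau t ≤ 1 := by unfold tau; linarith only [ht, ht.1]
  have hε : 0 < q.eps := hP.eps
  have hε1 : q.eps ≤ 1 := by have := hP.eps'; norm_num at this; exact this
  have hρ : 0 < q.rho0 := hP.rho0
  have hGR : 0 ≤ q.GR := le_trans zero_le_one hP.GR
  have hN : 0 < q.N := lt_of_lt_of_le one_pos hP.N
  have hη : 0 < q.eta := by unfold Par.eta; positivity
  have hs0 : 0 < se := lt_trans (by norm_num) se_gt
  unfold Par.RB
  have h1 : q.eta * (1 + t) ≤ 2 * q.eta := by nlinarith only [ht, hη, ht.2]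
  -- the second part
  have hb : tau t ≤ tau t + r ^ 2 / 100 := le_add_of_nonneg_right (by positivity)
  have hγ : 0 < gam := by
    unfold gam aa; rw [lam3]; nlinarith only [kap_lt]
  have h2 : (tau t + r ^ 2 / 100) ^ (-gam) ≤ (tau t) ^ (-gam) :=
    Real.rpow_le_rpow_of_nonpos hτ hb (by linarith only [hγ])
  have hcosh : 0 ≤ Real.cosh u - 1 := by linarith only [Real.one_le_cosh u]
  have hε2 : 0 < q.eps ^ (-(2 * aa)) := Real.rpow_pos_of_pos hε _
  have h3 : q.GR * r ^ 2 * (Real.cosh u - 1) * q.eps ^ (-(2 * aa)) * (tau t + r ^ 2 / 100) ^ (-gam)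
      ≤ q.GR * (2 * q.rho0 ^ 2 * tau t * (6 / 5 * q.T0 t) ^ se) * q.eps ^ (-(2 * aa))
        * (tau t) ^ (-gam) := by
    have e1 : q.GR * r ^ 2 * (Real.cosh u - 1) ≤
        q.GR * (2 * q.rho0 ^ 2 * tau t * (6 / 5 * q.T0 t) ^ se) := by
      rw [mul_assoc]; exact mul_le_mul_of_nonneg_left hQ hGR
    have e2 : 0 ≤ q.GR * r ^ 2 * (Real.cosh u - 1) := by positivity
    exact mul_le_mul (mul_le_mul_of_nonneg_right e1 hε2.le) h2
      (Real.rpow_nonneg (by positivity) _) (mul_nonneg (e2.trans e1) hε2.le)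
  -- rewrite in powers
  have h4 : (6 / 5 * q.T0 t) ^ se =
      (6 / 5 : ℝ) ^ se * (q.eps ^ se * (tau t) ^ (lam 3 * se) * q.rho0 ^ (-(kap * se))) := by
    unfold Par.T0 Par.A
    rw [Real.mul_rpow (by norm_num) (by positivity), Real.mul_rpow (by positivity) (by positivity),
      Real.mul_rpow hε.le (by positivity), ← Real.rpow_mul hτ.le, ← Real.rpow_mul hρ.le]
    congr 3; ring
  have h5 : q.GR * (2 * q.rho0 ^ 2 * tau t * (6 / 5 * q.T0 t) ^ se) * q.eps ^ (-(2 * aa))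
        * (tau t) ^ (-gam) = cI q * (q.eps ^ (se - 2 * aa) * (tau t) ^ (1 + lam 3 * se - gam)) := by
    rw [h4]
    unfold cI
    rw [abs_of_nonneg hGR]
    have e1 : q.eps ^ (se - 2 * aa) = q.eps ^ se * q.eps ^ (-(2 * aa)) := by
      rw [← Real.rpow_add hε]; ring_nf
    have e2 : (tau t) ^ (1 + lam 3 * se - gam) = tau t * (tau t) ^ (lam 3 * se) * (tau t) ^ (-gam) := by
      rw [sub_eq_add_neg, Real.rpow_add hτ, Real.rpow_add hτ, Real.rpow_one]
    rw [e1, e2]; ring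
  have h6 : (tau t) ^ (1 + lam 3 * se - gam) ≤ 1 := Real.rpow_le_one hτ.le hτ1 exp_tau
  have h7 : q.eps ^ (se - 2 * aa) ≤ q.eps ^ (1 / 2 : ℝ) :=
    Real.rpow_le_rpow_of_exponent_ge hε hε1 (by unfold aa; linarith only [hs0, se_gt])
  have hc : 0 ≤ cI q := by unfold cI; positivity
  have h8 : q.eps ^ (1 / 2 : ℝ) ≤ q.eta / (cI q + 1) := by
    rw [← Real.sqrt_eq_rpow]
    rw [Real.sqrt_le_left (by positivity)]
    exact hq
  have h9 : cI q * (q.eps ^ (se - 2 * aa) * (tau t) ^ (1 + lam 3 * se - gam)) ≤ q.eta := by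
    have e1 : q.eps ^ (se - 2 * aa) * (tau t) ^ (1 + lam 3 * se - gam) ≤ q.eta / (cI q + 1) := by
      calc _ ≤ q.eps ^ (se - 2 * aa) * 1 :=
            mul_le_mul_of_nonneg_left h6 (Real.rpow_nonneg hε.le _)
        _ ≤ _ := by rw [mul_one]; exact h7.trans h8
    calc _ ≤ cI q * (q.eta / (cI q + 1)) := mul_le_mul_of_nonneg_left e1 hc
      _ ≤ q.eta := by
        rw [mul_div_assoc', div_le_iff₀ (by linarith only [hc])]
        nlinarith only [hη]
  linarith only [h1, h3, h5, h9, h3.trans (h5.le.trans h9)]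

/-- `cosh u - 1 ≤ u²` for `|u| ≤ 1` -/
theorem cosh_sub_one_le {u : ℝ} (hu : |u| ≤ 1) : Real.cosh u - 1 ≤ u ^ 2 := by
  have h := Real.cosh_sq u
  have h1 : Real.cosh u ≤ Real.exp (u ^ 2 / 2) := Real.cosh_le_exp_half_sq u
  have h2 : u ^ 2 ≤ 1 := by
    rw [← sq_abs]; nlinarith only [hu, abs_nonneg u]
  have h3 : Real.exp (u ^ 2 / 2) ≤ 1 + u ^ 2 / 2 + (u ^ 2 / 2) ^ 2 := by
    have := Real.abs_exp_sub_one_sub_id_le (x := u ^ 2 / 2) (by
      rw [abs_of_nonneg (by positivity)]; linarith only [h2])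
    have := (abs_le.1 this).2
    linarith only [this]
  nlinarith only [h1, h2, h3, sq_nonneg u]

/-- size of the second part of `RB` in the outer region -/
noncomputable def cO (q : Par) : ℝ :=
  |q.GR| * (M.K1 q) ^ 2 * (100 : ℝ) ^ gam * q.N ^ (2 + 2 * bb - 2 * gam)

theorem rb_O : Ev fun q => ∀ t ∈ Ico (0 : ℝ) 1, ∀ r u : ℝ, 0 < r → r ≤ q.N →
    |u| ≤ M.K1 q * q.eps * r ^ bb → q.RB t r u ≤ 3 * q.eta := by
  have hE : Ev fun q => q.eps ≤ min (q.eta / (cO q + 1)) (1 / (|M.K1 q| * q.N ^ bb + 1)) := by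
    apply ev_eps
    · intro q q' h _ _ hN
      unfold cO M.K1 Par.eta
      rw [h.GR, h.rho0, hN, h.MU, h.MP, h.MV, h.CU, h.CP, h.CV]
    · intro q h0 _ _ hN
      have h1 : 0 ≤ cO q := by unfold cO; positivity
      have h2 : 0 < q.eta := by unfold Par.eta; positivity
      have h3 : 0 < q.N ^ bb := Real.rpow_pos_of_pos hN _
      exact lt_min (by positivity) (by positivity)
  refine ((ev_pos (K := 1) one_pos).and hE).mono ?_
  rintro q ⟨hP, hq⟩ t ht r u hr hrN hu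
  have hτ : 0 < tau t := by unfold tau; linarith only [ht, ht.2]
  have hε : 0 < q.eps := hP.eps
  have hε1 : q.eps ≤ 1 := by have := hP.eps'; norm_num at this; exact this
  have hρ : 0 < q.rho0 := hP.rho0
  have hGR : 0 ≤ q.GR := le_trans zero_le_one hP.GR
  have hN : 0 < q.N := lt_of_lt_of_le one_pos hP.N
  have hη : 0 < q.eta := by unfold Par.eta; positivity
  have hb : 0 < bb := by unfold bb; linarith only [kap_lt]
  have hγ : 0 < gam := by
    unfold gam aa; rw [lam3]; nlinarith only [kap_lt]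
  have hrb : r ^ bb ≤ q.N ^ bb := Real.rpow_le_rpow hr.le hrN hb.le
  have hrb0 : 0 < r ^ bb := Real.rpow_pos_of_pos hr _
  have hu1 : |u| ≤ 1 := by
    have h1 := hq.trans (min_le_right _ _)
    rw [le_div_iff₀ (by positivity)] at h1
    calc |u| ≤ M.K1 q * q.eps * r ^ bb := hu
      _ ≤ |M.K1 q| * q.eps * q.N ^ bb := by
        apply mul_le_mul (mul_le_mul_of_nonneg_right (le_abs_self _) hε.le) hrb hrb0.le
        positivity
      _ ≤ 1 := by nlinarith only [hε, h1]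
  unfold Par.RB
  have h1 : q.eta * (1 + t) ≤ 2 * q.eta := by nlinarith only [ht, hη, ht.2]
  have h2 : (tau t + r ^ 2 / 100) ^ (-gam) ≤ (r ^ 2 / 100) ^ (-gam) :=
    Real.rpow_le_rpow_of_nonpos (by positivity) (by linarith only [hτ]) (by linarith only [hγ])
  have h3 : Real.cosh u - 1 ≤ (M.K1 q * q.eps * r ^ bb) ^ 2 := by
    refine (cosh_sub_one_le hu1).trans ?_
    rw [← sq_abs u]
    exact pow_le_pow_left₀ (abs_nonneg _) hu 2
  have hcosh : 0 ≤ Real.cosh u - 1 := by linarith only [Real.one_le_cosh u]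
  have hε2 : 0 < q.eps ^ (-(2 * aa)) := Real.rpow_pos_of_pos hε _
  have h4 : q.GR * r ^ 2 * (Real.cosh u - 1) * q.eps ^ (-(2 * aa)) * (tau t + r ^ 2 / 100) ^ (-gam)
      ≤ q.GR * r ^ 2 * (M.K1 q * q.eps * r ^ bb) ^ 2 * q.eps ^ (-(2 * aa))
        * (r ^ 2 / 100) ^ (-gam) := by
    have e1 : q.GR * r ^ 2 * (Real.cosh u - 1) ≤ q.GR * r ^ 2 * (M.K1 q * q.eps * r ^ bb) ^ 2 :=
      mul_le_mul_of_nonneg_left h3 (by positivity)
    have e2 : 0 ≤ q.GR * r ^ 2 * (Real.cosh u - 1) := by positivity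
    exact mul_le_mul (mul_le_mul_of_nonneg_right e1 hε2.le) h2
      (Real.rpow_nonneg (by positivity) _) (mul_nonneg (e2.trans e1) hε2.le)
  have h5 : q.GR * r ^ 2 * (M.K1 q * q.eps * r ^ bb) ^ 2 * q.eps ^ (-(2 * aa))
        * (r ^ 2 / 100) ^ (-gam) = q.GR * (M.K1 q) ^ 2 * (100 : ℝ) ^ gam *
          r ^ (2 + 2 * bb - 2 * gam) * q.eps ^ (2 - 2 * aa) := by
    have e1 : (r ^ 2 / 100) ^ (-gam) = r ^ (-(2 * gam)) * (100 : ℝ) ^ gam := by
      rw [Real.div_rpow (by positivity) (by norm_num), ← Real.rpow_natCast r 2,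
        ← Real.rpow_mul hr.le, Real.rpow_neg (by norm_num : (0:ℝ) ≤ 100), div_inv_eq_mul]
      congr 2; push_cast; ring
    have e2 : r ^ (2 + 2 * bb - 2 * gam) = r ^ 2 * (r ^ bb) ^ 2 * r ^ (-(2 * gam)) := by
      rw [sub_eq_add_neg, Real.rpow_add hr, Real.rpow_add hr]
      congr 2
      · rw [← Real.rpow_natCast r 2]; norm_num
      · rw [← Real.rpow_natCast (r ^ bb) 2, ← Real.rpow_mul hr.le]; congr 1; push_cast; ring
    have e3 : q.eps ^ (2 - 2 * aa) = q.eps ^ 2 * q.eps ^ (-(2 * aa)) := by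
      rw [sub_eq_add_neg, Real.rpow_add hε]
      congr 1
      rw [← Real.rpow_natCast q.eps 2]; norm_num
    rw [e1, e2, e3]; ring
  have he : 0 ≤ 2 + 2 * bb - 2 * gam := by
    unfold bb gam aa; rw [lam3]; nlinarith only [kap_lt, kap_gt]
  have h6 : r ^ (2 + 2 * bb - 2 * gam) ≤ q.N ^ (2 + 2 * bb - 2 * gam) :=
    Real.rpow_le_rpow hr.le hrN he
  have h7 : q.eps ^ (2 - 2 * aa) ≤ q.eps := by
    have := Real.rpow_le_rpow_of_exponent_ge hε hε1 (show (1 : ℝ) ≤ 2 - 2 * aa by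
      unfold aa; norm_num)
    rwa [Real.rpow_one] at this
  have h8 : q.GR * (M.K1 q) ^ 2 * (100 : ℝ) ^ gam *
          r ^ (2 + 2 * bb - 2 * gam) * q.eps ^ (2 - 2 * aa) ≤ cO q * q.eps := by
    unfold cO
    rw [abs_of_nonneg hGR]
    apply mul_le_mul (mul_le_mul_of_nonneg_left h6 (by positivity)) h7
      (Real.rpow_nonneg hε.le _) (by positivity)
  have hc : 0 ≤ cO q := by unfold cO; positivity
  have h9 : cO q * q.eps ≤ q.eta := by
    have h10 := hq.trans (min_le_left _ _)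
    rw [le_div_iff₀ (by linarith only [hc])] at h10
    nlinarith only [hε, h10]
  linarith only [h1, h4, h5, h8, h9, h4.trans (h5.le.trans (h8.trans h9))]

/-- input of `rb_I` where `sinh u ≥ 1` -/
theorem QI_big {q : Par} {t r u : ℝ} (hT : 0 ≤ q.T0 t) (hτ : 0 ≤ tau t)
    (h : r ^ 2 * Real.cosh u ≤ Real.sqrt 2 * q.rho0 ^ 2 * tau t * (11 / 10 * q.T0 t) ^ se) :
    r ^ 2 * (Real.cosh u - 1) ≤ 2 * q.rho0 ^ 2 * tau t * (6 / 5 * q.T0 t) ^ se := by
  have h1 : (11 / 10 * q.T0 t) ^ se ≤ (6 / 5 * q.T0 t) ^ se :=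
    Real.rpow_le_rpow (by positivity) (by linarith only [hT]) (by linarith only [se_gt])
  have h2 : Real.sqrt 2 ≤ 2 := by
    rw [Real.sqrt_le_left (by norm_num)]; norm_num
  have h3 : Real.sqrt 2 * q.rho0 ^ 2 * tau t * (11 / 10 * q.T0 t) ^ se ≤
      2 * q.rho0 ^ 2 * tau t * (6 / 5 * q.T0 t) ^ se := by
    apply mul_le_mul _ h1 (Real.rpow_nonneg (by positivity) _) (by positivity)
    exact mul_le_mul_of_nonneg_right (mul_le_mul_of_nonneg_right h2 (sq_nonneg _)) hτ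
  nlinarith only [h, h3, sq_nonneg r]

/-- input of `rb_I` where `sinh u ≤ 1` -/
theorem QI_small {q : Par} {t r u : ℝ} (hT : 0 < q.T0 t) (hτ : 0 < tau t) (hρ : 0 < q.rho0)
    (hr : 0 < r) (hu : 0 < u) (h1 : Real.sinh u ≤ 1)
    (h : Real.sinh u ≤ 6 / 5 * q.T0 t *
      (q.rho0 * Real.sqrt (tau t) / r) ^ (kap * (1 + 1 / 10000))) :
    r ^ 2 * (Real.cosh u - 1) ≤ 2 * q.rho0 ^ 2 * tau t * (6 / 5 * q.T0 t) ^ se := by
  have hs : 0 < Real.sinh u := Real.sinh_pos_iff.2 hu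
  have hsτ : 0 < Real.sqrt (tau t) := Real.sqrt_pos.2 hτ
  have hk : 0 < kap * (1 + 1 / 10000) := by nlinarith only [kap_gt]
  have hse : 0 < se := by linarith only [se_gt]
  have e1 : Real.cosh u - 1 ≤ Real.sinh u ^ 2 / 2 := by
    have h2 := Real.cosh_sq u
    have h3 := Real.one_le_cosh u
    nlinarith only [h2, h3]
  have e2 : Real.sinh u ^ 2 ≤ Real.sinh u ^ se := by
    have := Real.rpow_le_rpow_of_exponent_ge hs h1 (show se ≤ 2 by linarith only [se_lt])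
    rwa [Real.rpow_two] at this
  have e3 : Real.sinh u ^ se ≤ (6 / 5 * q.T0 t) ^ se * ((q.rho0 * Real.sqrt (tau t) / r) ^ 2) := by
    have h2 := Real.rpow_le_rpow hs.le h hse.le
    rw [Real.mul_rpow (by positivity) (Real.rpow_nonneg (by positivity) _),
      ← Real.rpow_mul (by positivity : 0 ≤ q.rho0 * Real.sqrt (tau t) / r)] at h2
    have h3 : kap * (1 + 1 / 10000) * se = 2 := by
      unfold se
      exact mul_div_cancel₀ 2 hk.ne'
    rw [h3, Real.rpow_two] at h2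
    exact h2
  have e4 : r ^ 2 * (q.rho0 * Real.sqrt (tau t) / r) ^ 2 = q.rho0 ^ 2 * tau t := by
    rw [div_pow, mul_pow, Real.sq_sqrt hτ.le]
    field_simp
  have hB : 0 ≤ (6 / 5 * q.T0 t) ^ se := Real.rpow_nonneg (by positivity) _
  calc r ^ 2 * (Real.cosh u - 1) ≤ r ^ 2 * ((6 / 5 * q.T0 t) ^ se *
        ((q.rho0 * Real.sqrt (tau t) / r) ^ 2) / 2) :=
        mul_le_mul_of_nonneg_left (by linarith only [e1, e2, e3]) (sq_nonneg r)
    _ = (r ^ 2 * (q.rho0 * Real.sqrt (tau t) / r) ^ 2) * (6 / 5 * q.T0 t) ^ se / 2 := by ring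
    _ = q.rho0 ^ 2 * tau t * (6 / 5 * q.T0 t) ^ se / 2 := by rw [e4]
    _ ≤ 2 * q.rho0 ^ 2 * tau t * (6 / 5 * q.T0 t) ^ se := by
      have : 0 ≤ q.rho0 ^ 2 * tau t * (6 / 5 * q.T0 t) ^ se := by positivity
      nlinarith only [this]

end Vale.Agent.P244.ST.RBL
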