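import Vale.Agent.P244.ST.M2Static
import Vale.Agent.P244.ST.Iface

/-!
# P244-ST, block M2 : region I (`y ≤ ρ₀`) at one fixed time, facts (D1)-(D4)
-/

open Set Filter Topology
open scoped ContDiff

namespace Vale.Agent.P244.ST.RegI

noncomputable section

/-- smallness of the parameters used in region I -/
structure SmallI (q : Par) : Prop where
  B1 : 1 ≤ q.B
  r0 : 0 < q.rho0
  r1 : q.rho0 ≤ 1 / 2
  Br : 2 * q.B * q.rho0 ^ 2 ≤ 1 / 10000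
  l3 : |ll 3 (q.rho0 ^ 2 / 4) - 1| ≤ 1 / 50
  sg0 : 0 < q.sg
  sgs : Real.sqrt q.sg * q.rho0 ^ kap ≤ 1 / 50
  N4 : 4 ≤ q.N
  e0 : 0 < q.eps
  T0s : q.eps * q.rho0 ^ (-kap) ≤ 1 / 100

theorem ll_cont (i : ℕ) : Continuous (ll i) := by
  unfold ll
  fun_prop

theorem ll3_zero : ll 3 0 = 1 := by
  unfold ll
  simp [Finset.sum_range_succ]

theorem ll3_near : ∃ r₁ > (0 : ℝ), ∀ r, 0 < r → r ≤ r₁ → |ll 3 (r ^ 2 / 4) - 1| ≤ 1 / 50 := by
  have hc : Continuous fun r : ℝ => ll 3 (r ^ 2 / 4) := (ll_cont 3).comp (by fun_prop)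
  have h1 : ContinuousAt (fun r : ℝ => ll 3 (r ^ 2 / 4)) 0 := hc.continuousAt
  obtain ⟨δ, hδ, h2⟩ := Metric.continuousAt_iff.mp h1 (1 / 50) (by norm_num)
  refine ⟨δ / 2, by positivity, fun r hr0 hr1 => ?_⟩
  have h3 := h2 (x := r) (by rw [dist_eq_norm, sub_zero, Real.norm_eq_abs, abs_of_pos hr0]; linarith only [hr0, hr1])
  rw [dist_eq_norm, Real.norm_eq_abs] at h3
  have e : ll 3 ((0 : ℝ) ^ 2 / 4) = 1 := by
    rw [show (0 : ℝ) ^ 2 / 4 = 0 by norm_num]; exact ll3_zero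
  rw [e] at h3
  exact h3.le

theorem kap_pos : 0 < kap := by linarith only [M2.kap_gt]

theorem ev_smallI : Ev SmallI := by
  obtain ⟨d, hd, hll⟩ := ll3_near
  refine ⟨1, fun B hB => ?_⟩
  have hB0 : 0 < B := by linarith only [hB]
  refine ⟨min (min (1 / 2) d) (1 / (20000 * B)), by positivity, fun rho0 hr => ?_⟩
  obtain ⟨hr0, hr1⟩ := hr
  have h1 : rho0 ≤ 1 / 2 := hr1.trans ((min_le_left _ _).trans (min_le_left _ _))
  have h2 : rho0 ≤ d := hr1.trans ((min_le_left _ _).trans (min_le_right _ _))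
  have h3 : rho0 ≤ 1 / (20000 * B) := hr1.trans (min_le_right _ _)
  have h4 : 2 * B * rho0 ^ 2 ≤ 1 / 10000 := by
    rw [le_div_iff₀ (by positivity)] at h3
    nlinarith only [hB, hr0, h1, h3]
  refine ⟨0, fun BV _ => ⟨0, fun MU _ => ⟨0, fun MP _ => ⟨0, fun MV _ => ⟨0, fun CU _ =>
    ⟨0, fun CP _ => ⟨0, fun CV _ => ⟨0, fun GR _ => ⟨1 / 2500, by norm_num, fun sg hsg =>
    ⟨1, one_pos, fun d0 _ => ⟨1, one_pos, fun rb _ => ⟨4, fun N hN =>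
    ⟨rho0 ^ kap / 100, by positivity, fun eps he => ?_⟩⟩⟩⟩⟩⟩⟩⟩⟩⟩⟩⟩⟩
  obtain ⟨hs0, hs1⟩ := hsg
  obtain ⟨he0, he1⟩ := he
  refine ⟨hB, hr0, h1, h4, hll rho0 hr0 h2, hs0, ?_, hN, he0, ?_⟩
  · have k1 : Real.sqrt sg ≤ 1 / 50 := by
      rw [show (1 / 50 : ℝ) = Real.sqrt (1 / 2500) by
        rw [show (1 / 2500 : ℝ) = (1 / 50) ^ 2 by norm_num, Real.sqrt_sq (by norm_num)]]
      exact Real.sqrt_le_sqrt hs1
    have k2 : rho0 ^ kap ≤ 1 := Real.rpow_le_one hr0.le (by linarith only [h1, hs0, hs1]) kap_pos.le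
    have k3 : 0 ≤ rho0 ^ kap := Real.rpow_nonneg hr0.le _
    show Real.sqrt sg * rho0 ^ kap ≤ 1 / 50
    calc Real.sqrt sg * rho0 ^ kap ≤ 1 / 50 * 1 := mul_le_mul k1 k2 k3 (by norm_num)
      _ = 1 / 50 := by norm_num
  · show eps * rho0 ^ (-kap) ≤ 1 / 100
    have k3 : 0 < rho0 ^ kap := Real.rpow_pos_of_pos hr0 _
    rw [Real.rpow_neg hr0.le, ← div_eq_mul_inv, div_le_iff₀ k3]
    linarith only [he1]

/-- the hypotheses at one time -/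
structure Hyp (q : Par) (g : ℝ → ℝ) (w f : Fn) (t : ℝ) : Prop where
  bub : IsBub g
  sl : M2.Slice w f t
  t0 : 0 ≤ t
  t1 : t < 1
  rs_pos : ∀ x ∈ Ioo (0 : ℝ) 1, 0 < rs w f t x
  G_le : ∀ x ∈ Ioo (0 : ℝ) 1, |GG w f t x| ≤ 2
  b1 : ∀ x ∈ Ioo (0 : ℝ) 1, yv w f t x ≤ q.rho0 →
    0 < uu w f t x ∧ |ff g w f t x| ≤ q.fb t (uu w f t x)
  eqr : q.N / 4 ≤ rr w f t 0
  bd : ∀ x ∈ Ioo (0 : ℝ) 1, yv w f t x = q.rho0 →
    9 / 10 * q.T0 t ≤ Real.tanh (uu w f t x) ∧ Real.tanh (uu w f t x) ≤ 11 / 10 * q.T0 t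
  small : SmallI q

theorem tau_pos {t : ℝ} (h : t < 1) : 0 < tau t := by unfold tau; linarith only [h]

theorem tau_le {t : ℝ} (h : 0 ≤ t) : tau t ≤ 1 := by unfold tau; linarith only [h]

/-! ### `T₀` -/

theorem T0_pos {q : Par} (hq : SmallI q) {t : ℝ} (h : t < 1) : 0 < q.T0 t := by
  have h1 := tau_pos h
  have h2 := hq.r0
  have h3 := hq.e0
  unfold Par.T0 Par.A
  positivity

theorem T0_le {q : Par} (hq : SmallI q) {t : ℝ} (h0 : 0 ≤ t) (h : t < 1) : q.T0 t ≤ 1 / 100 := by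
  have h1 := tau_pos h
  have h2 := tau_le h0
  have h3 := hq.e0
  have h4 := hq.r0
  have h5 : tau t ^ lam 3 ≤ 1 := by
    refine Real.rpow_le_one h1.le h2 ?_
    unfold lam
    have := M2.kap_lt
    push_cast
    linarith only [this]
  have h6 : 0 ≤ q.rho0 ^ (-kap) := Real.rpow_nonneg h4.le _
  have h7 := hq.T0s
  unfold Par.T0 Par.A
  calc q.eps * tau t ^ lam 3 * q.rho0 ^ (-kap) = q.eps * q.rho0 ^ (-kap) * tau t ^ lam 3 := by ring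
    _ ≤ q.eps * q.rho0 ^ (-kap) * 1 := mul_le_mul_of_nonneg_left h5 (by positivity)
    _ ≤ 1 / 100 := by linarith only [h7]

/-! ### small facts on hyperbolic functions -/

theorem sinh_le {u : ℝ} (h0 : 0 ≤ u) (h1 : u ≤ 1) : Real.sinh u ≤ u * (1 + u / 2) := by
  have h2 := Real.abs_exp_sub_one_sub_id_le (x := u) (by rw [abs_of_nonneg h0]; exact h1)
  have h3 := (abs_le.mp h2).2
  have h4 := Real.add_one_le_exp (-u)
  rw [Real.sinh_eq]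
  nlinarith only [h3, h4]

theorem tanh_le_sinh {u : ℝ} (h0 : 0 ≤ u) : Real.tanh u ≤ Real.sinh u := by
  rw [Real.tanh_eq_sinh_div_cosh]
  exact div_le_self (Real.sinh_nonneg_iff.mpr h0) (Real.one_le_cosh u)

theorem cosh_le_small {u : ℝ} (h0 : 0 ≤ u) (h1 : u ≤ 1 / 50) : Real.cosh u ≤ 1001 / 1000 := by
  have h2 := Real.cosh_le_exp_half_sq u
  have h3 : u ^ 2 / 2 ≤ 1 / 5000 := by nlinarith only [h0, h1]
  have h4 : Real.exp (u ^ 2 / 2) ≤ Real.exp (1 / 5000) := Real.exp_le_exp.mpr h3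
  have h5 := Real.abs_exp_sub_one_sub_id_le (x := 1 / 5000) (by norm_num [abs_of_pos])
  have h6 := (abs_le.mp h5).2
  norm_num at h6
  linarith only [h2, h4, h6]

theorem tanh_ge_small {u : ℝ} (h0 : 0 ≤ u) (h1 : u ≤ 1 / 50) :
    99 / 100 * u ≤ Real.tanh u := by
  have h2 := cosh_le_small h0 h1
  have h3 := Real.cosh_pos u
  have h4 : u ≤ Real.sinh u := Real.self_le_sinh_iff.mpr h0
  rw [Real.tanh_eq_sinh_div_cosh, le_div_iff₀ h3]
  nlinarith only [h0, h2, h4]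

theorem cosh_of_tanh {u c : ℝ} (h0 : 0 ≤ Real.tanh u) (h1 : Real.tanh u ≤ c) (hc : c ≤ 1 / 50) :
    Real.cosh u ≤ 1001 / 1000 := by
  have hp := Real.cosh_pos u
  have e1 : Real.sinh u = Real.tanh u * Real.cosh u := by
    rw [Real.tanh_eq_sinh_div_cosh, div_mul_cancel₀ _ hp.ne']
  have e2 := Real.cosh_sq u
  rw [e1] at e2
  have h2 : Real.tanh u ^ 2 ≤ (1 / 50) ^ 2 := pow_le_pow_left₀ h0 (h1.trans hc) 2
  have h3 : Real.tanh u ^ 2 * Real.cosh u ^ 2 ≤ (1 / 50) ^ 2 * Real.cosh u ^ 2 :=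
    mul_le_mul_of_nonneg_right h2 (sq_nonneg _)
  nlinarith only [hp, e2, h3]

end

end Vale.Agent.P244.ST.RegI
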