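import Vale.Agent.P244.ST.RegI

/-!
# P244-ST, block M2 : region I, existence of the boundary point and monotone quantities
-/

open Set Filter Topology
open scoped ContDiff

namespace Vale.Agent.P244.ST.RegI

noncomputable section

/-! ### monotonicity along `x` -/

theorem anti_of {a b : ℝ} {F F' : ℝ → ℝ} (hF : ∀ x ∈ Icc a b, HasDerivAt F (F' x) x)
    (h : ∀ x ∈ Icc a b, F' x ≤ 0) (hab : a ≤ b) : F b ≤ F a := by
  have h1 : AntitoneOn F (Icc a b) := by
    refine antitoneOn_of_deriv_nonpos (convex_Icc a b)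
      (fun x hx => (hF x hx).continuousAt.continuousWithinAt) ?_ ?_
    · intro x hx
      exact (hF x (interior_subset hx)).differentiableAt.differentiableWithinAt
    · intro x hx
      rw [(hF x (interior_subset hx)).deriv]
      exact h x (interior_subset hx)
  exact h1 (left_mem_Icc.mpr hab) (right_mem_Icc.mpr hab) hab

theorem mono_of {a b : ℝ} {F F' : ℝ → ℝ} (hF : ∀ x ∈ Icc a b, HasDerivAt F (F' x) x)
    (h : ∀ x ∈ Icc a b, 0 ≤ F' x) (hab : a ≤ b) : F a ≤ F b := by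
  have h1 := anti_of (F := fun x => -F x) (F' := fun x => -F' x)
    (fun x hx => (hF x hx).neg) (fun x hx => by have := h x hx; linarith only [this]) hab
  simpa using h1

section

variable {q : Par} {g : ℝ → ℝ} {w f : Fn} {t : ℝ}

theorem mem1 {x : ℝ} (hx : x ∈ Ioo (0 : ℝ) 1) : x ∈ Ioo (-1 : ℝ) 1 := ⟨by linarith only [hx, hx.1], hx.2⟩

/-- `r` decreases strictly on `[0,1)` -/
theorem rr_anti (sl : M2.Slice w f t) (hrs : ∀ x ∈ Ioo (0 : ℝ) 1, 0 < rs w f t x) :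
    StrictAntiOn (rr w f t) (Ico 0 1) := by
  have hsub : Ico (0 : ℝ) 1 ⊆ Ioo (-1 : ℝ) 1 := fun x hx => ⟨by linarith only [hx, hx.1], hx.2⟩
  refine strictAntiOn_of_deriv_neg (convex_Ico 0 1) ((M2.smooth_rr sl).continuousOn.mono hsub) ?_
  intro x hx
  rw [interior_Ico] at hx
  rw [(M2.hasDerivAt_rr sl (mem1 hx)).deriv]
  exact mul_neg_of_neg_of_pos (M2.r1_neg (mem1 hx) (hrs x hx)) (M2.rr_pos x)

/-- `r → 0` at the tip -/
theorem rr_tip (sl : M2.Slice w f t) : Tendsto (rr w f t) (𝓝[<] 1) (𝓝 0) := by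
  have hc : ContinuousOn (fun x => f t x + w t x) (Icc (-1) 1) :=
    sl.hf.continuousOn.add sl.hw.continuousOn
  obtain ⟨C, hC⟩ := isCompact_Icc.exists_bound_of_continuousOn hc
  have hlog : Tendsto (fun x : ℝ => Real.log (1 - x ^ 2)) (𝓝[<] 1) atBot := by
    refine Real.tendsto_log_nhdsGT_zero.comp ?_
    refine tendsto_nhdsWithin_iff.mpr ⟨?_, ?_⟩
    · have h1 : ContinuousAt (fun x : ℝ => 1 - x ^ 2) 1 := by fun_prop
      have h2 : Tendsto (fun x : ℝ => 1 - x ^ 2) (𝓝 1) (𝓝 0) := by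
        have := h1.tendsto
        norm_num at this
        exact this
      exact h2.mono_left nhdsWithin_le_nhds
    · have h3 : ∀ᶠ x : ℝ in 𝓝[<] 1, x ∈ Ioo (0 : ℝ) 1 :=
        Ioo_mem_nhdsLT (by norm_num)
      filter_upwards [h3] with x hx
      show (0 : ℝ) < 1 - x ^ 2
      nlinarith only [hx, hx.1, hx.2]
  have hrho : Tendsto (rho w f t) (𝓝[<] 1) atBot := by
    have hb : Tendsto (fun x : ℝ => (C + Real.log (1 - x ^ 2) / 2 - Real.log zeta0) / 2)
        (𝓝[<] 1) atBot := by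
      refine Tendsto.atBot_div_const (by norm_num) ?_
      refine tendsto_atBot_add_const_right _ (-Real.log zeta0) ?_
      refine tendsto_atBot_add_const_left _ C ?_
      exact Tendsto.atBot_div_const (by norm_num) hlog
    refine tendsto_atBot_mono' _ ?_ hb
    have h3 : ∀ᶠ x : ℝ in 𝓝[<] 1, x ∈ Ioo (0 : ℝ) 1 := Ioo_mem_nhdsLT (by norm_num)
    filter_upwards [h3] with x hx
    have h4 := hC x ⟨by linarith only [hx, hx.1], hx.2.le⟩
    rw [Real.norm_eq_abs] at h4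
    have h5 := (abs_le.mp h4).2
    unfold rho
    linarith only [h5]
  exact Real.tendsto_exp_atBot.comp hrho

theorem Hyp.tau_pos (h : Hyp q g w f t) : 0 < tau t := RegI.tau_pos h.t1

theorem Hyp.sq_pos (h : Hyp q g w f t) : 0 < Real.sqrt (tau t) := Real.sqrt_pos.mpr h.tau_pos

theorem Hyp.yv_le_iff (h : Hyp q g w f t) {x c : ℝ} :
    yv w f t x ≤ c ↔ rr w f t x ≤ c * Real.sqrt (tau t) := by
  unfold yv
  rw [div_le_iff₀ h.sq_pos]

/-- the boundary point of region I -/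
theorem Hyp.exists_x0 (h : Hyp q g w f t) : ∃ x0 ∈ Ioo (0 : ℝ) 1, yv w f t x0 = q.rho0 ∧
    ∀ x ∈ Ioo (0 : ℝ) 1, (yv w f t x ≤ q.rho0 ↔ x0 ≤ x) := by
  have hsq := h.sq_pos
  have hsq1 : Real.sqrt (tau t) ≤ 1 := by
    have := Real.sqrt_le_sqrt (tau_le h.t0)
    rwa [Real.sqrt_one] at this
  have hr0 := h.small.r0
  have hanti := rr_anti h.sl h.rs_pos
  have hv : 0 < q.rho0 * Real.sqrt (tau t) := by positivity
  have h1 : q.rho0 * Real.sqrt (tau t) < rr w f t 0 := by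
    have k1 : q.rho0 * Real.sqrt (tau t) ≤ 1 / 2 * 1 :=
      mul_le_mul h.small.r1 hsq1 hsq.le (by norm_num)
    have k2 := h.eqr
    have k3 := h.small.N4
    linarith only [hv, k1, k2, k3]
  have h2 : ∀ᶠ x in 𝓝[<] (1 : ℝ), rr w f t x < q.rho0 * Real.sqrt (tau t) :=
    (rr_tip h.sl).eventually (gt_mem_nhds hv)
  have h3 : ∀ᶠ x : ℝ in 𝓝[<] 1, x ∈ Ioo (0 : ℝ) 1 := Ioo_mem_nhdsLT (by norm_num)
  obtain ⟨x2, h4, h5⟩ := (h2.and h3).exists
  have hsub : Icc (0 : ℝ) x2 ⊆ Ioo (-1 : ℝ) 1 :=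
    fun x hx => ⟨by linarith only [hx, hx.1], lt_of_le_of_lt hx.2 h5.2⟩
  have hcont : ContinuousOn (rr w f t) (Icc 0 x2) := (M2.smooth_rr h.sl).continuousOn.mono hsub
  obtain ⟨x0, hx0, he⟩ := intermediate_value_Icc' h5.1.le hcont ⟨h4.le, h1.le⟩
  have hx00 : 0 < x0 := by
    rcases hx0.1.eq_or_lt with hh | hh
    · rw [← hh] at he; linarith only [h1, he]
    · exact hh
  have hx01 : x0 < 1 := lt_of_le_of_lt hx0.2 h5.2
  refine ⟨x0, ⟨hx00, hx01⟩, ?_, fun x hx => ?_⟩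
  · unfold yv
    rw [he]
    field_simp
  · rw [h.yv_le_iff, ← he]
    exact hanti.le_iff_ge ⟨hx.1.le, hx.2⟩ ⟨hx00.le, hx01⟩

end

end

end Vale.Agent.P244.ST.RegI
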