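import Vale.Agent.P244.ST.RegI2
import Vale.Agent.P244.ST.PureF

/-!
# P244-ST, block M2 : region I, (D1)
-/

open Set Filter Topology
open scoped ContDiff

namespace Vale.Agent.P244.ST.RegI

noncomputable section

variable {q : Par} {g : ℝ → ℝ} {w f : Fn} {t : ℝ}

theorem tanh_pos {u : ℝ} (hu : 0 < u) : 0 < Real.tanh u := PureF.tanh_pos hu

theorem G_eq (hg : IsBub g) {x : ℝ} (hu : 0 < uu w f t x) :
    GG w f t x = g (uu w f t x) * (1 - ee g w f t x) := by
  have := (PureF.g_pos hg hu).ne'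
  unfold ee
  field_simp
  ring

theorem e_abs {x : ℝ} : |ee g w f t x| = rr w f t x ^ 2 * |ff g w f t x| := by
  have h1 := M2.rr_pos (w := w) (f := f) (t := t) x
  have h2 : ee g w f t x = rr w f t x ^ 2 * ff g w f t x := by
    unfold ff; field_simp
  rw [h2, abs_mul, abs_of_pos (by positivity)]

/-- the bound of `e` in region I -/
def eb (q : Par) (w f : Fn) (t x : ℝ) : ℝ := rr w f t x ^ 2 * q.fb t (uu w f t x)

/-- its logarithm, up to a constant -/
def Lf (w f : Fn) (t x : ℝ) : ℝ :=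
  2 * rho w f t x + aa * Real.log (Real.tanh (uu w f t x))
    - (1 - aa) * Real.log (Real.cosh (uu w f t x))

def Lc (q : Par) (t : ℝ) : ℝ := Real.log (q.B / tau t) - aa * Real.log (q.T0 t)

theorem eb_eq (h : SmallI q) (ht : t < 1) {x : ℝ} (hu : 0 < uu w f t x) :
    eb q w f t x = Real.exp (Lf w f t x + Lc q t) := by
  have hT := tanh_pos hu
  have hc := Real.cosh_pos (uu w f t x)
  have h0 := T0_pos h ht
  have hta := tau_pos ht
  have hB : 0 < q.B := by linarith only [h, h.B1]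
  have hBt : 0 < q.B / tau t := by positivity
  unfold eb Par.fb rr
  rw [Real.rpow_def_of_pos (by positivity : 0 < Real.tanh (uu w f t x) / q.T0 t),
    Real.rpow_def_of_pos hc, Real.log_div hT.ne' h0.ne', ← Real.exp_nat_mul]
  nth_rewrite 1 [← Real.exp_log hBt]
  rw [← Real.exp_add, ← Real.exp_add, ← Real.exp_add]
  congr 1
  unfold Lf Lc
  push_cast
  ring

section

variable (h : Hyp q g w f t)
include h

theorem Hyp.du {x : ℝ} (hx : x ∈ Ioo (0 : ℝ) 1) :
    HasDerivAt (uu w f t) (M2.r1 w f t x * -(GG w f t x)) x :=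
  M2.hasDerivAt_uu h.sl (mem1 hx) (h.rs_pos x hx).ne'

theorem Hyp.drho {x : ℝ} (hx : x ∈ Ioo (0 : ℝ) 1) :
    HasDerivAt (rho w f t) (M2.r1 w f t x) x := M2.hasDerivAt_rho h.sl (mem1 hx)

theorem Hyp.r1n {x : ℝ} (hx : x ∈ Ioo (0 : ℝ) 1) : M2.r1 w f t x < 0 :=
  M2.r1_neg (mem1 hx) (h.rs_pos x hx)

theorem Hyp.dlogcosh {x : ℝ} (hx : x ∈ Ioo (0 : ℝ) 1) :
    HasDerivAt (fun x => Real.log (Real.cosh (uu w f t x)))
      (M2.r1 w f t x * -(GG w f t x * Real.tanh (uu w f t x))) x := by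
  have hc := Real.cosh_pos (uu w f t x)
  have h1 := ((h.du hx).cosh).log hc.ne'
  refine h1.congr_deriv ?_
  rw [Real.tanh_eq_sinh_div_cosh]
  field_simp

theorem Hyp.dlogtanh {x : ℝ} (hx : x ∈ Ioo (0 : ℝ) 1) (hu : 0 < uu w f t x) :
    HasDerivAt (fun x => Real.log (Real.tanh (uu w f t x)))
      (M2.r1 w f t x * -(GG w f t x * ((1 - Real.tanh (uu w f t x) ^ 2)
        / Real.tanh (uu w f t x)))) x := by
  have hT := tanh_pos hu
  have h1 : HasDerivAt (fun x => Real.tanh (uu w f t x))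
      ((1 - Real.tanh (uu w f t x) ^ 2) * (M2.r1 w f t x * -(GG w f t x))) x :=
    (PureF.hasDerivAt_tanh (uu w f t x)).comp x (h.du hx)
  refine (h1.log hT.ne').congr_deriv ?_
  ring

theorem Hyp.dlogsinh {x : ℝ} (hx : x ∈ Ioo (0 : ℝ) 1) (hu : 0 < uu w f t x) :
    HasDerivAt (fun x => Real.log (Real.sinh (uu w f t x)))
      (M2.r1 w f t x * -(GG w f t x / Real.tanh (uu w f t x))) x := by
  have hs : 0 < Real.sinh (uu w f t x) := Real.sinh_pos_iff.mpr hu
  have hc := Real.cosh_pos (uu w f t x)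
  have h1 := ((h.du hx).sinh).log hs.ne'
  refine h1.congr_deriv ?_
  rw [Real.tanh_eq_sinh_div_cosh]
  field_simp

theorem Hyp.dLf {x : ℝ} (hx : x ∈ Ioo (0 : ℝ) 1) (hu : 0 < uu w f t x) :
    HasDerivAt (Lf w f t) (M2.r1 w f t x * (2 - aa * (GG w f t x *
      ((1 - Real.tanh (uu w f t x) ^ 2) / Real.tanh (uu w f t x)))
      + (1 - aa) * (GG w f t x * Real.tanh (uu w f t x)))) x := by
  have h1 := (((h.drho hx).const_mul 2).add ((h.dlogtanh hx hu).const_mul aa)).sub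
    ((h.dlogcosh hx).const_mul (1 - aa))
  refine h1.congr_deriv ?_
  ring

/-- `G` when `e` is small -/
theorem Hyp.G_bd {x : ℝ} (hu : 0 < uu w f t x) {δ : ℝ} (he : |ee g w f t x| ≤ δ) (hδ : δ ≤ 1) :
    2 * (1 - δ) * Real.tanh (uu w f t x) ≤ GG w f t x ∧
      GG w f t x ≤ kap * (1 + δ) * Real.tanh (uu w f t x) := by
  have hT := tanh_pos hu
  have h1 := h.bub.lower _ hu
  have h2 := h.bub.upper _ hu
  have hg := PureF.g_pos h.bub hu
  obtain ⟨e1, e2⟩ := abs_le.mp he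
  rw [G_eq h.bub hu]
  constructor
  · calc 2 * (1 - δ) * Real.tanh (uu w f t x) = (2 * Real.tanh (uu w f t x)) * (1 - δ) := by ring
      _ ≤ g (uu w f t x) * (1 - δ) := mul_le_mul_of_nonneg_right h1.le (by linarith only [hδ])
      _ ≤ g (uu w f t x) * (1 - ee g w f t x) :=
          mul_le_mul_of_nonneg_left (by linarith only [e2]) hg.le
  · calc g (uu w f t x) * (1 - ee g w f t x) ≤ g (uu w f t x) * (1 + δ) :=
          mul_le_mul_of_nonneg_left (by linarith only [e1]) hg.le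
      _ ≤ (kap * Real.tanh (uu w f t x)) * (1 + δ) :=
          mul_le_mul_of_nonneg_right h2.le (by linarith only [e1, e2, (abs_nonneg _).trans he])
      _ = kap * (1 + δ) * Real.tanh (uu w f t x) := by ring

/-- values at the boundary of region I -/
theorem Hyp.u_x0 {x : ℝ} (hx : x ∈ Ioo (0 : ℝ) 1) (hy : yv w f t x = q.rho0) :
    0 < uu w f t x ∧ Real.cosh (uu w f t x) ≤ 1001 / 1000 ∧
      Real.sinh (uu w f t x) ≤ 6 / 5 * q.T0 t := by
  have hu := (h.b1 x hx hy.le).1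
  obtain ⟨b1, b2⟩ := h.bd x hx hy
  have hT0 := T0_pos h.small h.t1
  have hT1 := T0_le h.small h.t0 h.t1
  have hT := tanh_pos hu
  have hc := cosh_of_tanh hT.le b2 (by linarith only [hT0, hT1])
  refine ⟨hu, hc, ?_⟩
  have hp := Real.cosh_pos (uu w f t x)
  have e1 : Real.sinh (uu w f t x) = Real.tanh (uu w f t x) * Real.cosh (uu w f t x) := by
    rw [Real.tanh_eq_sinh_div_cosh, div_mul_cancel₀ _ hp.ne']
  rw [e1]
  calc Real.tanh (uu w f t x) * Real.cosh (uu w f t x) ≤ (11 / 10 * q.T0 t) * (1001 / 1000) :=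
        mul_le_mul b2 hc hp.le (by positivity)
    _ ≤ 6 / 5 * q.T0 t := by linarith only [hT0]

theorem Hyp.eb_x0 {x : ℝ} (hx : x ∈ Ioo (0 : ℝ) 1) (hy : yv w f t x = q.rho0) :
    eb q w f t x ≤ 11 / 10 * q.B * q.rho0 ^ 2 := by
  obtain ⟨hu, hc1, hs1⟩ := h.u_x0 hx hy
  have hT0 := T0_pos h.small h.t1
  have hT1 := T0_le h.small h.t0 h.t1
  have hT := tanh_pos hu
  have hta := h.tau_pos
  have hB : 0 < q.B := by linarith only [h, hT0, hT1, h.small.B1]
  have h1 : Real.tanh (uu w f t x) / q.T0 t ≤ 11 / 10 := by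
    rw [div_le_iff₀ hT0]
    exact (h.bd x hx hy).2
  have h2 : (Real.tanh (uu w f t x) / q.T0 t) ^ aa ≤ 11 / 10 := by
    have k1 : (Real.tanh (uu w f t x) / q.T0 t) ^ aa ≤ (11 / 10 : ℝ) ^ aa :=
      Real.rpow_le_rpow (by positivity) h1 (by norm_num [aa])
    have k2 : (11 / 10 : ℝ) ^ aa ≤ (11 / 10 : ℝ) ^ (1 : ℝ) :=
      Real.rpow_le_rpow_of_exponent_le (by norm_num) (by norm_num [aa])
    rw [Real.rpow_one] at k2
    exact k1.trans k2
  have h3 : Real.cosh (uu w f t x) ^ (-(1 - aa)) ≤ 1 :=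
    Real.rpow_le_one_of_one_le_of_nonpos (Real.one_le_cosh _) (by norm_num [aa])
  have h3' : 0 ≤ Real.cosh (uu w f t x) ^ (-(1 - aa)) :=
    Real.rpow_nonneg (Real.cosh_pos _).le _
  have h2' : 0 ≤ (Real.tanh (uu w f t x) / q.T0 t) ^ aa := Real.rpow_nonneg (by positivity) _
  have h4 : rr w f t x ^ 2 = q.rho0 ^ 2 * tau t := by
    have k1 : rr w f t x = q.rho0 * Real.sqrt (tau t) := by
      rw [← hy]; unfold yv
      have := h.sq_pos
      field_simp
    rw [k1, mul_pow, Real.sq_sqrt hta.le]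
  have h5 : (Real.tanh (uu w f t x) / q.T0 t) ^ aa * Real.cosh (uu w f t x) ^ (-(1 - aa)) ≤
      11 / 10 * 1 := mul_le_mul h2 h3 h3' (by norm_num)
  unfold eb Par.fb
  rw [h4]
  have e1 : q.rho0 ^ 2 * tau t * (q.B / tau t * (Real.tanh (uu w f t x) / q.T0 t) ^ aa *
      Real.cosh (uu w f t x) ^ (-(1 - aa))) = q.rho0 ^ 2 * q.B *
      ((Real.tanh (uu w f t x) / q.T0 t) ^ aa * Real.cosh (uu w f t x) ^ (-(1 - aa))) := by
    field_simp
  rw [e1]
  calc q.rho0 ^ 2 * q.B * ((Real.tanh (uu w f t x) / q.T0 t) ^ aa *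
        Real.cosh (uu w f t x) ^ (-(1 - aa))) ≤ q.rho0 ^ 2 * q.B * (11 / 10 * 1) :=
        mul_le_mul_of_nonneg_left h5 (by positivity)
    _ = 11 / 10 * q.B * q.rho0 ^ 2 := by ring

/-- (D1), the bound of `eb` -/
theorem Hyp.eb_le {x : ℝ} (hx : x ∈ Ioo (0 : ℝ) 1) (hy : yv w f t x ≤ q.rho0) :
    eb q w f t x ≤ 11 / 10 * q.B * q.rho0 ^ 2 := by
  obtain ⟨x0, hx0, hy0, hiff⟩ := h.exists_x0
  have hle := (hiff x hx).mp hy
  have hB : 0 < q.B := by linarith only [h, h.small.B1]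
  have hr0 := h.small.r0
  have hδ : 0 < 11 / 10 * q.B * q.rho0 ^ 2 := by positivity
  have hδ1 : 11 / 10 * q.B * q.rho0 ^ 2 ≤ 1 / 10000 := by
    have := h.small.Br
    nlinarith only [hδ, this, mul_pos hB (pow_pos hr0 2)]
  have hmem : ∀ z ∈ Icc x0 x, z ∈ Ioo (0 : ℝ) 1 :=
    fun z hz => ⟨lt_of_lt_of_le hx0.1 hz.1, lt_of_le_of_lt hz.2 hx.2⟩
  have hb1 : ∀ z ∈ Icc x0 x, 0 < uu w f t z ∧ |ff g w f t z| ≤ q.fb t (uu w f t z) :=
    fun z hz => h.b1 z (hmem z hz) ((hiff z (hmem z hz)).mpr hz.1)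
  have key : ∀ ⦃z⦄, z ∈ Icc x0 x → Lf w f t z ≤
      (fun _ => Real.log (11 / 10 * q.B * q.rho0 ^ 2) - Lc q t) z := by
    refine image_le_of_deriv_right_lt_deriv_boundary'
      (f' := fun z => M2.r1 w f t z * (2 - aa * (GG w f t z *
        ((1 - Real.tanh (uu w f t z) ^ 2) / Real.tanh (uu w f t z)))
        + (1 - aa) * (GG w f t z * Real.tanh (uu w f t z)))) (B' := fun _ => 0) ?_ ?_ ?_
        continuousOn_const ?_ ?_
    · intro z hz
      exact (h.dLf (hmem z hz) (hb1 z hz).1).continuousAt.continuousWithinAt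
    · intro z hz
      exact (h.dLf (hmem z (Ico_subset_Icc_self hz)) (hb1 z (Ico_subset_Icc_self hz)).1).hasDerivWithinAt
    · have k1 := h.eb_x0 hx0 hy0
      rw [eb_eq h.small h.t1 (hb1 x0 ⟨le_rfl, hle⟩).1] at k1
      have k2 := Real.log_le_log (Real.exp_pos _) k1
      rw [Real.log_exp] at k2
      show Lf w f t x0 ≤ Real.log (11 / 10 * q.B * q.rho0 ^ 2) - Lc q t
      linarith only [k2]
    · intro z _
      exact hasDerivWithinAt_const _ _ _
    · intro z hz hzeq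
      have hz' := Ico_subset_Icc_self hz
      obtain ⟨hu, hf⟩ := hb1 z hz'
      have hT := tanh_pos hu
      have hT1 := Real.tanh_lt_one (uu w f t z)
      have k1 : eb q w f t z = 11 / 10 * q.B * q.rho0 ^ 2 := by
        rw [eb_eq h.small h.t1 hu]
        have : Lf w f t z + Lc q t = Real.log (11 / 10 * q.B * q.rho0 ^ 2) := by
          rw [hzeq]; ring
        rw [this, Real.exp_log hδ]
      have k2 : |ee g w f t z| ≤ 1 / 10000 := by
        rw [e_abs]
        have k3 : rr w f t z ^ 2 * |ff g w f t z| ≤ eb q w f t z := by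
          unfold eb
          exact mul_le_mul_of_nonneg_left hf (sq_nonneg _)
        linarith only [hδ1, k1, k3]
      obtain ⟨G1, G2⟩ := h.G_bd hu k2 (by norm_num)
      have hG0 : 0 ≤ GG w f t z := by
        refine le_trans ?_ G1
        have := hT.le
        positivity
      have k4 : GG w f t z * ((1 - Real.tanh (uu w f t z) ^ 2) / Real.tanh (uu w f t z)) ≤ 3 := by
        have k5 : (1 - Real.tanh (uu w f t z) ^ 2) / Real.tanh (uu w f t z) ≤
            1 / Real.tanh (uu w f t z) :=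
          div_le_div_of_nonneg_right (by nlinarith only []) hT.le
        have k6 : GG w f t z * (1 / Real.tanh (uu w f t z)) ≤ 3 := by
          rw [mul_one_div, div_le_iff₀ hT]
          have := PureF.kap_lt
          nlinarith only [hδ, hδ1, hT, G1, G2, this]
        exact (mul_le_mul_of_nonneg_left k5 hG0).trans k6
      have k7 : 0 ≤ GG w f t z * Real.tanh (uu w f t z) := mul_nonneg hG0 hT.le
      refine mul_neg_of_neg_of_pos (h.r1n (hmem z hz')) ?_
      norm_num [aa]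
      linarith only [hδ, hδ1, k4, k7]
  have k1 := key (right_mem_Icc.mpr hle)
  rw [eb_eq h.small h.t1 (hb1 x ⟨hle, le_rfl⟩).1, ← Real.le_log_iff_exp_le hδ]
  simp only at k1
  linarith only [k1]

/-- (D1) -/
theorem Hyp.D1 {x : ℝ} (hx : x ∈ Ioo (0 : ℝ) 1) (hy : yv w f t x ≤ q.rho0) :
    |ee g w f t x| ≤ rr w f t x ^ 2 * q.fb t (uu w f t x) ∧
      rr w f t x ^ 2 * q.fb t (uu w f t x) ≤ 11 / 10 * q.B * q.rho0 ^ 2 := by
  refine ⟨?_, h.eb_le hx hy⟩
  rw [e_abs]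
  exact mul_le_mul_of_nonneg_left (h.b1 x hx hy).2 (sq_nonneg _)

theorem Hyp.e_small {x : ℝ} (hx : x ∈ Ioo (0 : ℝ) 1) (hy : yv w f t x ≤ q.rho0) :
    |ee g w f t x| ≤ 1 / 10000 := by
  obtain ⟨h1, h2⟩ := h.D1 hx hy
  have hB : 0 < q.B := by linarith only [h, h.small.B1]
  have := h.small.Br
  nlinarith only [h1, h2, this, mul_pos hB (pow_pos h.small.r0 2)]

/-- (D2) -/
theorem Hyp.D2 {x : ℝ} (hx : x ∈ Ioo (0 : ℝ) 1) (hy : yv w f t x ≤ q.rho0) :
    2 * (1 - 1 / 10000) * Real.tanh (uu w f t x) ≤ GG w f t x ∧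
      GG w f t x ≤ kap * (1 + 1 / 10000) * Real.tanh (uu w f t x) :=
  h.G_bd (h.b1 x hx hy).1 (h.e_small hx hy) (by norm_num)

end

end

end Vale.Agent.P244.ST.RegI
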