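import Vale.Agent.P244.ST.RegI3

/-!
# P244-ST, block M2 : region I, (D1)-(D4), final statements
-/

open Set Filter Topology
open scoped ContDiff

namespace Vale.Agent.P244.ST.RegI

noncomputable section

variable {q : Par} {g : ℝ → ℝ} {w f : Fn} {t : ℝ}

theorem tanh_mono {a b : ℝ} (hab : a ≤ b) : Real.tanh a ≤ Real.tanh b := by
  have h1 : Monotone Real.tanh := by
    refine monotone_of_deriv_nonneg (fun x => (PureF.hasDerivAt_tanh x).differentiableAt) ?_
    intro x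
    rw [(PureF.hasDerivAt_tanh x).deriv]
    have h2 := Real.tanh_lt_one x
    have h3 := Real.neg_one_lt_tanh x
    nlinarith only [h2, h3]
  exact h1 hab

section

variable (h : Hyp q g w f t)
include h

/-- a segment of region I -/
theorem Hyp.seg {x x' : ℝ} (hx : x ∈ Ioo (0 : ℝ) 1) (hx' : x' ∈ Ioo (0 : ℝ) 1)
    (hy : yv w f t x ≤ q.rho0) : ∀ z ∈ Icc x x', z ∈ Ioo (0 : ℝ) 1 ∧ yv w f t z ≤ q.rho0 := by
  obtain ⟨x0, hx0, _, hiff⟩ := h.exists_x0
  intro z hz
  have hz1 : z ∈ Ioo (0 : ℝ) 1 := ⟨lt_of_lt_of_le hx.1 hz.1, lt_of_le_of_lt hz.2 hx'.2⟩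
  exact ⟨hz1, (hiff z hz1).mpr (((hiff x hx).mp hy).trans hz.1)⟩

theorem Hyp.G_nonneg {x : ℝ} (hx : x ∈ Ioo (0 : ℝ) 1) (hy : yv w f t x ≤ q.rho0) :
    0 ≤ GG w f t x := by
  refine le_trans ?_ (h.D2 hx hy).1
  have := (tanh_pos (h.b1 x hx hy).1).le
  positivity

/-- `u` increases towards the tip -/
theorem Hyp.u_mono {x x' : ℝ} (hx : x ∈ Ioo (0 : ℝ) 1) (hx' : x' ∈ Ioo (0 : ℝ) 1)
    (hy : yv w f t x ≤ q.rho0) (hle : x ≤ x') : uu w f t x ≤ uu w f t x' := by
  have hs := h.seg hx hx' hy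
  refine mono_of (F' := fun z => M2.r1 w f t z * -(GG w f t z)) (fun z hz => h.du (hs z hz).1)
    (fun z hz => ?_) hle
  exact mul_nonneg_of_nonpos_of_nonpos (h.r1n (hs z hz).1).le
    (neg_nonpos.mpr (h.G_nonneg (hs z hz).1 (hs z hz).2))

/-- (D1), lower bound of `tanh u` -/
theorem Hyp.D1T {x : ℝ} (hx : x ∈ Ioo (0 : ℝ) 1) (hy : yv w f t x ≤ q.rho0) :
    9 / 10 * q.T0 t ≤ Real.tanh (uu w f t x) := by
  obtain ⟨x0, hx0, hy0, hiff⟩ := h.exists_x0
  have hle := (hiff x hx).mp hy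
  exact (h.bd x0 hx0 hy0).1.trans (tanh_mono (h.u_mono hx0 hx hy0.le hle))

/-- (D2), comparison of `sinh u` at two points, upper bound -/
theorem Hyp.D2log {x x' : ℝ} (hx : x ∈ Ioo (0 : ℝ) 1) (hx' : x' ∈ Ioo (0 : ℝ) 1)
    (hy : yv w f t x ≤ q.rho0) (hle : x ≤ x') :
    Real.log (Real.sinh (uu w f t x')) + kap * (1 + 1 / 10000) * rho w f t x' ≤
      Real.log (Real.sinh (uu w f t x)) + kap * (1 + 1 / 10000) * rho w f t x ∧
    Real.log (Real.sinh (uu w f t x)) + 2 * (1 - 1 / 10000) * rho w f t x ≤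
      Real.log (Real.sinh (uu w f t x')) + 2 * (1 - 1 / 10000) * rho w f t x' := by
  have hs := h.seg hx hx' hy
  have hu : ∀ z ∈ Icc x x', 0 < uu w f t z := fun z hz => (h.b1 z (hs z hz).1 (hs z hz).2).1
  constructor
  · refine anti_of (F := fun z => Real.log (Real.sinh (uu w f t z))
      + kap * (1 + 1 / 10000) * rho w f t z)
      (F' := fun z => M2.r1 w f t z * -(GG w f t z / Real.tanh (uu w f t z))
        + kap * (1 + 1 / 10000) * M2.r1 w f t z)
      (fun z hz => (h.dlogsinh (hs z hz).1 (hu z hz)).add ((h.drho (hs z hz).1).const_mul _))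
      (fun z hz => ?_) hle
    have hT := tanh_pos (hu z hz)
    have h1 : GG w f t z / Real.tanh (uu w f t z) ≤ kap * (1 + 1 / 10000) := by
      rw [div_le_iff₀ hT]; exact (h.D2 (hs z hz).1 (hs z hz).2).2
    have h2 := h.r1n (hs z hz).1
    have e : M2.r1 w f t z * -(GG w f t z / Real.tanh (uu w f t z))
        + kap * (1 + 1 / 10000) * M2.r1 w f t z =
        M2.r1 w f t z * (kap * (1 + 1 / 10000) - GG w f t z / Real.tanh (uu w f t z)) := by ring
    rw [e]
    exact mul_nonpos_of_nonpos_of_nonneg h2.le (by linarith only [h1])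
  · refine mono_of (F := fun z => Real.log (Real.sinh (uu w f t z))
      + 2 * (1 - 1 / 10000) * rho w f t z)
      (F' := fun z => M2.r1 w f t z * -(GG w f t z / Real.tanh (uu w f t z))
        + 2 * (1 - 1 / 10000) * M2.r1 w f t z)
      (fun z hz => (h.dlogsinh (hs z hz).1 (hu z hz)).add ((h.drho (hs z hz).1).const_mul _))
      (fun z hz => ?_) hle
    have hT := tanh_pos (hu z hz)
    have h1 : 2 * (1 - 1 / 10000) ≤ GG w f t z / Real.tanh (uu w f t z) := by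
      rw [le_div_iff₀ hT]; exact (h.D2 (hs z hz).1 (hs z hz).2).1
    have h2 := h.r1n (hs z hz).1
    have e : M2.r1 w f t z * -(GG w f t z / Real.tanh (uu w f t z))
        + 2 * (1 - 1 / 10000) * M2.r1 w f t z =
        -M2.r1 w f t z * (GG w f t z / Real.tanh (uu w f t z) - 2 * (1 - 1 / 10000)) := by ring
    rw [e]
    exact mul_nonneg (by linarith only [h2]) (by linarith only [h1])

/-- (D2), power form -/
theorem Hyp.D2pow {x x' : ℝ} (hx : x ∈ Ioo (0 : ℝ) 1) (hx' : x' ∈ Ioo (0 : ℝ) 1)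
    (hy : yv w f t x ≤ q.rho0) (hle : x ≤ x') :
    Real.sinh (uu w f t x') ≤ Real.sinh (uu w f t x) *
      (rr w f t x / rr w f t x') ^ (kap * (1 + 1 / 10000)) ∧
    Real.sinh (uu w f t x) * (rr w f t x / rr w f t x') ^ ((2 : ℝ) * (1 - 1 / 10000)) ≤
      Real.sinh (uu w f t x') := by
  obtain ⟨h1, h2⟩ := h.D2log hx hx' hy hle
  have hs := h.seg hx hx' hy
  have hu := (h.b1 x hx hy).1
  have hu' := (h.b1 x' hx' (hs x' ⟨hle, le_rfl⟩).2).1
  have hsx : 0 < Real.sinh (uu w f t x) := Real.sinh_pos_iff.mpr hu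
  have hsx' : 0 < Real.sinh (uu w f t x') := Real.sinh_pos_iff.mpr hu'
  have hr := M2.rr_pos (w := w) (f := f) (t := t) x
  have hr' := M2.rr_pos (w := w) (f := f) (t := t) x'
  have e1 : Real.log (rr w f t x / rr w f t x') = rho w f t x - rho w f t x' := by
    rw [Real.log_div hr.ne' hr'.ne', rr, rr, Real.log_exp, Real.log_exp]
  have e2 : ∀ c : ℝ, Real.sinh (uu w f t x) * (rr w f t x / rr w f t x') ^ c =
      Real.exp (Real.log (Real.sinh (uu w f t x)) + c * (rho w f t x - rho w f t x')) := by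
    intro c
    rw [Real.exp_add, Real.exp_log hsx, Real.rpow_def_of_pos (by positivity), e1, mul_comm c]
  rw [e2, e2]
  constructor
  · rw [← Real.log_le_iff_le_exp hsx']
    linarith only [h1]
  · rw [← Real.le_log_iff_exp_le hsx']
    linarith only [h2]

/-- (D3), monotonicity -/
theorem Hyp.D3anti {x x' : ℝ} (hx : x ∈ Ioo (0 : ℝ) 1) (hx' : x' ∈ Ioo (0 : ℝ) 1)
    (hy : yv w f t x ≤ q.rho0) (hle : x ≤ x') :
    rr w f t x' ^ 2 * Real.cosh (uu w f t x') ≤ rr w f t x ^ 2 * Real.cosh (uu w f t x) := by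
  have hs := h.seg hx hx' hy
  have h1 : 2 * rho w f t x' + Real.log (Real.cosh (uu w f t x')) ≤
      2 * rho w f t x + Real.log (Real.cosh (uu w f t x)) := by
    refine anti_of (F := fun z => 2 * rho w f t z + Real.log (Real.cosh (uu w f t z)))
      (F' := fun z => 2 * M2.r1 w f t z + M2.r1 w f t z * -(GG w f t z * Real.tanh (uu w f t z)))
      (fun z hz => ((h.drho (hs z hz).1).const_mul 2).add (h.dlogcosh (hs z hz).1))
      (fun z hz => ?_) hle
    have hT := tanh_pos (h.b1 z (hs z hz).1 (hs z hz).2).1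
    have hT1 := Real.tanh_lt_one (uu w f t z)
    have hG := (abs_le.mp (h.G_le z (hs z hz).1)).2
    have h2 : GG w f t z * Real.tanh (uu w f t z) ≤ 2 * 1 :=
      mul_le_mul hG hT1.le hT.le (by norm_num)
    have h3 := h.r1n (hs z hz).1
    have e : 2 * M2.r1 w f t z + M2.r1 w f t z * -(GG w f t z * Real.tanh (uu w f t z)) =
        M2.r1 w f t z * (2 - GG w f t z * Real.tanh (uu w f t z)) := by ring
    rw [e]
    exact mul_nonpos_of_nonpos_of_nonneg h3.le (by linarith only [h2])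
  have e : ∀ z, rr w f t z ^ 2 * Real.cosh (uu w f t z) =
      Real.exp (2 * rho w f t z + Real.log (Real.cosh (uu w f t z))) := by
    intro z
    rw [Real.exp_add, Real.exp_log (Real.cosh_pos _), rr, ← Real.exp_nat_mul]
    push_cast
    rfl
  rw [e, e]
  exact Real.exp_le_exp.mpr h1

theorem Hyp.rr_x0 {x : ℝ} (hy : yv w f t x = q.rho0) :
    rr w f t x = q.rho0 * Real.sqrt (tau t) := by
  rw [← hy]; unfold yv
  have := h.sq_pos
  field_simp

theorem Hyp.rr_x0_sq {x : ℝ} (hy : yv w f t x = q.rho0) :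
    rr w f t x ^ 2 = q.rho0 ^ 2 * tau t := by
  rw [h.rr_x0 hy, mul_pow, Real.sq_sqrt h.tau_pos.le]

/-- (D3) -/
theorem Hyp.D3 {x : ℝ} (hx : x ∈ Ioo (0 : ℝ) 1) (hy : yv w f t x ≤ q.rho0) :
    rr w f t x ^ 2 * Real.cosh (uu w f t x) ≤ 101 / 100 * q.rho0 ^ 2 * tau t := by
  obtain ⟨x0, hx0, hy0, hiff⟩ := h.exists_x0
  have hle := (hiff x hx).mp hy
  have h1 := h.D3anti hx0 hx hy0.le hle
  have h2 := (h.u_x0 hx0 hy0).2.1
  rw [h.rr_x0_sq hy0] at h1
  have h3 : 0 ≤ q.rho0 ^ 2 * tau t := mul_nonneg (sq_nonneg _) h.tau_pos.le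
  have h4 := mul_le_mul_of_nonneg_left h2 h3
  linarith only [h1, h3, h4]

/-- (D4) -/
theorem Hyp.D4 {x : ℝ} (hx : x ∈ Ioo (0 : ℝ) 1) (hy : yv w f t x ≤ q.rho0)
    (hs1 : 1 ≤ Real.sinh (uu w f t x)) :
    rr w f t x ^ 2 * Real.cosh (uu w f t x) ≤ Real.sqrt 2 * q.rho0 ^ 2 * tau t *
      (6 / 5 * q.T0 t) ^ (2 / (kap * (1 + 1 / 10000))) := by
  obtain ⟨x0, hx0, hy0, hiff⟩ := h.exists_x0
  have hle := (hiff x hx).mp hy
  have hs := h.seg hx0 hx hy0.le
  have hT0 := T0_pos h.small h.t1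
  have hT1 := T0_le h.small h.t0 h.t1
  have k2 := (h.u_x0 hx0 hy0).2.2
  have hcont : ContinuousOn (fun z => Real.sinh (uu w f t z)) (Icc x0 x) :=
    fun z hz => (h.du (hs z hz).1).sinh.continuousAt.continuousWithinAt
  obtain ⟨x1, hx1, he⟩ := intermediate_value_Icc hle hcont
    (show (1 : ℝ) ∈ Icc (Real.sinh (uu w f t x0)) (Real.sinh (uu w f t x)) from
      ⟨by linarith only [hT0, hT1, k2], hs1⟩)
  simp only at he
  have hx1' := (hs x1 hx1).1
  have h1 := h.D3anti hx1' hx (hs x1 hx1).2 hx1.2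
  have h2 : Real.cosh (uu w f t x1) = Real.sqrt 2 := by
    have h3 := Real.cosh_sq (uu w f t x1)
    rw [he] at h3
    rw [← Real.sqrt_sq (Real.cosh_pos (uu w f t x1)).le, h3]
    norm_num
  rw [h2] at h1
  have h4 := (h.D2pow hx0 hx1' hy0.le hx1.1).1
  rw [he] at h4
  have hr0 := M2.rr_pos (w := w) (f := f) (t := t) x0
  have hr1 := M2.rr_pos (w := w) (f := f) (t := t) x1
  have hkp : 0 < kap * (1 + 1 / 10000) := mul_pos kap_pos (by norm_num)
  -- `(r₁/r₀)^κ' ≤ 11/10 T₀`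
  have h5 : (rr w f t x1 / rr w f t x0) ^ (kap * (1 + 1 / 10000)) ≤ 6 / 5 * q.T0 t := by
    have e : rr w f t x1 / rr w f t x0 = (rr w f t x0 / rr w f t x1)⁻¹ := by rw [inv_div]
    rw [e, Real.inv_rpow (by positivity)]
    have hp : 0 < (rr w f t x0 / rr w f t x1) ^ (kap * (1 + 1 / 10000)) := by positivity
    rw [inv_le_iff_one_le_mul₀ hp]
    exact h4.trans (mul_le_mul_of_nonneg_right k2 hp.le)
  have h6 : (rr w f t x1 / rr w f t x0) ^ 2 ≤
      (6 / 5 * q.T0 t) ^ (2 / (kap * (1 + 1 / 10000))) := by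
    have h7 : ((rr w f t x1 / rr w f t x0) ^ (kap * (1 + 1 / 10000))) ^
        (2 / (kap * (1 + 1 / 10000))) ≤ (6 / 5 * q.T0 t) ^ (2 / (kap * (1 + 1 / 10000))) :=
      Real.rpow_le_rpow (by positivity) h5 (by positivity)
    rw [← Real.rpow_mul (by positivity)] at h7
    have e : kap * (1 + 1 / 10000) * (2 / (kap * (1 + 1 / 10000))) = 2 :=
      mul_div_cancel₀ 2 hkp.ne'
    rw [e] at h7
    have e2 : (rr w f t x1 / rr w f t x0) ^ (2 : ℝ) = (rr w f t x1 / rr w f t x0) ^ 2 := by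
      exact_mod_cast Real.rpow_natCast (rr w f t x1 / rr w f t x0) 2
    rw [e2] at h7
    exact h7
  have h8 : rr w f t x1 ^ 2 ≤ q.rho0 ^ 2 * tau t *
      (6 / 5 * q.T0 t) ^ (2 / (kap * (1 + 1 / 10000))) := by
    have e : rr w f t x1 ^ 2 = rr w f t x0 ^ 2 * (rr w f t x1 / rr w f t x0) ^ 2 := by
      field_simp
    rw [e, h.rr_x0_sq hy0]
    exact mul_le_mul_of_nonneg_left h6 (mul_nonneg (sq_nonneg _) h.tau_pos.le)
  have h9 := mul_le_mul_of_nonneg_right h8 (Real.sqrt_nonneg 2)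
  linarith only [h1, h9]

/-- (D4), the product `eb · cosh u` -/
theorem Hyp.D4e {x : ℝ} (hx : x ∈ Ioo (0 : ℝ) 1) (hy : yv w f t x ≤ q.rho0) :
    rr w f t x ^ 2 * q.fb t (uu w f t x) * Real.cosh (uu w f t x) ≤ 2 * q.B * q.rho0 ^ 2 := by
  have hu := (h.b1 x hx hy).1
  have hB : 0 < q.B := by linarith only [h, h.small.B1]
  have hr0 := h.small.r0
  have hc := Real.cosh_pos (uu w f t x)
  have hc1 := Real.one_le_cosh (uu w f t x)
  have hta := h.tau_pos
  have hT := tanh_pos hu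
  have hT0 := T0_pos h.small h.t1
  have hT1 := T0_le h.small h.t0 h.t1
  have hBr : 0 < q.B * q.rho0 ^ 2 := by positivity
  rcases le_or_gt (Real.sinh (uu w f t x)) 1 with hs | hs
  · have h1 := (h.D1 hx hy).2
    have h2 : Real.cosh (uu w f t x) ≤ 3 / 2 := by
      have h3 := Real.cosh_sq (uu w f t x)
      have h4 : 0 ≤ Real.sinh (uu w f t x) := (Real.sinh_pos_iff.mpr hu).le
      nlinarith only [hc1, hT0, hT1, hs, h3, h4]
    have h5 : 0 ≤ rr w f t x ^ 2 * q.fb t (uu w f t x) := by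
      have := h.D1 hx hy
      exact (abs_nonneg _).trans this.1
    calc rr w f t x ^ 2 * q.fb t (uu w f t x) * Real.cosh (uu w f t x) ≤
        (11 / 10 * q.B * q.rho0 ^ 2) * (3 / 2) := mul_le_mul h1 h2 hc.le (by positivity)
      _ ≤ 2 * q.B * q.rho0 ^ 2 := by nlinarith only [hBr]
  · have h1 := h.D4 hx hy hs.le
    have e1 : rr w f t x ^ 2 * q.fb t (uu w f t x) * Real.cosh (uu w f t x) =
        q.B / tau t * (Real.tanh (uu w f t x) / q.T0 t) ^ aa *
          (Real.cosh (uu w f t x)) ^ (-(1 - aa)) * (rr w f t x ^ 2 * Real.cosh (uu w f t x)) := by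
      unfold Par.fb; ring
    have h2 : Real.cosh (uu w f t x) ^ (-(1 - aa)) ≤ 1 :=
      Real.rpow_le_one_of_one_le_of_nonpos hc1 (by norm_num [aa])
    have h2' : 0 ≤ Real.cosh (uu w f t x) ^ (-(1 - aa)) := Real.rpow_nonneg hc.le _
    have h3 : (Real.tanh (uu w f t x) / q.T0 t) ^ aa ≤ (1 / q.T0 t) ^ aa :=
      Real.rpow_le_rpow (by positivity)
        (div_le_div_of_nonneg_right (Real.tanh_lt_one _).le hT0.le) (by norm_num [aa])
    have h3' : 0 ≤ (Real.tanh (uu w f t x) / q.T0 t) ^ aa := Real.rpow_nonneg (by positivity) _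
    have h4 : (1 / q.T0 t) ^ aa * (6 / 5 * q.T0 t) ^ (2 / (kap * (1 + 1 / 10000))) ≤
        6 / 5 := by
      have k0 : 0 < 6 / 5 * q.T0 t := by positivity
      have k1 : (6 / 5 * q.T0 t) ^ (2 / (kap * (1 + 1 / 10000))) ≤ (6 / 5 * q.T0 t) ^ aa := by
        refine Real.rpow_le_rpow_of_exponent_ge k0 (by linarith only [hT0, hT1]) ?_
        rw [le_div_iff₀ (mul_pos kap_pos (by norm_num))]
        have := PureF.kap_lt
        have hk := kap_pos
        norm_num [aa]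
        linarith only [hT0, hT1, this]
      have k2 : (1 / q.T0 t) ^ aa * (6 / 5 * q.T0 t) ^ aa = (6 / 5 : ℝ) ^ aa := by
        rw [← Real.mul_rpow (by positivity) k0.le]
        congr 1
        field_simp
      have k3 : (6 / 5 : ℝ) ^ aa ≤ (6 / 5 : ℝ) ^ (1 : ℝ) :=
        Real.rpow_le_rpow_of_exponent_le (by norm_num) (by norm_num [aa])
      rw [Real.rpow_one] at k3
      calc (1 / q.T0 t) ^ aa * (6 / 5 * q.T0 t) ^ (2 / (kap * (1 + 1 / 10000)))
          ≤ (1 / q.T0 t) ^ aa * (6 / 5 * q.T0 t) ^ aa :=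
            mul_le_mul_of_nonneg_left k1 (Real.rpow_nonneg (by positivity) _)
        _ = (6 / 5 : ℝ) ^ aa := k2
        _ ≤ 6 / 5 := k3
    have h5 : Real.sqrt 2 ≤ 3 / 2 := by
      rw [Real.sqrt_le_left (by norm_num)]; norm_num
    have hp : 0 ≤ (6 / 5 * q.T0 t) ^ (2 / (kap * (1 + 1 / 10000))) :=
      Real.rpow_nonneg (by positivity) _
    have h6 : (Real.tanh (uu w f t x) / q.T0 t) ^ aa *
        (Real.cosh (uu w f t x)) ^ (-(1 - aa)) ≤ (1 / q.T0 t) ^ aa * 1 :=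
      mul_le_mul h3 h2 h2' (Real.rpow_nonneg (by positivity) _)
    have h7 : 0 ≤ (Real.tanh (uu w f t x) / q.T0 t) ^ aa *
        (Real.cosh (uu w f t x)) ^ (-(1 - aa)) := mul_nonneg h3' h2'
    rw [e1]
    calc q.B / tau t * (Real.tanh (uu w f t x) / q.T0 t) ^ aa *
          (Real.cosh (uu w f t x)) ^ (-(1 - aa)) * (rr w f t x ^ 2 * Real.cosh (uu w f t x))
        = q.B / tau t * ((Real.tanh (uu w f t x) / q.T0 t) ^ aa *
          (Real.cosh (uu w f t x)) ^ (-(1 - aa)) * (rr w f t x ^ 2 * Real.cosh (uu w f t x))) := by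
          ring
      _ ≤ q.B / tau t * ((1 / q.T0 t) ^ aa * 1 * (Real.sqrt 2 * q.rho0 ^ 2 * tau t *
          (6 / 5 * q.T0 t) ^ (2 / (kap * (1 + 1 / 10000))))) := by
          refine mul_le_mul_of_nonneg_left ?_ (by positivity)
          exact mul_le_mul h6 h1 (by positivity) (by positivity)
      _ = q.B * q.rho0 ^ 2 * (Real.sqrt 2 *
          ((1 / q.T0 t) ^ aa * (6 / 5 * q.T0 t) ^ (2 / (kap * (1 + 1 / 10000))))) := by
          field_simp
      _ ≤ q.B * q.rho0 ^ 2 * (3 / 2 * (6 / 5)) := by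
          refine mul_le_mul_of_nonneg_left ?_ hBr.le
          exact mul_le_mul h5 h4 (mul_nonneg (Real.rpow_nonneg (by positivity) _) hp)
            (by norm_num)
      _ ≤ 2 * q.B * q.rho0 ^ 2 := by nlinarith only [hBr]

end

end

end Vale.Agent.P244.ST.RegI
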