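import Vale.Agent.P244.ST.RegI4
import Vale.Agent.P244.ST.M.Skel
import Vale.Agent.P244.ST.RBle

/-!
# P244-ST, block M2 : region I, the fields of `FI` from `FT`
-/

open Set Filter Topology
open scoped ContDiff

namespace Vale.Agent.P244.ST.RegI

noncomputable section

variable {q : Par} {g : ℝ → ℝ} {w f : Fn} {T t : ℝ}

theorem Hyp.ofFT (hg : IsBub g) (hq : SmallI q) (h : M.FT q g w f T t) : Hyp q g w f t where
  bub := hg
  sl := M2.slice_of_confSol h.sol h.mem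
  t0 := h.mem.1
  t1 := lt_of_lt_of_le h.mem.2 h.T_le
  rs_pos := h.qual.rs_pos t h.mem
  G_le := h.qual.G_le t h.mem
  b1 := fun x hx hy => (h.boot x ⟨hx.1.le, hx.2⟩).b1 hx.1 hy
  eqr := h.eq_ge
  bd := h.bd
  small := hq

/-- the sinh bound of `FI` -/
theorem Hyp.sinh_bd (h : Hyp q g w f t) {x : ℝ} (hx : x ∈ Ioo (0 : ℝ) 1)
    (hy : yv w f t x ≤ q.rho0) :
    Real.sinh (uu w f t x) ≤ 6 / 5 * q.T0 t * (q.rho0 / yv w f t x) ^ (kap * (1 + 1 / 10000)) := by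
  obtain ⟨x0, hx0, hy0, hiff⟩ := h.exists_x0
  have hle := (hiff x hx).mp hy
  have h1 := (h.D2pow hx0 hx hy0.le hle).1
  have hr := M2.rr_pos (w := w) (f := f) (t := t) x
  have e : rr w f t x0 / rr w f t x = q.rho0 / yv w f t x := by
    rw [h.rr_x0 hy0]
    unfold yv
    have := h.sq_pos
    field_simp
  rw [e] at h1
  have h2 : 0 ≤ (q.rho0 / yv w f t x) ^ (kap * (1 + 1 / 10000)) := by
    refine Real.rpow_nonneg ?_ _
    rw [← e]
    have := M2.rr_pos (w := w) (f := f) (t := t) x0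
    positivity
  exact h1.trans (mul_le_mul_of_nonneg_right (h.u_x0 hx0 hy0).2.2 h2)

/-- input of the bound of `RB` in region I -/
theorem Hyp.QI (h : Hyp q g w f t) {x : ℝ} (hx : x ∈ Ioo (0 : ℝ) 1)
    (hy : yv w f t x ≤ q.rho0) :
    rr w f t x ^ 2 * (Real.cosh (uu w f t x) - 1) ≤
      2 * q.rho0 ^ 2 * tau t * (6 / 5 * q.T0 t) ^ RBL.se := by
  have hT0 := T0_pos h.small h.t1
  have hu := (h.b1 x hx hy).1
  rcases le_or_gt (Real.sinh (uu w f t x)) 1 with hs | hs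
  · refine RBL.QI_small hT0 h.tau_pos h.small.r0 (M2.rr_pos x) hu hs ?_
    have h1 := h.sinh_bd hx hy
    have e : q.rho0 / yv w f t x = q.rho0 * Real.sqrt (tau t) / rr w f t x := by
      unfold yv
      have := h.sq_pos
      field_simp
    rwa [e] at h1
  · have h1 := h.D4 hx hy hs.le
    have h2 : Real.sqrt 2 ≤ 2 := by
      rw [Real.sqrt_le_left (by norm_num)]; norm_num
    have h3 : rr w f t x ^ 2 * (Real.cosh (uu w f t x) - 1) ≤
        rr w f t x ^ 2 * Real.cosh (uu w f t x) :=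
      mul_le_mul_of_nonneg_left (by linarith only []) (sq_nonneg _)
    have h4 : 0 ≤ (6 / 5 * q.T0 t) ^ RBL.se := Real.rpow_nonneg (by positivity) _
    have h5 : Real.sqrt 2 * q.rho0 ^ 2 * tau t * (6 / 5 * q.T0 t) ^ RBL.se ≤
        2 * q.rho0 ^ 2 * tau t * (6 / 5 * q.T0 t) ^ RBL.se := by
      refine mul_le_mul_of_nonneg_right ?_ h4
      refine mul_le_mul_of_nonneg_right ?_ h.tau_pos.le
      exact mul_le_mul_of_nonneg_right h2 (sq_nonneg _)
    exact (h3.trans h1).trans h5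

/-- the facts of region I, the first half of `FI` -/
structure FI1 (q : Par) (g : ℝ → ℝ) (w f : Fn) (t x : ℝ) : Prop where
  u_pos : 0 < uu w f t x
  rs_pos : 0 < rs w f t x
  T_ge : 9 / 10 * q.T0 t ≤ Real.tanh (uu w f t x)
  sinh_le : Real.sinh (uu w f t x) ≤ 6 / 5 * q.T0 t * (q.rho0 / yv w f t x) ^ M.kapp
  e_le : |ee g w f t x| ≤ M.eb q w f t x
  e_small : |ee g w f t x| ≤ 1 / 10000
  eb_le : M.eb q w f t x * Real.cosh (uu w f t x) ≤ 1 / 10 ^ 4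
  r2cosh : (rr w f t x) ^ 2 * Real.cosh (uu w f t x) ≤ 11 / 10 * q.rho0 ^ 2 * tau t
  G_ge : 2 * (1 - 1 / 10000) * Real.tanh (uu w f t x) ≤ GG w f t x
  G_le : GG w f t x ≤ M.kapp * Real.tanh (uu w f t x)
  RB_le : q.RB t (rr w f t x) (uu w f t x) ≤ 3 * q.eta
  R_nonneg : 0 ≤ RR w f t x
  R_le : RR w f t x ≤ 3 * q.eta

theorem kapp_eq : M.kapp = kap * (1 + 1 / 10000) := by unfold M.kapp; norm_num

/-- (D1)-(D4) and `RB ≤ 3 η` in region I -/
theorem regI1 : ∀ g : ℝ → ℝ, IsBub g → Ev fun q => ∀ w f : Fn, ∀ T t : ℝ, M.FT q g w f T t →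
    ∀ x ∈ Ioo (0 : ℝ) 1, yv w f t x ≤ q.rho0 → FI1 q g w f t x := by
  intro g hg
  refine (ev_smallI.and RBL.rb_I).mono ?_
  rintro q ⟨hq, hRB⟩ w f T t hFT x hx hy
  have h := Hyp.ofFT hg hq hFT
  obtain ⟨d1, d2⟩ := h.D1 hx hy
  have hR := hRB t ⟨h.t0, h.t1⟩ (rr w f t x) (uu w f t x) (M2.rr_pos x) (h.QI hx hy)
  have hx' : x ∈ Ico (0 : ℝ) 1 := ⟨hx.1.le, hx.2⟩
  refine ⟨(h.b1 x hx hy).1, h.rs_pos x hx, h.D1T hx hy, ?_, d1, h.e_small hx hy, ?_, ?_,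
    (h.D2 hx hy).1, ?_, hR, hFT.qual.R_nonneg t hFT.mem x hx', ((hFT.boot x hx').b3).trans hR⟩
  · rw [kapp_eq]; exact h.sinh_bd hx hy
  · have h1 := h.D4e hx hy
    have h2 := hq.Br
    unfold M.eb
    norm_num at h2 ⊢
    linarith only [h1, h2]
  · have h1 := h.D3 hx hy
    have h2 : 0 ≤ q.rho0 ^ 2 * tau t := mul_nonneg (sq_nonneg _) h.tau_pos.le
    linarith only [h1, h2]
  · rw [kapp_eq]; exact (h.D2 hx hy).2

end

end Vale.Agent.P244.ST.RegI
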