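import Vale.Agent.P244.ST.RegI5
import Vale.Agent.P244.ST.M.M2Asm

/-!
# P244-ST, block M2 : `M2Statement`
-/

open Set Filter
open scoped ContDiff Topology

namespace Vale.Agent.P244.ST.M

theorem regI1 : RegI1 := by
  intro g hg
  refine (RegI.regI1 g hg).mono ?_
  intro q h w f T t hFT x hx hy
  have h1 := h w f T t hFT x hx hy
  exact ⟨h1.T_ge, h1.sinh_le, h1.e_le, h1.eb_le, h1.r2cosh⟩

theorem regI2 : RegI2 := by
  intro g hg
  refine (RegI.regI1 g hg).mono ?_
  intro q h w f T t hFT x hx hy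
  exact (h w f T t hFT x hx hy).RB_le

/-- MODULE M2 -/
theorem m2Statement : M2Statement := m2Statement_of regI1 regI2

end Vale.Agent.P244.ST.M
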